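import Crest.Agent.N207.Ph.Gl
import Crest.Agent.N207.AI.EvoS

/-!
# Row 207, block PHI (helper49): pull-backs of metrics on `ℝ⁴`, exact identities
-/

set_option autoImplicit false

open scoped ContDiff Topology Nat
open Set Filter MeasureTheory
open Crest.GeometryTopology.CoordMetric Crest.GeometryTopology.ChartCurvature
  Crest.GeometryTopology.MetricFamily
open Crest.Agent.R202.Tens

noncomputable section

namespace Crest.Agent.N207.Ph

open Sk G

theorem pbm_apply (ψ : E4 → E4) (G : MetricField 4) (y : E4) (i j : Fin 4) :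
    pbm ψ G y i j =
      ∑ a, ∑ b, G (ψ y) a b * fderiv ℝ ψ y (ee i) a * fderiv ℝ ψ y (ee j) b := by
  simp only [pbm, Matrix.of_apply, pullT, AI.evT_matT, bil_apply]
  rfl

theorem matT_pbm (ψ : E4 → E4) (G : MetricField 4) : matT (pbm ψ G) = pullT ψ (matT G) := by
  funext y I
  have : I = ![I 0, I 1] := by funext s; fin_cases s <;> rfl
  rw [this]; rfl

theorem pull_pbm {ψ : E4 → E4} {G : MetricField 4} (hψ : ContDiff ℝ ∞ ψ)
    (hi : ∀ y, Function.Injective (fderiv ℝ ψ y)) (hG : IsRiemannianOn G univ) :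
    Pull (pbm ψ G) G ψ univ univ :=
  ⟨isOpen_univ, hG, fun _ _ => mem_univ _, hψ.contDiffOn, fun y _ i j => pbm_apply ψ G y i j,
    fun y _ => hi y⟩

theorem inj_fderiv {ψ : E4 ≃ₜ E4} (h : ContDiff ℝ ∞ ψ) (h' : ContDiff ℝ ∞ ψ.symm) (y : E4) :
    Function.Injective (fderiv ℝ ψ y) := by
  have e : fderiv ℝ (ψ.symm ∘ ψ) y = (fderiv ℝ ψ.symm (ψ y)).comp (fderiv ℝ ψ y) :=
    fderiv_comp y (h'.differentiable (by simp) _) (h.differentiable (by simp) _)
  rw [ψ.symm_comp_self, fderiv_id] at e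
  intro v w hvw
  have h1 := congrArg (fun L => L v) e
  have h2 := congrArg (fun L => L w) e
  simp only [ContinuousLinearMap.id_apply, ContinuousLinearMap.comp_apply] at h1 h2
  rw [h1, h2, hvw]

theorem riem_flat : IsRiemannianOn flat univ :=
  ⟨isOpen_univ, fun _ _ => contDiffOn_const, fun _ _ => Matrix.PosDef.one⟩

theorem fl_flat : Fl flat := ⟨riem_flat, 0, fun _ _ => rfl⟩

theorem ricci_flat (x : E4) (i j : Fin 4) : ricci flat x i j = 0 := by
  have h : christoffel flat = fun _ _ _ _ => 0 := by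
    funext y k a b
    simp [christoffel, flat, pderiv]
  simp [ricci, h, pderiv]

theorem Fl.sm {G : MetricField 4} (h : Fl G) (y : E4) (i j : Fin 4) :
    ContDiffAt ℝ ∞ (fun z => G z i j) y := (h.riem.contDiffOn i j).contDiffAt univ_mem

theorem Fl.ric_zero {G : MetricField 4} (h : Fl G) :
    ∃ R : ℝ, ∀ x : E4, R < ‖x‖ → ∀ i j, ricci G x i j = 0 := by
  obtain ⟨R, hR⟩ := h.flat
  refine ⟨R, fun x hx i j => ?_⟩
  have e : G =ᶠ[𝓝 x] Ph.flat := by
    filter_upwards [(isOpen_lt continuous_const continuous_norm).mem_nhds hx] with z hz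
    exact hR z (le_of_lt hz)
  rw [(AI.ricci_congr e).eq_of_nhds, ricci_flat]

theorem Fl.ric_cont {G : MetricField 4} (h : Fl G) (i j : Fin 4) :
    Continuous fun x => ricci G x i j :=
  continuousOn_univ.1 (AI.smT_ricT h.riem ![i, j]).continuousOn

theorem Fl.ric_int {G : MetricField 4} (h : Fl G) :
    Integrable fun x : E4 => ‖x‖ ^ 2 * ∑ i, ∑ j, ricci G x i j ^ 2 := by
  obtain ⟨R, hR⟩ := h.ric_zero
  refine Continuous.integrable_of_hasCompactSupport ?_
    (HasCompactSupport.intro (isCompact_closedBall 0 R) fun x hx => ?_)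
  · exact (continuous_norm.pow 2).mul (continuous_finsetSum _ fun i _ =>
      continuous_finsetSum _ fun j _ => (h.ric_cont i j).pow 2)
  · rw [mem_closedBall_zero_iff, not_le] at hx
    simp [hR x hx]

theorem eh_pbm {ψ : E4 → E4} {G : MetricField 4} (hψ : ContDiff ℝ ∞ ψ)
    (hb : Function.Bijective ψ) (hi : ∀ y, Function.Injective (fderiv ℝ ψ y))
    (hG : IsRiemannianOn G univ) : EH (pbm ψ G) = EH G := by
  have p := pull_pbm hψ hi hG
  have h := integral_image_eq_integral_abs_det_fderiv_smul (volume : Measure E4) MeasurableSet.univ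
    (f := ψ) (f' := fderiv ℝ ψ)
    (fun x _ => (hψ.differentiable (by simp) x).hasFDerivAt.hasFDerivWithinAt) hb.1.injOn
    fun x => √(G x).det * scalarCurv G x
  rw [image_univ_of_surjective hb.2, Measure.restrict_univ] at h
  rw [EH, EH, h]
  refine integral_congr_ae (Eventually.of_forall fun x => ?_)
  simp only [smul_eq_mul]
  rw [p.det_pull (mem_univ x), AI.scalarCurv_pull p (mem_univ x),
    Real.sqrt_mul (hG.posDef _ (mem_univ _)).det_pos.le, Real.sqrt_sq_eq_abs]
  ring

theorem inv_pbm {ψ : E4 → E4} {G : MetricField 4} (hψ : ContDiff ℝ ∞ ψ) {Γ : Subgroup Iso}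
    (he : Eqv Γ ψ) (hG : Inv Γ G) : Inv Γ (pbm ψ G) := by
  intro γ hγ x
  have hd := hψ.differentiable (by simp)
  have hγd : Differentiable ℝ γ := γ.differentiable
  rw [matT_pbm, AI.pullT_comp _ (hγd x) (hd _),
    show (fun z => ψ (γ z)) = fun z => γ (ψ z) from funext (he γ hγ),
    ← AI.pullT_comp _ (hd x) (hγd _),
    show pullT γ (matT G) = matT G from funext fun z => (hG γ hγ z).symm]

theorem fl_pbm {ψ : E4 → E4} {G : MetricField 4} (hψ : ContDiff ℝ ∞ ψ)
    (hi : ∀ y, Function.Injective (fderiv ℝ ψ y)) (ho : ∃ R : ℝ, ∀ x : E4, R ≤ ‖x‖ → ψ x = x)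
    (hG : Fl G) : Fl (pbm ψ G) := by
  obtain ⟨R, hR⟩ := hG.flat
  obtain ⟨R', hR'⟩ := ho
  refine ⟨(pull_pbm hψ hi hG.riem).riem', max R R' + 1, fun x hx => ?_⟩
  have h1 : R' < ‖x‖ := by linarith [le_max_right R R']
  have e : ψ =ᶠ[𝓝 x] fun z => z := by
    filter_upwards [(isOpen_lt continuous_const continuous_norm).mem_nhds h1] with z hz
    exact hR' z (le_of_lt hz)
  have h2 := AI.pullT_congr (T := matT G) (T' := matT G) e rfl
  ext i j
  rw [pbm, Matrix.of_apply, h2, AI.pullT_id, ← hR x (by linarith [le_max_left R R'])]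
  rfl

/-! ### linear isometries -/

theorem fderiv_iso (A : Iso) : fderiv ℝ A = fun _ => (A.toContinuousLinearEquiv : E4 →L[ℝ] E4) :=
  funext fun _ => A.toContinuousLinearEquiv.fderiv

theorem inj_iso (A : Iso) (y : E4) : Function.Injective (fderiv ℝ A y) := by
  rw [fderiv_iso]; exact A.injective

theorem pbm_iso_one (A : Iso) {G : MetricField 4} {y : E4} (h : G (A y) = 1) : pbm A G y = 1 := by
  ext i j
  rw [pbm_apply, h, fderiv_iso]
  simp only [Matrix.one_apply, ite_mul, one_mul, zero_mul, Finset.sum_ite_eq, Finset.mem_univ,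
    if_true]
  rw [inner_ee, ← Matrix.one_apply, ← inner_ee_ee]
  exact A.inner_map_map _ _

theorem pull_flat (A : Iso) : Pull flat flat A univ univ := by
  have h := pull_pbm A.contDiff (inj_iso A) riem_flat
  rwa [show pbm A flat = flat from funext fun y => pbm_iso_one A rfl] at h

theorem nsq_flat {k : ℕ} (T : Tn 4 k) (y : E4) : nsq flat T y = ∑ I, T y I ^ 2 := by
  simp only [nsq, ip, flat, inv_one, Ar.ipA_one, sq]

theorem sum_sq_iso {k : ℕ} (A : Iso) (T : Tn 4 k) (y : E4) :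
    ∑ I, pullT A T y I ^ 2 = ∑ I, T (A y) I ^ 2 := by
  rw [← nsq_flat, ← nsq_flat, AI.nsq_pullT (pull_flat A) (mem_univ y)]

theorem sum_one (f : (Fin 1 → Fin 4) → ℝ) : ∑ I, f I = ∑ j, f ![j] := by
  rw [AI.sum_cons]
  simp only [Fintype.sum_unique]
  rfl

theorem sum_two (f : (Fin 2 → Fin 4) → ℝ) : ∑ I, f I = ∑ i, ∑ j, f ![i, j] := by
  rw [AI.sum_cons]
  simp only [sum_one]
  rfl

theorem gauT_eq {n : ℕ} {gb G : MetricField n} {U : Set (En n)} {y : En n}
    (hG : IsRiemannianOn G U) (hy : y ∈ U) (I : Fin 1 → Fin n) :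
    Lg.gauT gb G y I = trT G (cov gb (matT G)) y I -
      (1 / 2) * conT G (matT G) (cov gb (matT G)) y I := by
  have h := AI.ip_matT hG hy fun z J => cov gb (matT G) z (Fin.cons (I 0) J)
  have hI : I = ![I 0] := by funext s; fin_cases s; rfl
  rw [conT, show ipA (G y)⁻¹ (matT G y) _ = _ from h, hI]
  rfl

theorem gauT_pull {n : ℕ} {gb gb' G G' : MetricField n} {Φ : En n → En n} {V W : Set (En n)}
    {y : En n} (p : Pull G' G Φ V W) (q : Pull gb' gb Φ V W) (hy : y ∈ V) :
    Lg.gauT gb' G' y = pullT Φ (Lg.gauT gb G) y := by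
  have hs : SmT (matT G) W := fun I => p.riem.contDiffOn _ _
  have e0 : matT G' =ᶠ[𝓝 y] pullT Φ (matT G) := by
    filter_upwards [p.isOpen.mem_nhds hy] with z hz using AI.matT_pull p hz
  have e1 : cov gb' (matT G') =ᶠ[𝓝 y] pullT Φ (cov gb (matT G)) :=
    (AI.cov_congr EventuallyEq.rfl e0).trans (AI.cov_pullT_ev q hy hs)
  funext I
  rw [gauT_eq p.riem' hy, (AI.trT_congr EventuallyEq.rfl e1).eq_of_nhds,
    (AI.conT_congr EventuallyEq.rfl e0 e1).eq_of_nhds, AI.trT_pullT p hy, AI.conT_pullT p hy,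
    pullT, pullT, pullT, ← AI.evT_mul, ← AI.evT_sub]
  congr 1
  funext J
  exact (gauT_eq p.riem (p.maps y hy) J).symm

theorem bl_iso (A : Iso) {G : MetricField 4} (hG : IsRiemannianOn G univ) :
    BL (pbm A G) = BL G := by
  have p := pull_pbm A.contDiff (inj_iso A) hG
  rw [BL, BL, ← A.measurePreserving.integral_comp A.toHomeomorph.measurableEmbedding
    fun x => ∑ j, Lg.gauT flat G x ![j] ^ 2]
  refine integral_congr_ae (Eventually.of_forall fun x => ?_)
  simp only
  rw [gauT_pull p (pull_flat A) (mem_univ x), ← sum_one fun I => _ ^ 2, sum_sq_iso, sum_one]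

theorem rl_iso (A : Iso) {G : MetricField 4} (hG : IsRiemannianOn G univ) (c : ℝ) :
    RL (pbm A G) c = RL G c := by
  have p := pull_pbm A.contDiff (inj_iso A) hG
  rw [RL, RL, ← A.measurePreserving.setIntegral_preimage_emb A.toHomeomorph.measurableEmbedding
    (fun x => ‖x‖ ^ 2 * ∑ i, ∑ j, ricci G x i j ^ 2) {x : E4 | c ≤ ‖x‖}]
  simp only [preimage_ofPred_eq, LinearIsometryEquiv.norm_map]
  refine integral_congr_ae (Eventually.of_forall fun x => ?_)
  have h := sum_sq_iso A (ricT G) x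
  rw [← AI.ricT_pull p (mem_univ x), sum_two, sum_two] at h
  exact congrArg _ h

theorem fl_iso (A : Iso) {G : MetricField 4} (hG : Fl G) : Fl (pbm A G) := by
  obtain ⟨R, hR⟩ := hG.flat
  exact ⟨(pull_pbm A.contDiff (inj_iso A) hG.riem).riem', R, fun x hx =>
    pbm_iso_one A (hR _ (by rwa [A.norm_map]))⟩

end Crest.Agent.N207.Ph

end
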