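import Crest.Agent.N207.Ph.Ad1

/-!
# Row 207, block PHI (helper97): the almost harmonic representative, for `AD`
-/

set_option autoImplicit false
set_option linter.unusedSectionVars false

open scoped ContDiff Manifold Topology
open Set MeasureTheory Filter Metric
open Crest.GeometryTopology.CoordMetric Crest.GeometryTopology.ChartCurvature
  Crest.GeometryTopology.MetricFamily
open Crest.Agent.R202.Tens

noncomputable section

namespace Crest.Agent.N207.Ph.Ad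

open Sk

variable {G : MetricField 4} {δ : ℝ} {ψ : E4 ≃ₜ E4}

theorem sm_dv (hG : Fl G) (i j : Fin 4) : ContDiff ℝ ∞ (dv G i j) :=
  (contDiffOn_univ.1 (hG.riem.2 i j)).sub contDiff_const

theorem dv_ev {x : E4} (h : ∀ᶠ z in 𝓝 x, G z = 1) (i j : Fin 4) : dv G i j =ᶠ[𝓝 x] fun _ => 0 :=
  h.mono fun z hz => by simp [dv, hz]

theorem H1_ge (hG : Fl G) (i j : Fin 4) :
    (∫ x : E4, ∑ c, pderiv c (dv G i j) x ^ 2) ≤ H1 flat G := by
  have hc : ∀ c i j, Continuous (pderiv c (dv G i j)) := fun c i j =>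
    ((sm_dv hG i j).continuous_fderiv (by simp)).clm_apply continuous_const
  refine integral_mono_of_nonneg (Eventually.of_forall fun x => by positivity)
    (Continuous.integrable_of_hasCompactSupport ?_ (cpt_of_far hG fun x hx => ?_))
    (Eventually.of_forall fun x => Finset.sum_le_sum fun c _ => ?_)
  · exact continuous_finsetSum _ fun c _ => continuous_finsetSum _ fun i _ =>
      continuous_finsetSum _ fun j _ => (hc c i j).pow 2
  · refine Finset.sum_eq_zero fun c _ => Finset.sum_eq_zero fun i _ =>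
      Finset.sum_eq_zero fun j _ => ?_
    have : fderiv ℝ (dv G i j) x = 0 := by rw [(dv_ev hx i j).fderiv_eq]; simp
    change (fderiv ℝ (dv G i j) x _) ^ 2 = 0
    simp [this]
  · refine le_trans ?_ (Finset.single_le_sum (f := fun i => ∑ j, pderiv c (dv G i j) x ^ 2)
      (fun i _ => by positivity) (Finset.mem_univ i))
    exact Finset.single_le_sum (f := fun j => pderiv c (dv G i j) x ^ 2)
      (fun i _ => by positivity) (Finset.mem_univ j)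

theorem ric_pbm_zero (h : Nid 1 ψ δ) (hδ : δ < 1) (hG : Fl G)
    (h0 : ∀ y : E4, ‖y‖ < 1 / 4 → G y = 1) {x : E4} (hx : ‖x‖ < 1 / 8) (i j : Fin 4) :
    ricci (pbm ψ G) x i j = 0 := by
  have h1 := congrFun (AI.ricT_pull (pull_pbm h hδ hG.riem) (mem_univ x)) ![i, j]
  have h2 : ‖ψ x‖ < 1 / 4 := by
    have := (abs_le.1 (nid_abs h x)).2
    nlinarith [norm_nonneg x]
  have h3 : ∀ᶠ z in 𝓝 (ψ x), G z = 1 := by
    filter_upwards [(isOpen_lt continuous_norm continuous_const).mem_nhds h2] with z hz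
    exact h0 z hz
  have h4 : ricT G (ψ x) = 0 := funext fun I => ricci_of_ev h3 _ _
  rw [pullT, h4] at h1
  simpa [evT, ricT] using h1

/-- the output of `rep` -/
structure Rep (Γ : Subgroup Iso) (G : MetricField 4) (ψ : E4 ≃ₜ E4) (C σ : ℝ) (Cs : ℕ → ℝ) :
    Prop where
  nid : Nid 1 ψ (1 / 100)
  eqv : Eqv Γ ψ
  fl : Fl (pbm ψ G)
  inv : Inv Γ (pbm ψ G)
  eh : |EH G| ≤ C
  jet : ∀ (y : E4) k i j,
    J1 k (dv (pbm ψ G) i j) y (‖y‖ + 1) (Cs k * √(C * σ / (‖y‖ + 1)))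
  rl : RL (pbm ψ G) 2 ≤ C * RL G 1
  sml : Sml 2 G (1 / 100)

theorem rep (hEN : ENStmt) (hQU : QUStmt) (hPB : PBStmt) (hPA : PBAllStmt) (hHC : HCStmt)
    (hINT : INTStmt) : ∃ δ0 C : ℝ, 0 < δ0 ∧ 1 ≤ C ∧ ∀ Cs1 : ℕ → ℝ, ∃ Cs : ℕ → ℝ,
      (∀ k, 0 ≤ Cs k) ∧ ∀ (Γ : Subgroup Iso) (G : MetricField 4) (δ σ : ℝ), Grp Γ → Fl G →
      Inv Γ G → δ ≤ δ0 → DS 3 G δ → All Cs1 G → (∀ y : E4, ‖y‖ < 1 / 4 → G y = 1) → 0 < σ →
      C * σ ≤ 1 → RL G (1 / 16) ≤ σ ^ 2 → ∃ ψ : E4 ≃ₜ E4, Rep Γ G ψ C σ Cs := by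
  obtain ⟨δE, CE, hδE, hCE, EN⟩ := hEN
  obtain ⟨δQ, CQ, hδQ, hCQ, QU⟩ := hQU
  obtain ⟨δP, CP, hδP, hCP, PB⟩ := hPB
  obtain ⟨δH, CH, hδH, hCH, HC⟩ := hHC
  obtain ⟨κ, hκ, k1, k2, k3, k4⟩ : ∃ κ : ℝ, 0 < κ ∧ κ ≤ δP ∧ κ ≤ 1 / 100 ∧ CP * κ ≤ δE ∧
      CP * κ ≤ δQ := by
    refine ⟨min (min δP (1 / 100)) (min (δE / CP) (δQ / CP)), by positivity,
      (min_le_left _ _).trans (min_le_left _ _), (min_le_left _ _).trans (min_le_right _ _), ?_, ?_⟩
    · exact (le_div_iff₀' hCP).1 ((min_le_right _ _).trans (min_le_left _ _))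
    · exact (le_div_iff₀' hCP).1 ((min_le_right _ _).trans (min_le_right _ _))
  set K := CE * (CP * 289 + 1) with hK
  have hK0 : 0 < K := by positivity
  refine ⟨min δH (κ / (CH + 1)), K + 4 * CP + CQ + 1, by positivity, by linarith, fun Cs1 => ?_⟩
  obtain ⟨Cp, HC⟩ := HC Cs1
  obtain ⟨Cs2, PA⟩ := hPA Cs1 Cp
  obtain ⟨Cs, hCs, INT⟩ := hINT Cs2
  refine ⟨Cs, hCs, fun Γ G δ σ hΓ hG hI hδ hD hA h0 hσ hCσ hR => ?_⟩
  obtain ⟨ψ, n3, hE, hB, hj⟩ := HC Γ G δ σ hΓ hG hI (hδ.trans (min_le_left _ _)) hD hA hσ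
  have d0 := ds_nonneg hD
  have d1 : (CH + 1) * δ ≤ κ := (le_div_iff₀' (by positivity)).1 (hδ.trans (min_le_right _ _))
  have n3' : Nid 3 ψ κ := nid_mono n3 le_rfl (by nlinarith)
  have s2 : Sml 2 G κ := sml_mono (ds_sml hD (by norm_num)) (by nlinarith)
  have n1 : Nid 1 ψ (1 / 100) := nid_mono n3' (by norm_num) k2
  obtain ⟨p1, p2, p3, p4, p5⟩ := PB ψ G κ hκ.le k1 n3' hG s2
  have r0 : RL (pbm ψ G) 0 ≤ CP * 289 * σ ^ 2 := by
    rw [RL_zero (c := 1 / 8) fun x hx => ric_pbm_zero n1 (by norm_num) hG h0 hx]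
    refine (p4 _ (1 / 16) (by norm_num) fun x hx => ?_).trans ?_
    · linarith [(abs_le.1 (nid_abs n1 x)).1]
    · exact mul_le_mul (by norm_num) hR (RL_nonneg _ _) (by positivity)
  have sf : ∀ c : ℝ, 0 ≤ c → Sml 2 flat c := fun c hc y => jg_flat 2 y _ hc
  have e1 : H1 flat (pbm ψ G) ≤ K * σ ^ 2 := by
    refine (EN _ _ fl_flat p1 (sf _ hδE.le) (sml_mono p2 k3)).trans ?_
    rw [RD_flat, BL_flat, hK, mul_assoc]
    exact mul_le_mul_of_nonneg_left (by linarith) hCE.le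
  have e2 : K * σ ^ 2 ≤ ((K + 4 * CP + CQ + 1) * σ) ^ 2 := by
    rw [mul_pow]
    exact mul_le_mul_of_nonneg_right (by nlinarith) (sq_nonneg _)
  have e3 : ((K + 4 * CP + CQ + 1) * σ) ^ 2 ≤ 1 := pow_le_one₀ (by positivity) hCσ
  refine ⟨ψ, n1, hE, p1, p5 Γ hE hI, ?_, fun y k i j => ?_, ?_, sml_mono s2 k2⟩
  · have := QU _ _ 0 fl_flat p1 (sf _ hδQ.le) (sml_mono p2 k4) (by simp)
    rw [EH_flat, RL_flat, sub_zero, p3, add_zero] at this
    nlinarith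
  · refine INT _ _ (by positivity) hCσ (sm_dv p1 i j)
      (cpt_of_far p1 fun x hx => (dv_ev hx i j).eq_of_nhds) (fun y k => ?_)
      ((H1_ge p1 i j).trans (e1.trans e2)) y k
    simpa using PA ψ G (nid_mono n1 le_rfl (by norm_num)) hG hA hj y k i j
  · refine (p4 2 1 one_pos fun x hx => ?_).trans
      (mul_le_mul_of_nonneg_right (by linarith) (RL_nonneg _ _))
    linarith [(abs_le.1 (nid_abs n1 x)).1]

end Crest.Agent.N207.Ph.Ad

end
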