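import Crest.Agent.N207.Ph.Ad2
import Crest.Agent.N207.H.St

/-!
# Row 207, block PHI (helper97): the representative in the units of the neck, for `AD`
-/

set_option autoImplicit false
set_option linter.unusedSectionVars false

open scoped ContDiff Manifold Topology
open Set MeasureTheory Filter Metric
open Crest.GeometryTopology.CoordMetric Crest.GeometryTopology.ChartCurvature
  Crest.GeometryTopology.MetricFamily
open Crest.Agent.R202.Tens

noncomputable section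

namespace Crest.Agent.N207.Ph.Ad

open Sk

variable {G : MetricField 4} {u δ C σ : ℝ} {ψ : E4 ≃ₜ E4} {Γ : Subgroup Iso} {Cs : ℕ → ℝ}

theorem norm_inv_smul (hu : 0 < u) (x : E4) : ‖x‖ = u * ‖u⁻¹ • x‖ := by
  rw [norm_smul, norm_inv, Real.norm_of_nonneg hu.le, mul_inv_cancel_left₀ hu.ne']

theorem norm_smul' (hu : 0 < u) (x : E4) : ‖u • x‖ = u * ‖x‖ := by
  rw [norm_smul, Real.norm_of_nonneg hu.le]

theorem fl_rs (hu : 0 < u) (hG : Fl G) : Fl (rs G u) := by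
  obtain ⟨R, hR⟩ := hG.flat
  refine ⟨by simpa using riem_rs hu hG.riem, R / u, fun x hx => hR _ ?_⟩
  rw [norm_smul' hu]
  exact (div_le_iff₀' hu).1 hx

theorem inv_rs (hI : Inv Γ G) (u : ℝ) : Inv Γ (rs G u) := by
  intro γ hγ x
  have h1 : ∀ z, fderiv ℝ γ z = γ.toContinuousLinearEquiv := fun z =>
    γ.toContinuousLinearEquiv.fderiv
  have h2 := hI γ hγ (u • x)
  funext I
  have h3 := congrFun h2 I
  simp only [pullT, h1, map_smul] at h3 ⊢
  exact h3

theorem RL_rs (hu : 0 < u) (hG : Fl G) (c : ℝ) : RL (rs G u⁻¹) (u * c) = u ^ 2 * RL G c := by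
  have h := int_rs hu (indicator {y : E4 | c ≤ ‖y‖}
    fun y => ‖y‖ ^ 2 * ∑ i, ∑ j, ricci G y i j ^ 2)
  rw [integral_indicator (meas_ge c)] at h
  have h2 : u ^ 2 * RL G c = (u ^ 2)⁻¹ * (u ^ 4 * RL G c) := by field_simp
  rw [h2, RL, RL, ← h, ← integral_const_mul, ← integral_indicator (meas_ge _)]
  refine integral_congr_ae (Eventually.of_forall fun x => ?_)
  have h3 : u * c ≤ ‖x‖ ↔ c ≤ ‖u⁻¹ • x‖ := by
    rw [norm_inv_smul hu x, mul_le_mul_iff_right₀ hu]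
  by_cases hx : c ≤ ‖u⁻¹ • x‖
  · beta_reduce
    rw [indicator_of_mem (s := {y : E4 | c ≤ ‖y‖}) hx,
      indicator_of_mem (s := {y : E4 | u * c ≤ ‖y‖}) (h3.2 hx)]
    simp only [ricci_rs (inv_pos.2 hu) hG.riem (mem_univ _), mul_pow, ← Finset.mul_sum]
    rw [norm_inv_smul hu x]
    field_simp
  · beta_reduce
    rw [indicator_of_notMem (s := {y : E4 | c ≤ ‖y‖}) hx,
      indicator_of_notMem (s := {y : E4 | u * c ≤ ‖y‖}) (mt h3.1 hx), mul_zero]

theorem jet_rs (h : Rep Γ G ψ C σ Cs) (hCs : ∀ k, 0 ≤ Cs k) (hu : 0 < u) {τ : ℝ} (hτ : 0 ≤ τ)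
    (hσ : C * σ = τ ^ 2) {x : E4} (hx : 0 < ‖x‖) (k : ℕ) (i j : Fin 4) :
    J1 k (dv (rs (pbm ψ G) u⁻¹) i j) x ‖x‖ (Cs k * τ * √(2 * u / ‖x‖)) := by
  have h1 := j1_rs (inv_pos.2 hu) (by rw [← norm_smul' (inv_pos.2 hu)]; linarith)
    (h.jet (u⁻¹ • x) k i j)
  refine h1.trans ?_
  rw [mul_assoc, hσ]
  refine mul_le_mul_of_nonneg_left ?_ (hCs k)
  rw [← Real.sqrt_sq hτ, ← Real.sqrt_mul (sq_nonneg _), Real.sqrt_sq hτ, div_eq_mul_inv]
  refine Real.sqrt_le_sqrt (mul_le_mul_of_nonneg_left ?_ (sq_nonneg _))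
  rw [inv_eq_one_div, div_le_div_iff₀ (by positivity) hx]
  have := norm_inv_smul hu x
  nlinarith [norm_nonneg (u⁻¹ • x)]

/-! ### the action -/

/-- the action without boundary terms -/
def ActEq : Prop := ∀ (G : MetricField 4) (a : ℝ), 0 < a → Fl G →
  act G a = ∫ x in {x : E4 | a < ‖x‖}, (1 - cut a x) * (√(G x).det * scalarCurv G x)

theorem cut_one {a : ℝ} (ha : 0 < a) {x : E4} (hx : ‖x‖ ≤ a) : cut a x = 1 := by
  refine Real.smoothTransition.one_of_one_le ?_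
  have : ‖x‖ ^ 2 / a ^ 2 ≤ 1 := div_le_one_of_le₀ (by gcongr) (by positivity)
  linarith

theorem cut_zero {x : E4} (hx : 11 ≤ ‖x‖) : cut 6 x = 0 := by
  refine Real.smoothTransition.zero_of_nonpos ?_
  have : 3 ≤ ‖x‖ ^ 2 / 6 ^ 2 := by rw [le_div_iff₀ (by norm_num)]; nlinarith
  linarith

theorem cont_cut (a : ℝ) : Continuous (cut a) :=
  Real.smoothTransition.continuous.comp (by fun_prop)

theorem act_rs (hA : ActEq) (hu : 0 < u) (hG : Fl G) : act (rs G u⁻¹) (6 * u) =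
    u ^ 2 * ∫ y, (1 - cut 6 y) * (√(G y).det * scalarCurv G y) := by
  have h := int_rs hu fun y => (1 - cut 6 y) * (√(G y).det * scalarCurv G y)
  have h2 : ∀ t : ℝ, u ^ 2 * t = (u ^ 2)⁻¹ * (u ^ 4 * t) := fun t => by field_simp
  rw [h2, ← h, hA _ _ (by positivity) (fl_rs (inv_pos.2 hu) hG), ← integral_const_mul,
    setIntegral_eq_integral_of_forall_compl_eq_zero (s := {x : E4 | 6 * u < ‖x‖}) fun x hx => by
      rw [cut_one (by positivity) (not_lt.1 hx), sub_self, zero_mul]]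
  refine integral_congr_ae (Eventually.of_forall fun x => ?_)
  have h3 : cut (6 * u) x = cut 6 (u⁻¹ • x) := by
    rw [cut, cut, norm_inv_smul hu x]
    congr 2
    field_simp
  simp only [scal_rs (inv_pos.2 hu) hG.riem (mem_univ _), h3, rs, inv_pow]
  ring

theorem symm_abs (h : Nid 1 ψ (1 / 100)) (x : E4) : |‖ψ.symm x‖ - ‖x‖| ≤ ‖x‖ / 99 := by
  have h1 := abs_le.1 (nid_abs h (ψ.symm x))
  rw [ψ.apply_symm_apply] at h1
  rw [abs_le]
  constructor <;> linarith [h1.1, h1.2]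

theorem act_est (hA : ActEq) (h : Rep Γ G ψ C σ Cs) (hG : Fl G) (hu : 0 < u) {B : ℝ}
    (hB0 : 0 ≤ B) (hB : ∀ x : E4, 1 ≤ ‖x‖ → ‖x‖ ≤ 12 → |scalarCurv G x| ≤ B) :
    |u ^ 2 * (∫ y in {y : E4 | 1 ≤ ‖y‖}, √(G y).det * scalarCurv G y) -
      act (rs (pbm ψ G) u⁻¹) (6 * u)| ≤ u ^ 2 * (2 * B * vb) := by
  have h1 := int_pbm h.nid (by norm_num) hG.riem fun x => 1 - cut 6 (ψ.symm x)
  simp only [ψ.symm_apply_apply] at h1
  rw [act_rs hA hu h.fl, h1, ← mul_sub, abs_mul, abs_of_nonneg (sq_nonneg u),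
    ← integral_indicator (meas_ge 1), ← integral_sub ((int_eh' hG).indicator (meas_ge 1))
    (int_eh hG (f := fun x => 1 - cut 6 (ψ.symm x))
      (continuous_const.sub ((cont_cut 6).comp ψ.symm.continuous)))]
  refine mul_le_mul_of_nonneg_left (abs_int_le (fun x hx => ?_) fun x hx => ?_) (sq_nonneg u)
  · have h2 := abs_le.1 (symm_abs h.nid x)
    by_cases h3 : 1 ≤ ‖x‖
    · rw [indicator_of_mem (s := {y : E4 | 1 ≤ ‖y‖}) h3, ← one_sub_mul, sub_sub_cancel, abs_mul,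
        abs_mul, abs_of_nonneg (Real.sqrt_nonneg _)]
      have h4 : |cut 6 (ψ.symm x)| ≤ 1 := by
        rw [cut, abs_of_nonneg (Real.smoothTransition.nonneg _)]
        exact Real.smoothTransition.le_one _
      calc _ ≤ 1 * (2 * B) := mul_le_mul h4 (mul_le_mul (jg_det (h.sml x) le_rfl) (hB x h3 hx)
            (abs_nonneg _) zero_le_two) (by positivity) zero_le_one
        _ = _ := one_mul _
    · rw [indicator_of_notMem (s := {y : E4 | 1 ≤ ‖y‖}) h3,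
        cut_one (by norm_num) (by linarith [not_le.1 h3])]
      simpa using hB0
  · have h2 := abs_le.1 (symm_abs h.nid x)
    rw [indicator_of_mem (s := {y : E4 | 1 ≤ ‖y‖}) (by change 1 ≤ ‖x‖; linarith),
      cut_zero (by linarith)]
    simp

theorem out_est (h : Rep Γ G ψ C σ Cs) (hG : Fl G) :
    |∫ y in {y : E4 | 1 ≤ ‖y‖}, √(G y).det * scalarCurv G y| ≤ C + 2400 * vb := by
  have h1 := integral_add_compl (meas_ge 1) (int_eh' hG)
  have h2 : |∫ y in {y : E4 | 1 ≤ ‖y‖}ᶜ, √(G y).det * scalarCurv G y| ≤ 2400 * vb := by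
    rw [← integral_indicator (meas_ge 1).compl]
    refine abs_int_le (fun x _ => ?_) fun x hx =>
      indicator_of_notMem (not_not.2 (by change 1 ≤ ‖x‖; linarith)) _
    by_cases hx : x ∈ {x : E4 | 1 ≤ ‖x‖}ᶜ
    · rw [indicator_of_mem hx, abs_mul, abs_of_nonneg (Real.sqrt_nonneg _)]
      have h3 := jg_scal hG.riem (mem_univ x) (h.sml x) le_rfl le_rfl (by simp)
      exact (mul_le_mul (jg_det (h.sml x) le_rfl) h3 (abs_nonneg _) zero_le_two).trans
        (by norm_num)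
    · rw [indicator_of_notMem hx, abs_zero]; norm_num
  have h3 := h.eh
  rw [EH, ← h1] at h3
  rw [abs_le] at h2 h3 ⊢
  constructor <;> linarith [h2.1, h2.2, h3.1, h3.2]

/-! ### the new chart -/

/-- a map in the units `u` -/
def cj (u : ℝ) (f : E4 → E4) (x : E4) : E4 := u • f (u⁻¹ • x)

theorem sm_cj {f : E4 → E4} (hf : ContDiff ℝ ∞ f) (u : ℝ) : ContDiff ℝ ∞ (cj u f) :=
  (hf.comp (contDiff_const_smul _)).const_smul u

theorem fderiv_cj {f : E4 → E4} (hf : ContDiff ℝ ∞ f) (hu : 0 < u) (x : E4) :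
    fderiv ℝ (cj u f) x = fderiv ℝ f (u⁻¹ • x) := by
  have h1 := ((hf.differentiable (by simp) (u⁻¹ • x)).hasFDerivAt.comp x
    ((hasFDerivAt_id x).const_smul u⁻¹)).const_smul u
  rw [show cj u f = u • (f ∘ HSMul.hSMul u⁻¹) from rfl, h1.fderiv]
  ext v
  simp [smul_smul, hu.ne']

theorem cj_norm (h : Nid 1 ψ (1 / 100)) (hu : 0 < u) (x : E4) :
    |‖cj u ψ x‖ - ‖x‖| ≤ ‖x‖ / 100 := by
  have h1 := mul_le_mul_of_nonneg_left (nid_abs h (u⁻¹ • x)) hu.le
  rw [cj, norm_smul' hu, norm_inv_smul hu x, ← mul_sub, abs_mul, abs_of_pos hu]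
  linarith

theorem cj_inv (h : Nid 1 ψ (1 / 100)) (hu : 0 < u) :
    H.Inv (cj u ψ.symm) (cj u ψ) (u / 4) (128 * u) := by
  refine ⟨(sm_cj h.sm' u).contDiffOn, fun x _ => ?_, fun x _ y _ e => ?_,
    (sm_cj h.sm u).contDiffOn, fun y hy => ⟨?_, by simp [cj, smul_smul, hu.ne']⟩⟩
  · have h1 := mul_le_mul_of_nonneg_left (symm_abs h (u⁻¹ • x)) hu.le
    rw [cj, norm_smul' hu, norm_inv_smul hu x, ← mul_sub, abs_mul, abs_of_pos hu]
    nlinarith [norm_nonneg (u⁻¹ • x)]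
  · exact smul_right_injective _ (inv_pos.2 hu).ne'
      (ψ.symm.injective (smul_right_injective _ hu.ne' e))
  · have h1 := abs_le.1 (cj_norm h hu y)
    constructor <;> linarith [hy.1, hy.2, h1.1, h1.2]

theorem cj_eqv (hE : Eqv Γ ψ) (u : ℝ) : Eqv Γ (cj u ψ.symm) := by
  intro γ hγ x
  have : ψ.symm (γ (u⁻¹ • x)) = γ (ψ.symm (u⁻¹ • x)) :=
    ψ.injective (by rw [hE γ hγ, ψ.apply_symm_apply, ψ.apply_symm_apply])
  rw [cj, cj, ← map_smul γ, this, map_smul γ]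

/-! ### the filled chart metric -/

theorem up_zero {a b : ℝ} (ha : 0 ≤ a) (hab : a < b) {y : E4} (hy : ‖y‖ ≤ a) : up a b y = 0 :=
  Real.smoothTransition.zero_of_nonpos (div_nonpos_of_nonpos_of_nonneg
    (sub_nonpos.2 (by gcongr)) (sub_nonneg.2 (by gcongr)))

theorem up_one {a b : ℝ} (ha : 0 ≤ a) (hab : a < b) {y : E4} (hy : b ≤ ‖y‖) : up a b y = 1 :=
  Real.smoothTransition.one_of_one_le ((one_le_div (sub_pos.2 (by gcongr))).2
    (sub_le_sub_right (by gcongr; linarith) _))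

theorem glu_in {a b : ℝ} (ha : 0 ≤ a) (hab : a < b) (G1 G2 : MetricField 4) {y : E4}
    (hy : ‖y‖ ≤ a) : glu a b G1 G2 y = G1 y := by
  rw [glu, up_zero ha hab hy, zero_smul, add_zero]

theorem glu_out {a b : ℝ} (ha : 0 ≤ a) (hab : a < b) (G1 G2 : MetricField 4) {y : E4}
    (hy : b ≤ ‖y‖) : glu a b G1 G2 y = G2 y := by
  rw [glu, up_one ha hab hy, one_smul, add_sub_cancel]

end Crest.Agent.N207.Ph.Ad

end
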