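import Crest.Agent.N207.Ph.Ad3
import Crest.Agent.N207.H.Tops
import Crest.Agent.N207.V.Gbv
import Crest.Agent.N207.I.Act1

/-!
# Row 207, block PHI (helper97): the leaf `AD`
-/

set_option autoImplicit false
set_option linter.unusedSectionVars false

open scoped ContDiff Manifold Topology
open Set MeasureTheory Filter Metric
open Crest.GeometryTopology.CoordMetric Crest.GeometryTopology.ChartCurvature
  Crest.GeometryTopology.MetricFamily
open Crest.Agent.R202.Tens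

noncomputable section

namespace Crest.Agent.N207.Ph.Ad

open Sk

variable {M : Type*} [TopologicalSpace M] [ChartedSpace E4 M] [IsManifold 𝓘(ℝ, E4) ∞ M]
  [CompactSpace M] [T3Space M] [ConnectedSpace M] [MeasurableSpace M] [BorelSpace M]
  {g : Met 4 M} {N : Nk M} {ρ V C σ : ℝ} {G : MetricField 4} {ψ : E4 ≃ₜ E4} {Cs : ℕ → ℝ}

theorem rng_pos (h : Rng N ρ) : 0 < ρ := by linarith [h.a_le, h.top.a_pos]

theorem cm_32 (h : Rng N ρ) {y : E4} (hy : ‖y‖ ≤ 32) :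
    cm g N (ρ / 64) y = glu (1 / 4) (1 / 2) flat (rs (g.pm N.Ψ) (ρ / 64)) y := by
  have h0 := rng_pos h
  have h1 := h.le_b
  have h2 : 32 ≤ N.b / (16 * (ρ / 64)) := by rw [le_div_iff₀ (by positivity)]; linarith
  refine glu_in (by linarith) ?_ _ _ (hy.trans h2)
  exact div_lt_div_of_pos_left (by linarith) (by positivity) (by linarith)

theorem g_in (h : Rng N ρ) (he : EqOn G (cm g N (ρ / 64)) (ball 0 32)) (y : E4)
    (hy : ‖y‖ < 1 / 4) : G y = 1 := by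
  rw [he (mem_ball_zero_iff.2 (by linarith)), cm_32 h (by linarith),
    glu_in (by norm_num) (by norm_num) _ _ hy.le, flat]

theorem g_mid (h : Rng N ρ) (he : EqOn G (cm g N (ρ / 64)) (ball 0 32)) {y : E4}
    (hy : 1 / 2 ≤ ‖y‖) (hy' : ‖y‖ < 32) : G y = g.pm N.Ψ ((ρ / 64) • y) := by
  rw [he (mem_ball_zero_iff.2 hy'), cm_32 h hy'.le,
    glu_out (by norm_num) (by norm_num) _ _ hy, rs]

theorem mid_mem (h : Rng N ρ) {y : E4} (hy : 1 / 2 ≤ ‖y‖) (hy' : ‖y‖ < 32) :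
    (ρ / 64) • y ∈ shell N.a N.b := by
  have h0 := rng_pos h
  constructor <;> rw [norm_smul' (by positivity)] <;> nlinarith [h.a_le, h.le_b]

theorem g_scal (h : Rng N ρ) (he : EqOn G (cm g N (ρ / 64)) (ball 0 32)) {K : ℝ}
    (hK : ∀ p, |g.scal p| ≤ K) (x : E4) (h1 : 1 ≤ ‖x‖) (h2 : ‖x‖ ≤ 12) :
    |scalarCurv G x| ≤ (ρ / 64) ^ 2 * K := by
  have h0 := rng_pos h
  have h3 : G =ᶠ[𝓝 x] rs (g.pm N.Ψ) (ρ / 64) := by
    filter_upwards [(isOpen_shell (1 / 2) 32).mem_nhds 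
      (⟨by linarith, by linarith⟩ : x ∈ shell (1 / 2) 32)]
      with z hz using g_mid h he hz.1.le hz.2
  have h4 := mid_mem h (y := x) (by linarith) (by linarith)
  rw [scal_congr h3, scal_rs (by positivity) (h.top.par.riem g) h4, ← h.top.par.par_scal g h4,
    abs_mul, abs_of_nonneg (sq_nonneg _)]
  exact mul_le_mul_of_nonneg_left (hK _) (sq_nonneg _)

theorem vol_le (h : Rng N ρ) (hR : Rough g N 0 (1 / 100) V) {r : ℝ} (h1 : ρ / 64 ≤ r)
    (h2 : r ≤ ρ) : g.vol.real (N.Om r) ≤ (|V| + 3) * ρ ^ 4 := by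
  have h0 := rng_pos h
  have ha := h.top.a_pos
  have h3 := h.top.vol_Om g hR (r := r) ⟨by linarith [h.a_le], by linarith [h.le_b]⟩
  have h4 : N.a ^ 4 ≤ ρ ^ 4 := pow_le_pow_left₀ ha.le (by linarith [h.a_le]) 4
  have h5 : r ^ 4 ≤ ρ ^ 4 := pow_le_pow_left₀ (by linarith) h2 4
  have h6 : V * N.a ^ 4 ≤ |V| * ρ ^ 4 :=
    mul_le_mul (le_abs_self V) h4 (by positivity) (abs_nonneg V)
  nlinarith [pow_pos ha 4]

theorem mass_mono (g : Met 4 M) {A B : Set M} (h : A ⊆ B) : mass g A ≤ mass g B :=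
  setIntegral_mono_set (V.integrable_cont g (g.sm_rc 0).continuous).integrableOn
    (Eventually.of_forall fun p => V.nsq_nonneg g _ p) h.eventuallyLE

theorem mass_nonneg (g : Met 4 M) (A : Set M) : 0 ≤ mass g A :=
  integral_nonneg fun p => V.nsq_nonneg g _ p

theorem wt_le {a b : ℝ} {x : E4} (ha : 0 < a) (hx : x ∈ shell a b) : wt a b x ≤ 2 := by
  have h0 : 0 < ‖x‖ := ha.trans hx.1
  have h1 : √(a / ‖x‖) ≤ 1 := Real.sqrt_le_one.2 ((div_le_one h0).2 hx.1.le)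
  have h2 : √(‖x‖ / b) ≤ 1 := Real.sqrt_le_one.2 ((div_le_one (h0.trans hx.2)).2 hx.2.le)
  unfold wt; linarith

theorem top_b (h : N.Top) {b : ℝ} (h1 : N.a < b) (h2 : b ≤ N.b) :
    Nk.Top ⟨N.Γ, N.Ψ, N.In, N.a, b⟩ :=
  ⟨h.grp, h.a_pos, h1, h.par.mono (isOpen_shell _ _) (shell_mono le_rfl h2),
    fun x hx y hy => h.fib x (shell_mono le_rfl h2 hx) y (shell_mono le_rfl h2 hy),
    fun x hx => h.disj x (shell_mono le_rfl h2 hx), fun r hr => h.opn r ⟨hr.1, hr.2.trans h2⟩,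
    fun r hr => h.cls r ⟨hr.1, hr.2.trans_le h2⟩, h.ne⟩

/-- the admissible extension -/
theorem ext_of (h : Rng N ρ) (hR : Rough g N 0 (1 / 100) V)
    (he : EqOn G (cm g N (ρ / 64)) (ball 0 32)) (r : Rep N.Γ G ψ C σ Cs) (hCs : ∀ k, 0 ≤ Cs k)
    {τ ηa E V' : ℝ} (hτ : 0 ≤ τ) (hτ1 : τ ≤ 1) (hσ : C * σ = τ ^ 2) (ha : ∀ k ≤ 4, Cs k * τ ≤ ηa)
    (hE : C * RL G 1 ≤ E ^ 2) (hc : (Nat.card N.Γ : ℝ) ≤ V') (hV : |V| + 3 ≤ V') :
    ∃ N' : Nk M, N'.Γ = N.Γ ∧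
      Ext' g N' (rs (pbm ψ G) (ρ / 64)⁻¹) ρ E √(mass g (N.Om ρ)) ηa Cs V' := by
  have h0 := rng_pos h
  have hu : 0 < ρ / 64 := by positivity
  obtain ⟨N', t1, t2, t3, t4, t5, -, t6, -⟩ := H.tops M N _ _ _ _ (ρ / 32) (ρ / 4) h.top
    (by linarith [h.a_le]) (by linarith [h.le_b]) (cj_inv r.nid hu)
    (fun γ hγ x _ => cj_eqv r.eqv _ γ hγ x) (by linarith) (by linarith) (by linarith)
  have f := fl_rs (inv_pos.2 hu) r.fl
  have e2 : 2 * (ρ / 64) = ρ / 32 := by ring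
  have hx0 : ∀ x : E4, ρ / 32 < ‖x‖ → 0 < ‖x‖ := fun x hx => lt_trans (by positivity) hx
  refine ⟨N', t4, t1, t2, t3, t4 ▸ hc, ⟨isOpen_lt continuous_const continuous_norm,
    fun i j => (f.riem.2 i j).mono (subset_univ _), fun x _ => f.riem.3 x (mem_univ _)⟩,
    fun γ hγ x _ => inv_rs r.inv _ γ (t4 ▸ hγ) x, fun x hx => ?_, fun x hx k hk i j => ?_,
    fun x hx k i j => ?_, f.flat, (int_ric f).integrableOn, ?_, ?_, ?_⟩
  · rw [t2, t3] at hx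
    have h1 := abs_le.1 (nid_abs r.nid ((ρ / 64)⁻¹ • x))
    have h2 := norm_inv_smul hu x
    have h3 : 2 < ‖(ρ / 64)⁻¹ • x‖ := by nlinarith [hx.1]
    have h4 : ‖(ρ / 64)⁻¹ • x‖ < 16 := by nlinarith [hx.2]
    have h5 : 1 / 2 ≤ ‖ψ ((ρ / 64)⁻¹ • x)‖ := by linarith [h1.1]
    have h6 : ‖ψ ((ρ / 64)⁻¹ • x)‖ < 32 := by linarith [h1.2]
    ext i j
    rw [t5, Gs.pm_comp g (T := cj (ρ / 64) ψ) (y := x) ((h.top.par.contMDiffAt (mid_mem h h5 h6)).mdifferentiableAt (by simp))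
      ((sm_cj r.nid.sm _).differentiable (by simp) x), fderiv_cj r.nid.sm hu, rs, pbm_apply,
      g_mid h he h5 h6]
    rfl
  · refine (jet_rs r hCs hu hτ hσ (hx0 x hx) k i j).trans ?_
    rw [e2]
    exact mul_le_mul_of_nonneg_right (ha k hk) (Real.sqrt_nonneg _)
  · refine (jet_rs r hCs hu hτ hσ (hx0 x hx) k i j).trans ?_
    rw [e2]
    exact mul_le_mul_of_nonneg_right (mul_le_of_le_one_right (hCs k) hτ1) (Real.sqrt_nonneg _)
  · have h1 : _ ≤ RL (rs (pbm ψ G) (ρ / 64)⁻¹) (ρ / 64 * 2) := setIntegral_mono_set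
      (s := {x : E4 | ρ / 32 < ‖x‖}) (int_ric f).integrableOn
      (Eventually.of_forall (ric_nonneg _))
      (LE.le.eventuallyLE fun x (hx : ρ / 32 < ‖x‖) =>
        show ρ / 64 * 2 ≤ ‖x‖ by linarith)
    refine h1.trans ?_
    rw [RL_rs hu r.fl, mul_pow, mul_comm]
    exact mul_le_mul (r.rl.trans hE) (by nlinarith) (sq_nonneg _) (sq_nonneg _)
  · have := N207.V.isFinite g
    exact (measureReal_mono t6).trans ((vol_le h hR (by linarith) (by linarith)).trans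
      (mul_le_mul_of_nonneg_right hV (by positivity)))
  · rw [Real.sq_sqrt (mass_nonneg _ _)]
    exact mass_mono g (t6.trans (N.Om_mono (by linarith)))

theorem in_est (h : Rng N ρ) (hR : Rough g N 0 (1 / 100) V) {K : ℝ} (hK : ∀ p, |g.scal p| ≤ K) :
    |∫ p in N.Om (ρ / 64), g.scal p ∂g.vol| ≤ K * (|V| + 3) * ρ ^ 4 := by
  have := N207.V.isFinite g
  have h1 := norm_setIntegral_le_of_norm_le_const (f := g.scal) (μ := g.vol)
    (s := N.Om (ρ / 64)) (measure_lt_top _ _) fun x _ => hK x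
  obtain ⟨p, -⟩ := h.top.ne
  rw [mul_assoc]
  exact h1.trans (mul_le_mul_of_nonneg_left (vol_le h hR le_rfl (by linarith [rng_pos h]))
    ((abs_nonneg _).trans (hK p)))

theorem rl_small (hG : Fl G) {G0 : MetricField 4} (h0 : Fl G0) (he : EqOn G G0 (ball 0 32))
    {ε C1 : ℝ} (hε : ε ≤ 1 / 100) (hJ : ∀ y : E4, ‖y‖ ≤ 64 → JG 4 G0 y (‖y‖ + 1) ε)
    (h1 : RL G 1 ≤ (C1 * ε) ^ 2) : RL G (1 / 16) ≤ (C1 ^ 2 + 16 * 120000 ^ 2 * vb) * ε ^ 2 := by
  refine (RL_le hG (B := (120000 * ε) ^ 2) fun x hx i j => ?_).trans (by nlinarith)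
  have h2 : G =ᶠ[𝓝 x] G0 :=
    he.eventuallyEq_of_mem (isOpen_ball.mem_nhds (mem_ball_zero_iff.2 (by linarith)))
  rw [ricci_congr h2]
  exact jg_ric h0.riem (mem_univ x) (hJ x (by linarith)) hε (by norm_num) (by simp) i j

theorem actEq : ActEq := fun _ _ ha hG =>
  I.act_eq ha le_rfl ⟨I.open_ext _, fun i j => (hG.riem.2 i j).mono (subset_univ _),
    fun x _ => hG.riem.3 x (mem_univ _)⟩ hG.flat

theorem ad0 {F : Flow M} (hB : Base F) (hEN : ENStmt) (hQU : QUStmt) (hPB : PBStmt)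
    (hPA : PBAllStmt) (hHC : HCStmt) (hINT : INTStmt) (hCM : CMStmt M) (hCV : CVStmt M)
    (hA : ActEq) : ADStmt F := by
  obtain ⟨δ0, C, hδ0, hC, REP⟩ := rep hEN hQU hPB hPA hHC hINT
  obtain ⟨η1, CM, hη1, hCM, cmS⟩ := hCM
  obtain ⟨η2, CV, hη2, hCV, cvS⟩ := hCV
  obtain ⟨K0, hK0⟩ := hB.ok.evo.R_bd
  refine ⟨min (min η1 η2) (1 / 200), δ0, by positivity, hδ0,
    fun m1 η Cs V R ηa δ Cs1 C1 hm hη hδ hR hR1 hηa hC1 => ?_⟩
  have e1 : η ≤ η1 := hη.trans ((min_le_left _ _).trans (min_le_left _ _))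
  have e2 : η ≤ η2 := hη.trans ((min_le_left _ _).trans (min_le_right _ _))
  have e3 : η ≤ 1 / 200 := hη.trans (min_le_right _ _)
  obtain ⟨Cs3, hCs, REP⟩ := REP Cs1
  obtain ⟨Cs2, cmS⟩ := cmS Cs
  obtain ⟨n0, K, r1, hr1, hn⟩ := (voln hB).2 V
  have hvb := vb_nonneg
  obtain ⟨τ, hτ, hτ1, hτa⟩ : ∃ τ : ℝ, 0 < τ ∧ τ ≤ 1 ∧ ∀ k ≤ 4, Cs3 k * τ ≤ ηa := by
    have hS : 0 ≤ ∑ k ∈ Finset.range 5, Cs3 k := Finset.sum_nonneg fun k _ => hCs k
    refine ⟨min 1 (ηa / (∑ k ∈ Finset.range 5, Cs3 k + 1)), by positivity, min_le_left _ _,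
      fun k hk => ?_⟩
    have h1 : Cs3 k ≤ ∑ k ∈ Finset.range 5, Cs3 k :=
      Finset.single_le_sum (fun k _ => hCs k) (Finset.mem_range.2 (by omega))
    calc _ ≤ (∑ k ∈ Finset.range 5, Cs3 k + 1) * (ηa / (∑ k ∈ Finset.range 5, Cs3 k + 1)) :=
          mul_le_mul (by linarith) (min_le_right _ _) (by positivity) (by positivity)
      _ = ηa := by field_simp
  obtain ⟨σ, hσ0, hσ⟩ : ∃ σ : ℝ, 0 < σ ∧ C * σ = τ ^ 2 :=
    ⟨τ ^ 2 / C, by positivity, by field_simp⟩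
  obtain ⟨ε, hε0, hε1, hε⟩ : ∃ ε : ℝ, 0 < ε ∧ ε ≤ 1 / 100 ∧
      (C1 ^ 2 + 16 * 120000 ^ 2 * vb) * ε ^ 2 ≤ σ ^ 2 := by
    set D := C1 ^ 2 + 16 * 120000 ^ 2 * vb with hD
    have hD0 : 0 ≤ D := by positivity
    refine ⟨min (1 / 100) (σ / (D + 1)), by positivity, min_le_left _ _, ?_⟩
    calc _ ≤ (D + 1) ^ 2 * (σ / (D + 1)) ^ 2 := by
          gcongr
          · nlinarith
          · exact min_le_right _ _
      _ = _ := by field_simp
  obtain ⟨t, ht0, ht⟩ : ∃ t : ℝ, 0 < t ∧ CM * η1 * (t + t) ≤ ε :=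
    ⟨ε / (2 * (CM * η1)), by positivity, le_of_eq (by field_simp; ring)⟩
  set Kv := |K0| * (|V| + 3) with hKv
  have hKv0 : 0 ≤ Kv := by positivity
  set μ := 1 + CV / R ^ 2 with hμ
  have hμ1 : 1 ≤ μ := le_add_of_nonneg_right (by positivity)
  have p1 : 0 < 1 / t ^ 2 := by positivity
  have p2 : 0 < 1 / ε := by positivity
  have p3 : 0 < 1 / r1 := by positivity
  have p4 := abs_nonneg K
  have p5 : 0 < C * C1 * μ := by positivity
  refine ⟨C * C1 * μ + (Kv + (C + 2400 * vb)), 1024 + 1 / t ^ 2 + 1 / ε + |K| + 1 / r1,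
    n0 + (|V| + 3) + Kv + 2 * |K0| * vb, Cs3, by positivity, by linarith, fun s N ρ φ W => ?_⟩
  obtain ⟨G, pe, hall, he, hφ, hrl⟩ := W.ex
  set A := 1024 + 1 / t ^ 2 + 1 / ε + |K| + 1 / r1 with hA0
  have ha := W.top.a_pos
  have hρ : 0 < ρ := lt_of_lt_of_le (by positivity) W.a_le
  have a1 : ∀ c ≤ A, c * N.a ≤ ρ := fun c hc =>
    (mul_le_mul_of_nonneg_right hc ha.le).trans W.a_le
  have a2 : ∀ c ≤ A, c * ρ ≤ R := fun c hc => (mul_le_mul_of_nonneg_right hc hρ.le).trans W.le_b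
  have rg : Rng N ρ := ⟨W.top, a1 _ (by linarith), (a2 _ (by linarith)).trans W.b_eq.ge,
    W.b_eq.trans_le hR1⟩
  have hρ1 : ρ ≤ 1 := by linarith [a2 1 (by linarith)]
  have hK : ∀ p, |(F.m s).scal p| ≤ |K0| := fun p =>
    (hK0 s (late_Ioo W.late) p).trans (le_abs_self _)
  have ro : Rough (F.m s) N 0 (1 / 100) V := ⟨fun x hx => Rad.jg_mono (W.good.jet x hx)
    (Nat.zero_le _) (by
      have h1 := wt_le ha hx
      have h2 : 0 ≤ wt N.a N.b x := by unfold wt; positivity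
      linarith [mul_le_mul_of_nonneg_right e3 h2]), W.good.vol⟩
  have hcard : Nat.card N.Γ ≤ n0 := by
    refine hn s W.late ⟨N.Γ, N.Ψ, N.In, N.a, ρ⟩ (top_b W.top (by linarith [rg.a_le])
      (by linarith [rg.le_b])) ⟨fun x hx => ro.jet x (shell_mono le_rfl
        (by linarith [rg.le_b]) hx), ro.vol⟩ ?_ ?_
    · have : 1 / r1 * ρ ≤ 1 := (a2 _ (by linarith)).trans hR1
      rwa [one_div, inv_mul_le_iff₀ hr1, mul_one] at this
    · exact a1 K (by linarith [le_abs_self K])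
  obtain ⟨c1, -, -, -, c2, c3⟩ := cmS (F.m s) N m1 η V ρ hm e1 rg W.good
  have hw : CM * η * (√(N.a / ρ) + √(ρ / N.b)) ≤ ε := by
    have h1 : √(N.a / ρ) ≤ t := by
      refine Real.sqrt_le_iff.2 ⟨ht0.le, (div_le_iff₀ hρ).2 ?_⟩
      have : 1 / t ^ 2 * N.a ≤ ρ := a1 _ (by linarith)
      rwa [one_div, inv_mul_le_iff₀ (by positivity)] at this
    have h2 : √(ρ / N.b) ≤ t := by
      rw [W.b_eq]
      refine Real.sqrt_le_iff.2 ⟨ht0.le, (div_le_iff₀ hR).2 ?_⟩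
      have : 1 / t ^ 2 * ρ ≤ R := a2 _ (by linarith)
      rwa [one_div, inv_mul_le_iff₀ (by positivity)] at this
    refine le_trans ?_ ht
    calc _ ≤ CM * η1 * (√(N.a / ρ) + √(ρ / N.b)) := by gcongr
      _ ≤ _ := by gcongr
  have hρε : ρ ^ 2 ≤ ε := by
    have : 1 / ε * ρ ≤ 1 := (a2 _ (by linarith)).trans hR1
    rw [one_div, inv_mul_le_iff₀ hε0, mul_one] at this
    exact (pow_le_of_le_one hρ.le hρ1 two_ne_zero).trans this
  obtain ⟨ψ, r⟩ := REP N.Γ G δ σ W.top.grp pe.fl pe.inv hδ pe.ds hall (g_in rg he) hσ0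
    (by rw [hσ]; exact pow_le_one₀ hτ.le hτ1)
    ((rl_small pe.fl c1 he hε1 (fun y hy => Rad.jg_mono (c3 y hy) le_rfl hw)
      (hrl ε hρε (ricB_mono c2 hw))).trans hε)
  have i1 := in_est rg ro hK
  have hc1 : |(Nat.card N.Γ : ℝ)⁻¹| ≤ 1 := by
    rw [abs_of_nonneg (by positivity)]
    exact inv_le_one_of_one_le₀ (by exact_mod_cast (one_le_two.trans W.top.grp.two_le))
  have hu : (ρ / 64) ^ 2 ≤ ρ ^ 2 := pow_le_pow_left₀ (by positivity) (by linarith) 2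
  have h42 : ρ ^ 4 ≤ ρ ^ 2 := pow_le_pow_of_le_one hρ.le hρ1 (by norm_num)
  refine ⟨?_, fun e hE => ?_⟩
  · rw [hφ, Sv, mul_assoc]
    refine (abs_add_le _ _).trans ?_
    rw [abs_mul, abs_mul, abs_of_nonneg (sq_nonneg (ρ / 64))]
    have h1 := mul_le_mul hc1 (mul_le_mul hu (out_est r pe.fl) (abs_nonneg _) (sq_nonneg _))
      (by positivity) zero_le_one
    have h2 := mul_le_mul_of_nonneg_left h42 hKv0
    linarith [mul_pos p5 (pow_pos hρ 2)]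
  · obtain ⟨v1, v2, -⟩ := cvS (F.m s) N m1 η V ρ e Cs hm e2 rg W.good hE
    have he0 : 0 ≤ e := (sq_nonneg _).trans v1
    have h1 := hrl (μ * e) (v1.trans (le_mul_of_one_le_left he0 hμ1))
      (ricB_mono v2 (by rw [W.b_eq, hμ]; linarith))
    obtain ⟨N', hΓ, X⟩ := ext_of (E := (C * C1 * μ + (Kv + (C + 2400 * vb))) * e)
      (V' := n0 + (|V| + 3) + Kv + 2 * |K0| * vb) rg ro he r hCs hτ.le hτ1 hσ hτa
      (by
        calc _ ≤ C ^ 2 * (C1 * (μ * e)) ^ 2 :=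
              mul_le_mul (le_self_pow₀ hC two_ne_zero) h1 (RL_nonneg _ _) (by positivity)
          _ = (C * C1 * μ * e) ^ 2 := by ring
          _ ≤ _ := by gcongr; linarith [show 0 ≤ Kv + (C + 2400 * vb) by positivity])
      (le_trans (Nat.cast_le.2 hcard) (by
        linarith [show 0 ≤ |V| + 3 + Kv + 2 * |K0| * vb by positivity]))
      (by linarith [show 0 ≤ n0 + Kv + 2 * |K0| * vb by positivity])
    refine ⟨N', _, X, ?_⟩
    have h2 := act_est hA r pe.fl (u := ρ / 64) (by positivity) (by positivity)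
      (g_scal rg he hK)
    rw [hΓ, hφ, Sv, show 3 * (ρ / 32) = 6 * (ρ / 64) by ring, mul_assoc, div_eq_inv_mul (act _ _),
      add_sub_assoc, ← mul_sub]
    refine (abs_add_le _ _).trans ?_
    rw [abs_mul]
    have h3 := mul_le_mul hc1 h2 (abs_nonneg _) zero_le_one
    have h4 : (ρ / 64) ^ 2 * (2 * ((ρ / 64) ^ 2 * |K0|) * vb) ≤ ρ ^ 2 * (2 * (ρ ^ 2 * |K0|) * vb) := by
      gcongr
    linarith [show 0 ≤ (n0 + (|V| + 3)) * ρ ^ 4 by positivity]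

end Crest.Agent.N207.Ph.Ad

/-- (AD) -/
theorem Crest.Agent.N207.Ph.ad {M : Type*} [TopologicalSpace M] [ChartedSpace E4 M]
    [IsManifold 𝓘(ℝ, E4) ∞ M] [CompactSpace M] [T3Space M] [ConnectedSpace M] [MeasurableSpace M]
    [BorelSpace M] {F : Flow M} (hB : Sk.Base F) (hEN : ENStmt) (hQU : QUStmt) (hPB : PBStmt)
    (hPA : PBAllStmt) (hHC : HCStmt) (hINT : INTStmt) (hCM : CMStmt M) (hCV : CVStmt M) :
    ADStmt F :=
  Ad.ad0 hB hEN hQU hPB hPA hHC hINT hCM hCV Ad.actEq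

end
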