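import Crest.Agent.N207.Ph.Cv

/-!
# Row 207, block PHI (helper33): the assembly of `PHI'`
-/

set_option autoImplicit false
set_option linter.unusedSectionVars false

open scoped ContDiff Manifold Topology
open Set Filter MeasureTheory Metric
open Crest.GeometryTopology.CoordMetric Crest.GeometryTopology.ChartCurvature
  Crest.GeometryTopology.MetricFamily

noncomputable section

namespace Crest.Agent.N207.Ph

open Sk G Cm

namespace Asm

/-- for all small `η` -/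
def Ev (p : ℝ → Prop) : Prop := ∃ η1, 0 < η1 ∧ ∀ η ≤ η1, p η

theorem Ev.and {p q : ℝ → Prop} (h : Ev p) (h' : Ev q) : Ev fun η => p η ∧ q η := by
  obtain ⟨a, ha, h⟩ := h
  obtain ⟨b, hb, h'⟩ := h'
  exact ⟨min a b, lt_min ha hb, fun η hη =>
    ⟨h η (hη.trans (min_le_left _ _)), h' η (hη.trans (min_le_right _ _))⟩⟩

theorem ev_le {b : ℝ} (hb : 0 < b) : Ev fun η => η ≤ b := ⟨b, hb, fun _ h => h⟩

theorem ev_lin {a b : ℝ} (ha : 0 < a) (hb : 0 < b) : Ev fun η => a * η ≤ b :=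
  ⟨b / a, div_pos hb ha, fun _ h => (le_div_iff₀' ha).1 h⟩

theorem sub_ii {f : ℝ → ℝ} {t0 t1 a b : ℝ} (h : IntervalIntegrable f volume t0 t1)
    (ha : a ∈ Icc t0 t1) (hb : b ∈ Icc t0 t1) : IntervalIntegrable f volume a b :=
  h.mono_set (uIcc_subset_uIcc (Icc_subset_uIcc ha) (Icc_subset_uIcc hb))

/-- from steps of length `≤ h` to the whole interval -/
theorem chain {t0 t1 h C e1 p1 : ℝ} {f e : ℝ → ℝ} {W B : ℝ → ℝ → Prop} (hh : 0 < h) (hC : 0 ≤ C)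
    (hf : IntervalIntegrable f volume t0 t1)
    (hE : IntervalIntegrable (fun s => e s ^ 2) volume t0 t1) (hB : ∀ s ∈ Ioo t0 t1, B s (e s))
    (hW : ∀ s ∈ Icc t0 t1, ∃ p, W s p) (w1 : W t1 p1) (b1 : B t1 e1)
    (st : ∀ t t', t0 ≤ t → t < t' → t' ≤ t1 → t' - t ≤ h → ∀ p p' x x', W t p → W t' p' → B t x →
      B t' x' → |p' - p - 2 * ∫ s in t..t', f s| ≤
        C * (∫ s in t..t', e s ^ 2) + C * h * (x ^ 2 + x' ^ 2))
    {p0 e0 : ℝ} (h01 : t0 < t1) (w0 : W t0 p0) (b0 : B t0 e0) :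
    |p1 - p0 - 2 * ∫ s in t0..t1, f s| ≤
      5 * C * (∫ s in t0..t1, e s ^ 2) + C * h * (e0 ^ 2 + e1 ^ 2) := by
  have hI : IntegrableOn (fun s => e s ^ 2) (Ioc t0 t1) := hE.1
  have mono : ∀ c d, t0 ≤ c → c ≤ d → ∫ s in Ioc d t1, e s ^ 2 ≤ ∫ s in Ioc c t1, e s ^ 2 :=
    fun c d h1 h2 => setIntegral_mono_set (hI.mono_set (Ioc_subset_Ioc_left h1))
      (Eventually.of_forall fun _ => sq_nonneg _) (Ioc_subset_Ioc_left h2).eventuallyLE
  have key : ∀ (n : ℕ) (a p x : ℝ), t0 ≤ a → a < t1 → t1 - a ≤ n * (h / 2) → W a p → B a x →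
      |p1 - p - 2 * ∫ s in a..t1, f s| ≤ C * (∫ s in a..t1, e s ^ 2) + C * h * (x ^ 2 + e1 ^ 2) +
        4 * C * ∫ s in Ioc (a + h / 2) t1, e s ^ 2 := by
    intro n
    induction n with
    | zero => intro a p x _ h1 h2; simp at h2; linarith
    | succ n ih =>
      intro a p x a0 a1 an wa ba
      rcases le_or_gt (t1 - a) h with c | c
      · exact (st a t1 a0 a1 le_rfl c p p1 x e1 wa w1 ba b1).trans (le_add_of_nonneg_right
          (mul_nonneg (by positivity) (integral_nonneg fun _ => sq_nonneg _)))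
      obtain ⟨s, hs, h1⟩ := exists_le_setAverage (μ := volume) (s := Ioc (a + h / 2) (a + h))
        (f := fun s => e s ^ 2) (by simp; linarith) (by simp)
        (hI.mono_set (Ioc_subset_Ioc (by linarith) (by linarith)))
      rw [setAverage_eq, Real.volume_real_Ioc, max_eq_left (by linarith), smul_eq_mul,
        show a + h - (a + h / 2) = h / 2 by ring, le_inv_mul_iff₀ (by positivity),
        ← intervalIntegral.integral_of_le (by linarith)] at h1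
      have s0 : s ∈ Ioo t0 t1 := ⟨by linarith [hs.1], by linarith [hs.2]⟩
      have s1 := Ioo_subset_Icc_self s0
      have ma : a ∈ Icc t0 t1 := ⟨a0, a1.le⟩
      have mt : t1 ∈ Icc t0 t1 := ⟨h01.le, le_rfl⟩
      obtain ⟨q, wq⟩ := hW s s1
      have h2 := st a s a0 (by linarith [hs.1]) s1.2 (by linarith [hs.2]) p q x _ wa wq ba (hB s s0)
      have h3 := ih s q _ s1.1 s0.2 (by push_cast at an; linarith [hs.1]) wq (hB s s0)
      have h4 := intervalIntegral.integral_add_adjacent_intervals (sub_ii hf ma s1) (sub_ii hf s1 mt)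
      have h5 := intervalIntegral.integral_add_adjacent_intervals (sub_ii hE ma s1) (sub_ii hE s1 mt)
      have h6 := intervalIntegral.integral_add_adjacent_intervals (b := a + h)
        (sub_ii hE (a := a + h / 2) ⟨by linarith, by linarith⟩ ⟨by linarith, by linarith⟩)
        (sub_ii hE ⟨by linarith, by linarith⟩ mt)
      have h7 := mono (a + h) (s + h / 2) (by linarith) (by linarith [hs.1])
      rw [← intervalIntegral.integral_of_le (by linarith : a + h ≤ t1)] at h7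
      rw [← intervalIntegral.integral_of_le (by linarith : a + h / 2 ≤ t1), ← h4, ← h5, ← h6]
      have h8 := mul_le_mul_of_nonneg_left h1 hC
      have h9 := mul_le_mul_of_nonneg_left h7 hC
      rw [abs_le] at h2 h3 ⊢
      constructor <;> linarith [h2.1, h2.2, h3.1, h3.2]
  obtain ⟨n, hn⟩ := exists_nat_ge ((t1 - t0) / (h / 2))
  have h1 := key n t0 p0 e0 le_rfl h01 ((div_le_iff₀ (by positivity)).1 hn) w0 b0
  have h2 := mul_le_mul_of_nonneg_left (mono t0 (t0 + h / 2) le_rfl (by linarith)) hC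
  rw [← intervalIntegral.integral_of_le h01.le] at h2
  linarith

theorem ds_mono {m : ℕ} {G : MetricField 4} {δ δ' : ℝ} (h : DS m G δ) (hδ : δ ≤ δ') :
    DS m G δ' := by
  obtain ⟨ε, h0, h1, h2⟩ := h
  exact ⟨ε, h0, fun n => (h1 n).trans hδ, h2⟩

/-- the exterior actions differ by the total actions -/
theorem ext_sub {G G' : MetricField 4} (h : Fl G) (h' : Fl G') (e : EqOn G G' (ball 0 16)) :
    (∫ y in {y : E4 | 1 ≤ ‖y‖}, √(G y).det * scalarCurv G y) -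
      ∫ y in {y : E4 | 1 ≤ ‖y‖}, √(G' y).det * scalarCurv G' y = EH G - EH G' := by
  rw [EH, EH, ← integral_sub (Ad.int_eh' h) (Ad.int_eh' h'),
    ← integral_sub (Ad.int_eh' h).integrableOn (Ad.int_eh' h').integrableOn]
  refine setIntegral_eq_integral_of_forall_compl_eq_zero fun y hy => ?_
  have hy' : y ∈ ball (0 : E4) 16 := mem_ball_zero_iff.2 (by
    linarith [(not_le.1 (show ¬1 ≤ ‖y‖ from hy) : ‖y‖ < 1)])
  rw [e hy', scal_congr (e.eventuallyEq_of_mem (isOpen_ball.mem_nhds hy')), sub_self]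

variable {M : Type*} [TopologicalSpace M] [ChartedSpace E4 M] [IsManifold 𝓘(ℝ, E4) ∞ M]
  [CompactSpace M] [T3Space M] [ConnectedSpace M] [MeasurableSpace M] [BorelSpace M]
  {g : Met 4 M} {N : Nk M} {G G' : MetricField 4} {ρ e e' u δ δ' y η V φ A R : ℝ} {Cs : ℕ → ℝ}

theorem ebd2 (h : Ebd g N 4 ρ e) : Ebd g N 2 ρ e := by
  obtain ⟨J, h0, h1, h2⟩ := h
  exact ⟨J, h0, fun j x a b c k hk => h1 j x a b c k (by omega), h2⟩

theorem pe_mono (h : PE g N u G δ) (hδ : δ ≤ δ') : PE g N u G δ' :=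
  ⟨h.fl, h.inv, ds_mono h.ds hδ, h.eq⟩

theorem adm_mono (h : Adm' g ρ e y η Cs V φ) (h0 : 0 ≤ e) (he : e ≤ e') :
    Adm' g ρ e' y η Cs V φ := by
  obtain ⟨N, G, h, h1⟩ := h
  refine ⟨N, G, { h with ric := h.ric.trans ?_ }, h1⟩
  rw [mul_pow, mul_pow]
  gcongr

theorem rng (h : N.Top) (hb : N.b = R) (hR : R ≤ 1) (hA : 1024 ≤ A) (h1 : A * N.a ≤ ρ)
    (h2 : A * ρ ≤ R) : Rng N ρ := by
  have h3 : 1024 * N.a ≤ ρ := le_trans (by have := h.a_pos; gcongr) h1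
  have h4 : 0 < ρ := by linarith [h.a_pos]
  exact ⟨h, h3, hb ▸ le_trans (by gcongr) h2, hb ▸ hR⟩

theorem sv_sub (r : Rng N ρ) (h : PE g N (ρ / 64) G δ) (h' : PE g N (ρ / 64) G' δ') :
    |Sv g N (ρ / 64) G - Sv g N (ρ / 64) G'| ≤ ρ ^ 2 * |EH G - EH G'| := by
  have := r.top.grp.fin
  have h1 : (1 : ℝ) ≤ Nat.card N.Γ := by exact_mod_cast Nat.card_pos
  have h2 := inv_le_one_of_one_le₀ h1
  rw [Sv, Sv, add_sub_add_left_eq_sub, ← mul_sub, ext_sub h.fl h'.fl (h.eq.trans h'.eq.symm),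
    abs_mul, abs_of_nonneg (by positivity)]
  gcongr
  nlinarith [mul_le_mul_of_nonneg_right h2 (sq_nonneg (ρ / 64)), sq_nonneg ρ]

end Asm

open Asm

variable {M : Type*} [TopologicalSpace M] [ChartedSpace E4 M] [IsManifold 𝓘(ℝ, E4) ∞ M]
  [CompactSpace M] [T3Space M] [ConnectedSpace M] [MeasurableSpace M] [BorelSpace M]

theorem phi' {F : Flow M} (EX : EXStmt) (RG : RGStmt) (WS : WSStmt F) (MC : MCStmt F)
    (SW : SWStmt M) (AD : ADStmt F) : PHI' F := by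
  obtain ⟨δE, CE, hδE, hCE, EX⟩ := EX
  obtain ⟨δR, CR, hδR, hCR, RG⟩ := RG
  obtain ⟨ηM, CM, hηM, hCM, cM⟩ := cmS M
  obtain ⟨ηV, CV, hηV, hCV, cV⟩ := cvS M
  obtain ⟨ηW, δW, C0, hηW, hδW, hC0, WS⟩ := WS
  obtain ⟨ηS, δS, hηS, hδS, SW⟩ := SW
  obtain ⟨ηA, δA, hηA, hδA, AD⟩ := AD
  have hD : 0 < CE * CM := by positivity
  obtain ⟨η1, hη1, H⟩ := (((ev_le hηM).and (ev_le hηV)).and ((ev_le hηW).and ((ev_le hηS).and
    (ev_le hηA)))).and (((ev_lin hCM hδE).and ((ev_lin hD hδW).and (ev_lin hD hδA))).and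
      ((ev_lin hD hδS).and ((ev_lin hD hδR).and
        (ev_lin (show 0 < C0 * (CE * CM + 1) by positivity) hδR))))
  refine ⟨4, η1, hη1, fun m1 η Cs V R ηa hm hη hR hR1 hηa => ?_⟩
  obtain ⟨⟨⟨k1, k2⟩, k3, k4, k5⟩, ⟨k6, k7, k8⟩, k9, k10, k11⟩ := H η hη
  obtain ⟨Cs0, cM⟩ := cM Cs
  obtain ⟨Cs1, EX⟩ := EX Cs0
  obtain ⟨CW, hCW, WS⟩ := WS V
  obtain ⟨CA, A, V', Cs', hCA, hA, AD⟩ := AD m1 η Cs V R ηa (CE * CM * η) Cs1 CE hm k5 k8 hR hR1
    hηa hCE
  set K := (CE * (CV / R ^ 2 + 1)) ^ 2 with hK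
  have hK0 : 0 ≤ K := sq_nonneg _
  set C := CR * K + CR * CW * (K + 1) + CW with hC
  have hC0 : 0 < C := by positivity
  have rg : ∀ {s N ρ φ}, WW F m1 η Cs V R A (CE * CM * η) Cs1 CE s N ρ φ → Rng N ρ :=
    fun w => rng w.top w.b_eq hR1 hA w.a_le w.le_b
  have ex : ∀ {s N ρ φ e}, WW F m1 η Cs V R A (CE * CM * η) Cs1 CE s N ρ φ →
      Ebd (F.m s) N 2 ρ e → ∃ G, PE (F.m s) N (ρ / 64) G (CE * CM * η) ∧
        EqOn G (cm (F.m s) N (ρ / 64)) (ball 0 32) ∧ φ = Sv (F.m s) N (ρ / 64) G ∧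
        RL G 1 ≤ K * e ^ 2 := fun {s N ρ φ e} w he => by
    obtain ⟨G, h1, -, h2, h3, h4⟩ := w.ex
    obtain ⟨a1, a2, -⟩ := cV _ N m1 η V ρ e Cs hm k2 (rg w) w.good he
    have a0 : 0 ≤ e := (sq_nonneg ρ).trans a1
    have a3 : 0 ≤ CV / R ^ 2 * e := by positivity
    rw [w.b_eq] at a2
    refine ⟨G, h1, h2, h3, (h4 ((CV / R ^ 2 + 1) * e) (by linarith)
      (Ad.ricB_mono a2 (by linarith))).trans_eq (by rw [hK]; ring)⟩
  have exW : ∀ s ∈ late F, ∀ (N : Nk M) (ρ : ℝ), N.Top → N.b = R → A * N.a ≤ ρ → A * ρ ≤ R →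
      Good (F.m s) N m1 η Cs V → ∃ φ, WW F m1 η Cs V R A (CE * CM * η) Cs1 CE s N ρ φ :=
    fun s hs N ρ h1 h2 h3 h4 h5 => by
      have r := rng h1 h2 hR1 hA h3 h4
      obtain ⟨a1, a2, a3, a4, -⟩ := cM _ N m1 η V ρ hm k1 r h5
      obtain ⟨G, b1, b2, b3, b4, b5, b6⟩ := EX N.Γ _ _ (ρ ^ 2) h1.grp a1 a2 k6 a3 a4
        (pow_pos (rho_pos r) 2)
      exact ⟨_, hs, h1, h2, h3, h4, h5, G, ⟨b1, b2, by rwa [mul_assoc],
        b5.mono (ball_subset_ball (by norm_num))⟩, b4, b5, rfl, b6⟩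
  refine ⟨CA + 5 * C, A, V', Cs', WW F m1 η Cs V R A (CE * CM * η) Cs1 CE, by positivity,
    by linarith, exW,
    fun N t0 t1 ρ e e0 e1 p0 p1 a0 a01 a1 hN hb ha hρ hg i1 i2 he he0 he1 w0 w1 => ?_,
    fun s N ρ φ w => ⟨(AD s N ρ φ w).1.trans (by gcongr; linarith), fun e he => ?_⟩,
    fun L hL => ?_⟩
  · have r := rg w0
    have hρ0 := rho_pos r
    have i3 : IntervalIntegrable (fun s => mass (F.m s) (N.Om (ρ / 16))) volume t0 t1 := by
      refine ContinuousOn.intervalIntegrable_of_Icc a01.le ((MC _ (hN.opn _ ⟨?_, ?_⟩).measurableSet).mono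
        fun s hs => ⟨by linarith [hs.1], by linarith [hs.2]⟩) <;> linarith [r.a_le, r.le_b]
    refine ⟨i3, (chain (C := C) (W := fun s p => WW F m1 η Cs V R A (CE * CM * η) Cs1 CE s N ρ p)
      (B := fun s x => Ebd (F.m s) N 2 ρ x) (pow_pos hρ0 2) hC0.le i3 i2
      (fun s hs => ebd2 (he s hs)) (fun s hs => exW s ⟨a0.trans hs.1, hs.2.trans_lt a1⟩ N ρ hN hb ha
        hρ (hg s hs)) w1 (ebd2 he1) (fun t t' c0 c01 c1 ch p p' x x' w w' b b' => ?_) a01 w0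
      (ebd2 he0)).trans ?_⟩
    · have mt : t ∈ Icc t0 t1 := ⟨c0, by linarith⟩
      have mt' : t' ∈ Icc t0 t1 := ⟨by linarith, c1⟩
      obtain ⟨G, d1, d2, rfl, d3⟩ := ex w b
      obtain ⟨G', d4, -, rfl, d5⟩ := ex w' b'
      obtain ⟨G2, d6, d7, d8⟩ := WS N m1 η _ t t' ρ x x' Cs e G hm k3 k7 r (a0.trans c0) c01
        (c1.trans_lt a1) ch (fun s hs => hg s ⟨c0.trans hs.1, hs.2.trans c1⟩) (sub_ii i1 mt mt')
        (sub_ii i2 mt mt') (fun s hs => ebd2 (he s ⟨c0.trans_lt hs.1, hs.2.trans_le c1⟩)) b b' d1 d2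
      have d9 := (sv_sub r d4 d6).trans (mul_le_mul_of_nonneg_left (RG N.Γ G' G2 hN.grp d4.fl d6.fl
        d4.inv d6.inv (ds_mono d4.ds k10) (ds_mono d6.ds (by linarith))
        ((d4.eq.trans d6.eq.symm).mono (ball_subset_ball (by norm_num)))) (sq_nonneg ρ))
      have hI : 0 ≤ ∫ s in t..t', e s ^ 2 :=
        intervalIntegral.integral_nonneg c01.le fun _ _ => sq_nonneg _
      set I := ∫ s in t..t', e s ^ 2
      have f1 : ρ ^ 2 * (CR * (RL G' 1 + RL G2 1)) ≤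
          ρ ^ 2 * (CR * (K * x' ^ 2 + CW * (K * x ^ 2 + x ^ 2 + x' ^ 2 + I / ρ ^ 2))) := by
        gcongr
        exact d7.trans (by gcongr)
      have f2 : ρ ^ 2 * (CR * (K * x' ^ 2 + CW * (K * x ^ 2 + x ^ 2 + x' ^ 2 + I / ρ ^ 2))) =
          CR * CW * I + ρ ^ 2 * (CR * (K * x' ^ 2 + CW * (K * x ^ 2 + x ^ 2 + x' ^ 2))) := by
        field_simp
        ring
      have f3 : 0 ≤ (CR * K + CR * CW * K) * I := by positivity
      have f4 : 0 ≤ ρ ^ 2 * (CR * K * x ^ 2 + CR * CW * K * x' ^ 2) := by positivity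
      rw [abs_le] at d8 d9 ⊢
      rw [hC]
      constructor <;> linarith [d8.1, d8.2, d9.1, d9.2]
    · have hI : 0 ≤ ∫ s in t0..t1, e s ^ 2 :=
        intervalIntegral.integral_nonneg a01.le fun _ _ => sq_nonneg _
      gcongr <;> linarith
  · have a0 : 0 ≤ e := (sq_nonneg ρ).trans (cV _ N m1 η V ρ e Cs hm k2 (rg w) w.good (ebd2 he)).1
    exact adm_mono ((AD s N ρ φ w).2 e (ebd2 he)) (by positivity) (by gcongr; linarith)
  · obtain ⟨CS, hCS, SW⟩ := SW L hL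
    refine ⟨CS * (1 + K), by positivity, fun s N N' ρ ρ' φ φ' e e' w w' l1 l2 hc he he' => ?_⟩
    obtain ⟨G, d1, -, rfl, d3⟩ := ex w (ebd2 he)
    obtain ⟨G', d4, -, rfl, d5⟩ := ex w' (ebd2 he')
    have hρ0 := rho_pos (rg w)
    refine (SW _ N N' m1 η V ρ ρ' e e' Cs G G' hm k4 (rg w) (rg w') (w'.b_eq.trans w.b_eq.symm)
      w.good w'.good l1 l2 (by rwa [w.b_eq]) (ebd2 he) (ebd2 he') (pe_mono d1 k9)
      (pe_mono d4 k9)).trans (le_add_of_le_of_nonneg ?_ (by positivity))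
    calc _ ≤ CS * ρ ^ 2 * (e ^ 2 + e' ^ 2 + K * e ^ 2 + K * e' ^ 2) := by gcongr
      _ = _ := by ring

end Crest.Agent.N207.Ph

end
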