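import Crest.Agent.N207.Ph.Gl
import Crest.Agent.N207.Ph.Ad1
import Crest.Agent.N207.U.JG

/-!
# Row 207, block PHI (helper33): Euclidean tools for `CM` and `CV`
-/

set_option autoImplicit false
set_option linter.unusedSectionVars false

open scoped ContDiff Manifold Topology
open Set Filter
open Crest.GeometryTopology.CoordMetric Crest.GeometryTopology.ChartCurvature
  Crest.GeometryTopology.MetricFamily
open Crest.Agent.R202.Tens

noncomputable section

namespace Crest.Agent.N207.Ph.Cm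

open Sk G

/-! ### dyadic sums -/

theorem sq43 {t : ℝ} (ht : 0 ≤ t) : 4 * √t ≤ 3 * √(2 * t) := by
  refine le_trans (le_abs_self _) (abs_le_of_sq_le_sq ?_ (by positivity))
  rw [mul_pow, mul_pow, Real.sq_sqrt ht, Real.sq_sqrt (by positivity)]
  linarith

theorem dy_up {β X : ℝ} (hβ : 0 ≤ β) (n : ℕ) :
    ∑ l ∈ Finset.range n, (if (2 : ℝ) ^ l ≤ X then √(β * 2 ^ l) else 0) ≤ 4 * √(β * X) := by
  have h1 : ∀ n, ∑ l ∈ Finset.range n, (if (2 : ℝ) ^ l ≤ X then √(β * 2 ^ l) else 0) ≤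
      3 * √(β * 2 ^ n) := fun n => by
    induction n with
    | zero => simp
    | succ n ih =>
      have := sq43 (t := β * 2 ^ n) (by positivity)
      rw [Finset.sum_range_succ, show β * 2 ^ (n + 1) = 2 * (β * 2 ^ n) by ring]
      split_ifs <;> linarith [Real.sqrt_nonneg (β * 2 ^ n)]
  induction n with
  | zero => simp
  | succ n ih =>
    rw [Finset.sum_range_succ]
    split_ifs with h
    · have := Real.sqrt_le_sqrt (mul_le_mul_of_nonneg_left h hβ)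
      linarith [h1 n]
    · linarith

theorem dy_dn {α : ℝ} (hα : 0 ≤ α) (n : ℕ) :
    ∑ l ∈ Finset.range n, √(α / 2 ^ l) ≤ 4 * √α := by
  have h1 : ∑ l ∈ Finset.range n, √(α / 2 ^ l) + 4 * √(α / 2 ^ n) ≤ 4 * √α := by
    induction n with
    | zero => simp
    | succ n ih =>
      have := sq43 (t := α / 2 ^ (n + 1)) (by positivity)
      rw [show 2 * (α / 2 ^ (n + 1)) = α / 2 ^ n by field_simp; ring] at this
      rw [Finset.sum_range_succ]
      linarith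
  linarith [Real.sqrt_nonneg (α / 2 ^ n)]

theorem dy_geo {c : ℝ} (hc : 0 ≤ c) (n : ℕ) : ∑ l ∈ Finset.range n, c / 2 ^ l ≤ 2 * c := by
  have h1 : ∑ l ∈ Finset.range n, c / 2 ^ l + 2 * (c / 2 ^ n) ≤ 2 * c := by
    induction n with
    | zero => simp
    | succ n ih =>
      rw [Finset.sum_range_succ, show 2 * (c / 2 ^ (n + 1)) = c / 2 ^ n by field_simp; ring]
      linarith
  have : 0 ≤ c / 2 ^ n := by positivity
  linarith

/-! ### jets -/

variable {G G1 G2 : MetricField 4} {U : Set E4} {x y : E4} {a b s c u B : ℝ} {m k : ℕ}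

theorem j1_anti {f : E4 → ℝ} {s' : ℝ} (h : J1 k f x s c) (h0 : 0 ≤ s') (h1 : s' ≤ s) :
    J1 k f x s' c := le_trans (by gcongr) h

theorem jg_anti {s' : ℝ} (h : JG m G x s c) (h0 : 0 ≤ s') (h1 : s' ≤ s) : JG m G x s' c :=
  fun k hk i j => j1_anti (h k hk i j) h0 h1

theorem j1_congr {f f' : E4 → ℝ} (h : J1 k f x s c) (e : f' =ᶠ[𝓝 x] f) : J1 k f' x s c := by
  unfold J1
  rw [(e.iteratedFDeriv ℝ k).eq_of_nhds]
  exact h

theorem ric_ev (h : G1 =ᶠ[𝓝 y] G2) (i j : Fin 4) :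
    (fun z => ricci G1 z i j) =ᶠ[𝓝 y] fun z => ricci G2 z i j :=
  h.eventually_nhds.mono fun z hz => by simp only [ricci_congr hz]

/-- jets of the Ricci tensor from the jets of the metric -/
theorem ric_jg (m : ℕ) : ∃ C : ℝ, 0 < C ∧ ∀ (G : MetricField 4) (U : Set E4) (x : E4) (s ε : ℝ),
    IsRiemannianOn G U → x ∈ U → 0 < s → ε ≤ 1 / 8 → JG (m + 2) G x s ε →
      ∀ k ≤ m, ∀ i j, J1 k (fun z => ricci G z i j) x s (C * (ε / s ^ 2)) := by
  have h := U.Dat.mw (m + 2) (fun _ => 1) (1 / 8)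
  obtain ⟨C, hC, h1⟩ := U.unif (κ := Fin 4 × Fin 4) (ι := U.Dat (m + 2) (fun _ => 1) (1 / 8))
    (P := fun p d C => ∀ k ≤ m, J1 k (fun y => ricci d.G y p.1 p.2) d.x d.s (C * (d.w / d.s ^ 2)))
    (fun p d C D hCD hP k hk => by
      have := d.nn
      exact le_trans (hP k hk) (by gcongr))
    fun p => by
      obtain ⟨C, -, h2⟩ := (h.ricci p.1 p.2).itd h.pos fun d => div_nonneg d.nn (sq_nonneg _)
      exact ⟨C, fun d k hk => h2 k hk d⟩
  exact ⟨C, hC, fun G W x s ε a b c d e k hk i j => h1 (i, j) ⟨G, W, x, s, ε, a, b, c,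
    U.jg_nonneg e, d, U.jg_mono e (Nat.zero_le _) d, fun k hk i j => by simpa using e k hk i j⟩ k hk⟩

/-- data for `cov_jet` -/
structure CD where
  G : MetricField 4
  U : Set E4
  x : E4
  s : ℝ
  J : ℝ
  riem : IsRiemannianOn G U
  mem : x ∈ U
  pos : 0 < s
  sml : JG 2 G x s (1 / 100)
  cv : ∀ k ≤ 2, s ^ k * √(nsq G (covN G (ricT G) k) x) ≤ J

/-- jets of the Ricci tensor from its covariant derivatives -/
theorem cov_jet : ∃ C : ℝ, 0 < C ∧ ∀ d : CD, ∀ k ≤ 2, ∀ i j,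
    J1 k (fun z => ricci d.G z i j) d.x d.s (C * d.J) := by
  have hJ : ∀ d : CD, 0 ≤ d.J := fun d => le_trans (by positivity) (d.cv 0 (by norm_num))
  have h : U.MW (fun d : CD => d.x) (fun d => d.s) 2 (fun _ => 1) fun d => d.G :=
    U.MW.of_jg (fun d => ⟨d.U, d.riem, d.mem⟩) (fun d => d.pos) (fun _ => zero_le_one)
      (fun _ => le_rfl) (fun d => U.jg_mono d.sml (by norm_num) (by norm_num)) (fun _ => 1)
      fun d k hk a b => le_trans (d.sml k hk a b) (by norm_num)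
  have h2 : U.PT (fun d : CD => d.x) (fun d => d.s) 2 (fun d => d.J) fun d => ricT d.G :=
    h.of_covN fun j hj I => ⟨fun d => ((SmT.covN d.riem (SmT.ricT d.riem) j) I).contDiffAt
      (d.riem.isOpen.mem_nhds d.mem), 4, by norm_num, fun d => by
        have h3 := Ar.comp_sq_le (d.riem.posDef _ d.mem) (Rad.jg_up d.sml le_rfl)
          (covN d.G (ricT d.G) j d.x) I
        have h4 : √(nsq d.G (covN d.G (ricT d.G) j) d.x) ≤ d.J / d.s ^ j := by
          rw [le_div_iff₀' (pow_pos d.pos j)]; exact d.cv j hj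
        have h5 := AI.nsq_nonneg d.riem d.mem (covN d.G (ricT d.G) j)
        have h6 : (2 : ℝ) ^ (2 + j) ≤ 2 ^ 4 := pow_le_pow_right₀ one_le_two (by omega)
        refine le_trans (abs_le_of_sq_le_sq ?_ (by positivity)) (mul_le_mul_of_nonneg_left h4
          (by norm_num))
        rw [mul_pow, Real.sq_sqrt h5]
        exact h3.trans (mul_le_mul_of_nonneg_right (by linarith) h5)⟩
  obtain ⟨C, hC, h1⟩ := U.unif (κ := Fin 4 × Fin 4) (ι := CD)
    (P := fun p d C => ∀ k ≤ 2, J1 k (fun y => ricci d.G y p.1 p.2) d.x d.s (C * d.J))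
    (fun p d C D hCD hP k hk => by
      have := hJ d
      exact le_trans (hP k hk) (by gcongr))
    fun p => by
      obtain ⟨C, -, h3⟩ := (h2 ![p.1, p.2]).itd h.pos hJ
      exact ⟨C, fun d k hk => h3 k hk d⟩
  exact ⟨C, hC, fun d k hk i j => h1 (i, j) d k hk⟩

/-! ### gluing -/

theorem glu_out (ha : 0 < a) (hab : a < b) (hy : b ≤ ‖y‖) : glu a b G1 G2 y = G2 y := by
  simp [glu, up_eq_one ha hab hy]

theorem glu_in (ha : 0 < a) (hab : a < b) (hy : ‖y‖ ≤ a) : glu a b G1 G2 y = G1 y := by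
  simp [glu, up_eq_zero ha hab hy]

theorem glu_sm (ha : 0 < a) (hab : a < b)
    (h1 : ‖y‖ ≤ b → ∀ i j, ContDiffAt ℝ ∞ (fun z => G1 z i j) y)
    (h2 : a ≤ ‖y‖ → ∀ i j, ContDiffAt ℝ ∞ (fun z => G2 z i j) y) (i j : Fin 4) :
    ContDiffAt ℝ ∞ (fun z => glu a b G1 G2 z i j) y := by
  rcases lt_or_ge b ‖y‖ with h | h
  · exact (h2 (by linarith) i j).congr_of_eventuallyEq
      ((glu_ev_out ha hab G1 G2 h).mono fun z hz => by simp only [hz])
  rcases lt_or_ge ‖y‖ a with h' | h'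
  · exact (h1 h i j).congr_of_eventuallyEq
      ((glu_ev_in ha hab G1 G2 h').mono fun z hz => by simp only [hz])
  exact (h1 h i j).add ((up_smooth a b).contDiffAt.mul ((h2 h' i j).sub (h1 h i j)))

theorem glu_pos (ha : 0 < a) (hab : a < b) (h1 : ‖y‖ ≤ b → (G1 y).PosDef)
    (h2 : a ≤ ‖y‖ → (G2 y).PosDef) : (glu a b G1 G2 y).PosDef := by
  rcases le_or_gt b ‖y‖ with h | h
  · rw [glu_out ha hab h]; exact h2 (by linarith)
  rcases le_or_gt ‖y‖ a with h' | h'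
  · rw [glu_in ha hab h']; exact h1 h.le
  have t0 : 0 ≤ up a b y := Real.smoothTransition.nonneg _
  have t1 : up a b y ≤ 1 := Real.smoothTransition.le_one _
  have e : glu a b G1 G2 y = (1 - up a b y) • G1 y + up a b y • G2 y := by
    simp only [glu]; module
  rw [e]
  rcases t0.eq_or_lt with t | t
  · simpa [← t] using h1 h.le
  · exact Matrix.PosDef.posSemidef_add ((h1 h.le).posSemidef.smul (sub_nonneg.2 t1))
      ((h2 h'.le).smul t)

/-- pointwise invariance -/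
def IA (γ : Iso) (A A' : Matrix (Fin 4) (Fin 4) ℝ) : Prop :=
  ∀ i j, A i j = ∑ p, ∑ q, A' p q * γ (ee i) p * γ (ee j) q

theorem fderiv_iso (γ : Iso) (x v : E4) : fderiv ℝ γ x v = γ v := by
  have : HasFDerivAt γ (γ.toContinuousLinearEquiv : E4 →L[ℝ] E4) x :=
    γ.toContinuousLinearEquiv.hasFDerivAt
  rw [this.fderiv]; rfl

theorem inv_of_ia {Γ : Subgroup Iso} (h : ∀ γ ∈ Γ, ∀ x, IA γ (G x) (G (γ x))) : Inv Γ G := by
  intro γ hγ x
  funext I
  rw [pullT, AI.evT_matT, bil_apply, fderiv_iso, fderiv_iso]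
  exact h γ hγ x _ _

theorem ia_one (γ : Iso) : IA γ 1 1 := fun i j => by
  rw [← inner_ee_ee, ← γ.inner_map_map, ← inner_ee]
  simp [Matrix.one_apply]

theorem glu_ia (γ : Iso) (ha : 0 < a) (hab : a < b) (h1 : ‖y‖ ≤ b → IA γ (G1 y) (G1 (γ y)))
    (h2 : a ≤ ‖y‖ → IA γ (G2 y) (G2 (γ y))) :
    IA γ (glu a b G1 G2 y) (glu a b G1 G2 (γ y)) := by
  rcases le_or_gt b ‖y‖ with h | h
  · rw [glu_out ha hab h, glu_out ha hab (by simpa using h)]; exact h2 (by linarith)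
  rcases le_or_gt ‖y‖ a with h' | h'
  · rw [glu_in ha hab h', glu_in ha hab (by simpa using h')]; exact h1 h.le
  intro i j
  have e : up a b (γ y) = up a b y := by simp [up]
  simp only [glu, e, Matrix.add_apply, Matrix.smul_apply, Matrix.sub_apply, smul_eq_mul,
    h1 h.le i j, h2 h'.le i j, add_mul, mul_sub, sub_mul, Finset.sum_add_distrib,
    Finset.sum_sub_distrib, Finset.mul_sum, mul_assoc]

/-- the filled and cut metric -/
def cg (G : MetricField 4) (u B : ℝ) : MetricField 4 :=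
  glu B (2 * B) (glu (1 / 4) (1 / 2) flat (rs G u)) flat

theorem rs_sm (hG : IsRiemannianOn G U) (hy : u • y ∈ U) (i j : Fin 4) :
    ContDiffAt ℝ ∞ (fun z => rs G u z i j) y :=
  ContDiffAt.comp (g := fun z => G z i j) (f := fun z => u • z) y
    ((hG.contDiffOn i j).contDiffAt (hG.isOpen.mem_nhds hy)) (by fun_prop)

theorem cg_fl (hB : 1 ≤ B) (hG : IsRiemannianOn G U)
    (hU : ∀ y : E4, 1 / 4 ≤ ‖y‖ → ‖y‖ ≤ 2 * B → u • y ∈ U) : Fl (cg G u B) := by
  refine ⟨⟨isOpen_univ, fun i j y _ => ContDiffAt.contDiffWithinAt ?_, fun y _ => ?_⟩, 2 * B,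
    fun y hy => glu_out (by linarith) (by linarith) hy⟩
  · exact glu_sm (by linarith) (by linarith) (fun h => glu_sm (by norm_num) (by norm_num)
      (fun _ _ _ => contDiffAt_const) fun h' => rs_sm hG (hU y h' h))
      (fun _ _ _ => contDiffAt_const) i j
  · exact glu_pos (by linarith) (by linarith) (fun h => glu_pos (by norm_num) (by norm_num)
      (fun _ => Matrix.PosDef.one) fun h' => hG.posDef _ (hU y h' h)) fun _ => Matrix.PosDef.one

theorem cg_ev (h1 : 1 / 2 < ‖y‖) (h2 : ‖y‖ < B) : cg G u B =ᶠ[𝓝 y] rs G u :=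
  (glu_ev_in (by linarith) (by linarith) _ _ h2).trans (glu_ev_out (by norm_num) (by norm_num) _ _ h1)

theorem gl' (m : ℕ) : ∃ C : ℝ, 0 < C ∧ ∀ (G1 G2 : MetricField 4) (a : ℝ), 0 < a →
    ∀ (y : E4) (s c : ℝ), 0 ≤ s → 0 ≤ c → (‖y‖ ≤ 2 * a → s ≤ 6 * a) →
    (‖y‖ ≤ 2 * a → (∀ i j, ContDiffAt ℝ ∞ (fun z => G1 z i j) y) ∧ JG m G1 y s c) →
    (a ≤ ‖y‖ → (∀ i j, ContDiffAt ℝ ∞ (fun z => G2 z i j) y) ∧ JG m G2 y s c) →
    JG m (glu a (2 * a) G1 G2) y s (C * c) := by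
  obtain ⟨C, hC, h⟩ := gl m 6
  exact ⟨C, hC, fun G1 G2 a ha y s c hs hc h0 h1 h2 => h G1 G2 a (2 * a) ha (by linarith)
    (by linarith) y s c hs hc h0
    (fun i j => (le_or_gt ‖y‖ (2 * a)).imp_left fun h => (h1 h).1 i j)
    (fun i j => (le_or_gt a ‖y‖).imp_left fun h => (h2 h).1 i j)
    ((le_or_gt ‖y‖ (2 * a)).imp_left fun h => (h1 h).2)
    ((le_or_gt a ‖y‖).imp_left fun h => (h2 h).2)⟩

theorem flat_sm (i j : Fin 4) : ContDiffAt ℝ ∞ (fun z => flat z i j) y := contDiffAt_const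

theorem cg_jg (m : ℕ) : ∃ C : ℝ, 0 < C ∧ ∀ (G : MetricField 4) (U : Set E4) (u B : ℝ), 0 < u →
    1 ≤ B → IsRiemannianOn G U → (∀ y : E4, 1 / 4 ≤ ‖y‖ → ‖y‖ ≤ 2 * B → u • y ∈ U) →
    ∀ (y : E4) (c : ℝ), 0 ≤ c → (1 / 4 ≤ ‖y‖ → ‖y‖ ≤ 2 * B → JG m G (u • y) ‖u • y‖ c) →
      JG m (cg G u B) y (‖y‖ + 1) (C * c) := by
  obtain ⟨C, hC, h⟩ := gl' m
  refine ⟨C * (C * 5 ^ m), by positivity, fun G U u B hu hB hG hU y c hc hj => ?_⟩
  have hy := norm_nonneg y
  have hs : 0 ≤ ‖y‖ + 1 := by linarith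
  have hc1 : 0 ≤ 5 ^ m * c := by positivity
  have hc2 : 0 ≤ C * (5 ^ m * c) := by positivity
  have e : C * (C * 5 ^ m) * c = C * (C * (5 ^ m * c)) := by ring
  rw [e]
  refine h (glu (1 / 4) (1 / 2) flat (rs G u)) flat B (by linarith) y _ _ hs hc2
    (fun _ => by linarith) (fun h1 => ⟨glu_sm (by norm_num) (by norm_num) (fun _ => flat_sm)
      fun h' => rs_sm hG (hU y h' h1), ?_⟩) fun _ => ⟨flat_sm, Ad.jg_flat _ _ _ hc2⟩
  rw [show (1 / 2 : ℝ) = 2 * (1 / 4) by norm_num]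
  refine h flat (rs G u) (1 / 4) (by norm_num) y _ _ hs hc1 (fun _ => by linarith)
    (fun _ => ⟨flat_sm, Ad.jg_flat _ _ _ hc1⟩) fun h2 => ⟨rs_sm hG (hU y h2 h1), ?_⟩
  have h3 : JG m (rs G u) y ‖y‖ c := fun k hk i j =>
    Ad.j1_rs (f := dv G i j) hu (by rw [norm_smul, Real.norm_of_nonneg hu.le]) (hj h2 h1 k hk i j)
  exact jg_of_jb fun i j => (jb_of_jg (rs_sm hG (hU y h2 h1)) h3 i j).scale hy hs
    (by norm_num) (by linarith)

end Crest.Agent.N207.Ph.Cm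

end
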