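import Crest.Agent.N207.Ph.Cm

/-!
# Row 207, block PHI (helper33): from covariant bounds to coordinate bounds
-/

set_option autoImplicit false
set_option linter.unusedSectionVars false

open scoped ContDiff Manifold Topology
open Set Filter
open Crest.GeometryTopology.CoordMetric Crest.GeometryTopology.ChartCurvature
  Crest.GeometryTopology.MetricFamily

noncomputable section

namespace Crest.Agent.N207.Ph

open Sk G Cm

variable {M : Type*} [TopologicalSpace M] [ChartedSpace E4 M] [IsManifold 𝓘(ℝ, E4) ∞ M]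
  [CompactSpace M] [T3Space M] [ConnectedSpace M] [MeasurableSpace M] [BorelSpace M]

variable (M) in
theorem Cm.cov_pm : ∃ C : ℝ, 0 < C ∧ ∀ (g : Met 4 M) (N : Nk M) (m1 : ℕ) (η V : ℝ) (Cs : ℕ → ℝ),
    4 ≤ m1 → η ≤ 1 / 200 → N.Top → Good g N m1 η Cs V → ∀ x ∈ shell N.a N.b, ∀ J : ℝ,
    (∀ k ≤ 2, ‖x‖ ^ k * √(g.rc k (N.Ψ x)) ≤ J) →
    ∀ k ≤ 2, ∀ i j, J1 k (fun z => ricci (g.pm N.Ψ) z i j) x ‖x‖ (C * J) := by
  obtain ⟨C, hC, h⟩ := cov_jet
  refine ⟨C, hC, fun g N m1 η V Cs hm hη r hg x hx J hJ => h ⟨g.pm N.Ψ, _, x, ‖x‖, J,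
    Gs.par_riem g r.par, hx, r.a_pos.trans hx.1, U.jg_mono (hg.jet x hx) (by omega) ?_,
    fun k hk => ?_⟩⟩
  · nlinarith [mul_le_mul_of_nonneg_left (wt_le r.a_pos hx) (eta_nonneg r hg)]
  · rw [← r.par.par_rc g k hx]
    exact hJ k hk

variable (M) in
theorem cvS : CVStmt M := by
  obtain ⟨C1, hC1, h1⟩ := cm_wt M
  obtain ⟨C2, hC2, h2⟩ := ric_jg 1
  obtain ⟨C3, hC3, h3⟩ := cov_pm M
  refine ⟨min (1 / (16 * C1)) (1 / 200), C3 + C2, by positivity, by positivity,
    fun g N m1 η V ρ e Cs hm hη r hg ⟨J, J0, J1', J2⟩ => ?_⟩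
  have hη0 := eta_nonneg r.top hg
  have hρ := rho_pos r
  have hb := b_pos r
  have hu := u_pos r
  have hB := one_le_B r
  have huB := uB r
  have h4 := h1 g N m1 η V ρ Cs hm r hg
  have h5 := h3 g N m1 η V Cs hm (hη.trans (min_le_right _ _)) r.top hg
  have e0 : ρ ^ 2 ≤ e := by simpa using J2 0
  have e1 : ∀ n, ρ ^ 2 * ∑ l ∈ Finset.range n, J l ≤ e := fun n => by
    nlinarith [J2 n, sq_nonneg ρ]
  have he : 0 ≤ e := (sq_nonneg ρ).trans e0
  set B := N.b / (16 * (ρ / 64)) with hBd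
  refine ⟨e0, ⟨fun l => (ρ / 64) ^ 2 * (C3 * J l) + C2 / B ^ 2 *
      if (2 : ℝ) ^ l ≤ 2 * B then √(2 / B * 2 ^ l) else 0, fun l => ?_, fun n => ?_,
      fun l y a1 a2 k hk i j => ?_⟩, fun x x1 x2 => ?_⟩
  · have := J0 l
    positivity
  · rw [Finset.sum_add_distrib, ← Finset.mul_sum, ← Finset.mul_sum, ← Finset.mul_sum]
    have b1 := dy_up (β := 2 / B) (X := 2 * B) (by positivity) n
    rw [show 2 / B * (2 * B) = 2 ^ 2 by field_simp, Real.sqrt_sq zero_le_two] at b1
    have b2 : C2 / B ^ 2 * (4 * 2) ≤ C2 / N.b ^ 2 * e := by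
      rw [show C2 / B ^ 2 * (4 * 2) = C2 / N.b ^ 2 * (ρ ^ 2 / 2) by rw [hBd]; field_simp; norm_num]
      gcongr
      linarith
    have b3 : C3 * e ≤ C3 / N.b ^ 2 * e := by
      gcongr
      exact le_div_self hC3.le (by positivity) (pow_le_one₀ hb.le r.b_le)
    have b4 := mul_le_mul_of_nonneg_left b1 (show 0 ≤ C2 / B ^ 2 by positivity)
    have b5 := mul_le_mul_of_nonneg_left (e1 n) hC3.le
    rw [add_div, add_mul]
    nlinarith [mul_nonneg hC3.le he]
  · have b0 : (1 : ℝ) ≤ ‖y‖ := (one_le_pow₀ one_le_two).trans a1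
    have c0 : 0 ≤ (ρ / 64) ^ 2 * (C3 * J l) := by have := J0 l; positivity
    have c1 : 0 ≤ C2 / B ^ 2 * if (2 : ℝ) ^ l ≤ 2 * B then √(2 / B * 2 ^ l) else 0 := by positivity
    rcases lt_or_ge ‖y‖ B with c | c
    · have m0 := mem_sh r y (by linarith) (by linarith)
      have hR := Gs.par_riem g r.top.par
      have c2 := h5 _ m0 (J l) (J1' l _ (by rw [norm_u r, mul_comm]; gcongr)
        (by rw [norm_u r, mul_comm]; gcongr) (by rw [norm_u r]; nlinarith)) k (by omega) i j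
      have c3 := Ad.j1_rs hu (norm_u r y).ge c2
      have c4 : ContDiffAt ℝ ∞ (fun z => ricci (g.pm N.Ψ) ((ρ / 64) • z) i j) y :=
        ContDiffAt.comp (g := fun z => ricci (g.pm N.Ψ) z i j) (f := fun z => (ρ / 64) • z) y
          ((SmT.ricT hR ![i, j]).contDiffAt (hR.isOpen.mem_nhds m0)) (by fun_prop)
      refine le_trans (j1_congr (f := fun z => (ρ / 64) ^ 2 * ricci (g.pm N.Ψ) ((ρ / 64) • z) i j)
        (c := (ρ / 64) ^ 2 * (C3 * J l)) ?_ ?_) (le_add_of_nonneg_right c1)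
      · unfold J1
        rw [U.norm_itd_cmul c4, abs_of_nonneg (sq_nonneg _), mul_assoc]
        exact mul_le_mul_of_nonneg_left c3 (sq_nonneg _)
      · rw [cm_eq]
        refine (ric_ev (cg_ev (by linarith) c) i j).trans ?_
        filter_upwards [(Ad.riem_rs hu hR).isOpen.mem_nhds m0] with z hz
        exact Ad.ricci_rs hu hR hz i j
    rcases le_or_gt ‖y‖ (2 * B) with c' | c'
    · have b1 := h4 y 2 zero_le_two fun d1 d2 => wt_le r.top.a_pos (mem_sh r y d1 d2)
      have b2 : C1 * (η * min 2 2) ≤ 1 / 8 := by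
        have := hη.trans (min_le_left _ _)
        rw [le_div_iff₀ (by positivity)] at this
        rw [min_self]
        linarith
      refine le_trans (h2 _ _ y _ _ (cm_fl g r).riem (mem_univ y) (by linarith) le_rfl
        (jg_anti (U.jg_mono b1 (by norm_num) b2) (norm_nonneg y) (by linarith)) k hk i j)
        (le_add_of_nonneg_of_le c0 ?_)
      rw [if_pos (a1.trans c')]
      have b3 : 1 ≤ √(2 / B * 2 ^ l) := Real.one_le_sqrt.2 (by
        rw [div_mul_eq_mul_div, le_div_iff₀ (by linarith)]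
        rw [pow_succ] at a2
        linarith)
      calc C2 * (1 / 8 / ‖y‖ ^ 2) ≤ C2 * (1 / B ^ 2) := by gcongr; norm_num
        _ = C2 / B ^ 2 * 1 := by ring
        _ ≤ _ := by gcongr
    · refine j1_congr (f := fun _ => 0) ?_ ?_
      · rw [J1, iteratedFDeriv_fun_zero, Pi.zero_apply, norm_zero, zero_mul]
        exact add_nonneg c0 c1
      · rw [cm_eq]
        exact (ric_ev (glu_ev_out (by linarith) (by linarith) _ _ c') i j).trans
          (Eventually.of_forall fun z => Ad.ricci_flat z i j)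
  · obtain ⟨l, l1, l2⟩ := exists_nat_pow_near (x := ‖x‖ / (ρ / 64)) (y := 2)
      ((one_le_div hu).2 x1) one_lt_two
    have b1 := J1' l x ((le_div_iff₀ hu).1 l1) ((div_lt_iff₀ hu).1 l2).le (by linarith [r.le_b])
    have b2 : J l ≤ e / ρ ^ 2 := by
      rw [le_div_iff₀' (by positivity)]
      exact le_trans (mul_le_mul_of_nonneg_left (Finset.single_le_sum (fun i _ => J0 i)
        (Finset.self_mem_range_succ l)) (sq_nonneg ρ)) (e1 (l + 1))
    refine ⟨(Real.sqrt_le_iff.1 (le_trans (by simpa using b1 0 (by norm_num)) b2)).2,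
      fun k hk i j => le_trans (h5 x ⟨by linarith [r.a_le], by linarith [r.le_b]⟩ _ b1 k hk i j) ?_⟩
    rw [mul_div_assoc]
    exact mul_le_mul (by linarith) b2 (J0 l) (by positivity)

end Crest.Agent.N207.Ph

end
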