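import Crest.Agent.N207.Sk.Dyn2
import Crest.Agent.N207.Lg.Defs

/-!
# Row 207, block PHI (helper6): definitions and the Euclidean leaf statements (FROZEN)

All metrics live on the whole of `ℝ⁴`, are flat outside a ball (`Fl`), scale `s y = |y| + 1`.
-/

set_option autoImplicit false
set_option linter.unusedSectionVars false

open scoped ContDiff Manifold Topology
open Set MeasureTheory Filter Metric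
open Crest.GeometryTopology.CoordMetric Crest.GeometryTopology.ChartCurvature
  Crest.GeometryTopology.MetricFamily

noncomputable section

namespace Crest.Agent.N207.Ph

open Sk

/-- linear isometries -/
abbrev Iso : Type := E4 ≃ₗᵢ[ℝ] E4

/-- the flat metric -/
def flat : MetricField 4 := fun _ => 1

/-- smooth metrics on `ℝ⁴`, flat outside a ball -/
structure Fl (G : MetricField 4) : Prop where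
  riem : IsRiemannianOn G univ
  flat : ∃ R : ℝ, ∀ x : E4, R ≤ ‖x‖ → G x = 1

/-- invariance under `Γ` -/
def Inv (Γ : Subgroup Iso) (G : MetricField 4) : Prop :=
  ∀ γ ∈ Γ, ∀ x : E4, matT G x = pullT γ (matT G) x

/-- scale invariant smallness in `Cᵐ` -/
def Sml (m : ℕ) (G : MetricField 4) (δ : ℝ) : Prop := ∀ y : E4, JG m G y (‖y‖ + 1) δ

/-- dyadically summable smallness in `Cᵐ` -/
def DS (m : ℕ) (G : MetricField 4) (δ : ℝ) : Prop :=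
  ∃ ε : ℕ → ℝ, (∀ l, 0 ≤ ε l) ∧ (∀ n, ∑ l ∈ Finset.range n, ε l ≤ δ) ∧
    ∀ (l : ℕ) (y : E4), 2 ^ l ≤ ‖y‖ + 1 → ‖y‖ + 1 ≤ 2 ^ (l + 1) → JG m G y (‖y‖ + 1) (ε l)

/-- scale invariant bounds of all orders -/
def All (Cs : ℕ → ℝ) (G : MetricField 4) : Prop := ∀ y : E4, JAll Cs G y (‖y‖ + 1) 1

/-- the total scalar curvature -/
def EH (G : MetricField 4) : ℝ := ∫ x, √(G x).det * scalarCurv G x

/-- `∫_{c ≤ |x|} |x|² |Ric|²` -/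
def RL (G : MetricField 4) (c : ℝ) : ℝ :=
  ∫ x in {x : E4 | c ≤ ‖x‖}, ‖x‖ ^ 2 * ∑ i, ∑ j, ricci G x i j ^ 2

/-- `∫ |x|² |Ric G₂ - Ric G₁|²` -/
def RD (G1 G2 : MetricField 4) : ℝ :=
  ∫ x : E4, ‖x‖ ^ 2 * ∑ i, ∑ j, (ricci G2 x i j - ricci G1 x i j) ^ 2

/-- `∫ |B|²`, `B` the harmonic gauge 1-form -/
def BL (G : MetricField 4) : ℝ := ∫ x : E4, ∑ j, Lg.gauT flat G x ![j] ^ 2

/-- `∫ |∂ (G₂ - G₁)|²` -/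
def H1 (G1 G2 : MetricField 4) : ℝ :=
  ∫ x : E4, ∑ c, ∑ i, ∑ j, pderiv c (fun y => G2 y i j - G1 y i j) x ^ 2

/-- pull-back of a metric -/
def pbm (ψ : E4 → E4) (G : MetricField 4) : MetricField 4 :=
  fun y => Matrix.of fun i j => pullT ψ (matT G) y ![i, j]

/-- `0` on `|y| ≤ a`, `1` on `b ≤ |y|` (`0 < a < b`) -/
def up (a b : ℝ) (y : E4) : ℝ := Real.smoothTransition ((‖y‖ ^ 2 - a ^ 2) / (b ^ 2 - a ^ 2))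

/-- `G₁` on `|y| ≤ a`, `G₂` on `b ≤ |y|` -/
def glu (a b : ℝ) (G1 G2 : MetricField 4) : MetricField 4 :=
  fun y => G1 y + up a b y • (G2 y - G1 y)

/-- the metric in the units `u` -/
def rs (G : MetricField 4) (u : ℝ) : MetricField 4 := fun y => G (u • y)

/-- a diffeomorphism of `ℝ⁴`, the identity outside a ball, `δ`-close to the identity in `Cᵐ` -/
structure Nid (m : ℕ) (ψ : E4 ≃ₜ E4) (δ : ℝ) : Prop where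
  sm : ContDiff ℝ ∞ ψ
  sm' : ContDiff ℝ ∞ ψ.symm
  out : ∃ R : ℝ, ∀ x : E4, R ≤ ‖x‖ → ψ x = x
  jet : ∀ y : E4, ∀ k ≤ m, J1 k (fun z => ψ z - z) y (‖y‖ + 1) (δ * (‖y‖ + 1))
  zero : ψ 0 = 0

/-- equivariant maps -/
def Eqv (Γ : Subgroup Iso) (ψ : E4 → E4) : Prop := ∀ γ ∈ Γ, ∀ x : E4, ψ (γ x) = γ (ψ x)

/-- (EN) energy estimate in almost harmonic coordinates -/
def ENStmt : Prop :=
  ∃ δ0 C : ℝ, 0 < δ0 ∧ 0 < C ∧ ∀ G1 G2 : MetricField 4, Fl G1 → Fl G2 → Sml 2 G1 δ0 → Sml 2 G2 δ0 →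
    H1 G1 G2 ≤ C * (RD G1 G2 + BL G1 + BL G2)

/-- (QU) second order expansion of the action -/
def QUStmt : Prop :=
  ∃ δ0 C : ℝ, 0 < δ0 ∧ 0 < C ∧ ∀ (G1 G2 : MetricField 4) (c : ℝ), Fl G1 → Fl G2 → Sml 2 G1 δ0 →
    Sml 2 G2 δ0 → EqOn G1 G2 (ball 0 c) → |EH G2 - EH G1| ≤ C * (H1 G1 G2 + RL G1 c)

/-- (VE) propagation of the gauge: `Ric G' = sym ∂V + (1 - up 1 2) Ric G + Z` -/
def VEStmt : Prop :=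
  ∃ δ0 C : ℝ, 0 < δ0 ∧ 0 < C ∧ ∀ (Γ : Subgroup Iso) (G G' : MetricField 4) (V : Tn 4 1)
    (Z : MetricField 4) (κ : ℝ), Grp Γ → Fl G → Fl G' → Sml 2 G δ0 → Sml 2 G' δ0 →
    SmT V univ → (∃ R : ℝ, ∀ x : E4, R ≤ ‖x‖ → V x = 0) → (∀ γ ∈ Γ, ∀ x, V x = pullT γ V x) →
    (∀ x i j, ricci G' x i j = (1 / 2) * (pderiv i (fun y => V y ![j]) x +
      pderiv j (fun y => V y ![i]) x) + (1 - up 1 2 x) * ricci G x i j + Z x i j) →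
    (∀ x : E4, ‖x‖ ≤ 2 → ∀ k ≤ 1, ∀ i j, J1 k (fun y => G' y i j - G y i j) x 1 κ) →
    (∀ x : E4, 1 ≤ ‖x‖ → ‖x‖ ≤ 2 → ∀ i j, |ricci G x i j| ≤ κ) →
    (∫ x : E4, ‖x‖ ^ 2 * ∑ i, ∑ j, Z x i j ^ 2) ≤ κ ^ 2 → RL G' 2 ≤ C * κ ^ 2

/-- (PB) pull-backs by maps close to the identity -/
def PBStmt : Prop :=
  ∃ δ0 C : ℝ, 0 < δ0 ∧ 0 < C ∧ ∀ (ψ : E4 ≃ₜ E4) (G : MetricField 4) (δ : ℝ), 0 ≤ δ → δ ≤ δ0 →
    Nid 3 ψ δ → Fl G → Sml 2 G δ →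
    Fl (pbm ψ G) ∧ Sml 2 (pbm ψ G) (C * δ) ∧ EH (pbm ψ G) = EH G ∧
    (∀ c c' : ℝ, 0 < c' → (∀ x : E4, c ≤ ‖x‖ → c' ≤ ‖ψ x‖) → RL (pbm ψ G) c ≤ C * (1 + 1 / c') ^ 2 * RL G c') ∧
    (∀ Γ : Subgroup Iso, Eqv Γ ψ → Inv Γ G → Inv Γ (pbm ψ G))

/-- (PB) for linear isometries -/
def PBIsoStmt : Prop :=
  ∀ m : ℕ, ∃ C : ℝ, 0 < C ∧ ∀ (A : Iso) (G : MetricField 4), Fl G →
    Fl (pbm A G) ∧ EH (pbm A G) = EH G ∧ (∀ c, RL (pbm A G) c = RL G c) ∧ BL (pbm A G) = BL G ∧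
    (∀ (y : E4) (s c : ℝ), 0 ≤ s → JG m G (A y) s c → JG m (pbm A G) y s (C * c)) ∧
    ∀ δ, DS m G δ → DS m (pbm A G) (C * δ)

/-- (GL) gluing two metrics on the shell `a < |y| < b` -/
def GLStmt : Prop :=
  ∀ (m : ℕ) (Λ : ℝ), ∃ C : ℝ, 0 < C ∧ ∀ (G1 G2 : MetricField 4) (a b : ℝ), 0 < a → a < b →
    b ≤ Λ * (b - a) → ∀ (y : E4) (s c : ℝ), 0 ≤ s → 0 ≤ c → (‖y‖ ≤ b → s ≤ Λ * a) →
    (∀ i j, ContDiffAt ℝ ∞ (fun z => G1 z i j) y ∨ b < ‖y‖) →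
    (∀ i j, ContDiffAt ℝ ∞ (fun z => G2 z i j) y ∨ ‖y‖ < a) →
    (JG m G1 y s c ∨ b < ‖y‖) → (JG m G2 y s c ∨ ‖y‖ < a) → JG m (glu a b G1 G2) y s (C * c)

/-- (PB') all orders -/
def PBAllStmt : Prop :=
  ∀ Cs Cp : ℕ → ℝ, ∃ Cs' : ℕ → ℝ, ∀ (ψ : E4 ≃ₜ E4) (G : MetricField 4), Nid 1 ψ (1 / 10) → Fl G →
    All Cs G → (∀ (y : E4) (k : ℕ), J1 k (fun z => ψ z - z) y (‖y‖ + 1) (Cp k * (‖y‖ + 1))) →
    All Cs' (pbm ψ G)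

/-- (HC) almost harmonic coordinates -/
def HCStmt : Prop :=
  ∃ δ0 C : ℝ, 0 < δ0 ∧ 0 < C ∧ ∀ Cs : ℕ → ℝ, ∃ Cp : ℕ → ℝ, ∀ (Γ : Subgroup Iso) (G : MetricField 4)
    (δ τ : ℝ), Grp Γ → Fl G → Inv Γ G → δ ≤ δ0 → DS 3 G δ → All Cs G → 0 < τ →
    ∃ ψ : E4 ≃ₜ E4, Nid 3 ψ (C * δ) ∧ Eqv Γ ψ ∧ BL (pbm ψ G) ≤ τ ^ 2 ∧
      ∀ (y : E4) (k : ℕ), J1 k (fun z => ψ z - z) y (‖y‖ + 1) (Cp k * (‖y‖ + 1))

/-- (RG) rigidity of the action -/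
def RGStmt : Prop :=
  ∃ δ0 C : ℝ, 0 < δ0 ∧ 0 < C ∧ ∀ (Γ : Subgroup Iso) (G1 G2 : MetricField 4), Grp Γ → Fl G1 →
    Fl G2 → Inv Γ G1 → Inv Γ G2 → DS 3 G1 δ0 → DS 3 G2 δ0 → EqOn G1 G2 (ball 0 2) →
    |EH G1 - EH G2| ≤ C * (RL G1 1 + RL G2 1)

/-- `e` bounds the sum of the `C¹` norms of `Ric` on the dyadic shells above `1` -/
def RicB (G : MetricField 4) (e : ℝ) : Prop :=
  ∃ J : ℕ → ℝ, (∀ l, 0 ≤ J l) ∧ (∀ n, ∑ l ∈ Finset.range n, J l ≤ e) ∧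
    ∀ (l : ℕ) (y : E4), 2 ^ l ≤ ‖y‖ → ‖y‖ ≤ 2 ^ (l + 1) →
      ∀ k ≤ 1, ∀ i j, J1 k (fun z => ricci G z i j) y ‖y‖ (J l)

/-- (EX) the almost Ricci flat extension -/
def EXStmt : Prop :=
  ∃ δ0 C : ℝ, 0 < δ0 ∧ 0 < C ∧ ∀ Cs : ℕ → ℝ, ∃ Cs' : ℕ → ℝ, ∀ (Γ : Subgroup Iso)
    (G : MetricField 4) (δ τ : ℝ), Grp Γ → Fl G → Inv Γ G → δ ≤ δ0 → DS 4 G δ → All Cs G → 0 < τ →
    ∃ G' : MetricField 4, Fl G' ∧ Inv Γ G' ∧ DS 3 G' (C * δ) ∧ All Cs' G' ∧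
      EqOn G' G (ball 0 32) ∧ ∀ e, τ ≤ e → RicB G e → RL G' 1 ≤ (C * e) ^ 2

/-- (INT) interpolation: bounded jets and a small energy give decaying jets -/
def INTStmt : Prop :=
  ∀ Cs : ℕ → ℝ, ∃ Cs' : ℕ → ℝ, (∀ k, 0 ≤ Cs' k) ∧ ∀ (f : E4 → ℝ) (σ : ℝ), 0 < σ → σ ≤ 1 →
    ContDiff ℝ ∞ f → HasCompactSupport f → (∀ (y : E4) (k : ℕ), J1 k f y (‖y‖ + 1) (Cs k)) →
    (∫ x : E4, ∑ c, pderiv c f x ^ 2) ≤ σ ^ 2 →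
    ∀ (y : E4) (k : ℕ), J1 k f y (‖y‖ + 1) (Cs' k * √(σ / (‖y‖ + 1)))

end Crest.Agent.N207.Ph

end
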