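import Crest.Agent.N207.Lg.Fun1
import Crest.Agent.N207.Rad.Crd
import Crest.Agent.N207.GE.Rad

/-!
# Row 207, block PHI (helper41): graded difference calculus for the jet polynomials of `Lg`
-/

set_option autoImplicit false
set_option linter.unusedSectionVars false

open scoped ContDiff Topology
open Set Filter Finset
open Crest.GeometryTopology.CoordMetric Crest.GeometryTopology.ChartCurvature
  Crest.GeometryTopology.MetricFamily

noncomputable section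

namespace Crest.Agent.N207.Ph

open Sk Lg

/-- two weights on a set of data -/
structure Wt (D : Type) where
  t : D → ℝ
  κ : D → ℝ
  t0 : ∀ d, 0 ≤ t d
  κ0 : ∀ d, 0 ≤ κ d

namespace Wt

variable {D : Type} (w : Wt D)

/-- `f, g = O(tᵃ κᵇ)`, `g - f = O(tᵃ κᵇ⁺¹)` -/
def Gr (a b : ℕ) (f g : D → ℝ) : Prop :=
  ∃ C, 0 ≤ C ∧ ∀ d, |f d| ≤ C * (w.t d ^ a * w.κ d ^ b) ∧ |g d| ≤ C * (w.t d ^ a * w.κ d ^ b) ∧
    |g d - f d| ≤ C * (w.t d ^ a * w.κ d ^ (b + 1))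

/-- `Gr` for vectors -/
def Gr1 (a b : ℕ) (f g : D → Fin 4 → ℝ) : Prop := ∀ i, w.Gr a b (fun d => f d i) fun d => g d i
/-- `Gr` for matrices -/
def Gr2 (a b : ℕ) (f g : D → M2 (Fin 4) ℝ) : Prop :=
  ∀ i j, w.Gr a b (fun d => f d i j) fun d => g d i j
/-- `Gr` for 3-arrays -/
def Gr3 (a b : ℕ) (f g : D → M3 (Fin 4) ℝ) : Prop :=
  ∀ i j k, w.Gr a b (fun d => f d i j k) fun d => g d i j k

variable {w} {a b a' b' : ℕ} {f g f' g' : D → ℝ}

theorem mon (w : Wt D) (a b : ℕ) (d : D) : 0 ≤ w.t d ^ a * w.κ d ^ b :=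
  mul_nonneg (pow_nonneg (w.t0 d) _) (pow_nonneg (w.κ0 d) _)

theorem Gr.zero : w.Gr a b (fun _ => 0) fun _ => 0 := ⟨0, le_rfl, fun d => by simp⟩

theorem Gr.add (h : w.Gr a b f g) (h' : w.Gr a b f' g') :
    w.Gr a b (fun d => f d + f' d) fun d => g d + g' d := by
  obtain ⟨C, hC, h⟩ := h
  obtain ⟨C', hC', h'⟩ := h'
  refine ⟨C + C', by positivity, fun d => ?_⟩
  obtain ⟨a1, a2, a3⟩ := h d
  obtain ⟨b1, b2, b3⟩ := h' d
  refine ⟨(abs_add_le _ _).trans (by linarith), (abs_add_le _ _).trans (by linarith), ?_⟩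
  rw [show g d + g' d - (f d + f' d) = (g d - f d) + (g' d - f' d) by ring]
  exact (abs_add_le _ _).trans (by linarith)

theorem Gr.cmul (c : ℝ) (h : w.Gr a b f g) : w.Gr a b (fun d => c * f d) fun d => c * g d := by
  obtain ⟨C, hC, h⟩ := h
  refine ⟨|c| * C, by positivity, fun d => ?_⟩
  obtain ⟨a1, a2, a3⟩ := h d
  rw [← mul_sub]
  simp only [abs_mul, mul_assoc]
  exact ⟨by gcongr, by gcongr, by gcongr⟩

theorem Gr.sub (h : w.Gr a b f g) (h' : w.Gr a b f' g') :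
    w.Gr a b (fun d => f d - f' d) fun d => g d - g' d := by
  simpa [sub_eq_add_neg] using h.add (h'.cmul (-1))

theorem Gr.sum {ι : Type*} (s : Finset ι) {F G : ι → D → ℝ} (h : ∀ i, w.Gr a b (F i) (G i)) :
    w.Gr a b (fun d => ∑ i ∈ s, F i d) fun d => ∑ i ∈ s, G i d := by
  classical
  induction s using Finset.induction_on with
  | empty => simpa using Gr.zero
  | insert i s hi ih => simpa [Finset.sum_insert hi] using (h i).add ih

theorem Gr.mul (h : w.Gr a b f g) (h' : w.Gr a' b' f' g') :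
    w.Gr (a + a') (b + b') (fun d => f d * f' d) fun d => g d * g' d := by
  obtain ⟨C, hC, h⟩ := h
  obtain ⟨C', hC', h'⟩ := h'
  refine ⟨2 * (C * C'), by positivity, fun d => ?_⟩
  obtain ⟨a1, a2, a3⟩ := h d
  obtain ⟨b1, b2, b3⟩ := h' d
  have m := mul_nonneg (mul_nonneg hC hC') (w.mon (a + a') (b + b') d)
  have e : C * (w.t d ^ a * w.κ d ^ b) * (C' * (w.t d ^ a' * w.κ d ^ b')) =
      C * C' * (w.t d ^ (a + a') * w.κ d ^ (b + b')) := by ring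
  refine ⟨(Rad.abs_mul_le a1 b1).trans (by linarith), (Rad.abs_mul_le a2 b2).trans (by linarith), ?_⟩
  rw [show g d * g' d - f d * f' d = (g d - f d) * g' d + f d * (g' d - f' d) by ring]
  refine (abs_add_le _ _).trans ((add_le_add (Rad.abs_mul_le a3 b2) (Rad.abs_mul_le a1 b3)).trans
    (le_of_eq (by ring)))

theorem Gr2.unif {F G : D → M2 (Fin 4) ℝ} (h : w.Gr2 a b F G) :
    ∃ C, 0 ≤ C ∧ ∀ d i j, |G d i j - F d i j| ≤ C * (w.t d ^ a * w.κ d ^ (b + 1)) := by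
  choose C hC h using h
  refine ⟨∑ i, ∑ j, C i j, sum_nonneg fun i _ => sum_nonneg fun j _ => hC i j, fun d i j => ?_⟩
  refine (h i j d).2.2.trans (mul_le_mul_of_nonneg_right ?_ (w.mon _ _ d))
  exact (single_le_sum (f := C i) (fun j _ => hC i j) (mem_univ j)).trans
    (single_le_sum (f := fun i => ∑ j, C i j) (fun i _ => sum_nonneg fun j _ => hC i j) (mem_univ i))

variable {H H' k k' : D → M2 (Fin 4) ℝ} {T T' τ τ' : D → M3 (Fin 4) ℝ} {s s' : D → ℝ}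

theorem Gr3.low (h : w.Gr3 a b T T') : w.Gr3 a b (fun d => low (T d)) fun d => low (T' d) :=
  fun m i j => (((h i j m).add (h j i m)).sub (h m i j)).cmul _

theorem Gr3.chr (hH : w.Gr2 a b H H') (h : w.Gr3 a' b' T T') :
    w.Gr3 (a + a') (b + b') (fun d => chr (H d) (T d)) fun d => chr (H' d) (T' d) :=
  fun k i j => Gr.sum _ fun l => (hH k l).mul (h.low l i j)

theorem Gr.tr2 (hH : w.Gr2 a b H H') (h : w.Gr2 a' b' k k') :
    w.Gr (a + a') (b + b') (fun d => tr2 (H d) (k d)) fun d => tr2 (H' d) (k' d) :=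
  Gr.sum _ fun i => Gr.sum _ fun j => (hH i j).mul (h i j)

theorem Gr2.up (hH : w.Gr2 0 0 H H') (h : w.Gr2 a b k k') :
    w.Gr2 a b (fun d => up (H d) (k d)) fun d => up (H' d) (k' d) := fun i j => by
  have := Gr.sum univ fun x => Gr.sum univ fun y => ((hH i x).mul (h x y)).mul (hH y j)
  simp only [zero_add, add_zero] at this
  exact this

theorem Gr1.gv (hH : w.Gr2 a b H H') (h : w.Gr3 a' b' T T') :
    w.Gr1 (a + a') (b + b') (fun d => gv (H d) (T d)) fun d => gv (H' d) (T' d) := fun j =>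
  (Gr.sum _ fun c => Gr.sum _ fun x => (hH c x).mul (h c x j)).sub
    ((Gr.tr2 hH (k := fun d => T d j) (k' := fun d => T' d j) (h j)).cmul _)

theorem Gr2.cc (h : w.Gr3 a b T T') (h' : w.Gr3 a' b' τ τ') :
    w.Gr2 (a + a') (b + b') (fun d => cc (T d) (τ d)) fun d => cc (T' d) (τ' d) := fun i j =>
  (Gr.sum _ fun k => Gr.sum _ fun l => (h k j l).mul (h' l k i)).sub
    (Gr.sum _ fun k => Gr.sum _ fun l => (h k k l).mul (h' l i j))

theorem Gr2.vG (hs : w.Gr 0 0 s s') (hH : w.Gr2 0 0 H H') (h : w.Gr2 a b k k') :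
    w.Gr2 a b (fun d => vG (s d) (H d) (k d)) fun d => vG (s' d) (H' d) (k' d) := fun i j => by
  have h1 := ((Gr.tr2 hH h).cmul (1 / 2)).mul (hH i j)
  simp only [zero_add, add_zero] at h1
  have := hs.mul (h1.sub (Gr2.up hH h i j))
  simp only [zero_add] at this
  exact this

theorem Gr3.dchr (hH : w.Gr2 0 0 H H') (hT : w.Gr3 a b T T') (hk : w.Gr2 a' b' k k')
    (hτ : w.Gr3 (a' + a) (b' + b) τ τ') :
    w.Gr3 (a' + a) (b' + b) (fun d => dchr (H d) (T d) (k d) (τ d))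
      fun d => dchr (H' d) (T' d) (k' d) (τ' d) := fun x i j => by
  have h1 := Gr3.chr hH hτ x i j
  simp only [zero_add] at h1
  exact h1.sub (Gr3.chr (Gr2.up hH hk) hT x i j)

theorem Gr1.dgv (hH : w.Gr2 0 0 H H') (hT : w.Gr3 a b T T') (hk : w.Gr2 a' b' k k')
    (hτ : w.Gr3 (a' + a) (b' + b) τ τ') :
    w.Gr1 (a' + a) (b' + b) (fun d => dgv (H d) (T d) (k d) (τ d))
      fun d => dgv (H' d) (T' d) (k' d) (τ' d) := fun j => by
  have h1 := Gr1.gv hH hτ j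
  simp only [zero_add] at h1
  exact h1.sub (Gr1.gv (Gr2.up hH hk) hT j)

end Wt

/-- the first order part of the Ricci tensor in the flat gauge -/
def qq (H : M2 (Fin 4) ℝ) (T : M3 (Fin 4) ℝ) : M2 (Fin 4) ℝ := fun i j =>
  qd H T i j - (1 / 2) * (gv H T i * gv H T j)

theorem Wt.Gr2.qq {D : Type} {w : Wt D} {H H' : D → M2 (Fin 4) ℝ} {T T' : D → M3 (Fin 4) ℝ}
    (hH : w.Gr2 0 0 H H') (hT : w.Gr3 1 0 T T') :
    w.Gr2 2 0 (fun d => qq (H d) (T d)) fun d => qq (H' d) (T' d) := fun i j => by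
  have z : w.Gr3 (1 + 1) (0 + 0) (fun _ => 0) fun _ => 0 := fun _ _ _ => Wt.Gr.zero
  have c := Wt.Gr3.chr hH hT
  have dc := fun x => Wt.Gr3.dchr hH hT (k := fun d => T d x) (k' := fun d => T' d x) (hT x) z
  have dg := fun x => Wt.Gr1.dgv hH hT (k := fun d => T d x) (k' := fun d => T' d x) (hT x) z
  have g := (((Wt.Gr1.gv hH hT) i).mul ((Wt.Gr1.gv hH hT) j)).cmul (1 / 2)
  exact ((((((Wt.Gr.sum univ fun x => dc x x i j).sub (Wt.Gr.sum univ fun x => dc j x x i)).sub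
    (Wt.Gr2.cc c c i j)).sub (((dg i j).add (dg j i)).cmul (1 / 2))).add g).sub g)

theorem Wt.Gr.dlag {D : Type} {w : Wt D} {s s' : D → ℝ} {H H' k : D → M2 (Fin 4) ℝ}
    {T T' τ : D → M3 (Fin 4) ℝ} (hs : w.Gr 0 0 s s') (hH : w.Gr2 0 0 H H') (hT : w.Gr3 1 0 T T')
    (hk : w.Gr2 0 1 k k) (hτ : w.Gr3 1 1 τ τ) :
    w.Gr 2 1 (fun d => dlag (s d) (H d) (T d) 0 (k d) (τ d))
      fun d => dlag (s' d) (H' d) (T' d) 0 (k d) (τ d) := by
  have z : w.Gr2 2 0 (fun _ => 0) fun _ => 0 := fun _ _ => Wt.Gr.zero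
  have c := Wt.Gr3.chr hH hT
  have v := Wt.Gr2.vG hs hH hk
  have dc := Wt.Gr3.dchr hH hT hk hτ
  have e1 : w.Gr 2 1 _ _ := Wt.Gr.tr2 hH (Wt.Gr2.cc dc c)
  have e2 : w.Gr 2 1 _ _ := Wt.Gr.tr2 hH (Wt.Gr2.cc c dc)
  exact ((Wt.Gr.tr2 v z).add (Wt.Gr.tr2 v (Wt.Gr2.cc c c))).add (hs.mul (e1.add e2))

/-- two jets and a direction -/
structure Jt where
  s : ℝ
  s' : ℝ
  H : M2 (Fin 4) ℝ
  H' : M2 (Fin 4) ℝ
  k : M2 (Fin 4) ℝ
  p : M3 (Fin 4) ℝ
  p' : M3 (Fin 4) ℝ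
  τ : M3 (Fin 4) ℝ
  t : ℝ
  κ : ℝ
  hs : |s| ≤ 2
  hs' : |s'| ≤ 2
  ds : |s' - s| ≤ 64 * κ
  hH : ∀ a b, |H a b| ≤ 2
  hH' : ∀ a b, |H' a b| ≤ 2
  dH : ∀ a b, |H' a b - H a b| ≤ 64 * κ
  hp : ∀ c a b, |p c a b| ≤ t
  hp' : ∀ c a b, |p' c a b| ≤ t
  dp : ∀ c a b, |p' c a b - p c a b| ≤ t * κ
  hk : ∀ a b, |k a b| ≤ κ
  hτ : ∀ c a b, |τ c a b| ≤ t * κ

/-- the weights of `Jt` -/
def wJ : Wt Jt := ⟨Jt.t, Jt.κ, fun d => (abs_nonneg _).trans (d.hp 0 0 0),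
  fun d => (abs_nonneg _).trans (d.hk 0 0)⟩

theorem wJ_s : wJ.Gr 0 0 Jt.s Jt.s' := ⟨64, by norm_num, fun d =>
  ⟨by simpa using d.hs.trans (by norm_num), by simpa using d.hs'.trans (by norm_num),
    by simpa [wJ] using d.ds⟩⟩

theorem wJ_H : wJ.Gr2 0 0 Jt.H Jt.H' := fun a b => ⟨64, by norm_num, fun d =>
  ⟨by simpa using (d.hH a b).trans (by norm_num), by simpa using (d.hH' a b).trans (by norm_num),
    by simpa [wJ] using d.dH a b⟩⟩

theorem wJ_p : wJ.Gr3 1 0 Jt.p Jt.p' := fun c a b => ⟨1, by norm_num, fun d =>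
  ⟨by simpa [wJ] using d.hp c a b, by simpa [wJ] using d.hp' c a b, by simpa [wJ] using d.dp c a b⟩⟩

theorem wJ_k : wJ.Gr2 0 1 Jt.k Jt.k := fun a b => ⟨1, by norm_num, fun d =>
  ⟨by simpa [wJ] using d.hk a b, by simpa [wJ] using d.hk a b, by simpa using wJ.mon 0 2 d⟩⟩

theorem wJ_τ : wJ.Gr3 1 1 Jt.τ Jt.τ := fun c a b => ⟨1, by norm_num, fun d =>
  ⟨by simpa [wJ] using d.hτ c a b, by simpa [wJ] using d.hτ c a b, by simpa using wJ.mon 1 2 d⟩⟩

theorem qq_lip : ∃ C, 0 ≤ C ∧ ∀ (d : Jt) i j,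
    |qq d.H' d.p' i j - qq d.H d.p i j| ≤ C * (d.t ^ 2 * d.κ) := by
  obtain ⟨C, hC, h⟩ := (Wt.Gr2.qq wJ_H wJ_p).unif
  exact ⟨C, hC, fun d i j => by simpa [wJ] using h d i j⟩

theorem dlag_lip : ∃ C, 0 ≤ C ∧ ∀ d : Jt,
    |dlag d.s' d.H' d.p' 0 d.k d.τ - dlag d.s d.H d.p 0 d.k d.τ| ≤ C * (d.t * d.κ) ^ 2 := by
  obtain ⟨C, hC, h⟩ := Wt.Gr.dlag wJ_s wJ_H wJ_p wJ_k wJ_τ
  exact ⟨C, hC, fun d => by simpa [wJ, mul_pow] using (h d).2.2⟩

/-! ### matrices close to the identity -/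

variable {A B : Matrix (Fin 4) (Fin 4) ℝ}

theorem riem_const (hA : A.PosDef) : IsRiemannianOn (fun _ : E4 => A) univ :=
  ⟨isOpen_univ, fun _ _ => contDiffOn_const, fun _ _ => hA⟩

theorem near_jg {η : ℝ} (h : Near A η) : JG 0 (fun _ : E4 => A) 0 1 η := fun k hk i j => by
  obtain rfl := Nat.le_zero.1 hk
  simpa [J1, dv] using h i j

theorem near_inv_le (hA : A.PosDef) (h : Near A (1 / 100)) (i j : Fin 4) : |A⁻¹ i j| ≤ 2 :=
  Rad.jg_inv_le (riem_const hA) (mem_univ 0) (near_jg h) le_rfl i j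

theorem near_sq (h : Near A (1 / 100)) : |√A.det| ≤ 2 := by
  rw [abs_of_nonneg (Real.sqrt_nonneg _)]
  exact h.sqrt_det_le.trans (by norm_num)

theorem up_le {H k : M2 (Fin 4) ℝ} {κ : ℝ} (hH : ∀ a b, |H a b| ≤ 2) (hk : ∀ a b, |k a b| ≤ κ)
    (i j : Fin 4) : |up H k i j| ≤ 64 * κ :=
  (Rad.sum4_le fun a => Rad.sum4_le fun b =>
    Rad.abs_mul_le (Rad.abs_mul_le (hH i a) (hk a b)) (hH b j)).trans (le_of_eq (by ring))

theorem tr2_le {H k : M2 (Fin 4) ℝ} {c κ : ℝ} (hH : ∀ a b, |H a b| ≤ c) (hk : ∀ a b, |k a b| ≤ κ) :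
    |tr2 H k| ≤ 16 * (c * κ) :=
  (Rad.sum4_le fun a => Rad.sum4_le fun b => Rad.abs_mul_le (hH a b) (hk a b)).trans
    (le_of_eq (by ring))

theorem inv_sub_le (hA : A.PosDef) (hB : B.PosDef) (h : Near A (1 / 100)) (h' : Near B (1 / 100))
    {κ : ℝ} (hk : ∀ a b, |B a b - A a b| ≤ κ) (i j : Fin 4) : |B⁻¹ i j - A⁻¹ i j| ≤ 64 * κ := by
  have e : B⁻¹ - A⁻¹ = -(B⁻¹ * (B - A) * A⁻¹) := by
    rw [Matrix.mul_sub, Matrix.nonsing_inv_mul _ (isUnit_iff_ne_zero.2 hB.det_pos.ne'),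
      Matrix.sub_mul, Matrix.one_mul, Matrix.mul_assoc,
      Matrix.mul_nonsing_inv _ (isUnit_iff_ne_zero.2 hA.det_pos.ne'), Matrix.mul_one, neg_sub]
  rw [← Matrix.sub_apply, e, Matrix.neg_apply, abs_neg]
  simp only [Matrix.mul_apply, sum_mul, Matrix.sub_apply]
  exact (Rad.sum4_le fun a => Rad.sum4_le fun b => Rad.abs_mul_le (Rad.abs_mul_le
    (near_inv_le hB h' i b) (hk b a)) (near_inv_le hA h a j)).trans (le_of_eq (by ring))

theorem posDef_seg (hA : A.PosDef) (hB : B.PosDef) {θ : ℝ} (hθ : θ ∈ Icc (0 : ℝ) 1) :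
    (A + θ • (B - A)).PosDef := by
  have e : A + θ • (B - A) = (1 - θ) • A + θ • B := by
    rw [smul_sub, sub_smul, one_smul]; abel
  rw [e]
  rcases hθ.1.eq_or_lt with rfl | h
  · simpa using hA
  · exact Matrix.PosDef.posSemidef_add (hA.posSemidef.smul (sub_nonneg.2 hθ.2)) (hB.smul h)

theorem seg_abs {x y c θ : ℝ} (hx : |x| ≤ c) (hy : |y| ≤ c) (hθ : θ ∈ Icc (0 : ℝ) 1) :
    |x + θ * (y - x)| ≤ c := by
  obtain ⟨a1, a2⟩ := abs_le.1 hx
  obtain ⟨b1, b2⟩ := abs_le.1 hy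
  exact abs_le.2 ⟨by nlinarith [hθ.1, hθ.2], by nlinarith [hθ.1, hθ.2]⟩

theorem near_seg {η : ℝ} (h : Near A η) (h' : Near B η) {θ : ℝ} (hθ : θ ∈ Icc (0 : ℝ) 1) :
    Near (A + θ • (B - A)) η := fun i j => by
  have := seg_abs (h i j) (h' i j) hθ
  refine le_of_eq_of_le (congrArg _ ?_) this
  simp only [Matrix.add_apply, Matrix.smul_apply, Matrix.sub_apply, smul_eq_mul]; ring

/-- second order Taylor expansion of the `ΓΓ` Lagrangian -/
theorem lag_tay : ∃ C, 0 ≤ C ∧ ∀ (A B : Matrix (Fin 4) (Fin 4) ℝ) (p q : M3 (Fin 4) ℝ) (t κ : ℝ),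
    A.PosDef → B.PosDef → Near A (1 / 100) → Near B (1 / 100) → (∀ c a b, |p c a b| ≤ t) →
    (∀ c a b, |q c a b| ≤ t) → (∀ a b, |B a b - A a b| ≤ κ) →
    (∀ c a b, |q c a b - p c a b| ≤ t * κ) →
    |lag √B.det (fun a b => B⁻¹ a b) q 0 - lag √A.det (fun a b => A⁻¹ a b) p 0 -
      dlag √A.det (fun a b => A⁻¹ a b) p 0 (fun a b => B a b - A a b) (q - p)| ≤ C * (t * κ) ^ 2 := by
  obtain ⟨C, hC, hl⟩ := dlag_lip
  refine ⟨C, hC, fun A B p q t κ hA hB h h' hp hq hk hτ => ?_⟩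
  have hκ : 0 ≤ κ := (abs_nonneg _).trans (hk 0 0)
  have ht : 0 ≤ t := (abs_nonneg _).trans (hp 0 0 0)
  set g : ℝ → Matrix (Fin 4) (Fin 4) ℝ := fun θ => A + θ • (B - A) with hg
  set k : M2 (Fin 4) ℝ := fun a b => B a b - A a b with hkd
  set P : ℝ → M3 (Fin 4) ℝ := fun θ c a b => p c a b + θ * (q c a b - p c a b) with hP
  have ks : Sy2 k := fun a b => by
    have e1 := hA.isHermitian.apply b a
    have e2 := hB.isHermitian.apply b a
    simp only [star_trivial] at e1 e2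
    simp only [hkd, e1, e2]
  have dg : ∀ θ, HD2 (Icc 0 1) θ g k := fun θ a b => by
    simpa [hg, hkd] using (((hasDerivAt_id θ).mul_const (B a b - A a b)).const_add
      (A a b)).hasDerivWithinAt
  have dP : ∀ θ, HD3 (Icc 0 1) θ P (q - p) := fun θ c a b => by
    simpa [hP] using (((hasDerivAt_id θ).mul_const (q c a b - p c a b)).const_add
      (p c a b)).hasDerivWithinAt
  have pd := fun θ (hθ : θ ∈ Icc (0 : ℝ) 1) => posDef_seg hA hB hθ
  have nr := fun θ (hθ : θ ∈ Icc (0 : ℝ) 1) => near_seg h h' hθ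
  have ds := fun θ (hθ : θ ∈ Icc (0 : ℝ) 1) => hd_sqrt_det (dg θ) ks (pd θ hθ).det_pos
  have g0 : g 0 = A := by simp [hg]
  have g1 : g 1 = B := by simp [hg]
  have P0 : P 0 = p := by funext c a b; simp [hP]
  have P1 : P 1 = q := by funext c a b; simp [hP]
  have bs : ∀ θ ∈ Icc (0 : ℝ) 1, |√(g θ).det - √A.det| ≤ 64 * κ := fun θ hθ => by
    have := norm_image_sub_le_of_norm_deriv_le_segment' (C := 64 * κ) ds (fun x hx => by
      have hx' := Ico_subset_Icc_self hx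
      refine (Rad.abs_mul_le (Rad.abs_mul_le (c := 1 / 2) (by norm_num) (near_sq (nr x hx')))
        (tr2_le (near_inv_le (pd x hx') (nr x hx')) hk)).trans (by linarith)) θ hθ
    rw [g0, Real.norm_eq_abs] at this
    exact this.trans (by nlinarith [hθ.2])
  have dl := fun θ (hθ : θ ∈ Icc (0 : ℝ) 1) => (hd_lag (H := fun r a b => (g r)⁻¹ a b) 0 (ds θ hθ)
    (hd_inv (dg θ) (pd θ hθ).det_pos.ne') (dP θ)).fun_sub
      ((hasDerivAt_id θ).mul_const (dlag √A.det (fun a b => A⁻¹ a b) p 0 k (q - p))).hasDerivWithinAt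
  have := norm_image_sub_le_of_norm_deriv_le_segment' (C := C * (t * κ) ^ 2) dl (fun x hx => by
    have hx' := Ico_subset_Icc_self hx
    rw [one_mul]
    refine hl ⟨√A.det, √(g x).det, fun a b => A⁻¹ a b, fun a b => (g x)⁻¹ a b, k, p, P x, q - p,
      t, κ, near_sq h, near_sq (nr x hx'), bs x hx', near_inv_le hA h,
      near_inv_le (pd x hx') (nr x hx'), inv_sub_le hA (pd x hx') h (nr x hx') fun a b => ?_, hp,
      fun c a b => seg_abs (hp c a b) (hq c a b) hx', fun c a b => ?_, hk, hτ⟩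
    · simp only [Matrix.add_apply, Matrix.smul_apply, Matrix.sub_apply, smul_eq_mul,
        add_sub_cancel_left]
      exact (Rad.abs_mul_le (c := 1) (by rw [abs_of_nonneg hx'.1]; exact hx'.2) (hk a b)).trans
        (by linarith)
    · simp only [hP, add_sub_cancel_left]
      exact (Rad.abs_mul_le (c := 1) (by rw [abs_of_nonneg hx'.1]; exact hx'.2) (hτ c a b)).trans
        (by linarith)) 1 ⟨zero_le_one, le_rfl⟩
  simp only [g0, g1, P0, P1, id, one_mul, zero_mul, sub_zero, mul_one, Real.norm_eq_abs] at this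
  refine le_of_eq_of_le (congrArg _ ?_) this
  ring

end Crest.Agent.N207.Ph

end
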