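import Crest.Agent.N207.Ph.Defs
import Crest.Agent.N207.K.Hd4

/-!
# Row 207, block PHI (helper66): Hardy inequalities on the whole of `ℝ⁴`
-/

set_option autoImplicit false
set_option linter.unusedSectionVars false

open scoped ContDiff Topology
open Set MeasureTheory Filter Metric
open Crest.GeometryTopology.CoordMetric

noncomputable section

namespace Crest.Agent.N207.Ph

open Hd

variable {f : E4 → ℝ}

theorem cont_pderiv (hf : ContDiff ℝ 1 f) (i : Fin 4) : Continuous (pderiv i f) :=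
  (hf.continuous_fderiv one_ne_zero).clm_apply continuous_const

theorem cont_g2 (hf : ContDiff ℝ 1 f) : Continuous (g2 f) :=
  continuous_finsetSum _ fun i _ => (cont_pderiv hf i).pow 2

theorem cont_dr (hf : ContDiff ℝ 1 f) : Continuous (dr f) :=
  (hf.continuous_fderiv one_ne_zero).clm_apply continuous_id

theorem sm_pderiv (hf : ContDiff ℝ ∞ f) (i : Fin 4) : ContDiff ℝ ∞ (pderiv i f) :=
  (hf.fderiv_right (m := ∞) le_rfl).clm_apply contDiff_const

theorem pderiv_eq_zero {x : E4} (h : x ∉ tsupport f) (i : Fin 4) : pderiv i f x = 0 := by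
  have : fderiv ℝ f x = 0 := by
    by_contra h0
    exact h (support_fderiv_subset ℝ h0)
  simp [pderiv, this]

/-- continuous functions which vanish off the support of `f` are integrable -/
theorem integrable_of_supp (hc : HasCompactSupport f) {g : E4 → ℝ} (hg : Continuous g)
    (h : ∀ x, x ∉ tsupport f → g x = 0) : Integrable g :=
  hg.integrable_of_hasCompactSupport (HasCompactSupport.intro hc h)

/-- continuous functions which vanish outside a ball are integrable -/
theorem integrable_of_ball (R : ℝ) {g : E4 → ℝ} (hg : Continuous g)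
    (h : ∀ x : E4, R < ‖x‖ → g x = 0) : Integrable g :=
  hg.integrable_of_hasCompactSupport (HasCompactSupport.intro (isCompact_closedBall 0 R)
    fun x hx => h x (by simpa using hx))

theorem hcs_of_ball (R : ℝ) {g : E4 → ℝ} (h : ∀ x : E4, R < ‖x‖ → g x = 0) :
    HasCompactSupport g :=
  HasCompactSupport.intro (isCompact_closedBall 0 R) fun x hx => h x (by simpa using hx)

theorem pderiv_zero_out {R : ℝ} (h : ∀ x : E4, R < ‖x‖ → f x = 0) (i : Fin 4) (x : E4)
    (hx : R < ‖x‖) : pderiv i f x = 0 := by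
  have : f =ᶠ[𝓝 x] fun _ => 0 := by
    filter_upwards [(isOpen_lt continuous_const continuous_norm).mem_nhds hx] with y hy using h y hy
  simp [pderiv, this.fderiv_eq]

theorem g2_zero {x : E4} (h : x ∉ tsupport f) : g2 f x = 0 := by
  simp [g2, pderiv_eq_zero h]

theorem dr_zero {x : E4} (h : x ∉ tsupport f) : dr f x = 0 := by
  simp [dr_eq_sum, pderiv_eq_zero h]

theorem integrable_g2 (hf : ContDiff ℝ 1 f) (hc : HasCompactSupport f) : Integrable (g2 f) :=
  integrable_of_supp hc (cont_g2 hf) fun _ => g2_zero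

theorem euler_glob (hf : ContDiff ℝ 1 f) (hc : HasCompactSupport f) :
    ∫ x, (4 * f x + dr f x) = 0 := by
  have h := int_euler isOpen_univ hc (subset_univ _) hf.contDiffOn
    fun x _ hx => image_eq_zero_of_notMem_tsupport hx
  rwa [setIntegral_eq_integral_of_forall_compl_eq_zero fun x hx => by
    rw [image_eq_zero_of_notMem_tsupport hx, dr_zero hx]; ring] at h

/-- Euler's identity for `φ (|x|²) f²` -/
theorem euler_rad (hf : ContDiff ℝ 1 f) (hc : HasCompactSupport f) {φ φ' : ℝ → ℝ}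
    (h1 : ContDiff ℝ 1 fun x : E4 => φ (‖x‖ ^ 2)) (h2 : ∀ s, 0 ≤ s → HasDerivAt φ (φ' s) s) :
    Integrable (fun x : E4 => (4 * φ (‖x‖ ^ 2) + 2 * ‖x‖ ^ 2 * φ' (‖x‖ ^ 2)) * f x ^ 2 +
      2 * φ (‖x‖ ^ 2) * f x * dr f x) ∧
    ∫ x : E4, ((4 * φ (‖x‖ ^ 2) + 2 * ‖x‖ ^ 2 * φ' (‖x‖ ^ 2)) * f x ^ 2 +
      2 * φ (‖x‖ ^ 2) * f x * dr f x) = 0 := by
  have hF : ContDiff ℝ 1 fun x : E4 => φ (‖x‖ ^ 2) * f x ^ 2 := h1.mul (hf.pow 2)
  have hFc : HasCompactSupport fun x : E4 => φ (‖x‖ ^ 2) * f x ^ 2 :=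
    HasCompactSupport.intro hc fun x hx => by simp [image_eq_zero_of_notMem_tsupport hx]
  have e : (fun x : E4 => (4 * φ (‖x‖ ^ 2) + 2 * ‖x‖ ^ 2 * φ' (‖x‖ ^ 2)) * f x ^ 2 +
      2 * φ (‖x‖ ^ 2) * f x * dr f x) = fun x => 4 * (φ (‖x‖ ^ 2) * f x ^ 2) +
        dr (fun y : E4 => φ (‖y‖ ^ 2) * f y ^ 2) x := by
    funext x
    rw [dr_rad (h2 _ (sq_nonneg _)) (hf.differentiable one_ne_zero x)]
    ring
  rw [e]
  refine ⟨integrable_of_supp hFc ((hF.continuous.const_mul 4).add (cont_dr hF)) fun x hx => ?_,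
    euler_glob hF hFc⟩
  have h0 := image_eq_zero_of_notMem_tsupport hx
  rw [dr_zero hx, h0]; ring

theorem int_le_of {A B E : E4 → ℝ} (iA : Integrable A) (iB : Integrable B) (iE : Integrable E)
    (hE : ∫ x, E x = 0) (h : ∀ x, A x ≤ B x + E x) : ∫ x, A x ≤ ∫ x, B x := by
  have := integral_mono iA (iB.add iE) h
  rwa [integral_add' iB iE, hE, add_zero] at this

theorem sm_nsq {n : WithTop ℕ∞} : ContDiff ℝ n fun x : E4 => ‖x‖ ^ 2 := contDiff_norm_sq ℝ

/-- Hardy's inequality with a regularised weight -/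
theorem hardy_k (hf : ContDiff ℝ 1 f) (hc : HasCompactSupport f) {k : ℝ} (hk : 0 < k) :
    ∫ x : E4, f x ^ 2 / (‖x‖ ^ 2 + k) ≤ ∫ x, g2 f x := by
  have hs : ContDiff ℝ 1 fun x : E4 => (‖x‖ ^ 2 + k)⁻¹ :=
    (sm_nsq.add contDiff_const).inv fun x => by positivity
  obtain ⟨i1, e1⟩ := euler_rad hf hc (φ := fun s => (s + k)⁻¹) (φ' := fun s => -1 / (s + k) ^ 2) hs
    fun s hs => ((hasDerivAt_id s).add_const k).inv (by simp only [id]; positivity)
  have i2 : Integrable fun x : E4 => f x ^ 2 / (‖x‖ ^ 2 + k) :=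
    integrable_of_supp hc ((hf.continuous.pow 2).div ((continuous_norm.pow 2).add continuous_const)
      fun x => by positivity) fun x hx => by simp [image_eq_zero_of_notMem_tsupport hx]
  have i3 := integrable_g2 hf hc
  refine int_le_of i2 i3 i1 e1 fun x => ?_
  have h1 := dr_sq_le f x
  have h2 := g2_nonneg f x
  have hp : 0 < ‖x‖ ^ 2 + k := by positivity
  have e : g2 f x + ((4 * (‖x‖ ^ 2 + k)⁻¹ + 2 * ‖x‖ ^ 2 * (-1 / (‖x‖ ^ 2 + k) ^ 2)) * f x ^ 2 +
      2 * (‖x‖ ^ 2 + k)⁻¹ * f x * dr f x) - f x ^ 2 / (‖x‖ ^ 2 + k) =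
      ((‖x‖ ^ 2 * g2 f x - dr f x ^ 2) + k * g2 f x +
        (f x + dr f x) ^ 2) / (‖x‖ ^ 2 + k) + 2 * k * f x ^ 2 / (‖x‖ ^ 2 + k) ^ 2 := by
    field_simp; ring
  rw [← sub_nonneg, e]
  have := sub_nonneg.2 h1
  positivity

theorem integrable_sq (hf : Continuous f) (hc : HasCompactSupport f) :
    Integrable fun x => f x ^ 2 :=
  integrable_of_supp hc (hf.pow 2) fun x hx => by simp [image_eq_zero_of_notMem_tsupport hx]

theorem integrable_dr_sq (hf : ContDiff ℝ 1 f) (hc : HasCompactSupport f) :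
    Integrable fun x => dr f x ^ 2 :=
  integrable_of_supp hc ((cont_dr hf).pow 2) fun x hx => by simp [dr_zero hx]

theorem integrable_wg2 (hf : ContDiff ℝ 1 f) (hc : HasCompactSupport f) :
    Integrable fun x : E4 => ‖x‖ ^ 2 * g2 f x :=
  integrable_of_supp hc ((continuous_norm.pow 2).mul (cont_g2 hf)) fun x hx => by simp [g2_zero hx]

theorem hardy4 (hf : ContDiff ℝ 1 f) (hc : HasCompactSupport f) :
    4 * ∫ x, f x ^ 2 ≤ ∫ x, dr f x ^ 2 := by
  obtain ⟨i1, e1⟩ := euler_rad hf hc (φ := fun _ => 2) (φ' := fun _ => 0) contDiff_const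
    fun s _ => hasDerivAt_const s _
  have i2 := (integrable_sq hf.continuous hc).const_mul 4
  have i3 := integrable_dr_sq hf hc
  rw [← integral_const_mul]
  refine int_le_of i2 i3 i1 e1 fun x => ?_
  nlinarith [sq_nonneg (dr f x + 2 * f x)]

/-- Hardy's inequality for functions of mean zero on the spheres -/
theorem hardy7 (hf : ContDiff ℝ 1 f) (hc : HasCompactSupport f) (h0 : ∀ r, 0 < r → M0 f r) :
    7 * ∫ x, f x ^ 2 ≤ ∫ x : E4, ‖x‖ ^ 2 * g2 f x := by
  have h4 := hardy4 hf hc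
  have i1 := (integrable_sq hf.continuous hc).const_mul 3
  have i2 := integrable_dr_sq hf hc
  have i3 := integrable_wg2 hf hc
  have h := Crest.Agent.R070.Polar664.integral_polar (volume : Measure E4) ((i3.sub i2).sub i1)
  have key : 0 ≤ ∫ x : E4, (‖x‖ ^ 2 * g2 f x - dr f x ^ 2 - 3 * f x ^ 2) := by
    refine le_of_le_of_eq ?_ h.symm
    refine setIntegral_nonneg measurableSet_Ioi fun r hr => ?_
    have hs : ∀ s : J.S3, r • (s : E4) ∈ (univ : Set E4) := fun _ => mem_univ _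
    have h1 := sub_nonneg.2 (sph_poinc3 isOpen_univ hf.contDiffOn hs (h0 r hr))
    have j1 : Integrable (fun s : J.S3 => ‖r • (s : E4)‖ ^ 2 * g2 f (r • (s : E4)) -
        dr f (r • (s : E4)) ^ 2) J.sg := integrable_sp (U := univ)
      (f := fun x : E4 => ‖x‖ ^ 2 * g2 f x - dr f x ^ 2)
      (((continuous_norm.pow 2).mul (cont_g2 hf)).sub ((cont_dr hf).pow 2)).continuousOn hs
    have j2 : Integrable (fun s : J.S3 => 3 * f (r • (s : E4)) ^ 2) J.sg :=
      (integrable_sp (U := univ) (f := fun x => f x ^ 2) (hf.continuous.pow 2).continuousOn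
        hs).const_mul 3
    rw [← integral_const_mul, ← integral_sub j1 j2] at h1
    have hr' : (0 : ℝ) < r := hr
    exact smul_nonneg (by positivity) h1
  have i4 : Integrable fun x : E4 => ‖x‖ ^ 2 * g2 f x - dr f x ^ 2 := i3.sub i2
  rw [integral_sub i4 i1, integral_sub i3 i2, integral_const_mul] at key
  linarith

end Crest.Agent.N207.Ph

end
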