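import Crest.Agent.N207.Ph.En1
import Crest.Agent.N207.Ph.Kit
import Crest.Agent.N207.Lg.Flat

/-!
# Row 207, block PHI (helper41): integration frame for EN and QU; the theorem `qu`
-/

set_option autoImplicit false
set_option linter.unusedSectionVars false

open scoped ContDiff Topology
open Set Filter Finset MeasureTheory Metric
open Crest.GeometryTopology.CoordMetric Crest.GeometryTopology.ChartCurvature
  Crest.GeometryTopology.MetricFamily

noncomputable section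

namespace Crest.Agent.N207.Ph

open Sk Lg

namespace EQ

/-- a metric which is flat outside the ball of radius `R` -/
structure Fr (R : ℝ) (G : MetricField 4) : Prop where
  riem : IsRiemannianOn G univ
  out : ∀ x : E4, R < ‖x‖ → G =ᶠ[𝓝 x] flat

theorem exists_fr {G1 G2 : MetricField 4} (h1 : Fl G1) (h2 : Fl G2) : ∃ R, Fr R G1 ∧ Fr R G2 := by
  obtain ⟨R1, e1⟩ := h1.flat
  obtain ⟨R2, e2⟩ := h2.flat
  have o := fun (x : E4) (hx : max R1 R2 < ‖x‖) =>
    (isOpen_lt continuous_const continuous_norm).mem_nhds hx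
  refine ⟨max R1 R2, ⟨h1.riem, fun x hx => ?_⟩, ⟨h2.riem, fun x hx => ?_⟩⟩
  · filter_upwards [o x hx] with y hy using e1 y ((le_max_left _ _).trans hy.le)
  · filter_upwards [o x hx] with y hy using e2 y ((le_max_right _ _).trans hy.le)

variable {R : ℝ} {G G1 G2 : MetricField 4}

namespace Fr

theorem c2 (h : Fr R G) (x : E4) : C2 G x := .of_riem h.riem trivial
theorem sm (h : Fr R G) (i j : Fin 4) : ContDiff ℝ ∞ fun x => G x i j :=
  contDiffOn_univ.1 (h.riem.contDiffOn i j)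
theorem c_g (h : Fr R G) (x : E4) : ContDiffAt (F := M2 (Fin 4) ℝ) ℝ 1 G x :=
  (h.c2 x).c_g.of_le one_le_two
theorem c_iv (h : Fr R G) (x : E4) : ContDiffAt ℝ 1 (iv G) x := (h.c2 x).c_iv.of_le one_le_two
theorem c_sq (h : Fr R G) (x : E4) : ContDiffAt ℝ 1 (Lg.sq G) x := (h.c2 x).c_sq.of_le one_le_two
theorem c_jet (h : Fr R G) (x : E4) : ContDiffAt ℝ 1 (jet G) x := (h.c2 x).c_jet
theorem c_ric (h : Fr R G) (i j : Fin 4) : Continuous fun x => ricci G x i j :=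
  (contDiffOn_univ.1 (sm_ricci h.riem i j)).continuous
theorem g_out (h : Fr R G) {x : E4} (hx : R < ‖x‖) : G x = 1 := (h.out x hx).eq_of_nhds
theorem jet_out (h : Fr R G) {x : E4} (hx : R < ‖x‖) : jet G x = 0 :=
  (jet_congr (h.out x hx)).eq_of_nhds.trans (jet_const 1 x)
theorem ric_out (h : Fr R G) {x : E4} (hx : R < ‖x‖) : ricci G x = 0 :=
  (ricci_congr (h.out x hx)).trans (ricci_const 1 x)

theorem int_eh (h : Fr R G) : Integrable fun x => √(G x).det * scalarCurv G x :=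
  integrable_of_ball R (((contDiffOn_univ.1 (sm_sqrt_det h.riem)).continuous).mul
    (contDiffOn_univ.1 (sm_scal h.riem)).continuous) fun x hx => by
      simp [scalarCurv, h.ric_out hx]

end Fr

theorem int_div {F : Fin 4 → E4 → ℝ} (hF : ∀ c, ContDiff ℝ 1 (F c))
    (h0 : ∀ c (x : E4), R < ‖x‖ → F c x = 0) :
    Integrable (fun x => ∑ c, pderiv c (F c) x) ∧ ∫ x, ∑ c, pderiv c (F c) x = 0 := by
  have i := fun c => integrable_of_ball R (cont_pderiv (hF c) c) (pderiv_zero_out (h0 c) c)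
  refine ⟨integrable_finsetSum _ fun c _ => i c, ?_⟩
  rw [integral_finsetSum _ fun c _ => i c]
  exact sum_eq_zero fun c _ => Hd.int_pderiv_glob (hF c) (hcs_of_ball R (h0 c)) c

/-- `|G₂ - G₁|²` -/
def k2 (G1 G2 : MetricField 4) (x : E4) : ℝ := ∑ i, ∑ j, (G2 x i j - G1 x i j) ^ 2
/-- `|∂ (G₂ - G₁)|²` -/
def d2 (G1 G2 : MetricField 4) (x : E4) : ℝ :=
  ∑ c, ∑ i, ∑ j, pderiv c (fun y => G2 y i j - G1 y i j) x ^ 2

theorem k2_nonneg (x : E4) : 0 ≤ k2 G1 G2 x :=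
  sum_nonneg fun _ _ => sum_nonneg fun _ _ => sq_nonneg _
theorem d2_nonneg (x : E4) : 0 ≤ d2 G1 G2 x :=
  sum_nonneg fun _ _ => sum_nonneg fun _ _ => sum_nonneg fun _ _ => sq_nonneg _

theorem k_le (x : E4) (i j : Fin 4) : |G2 x i j - G1 x i j| ≤ √(k2 G1 G2 x) :=
  Real.abs_le_sqrt ((single_le_sum (f := fun j => (G2 x i j - G1 x i j) ^ 2)
    (fun _ _ => sq_nonneg _) (mem_univ j)).trans (single_le_sum
      (f := fun i => ∑ j, (G2 x i j - G1 x i j) ^ 2) (fun _ _ => sum_nonneg fun _ _ => sq_nonneg _)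
      (mem_univ i)))

theorem d_le (x : E4) (c i j : Fin 4) :
    |pderiv c (fun y => G2 y i j - G1 y i j) x| ≤ √(d2 G1 G2 x) :=
  Real.abs_le_sqrt (((single_le_sum (f := fun j => pderiv c (fun y => G2 y i j - G1 y i j) x ^ 2)
    (fun _ _ => sq_nonneg _) (mem_univ j)).trans (single_le_sum
      (f := fun i => ∑ j, pderiv c (fun y => G2 y i j - G1 y i j) x ^ 2)
      (fun _ _ => sum_nonneg fun _ _ => sq_nonneg _) (mem_univ i))).trans (single_le_sum
      (f := fun c => ∑ i, ∑ j, pderiv c (fun y => G2 y i j - G1 y i j) x ^ 2)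
      (fun _ _ => sum_nonneg fun _ _ => sum_nonneg fun _ _ => sq_nonneg _) (mem_univ c)))

section

variable (h1 : Fr R G1) (h2 : Fr R G2)
include h1 h2

theorem k_sm (i j : Fin 4) : ContDiff ℝ 1 fun y => G2 y i j - G1 y i j :=
  ((h2.sm i j).sub (h1.sm i j)).of_le (by simp)

theorem k_out (i j : Fin 4) (x : E4) (hx : R < ‖x‖) : G2 x i j - G1 x i j = 0 := by
  rw [h1.g_out hx, h2.g_out hx, sub_self]

theorem jet_k (x : E4) (c i j : Fin 4) :
    jet G2 x c i j - jet G1 x c i j = pderiv c (fun y => G2 y i j - G1 y i j) x :=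
  (pd_sub c ((h2.c2 x).d i j) ((h1.c2 x).d i j)).symm

theorem d2_eq (x : E4) : d2 G1 G2 x = ∑ i, ∑ j, Hd.g2 (fun y => G2 y i j - G1 y i j) x := by
  simp only [d2, Hd.g2]
  rw [sum_comm]
  exact sum_congr rfl fun i _ => sum_comm

theorem int_d2 : Integrable (d2 G1 G2) := by
  rw [funext (d2_eq h1 h2)]
  exact integrable_finsetSum _ fun i _ => integrable_finsetSum _ fun j _ =>
    integrable_g2 (k_sm h1 h2 i j) (hcs_of_ball R (k_out h1 h2 i j))

theorem hardy_mat {ε : ℝ} (hε : 0 < ε) : Integrable (fun x => k2 G1 G2 x / (‖x‖ ^ 2 + ε)) ∧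
    ∫ x, k2 G1 G2 x / (‖x‖ ^ 2 + ε) ≤ H1 G1 G2 := by
  have i : ∀ i j, Integrable fun x : E4 => (G2 x i j - G1 x i j) ^ 2 / (‖x‖ ^ 2 + ε) := fun i j =>
    integrable_of_ball R (((k_sm h1 h2 i j).continuous.pow 2).div
      ((continuous_norm.pow 2).add continuous_const) fun x => by positivity) fun x hx => by
        simp [k_out h1 h2 i j x hx]
  have j := fun i j => integrable_g2 (k_sm h1 h2 i j) (hcs_of_ball R (k_out h1 h2 i j))
  simp only [k2, sum_div]
  refine ⟨integrable_finsetSum _ fun a _ => integrable_finsetSum _ fun b _ => i a b, ?_⟩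
  change _ ≤ ∫ x, d2 G1 G2 x
  simp only [d2_eq h1 h2]
  rw [integral_finsetSum _ fun a _ => integrable_finsetSum _ fun b _ => i a b,
    integral_finsetSum _ fun a _ => integrable_finsetSum _ fun b _ => j a b]
  refine sum_le_sum fun a _ => ?_
  rw [integral_finsetSum _ fun b _ => i a b, integral_finsetSum _ fun b _ => j a b]
  exact sum_le_sum fun b _ => hardy_k (k_sm h1 h2 a b) (hcs_of_ball R (k_out h1 h2 a b)) hε

theorem master {A E W Q : E4 → ℝ} {α β γ : ℝ} (hα : 0 ≤ α) (iA : Integrable A) (iE : Integrable E)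
    (hE : ∫ x, E x = 0) (iW : Integrable W) (iQ : Integrable Q)
    (iQ' : Integrable fun x => ‖x‖ ^ 2 * Q x)
    (h : ∀ ε, 0 < ε → ε ≤ 1 → ∀ x, A x ≤ α * (k2 G1 G2 x / (‖x‖ ^ 2 + ε)) + β * d2 G1 G2 x +
      γ * ((‖x‖ ^ 2 + ε) * Q x) + W x + E x) :
    ∫ x, A x ≤ (α + β) * H1 G1 G2 + γ * (∫ x, ‖x‖ ^ 2 * Q x) + ∫ x, W x := by
  refine le_of_forall_pos_le_add fun η hη => ?_
  set M := γ * ∫ x, Q x
  set ε := min 1 (η / (|M| + 1))
  have hε : 0 < ε := lt_min one_pos (by positivity)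
  obtain ⟨i1, e1⟩ := hardy_mat h1 h2 hε
  have j1 := i1.const_mul α
  have j2 := (int_d2 h1 h2).const_mul β
  have j3 := iQ'.const_mul γ
  have j4 := iQ.const_mul (γ * ε)
  have := int_le_of iA ((((j1.add j2).add j3).add j4).add iW) iE hE fun x =>
    (h ε hε (min_le_left _ _) x).trans (le_of_eq (by simp only [Pi.add_apply]; ring))
  rw [integral_add' (((j1.add j2).add j3).add j4) iW, integral_add' ((j1.add j2).add j3) j4,
    integral_add' (j1.add j2) j3, integral_add' j1 j2] at this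
  simp only [integral_const_mul] at this
  have e2 : ε * M ≤ η := by
    have a1 : ε * M ≤ ε * (|M| + 1) :=
      mul_le_mul_of_nonneg_left ((le_abs_self M).trans (by linarith)) hε.le
    exact a1.trans ((le_div_iff₀ (by positivity)).1 (min_le_right _ _))
  have e3 := mul_le_mul_of_nonneg_left e1 hα
  have e4 : ∫ x, d2 G1 G2 x = H1 G1 G2 := rfl
  have e5 : γ * ε * ∫ x, Q x = ε * M := by simp only [M]; ring
  rw [e4, e5] at this
  linarith

end

theorem sq_div_le {a ε : ℝ} (x : E4) (ha : 0 ≤ a) (h0 : 0 < ε) (h : ε ≤ 1) :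
    a / (‖x‖ + 1) ^ 2 ≤ a / (‖x‖ ^ 2 + ε) :=
  div_le_div_of_nonneg_left ha (by positivity) (by nlinarith [norm_nonneg x])

theorem young {a b w : ℝ} (c : ℝ) (hc : 0 < c) (hw : 0 < w) :
    a * b ≤ c * (a ^ 2 / w) + (1 / (4 * c)) * (w * b ^ 2) := by
  have : c * (a ^ 2 / w) + (1 / (4 * c)) * (w * b ^ 2) - a * b = (2 * c * a - w * b) ^ 2 / (4 * c * w) := by
    field_simp; ring
  rw [← sub_nonneg, this]; positivity

theorem vG_le {s κ : ℝ} {H k : M2 (Fin 4) ℝ} (hs : |s| ≤ 2) (hH : ∀ a b, |H a b| ≤ 2)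
    (hk : ∀ a b, |k a b| ≤ κ) (i j : Fin 4) : |vG s H k i j| ≤ 192 * κ := by
  have a1 := Rad.abs_mul_le (Rad.abs_mul_le (a := 1 / 2) (c := 1 / 2) (by norm_num) (tr2_le hH hk))
    (hH i j)
  refine (Rad.abs_mul_le hs ((abs_sub _ _).trans (add_le_add a1 (up_le hH hk i j)))).trans
    (le_of_eq (by ring))

/-- the pointwise inequality behind `QU` -/
theorem qu_pt : ∃ C, 0 ≤ C ∧ ∀ (R : ℝ) (G1 G2 : MetricField 4) (c : ℝ), Fr R G1 → Fr R G2 →
    Sml 2 G1 (1 / 100) → Sml 2 G2 (1 / 100) → EqOn G1 G2 (ball 0 c) → ∀ ε, 0 < ε → ε ≤ 1 → ∀ x : E4,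
    |√(G2 x).det * scalarCurv G2 x - √(G1 x).det * scalarCurv G1 x -
      ∑ a, pderiv a (fun z => fluxF flat G2 a z - fluxF flat G1 a z +
        wL (Lg.sq G1 z) (iv G1 z) (jet G1 z) ((G2 - G1) z) a) x| ≤
      C * (k2 G1 G2 x / (‖x‖ ^ 2 + ε)) + C * d2 G1 G2 x + C * ((‖x‖ ^ 2 + ε) *
        {x : E4 | c ≤ ‖x‖}.indicator (fun x => ∑ i, ∑ j, ricci G1 x i j ^ 2) x) := by
  obtain ⟨C, hC, hl⟩ := lag_tay
  refine ⟨2 * C + 3072, by positivity, fun R G1 G2 c h1 h2 s1 s2 he ε h0 hε x => ?_⟩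
  have hb : IsRiemannianOn flat univ := riem_one isOpen_univ
  have hx := mem_univ x
  have hK : ∀ a b, DifferentiableAt ℝ (fun z => (G2 - G1) z a b) x := fun a b =>
    ((h2.c2 x).d a b).fun_sub ((h1.c2 x).d a b)
  have hKs : ∀ᶠ z in 𝓝 x, Sy2 ((G2 - G1) z) := Eventually.of_forall fun z a b => by
    simp only [Pi.sub_apply, Matrix.sub_apply, (h1.c2 z).g_sy a b, (h2.c2 z).g_sy a b]
  have e1 := eh_eq hb h1.riem hx
  have e2 := eh_eq hb h2.riem hx
  have e3 := dlag_eq hb h1.riem hx hK hKs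
  have dF : ∀ {G}, Fr R G → ∀ a, DifferentiableAt ℝ (fluxF flat G a) x := fun {G} h a =>
    dA_ap (dA_flux (h.c2 x).d_sq (h.c2 x).d_iv ((c2_one x).d_TG (h.c2 x))) a
  have dW : ∀ a, DifferentiableAt ℝ
      (fun z => wL (Lg.sq G1 z) (iv G1 z) (jet G1 z) ((G2 - G1) z) a) x := fun a =>
    dA_ap (dA_wL (h1.c2 x).d_sq (h1.c2 x).d_iv (h1.c2 x).d_jet (d_mat hK)) a
  have tg : ∀ K z, TG flat K z = jet K z := TG_const 1
  have rc : ricci flat x = 0 := ricci_const 1 x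
  simp only [lagF, tg, rc, jet_sub (h2.c2 x).d (h1.c2 x).d] at e1 e2 e3
  have e4 : ∀ a, pderiv a (fun z => fluxF flat G2 a z - fluxF flat G1 a z +
      wL (Lg.sq G1 z) (iv G1 z) (jet G1 z) ((G2 - G1) z) a) x = pderiv a (fluxF flat G2 a) x -
        pderiv a (fluxF flat G1 a) x +
        pderiv a (fun z => wL (Lg.sq G1 z) (iv G1 z) (jet G1 z) ((G2 - G1) z) a) x := fun a => by
    rw [pd_add a ((dF h2 a).fun_sub (dF h1 a)) (dW a), pd_sub a (dF h2 a) (dF h1 a)]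
  simp only [e4, sum_add_distrib, sum_sub_distrib]
  set s := ‖x‖ + 1 with hs
  have s0 : 0 < s := by positivity
  set K0 := √(k2 G1 G2 x)
  set K1 := √(d2 G1 G2 x)
  have K00 : 0 ≤ K0 := Real.sqrt_nonneg _
  have K10 : 0 ≤ K1 := Real.sqrt_nonneg _
  have q0 : K0 ^ 2 = k2 G1 G2 x := Real.sq_sqrt (k2_nonneg x)
  have q1 : K1 ^ 2 = d2 G1 G2 x := Real.sq_sqrt (d2_nonneg x)
  have bp : ∀ {G}, Sml 2 G (1 / 100) → ∀ c a b, |jet G x c a b| ≤ 1 / s := fun {G} h c a b =>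
    (Rad.jg_pd (h x) one_le_two s0 c a b).trans (by gcongr; norm_num)
  have et : 1 / s * (K0 + s * K1) = K0 / s + K1 := by field_simp
  have b1 := hl (G1 x) (G2 x) (jet G1 x) (jet G2 x) (1 / s) (K0 + s * K1)
    (h1.riem.posDef x hx) (h2.riem.posDef x hx) (s1 x).near (s2 x).near (bp s1) (bp s2)
    (fun a b => (k_le x a b).trans (le_add_of_nonneg_right (by positivity))) fun c a b => by
      rw [jet_k h1 h2, et]; exact (d_le x c a b).trans (le_add_of_nonneg_left (by positivity))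
  rw [et] at b1
  have b2 : (K0 / s + K1) ^ 2 ≤ 2 * (k2 G1 G2 x / (‖x‖ ^ 2 + ε)) + 2 * d2 G1 G2 x := by
    have := sq_div_le x (k2_nonneg (G1 := G1) (G2 := G2) x) h0 hε
    rw [← q0, ← div_pow] at this
    rw [← q0, ← q1]; nlinarith [sq_nonneg (K0 / s - K1)]
  have w0 : 0 < ‖x‖ ^ 2 + ε := by positivity
  have n1 := div_nonneg (k2_nonneg (G1 := G1) (G2 := G2) x) w0.le
  have n2 := d2_nonneg (G1 := G1) (G2 := G2) x
  have n3 : 0 ≤ (‖x‖ ^ 2 + ε) *
      {x : E4 | c ≤ ‖x‖}.indicator (fun x => ∑ i, ∑ j, ricci G1 x i j ^ 2) x :=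
    mul_nonneg w0.le (indicator_nonneg (fun _ _ => by positivity) x)
  have b3 : |tr2 (vG (Lg.sq G1 x) (iv G1 x) ((G2 - G1) x)) (ricci G1 x)| ≤
      3072 * (k2 G1 G2 x / (‖x‖ ^ 2 + ε)) + 48 * ((‖x‖ ^ 2 + ε) *
        {x : E4 | c ≤ ‖x‖}.indicator (fun x => ∑ i, ∑ j, ricci G1 x i j ^ 2) x) := by
    by_cases hc : c ≤ ‖x‖
    · rw [indicator_of_mem (show x ∈ {x : E4 | c ≤ ‖x‖} from hc)]
      have v := vG_le (k := (G2 - G1) x) (near_sq (s1 x).near)
        (near_inv_le (h1.riem.posDef x hx) (s1 x).near) (k_le x)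
      calc _ ≤ ∑ i, ∑ j, 192 * (1 * (K0 ^ 2 / (‖x‖ ^ 2 + ε)) +
            (1 / (4 * 1)) * ((‖x‖ ^ 2 + ε) * |ricci G1 x i j| ^ 2)) :=
            (abs_sum_le_sum_abs _ _).trans (sum_le_sum fun i _ => (abs_sum_le_sum_abs _ _).trans
              (sum_le_sum fun j _ => (Rad.abs_mul_le (v i j) le_rfl).trans (by
                rw [mul_assoc]
                exact mul_le_mul_of_nonneg_left (young 1 one_pos w0) (by norm_num))))
        _ = _ := by simp only [q0, sq_abs, Fin.sum_univ_four]; ring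
    · have : (G2 - G1) x = 0 := by
        rw [Pi.sub_apply, he (mem_ball_zero_iff.2 (not_le.1 hc)), sub_self]
      have z : vG (Lg.sq G1 x) (iv G1 x) ((G2 - G1) x) = 0 := by
        rw [this]; funext i j; simp [vG, tr2, Lg.up]
      rw [z, tr2_comm, tr2_zero, abs_zero]; positivity
  have e5 : ∀ X Y Z L1 L2 F1 F2 D T W : ℝ, X = L2 + F2 → Y = L1 + F1 → D = T + W →
      |L2 - L1 - D| ≤ Z → |X - Y - (F2 - F1 + W)| ≤ Z + |T| := by
    intro X Y Z L1 L2 F1 F2 D T W a1 a2 a3 a4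
    rw [a1, a2, show L2 + F2 - (L1 + F1) - (F2 - F1 + W) = (L2 - L1 - D) + T by rw [a3]; ring]
    exact (abs_add_le _ _).trans (by linarith)
  refine (e5 _ _ _ _ _ _ _ _ _ _ e2 e1 e3 b1).trans ?_
  have b4 := mul_le_mul_of_nonneg_left b2 hC
  nlinarith [mul_nonneg hC n3]

end EQ

open EQ in
theorem qu : QUStmt := by
  obtain ⟨C, hC, hp⟩ := qu_pt
  refine ⟨1 / 100, 2 * C + 1, by norm_num, by positivity, fun G1 G2 c f1 f2 s1 s2 he => ?_⟩
  obtain ⟨R, h1, h2⟩ := exists_fr f1 f2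
  have cF : ∀ {G}, Fr R G → ∀ a, ContDiff ℝ 1 (fluxF flat G a) := fun {G} h a =>
    contDiff_iff_contDiffAt.2 fun x =>
      contDiffAt_pi.1 (cA_flux (h.c_sq x) (h.c_iv x) ((c2_one x).c_TG (h.c2 x))) a
  have oF : ∀ {G}, Fr R G → ∀ a (x : E4), R < ‖x‖ → fluxF flat G a x = 0 := fun {G} h a x hx => by
    have : TG flat G x = 0 := (TG_const 1 G x).trans (h.jet_out hx)
    simp [fluxF, Lg.flux, this, chr_zero, fl]
  obtain ⟨iE, hE⟩ := int_div (R := R) (F := fun a z => fluxF flat G2 a z - fluxF flat G1 a z +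
      wL (Lg.sq G1 z) (iv G1 z) (jet G1 z) ((G2 - G1) z) a)
    (fun a => ((cF h2 a).sub (cF h1 a)).add (contDiff_iff_contDiffAt.2 fun x => contDiffAt_pi.1
      (cA_wL (h1.c_sq x) (h1.c_iv x) (h1.c_jet x) ((h2.c_g x).sub (h1.c_g x))) a))
    fun a x hx => by simp [oF h1 a x hx, oF h2 a x hx, wL, h1.jet_out hx, chr_zero, fl]
  have ms : MeasurableSet {x : E4 | c ≤ ‖x‖} :=
    (isClosed_le continuous_const continuous_norm).measurableSet
  have cr : Continuous fun x => ∑ i, ∑ j, ricci G1 x i j ^ 2 :=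
    continuous_finsetSum _ fun i _ => continuous_finsetSum _ fun j _ => (h1.c_ric i j).pow 2
  have iQ := (integrable_of_ball R cr fun x hx => by simp [h1.ric_out hx]).indicator ms
  have eQ : (fun x : E4 => ‖x‖ ^ 2 *
      {x : E4 | c ≤ ‖x‖}.indicator (fun x => ∑ i, ∑ j, ricci G1 x i j ^ 2) x) =
      {x : E4 | c ≤ ‖x‖}.indicator fun x => ‖x‖ ^ 2 * ∑ i, ∑ j, ricci G1 x i j ^ 2 := by
    funext x; by_cases hx : x ∈ {x : E4 | c ≤ ‖x‖} <;> simp [hx]
  have iQ' := (integrable_of_ball R ((continuous_norm.pow 2).mul cr) fun x hx => by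
    simp [h1.ric_out hx]).indicator ms
  rw [show ((fun x : E4 => ‖x‖) ^ 2 * fun x => ∑ i, ∑ j, ricci G1 x i j ^ 2) =
    fun x => ‖x‖ ^ 2 * ∑ i, ∑ j, ricci G1 x i j ^ 2 from rfl, ← eQ] at iQ'
  have eR : ∫ x : E4, ‖x‖ ^ 2 *
      {x : E4 | c ≤ ‖x‖}.indicator (fun x => ∑ i, ∑ j, ricci G1 x i j ^ 2) x = RL G1 c := by
    rw [eQ, integral_indicator ms]; rfl
  have iA := h2.int_eh.sub h1.int_eh
  have eA : ∫ x, (√(G2 x).det * scalarCurv G2 x - √(G1 x).det * scalarCurv G1 x) = EH G2 - EH G1 :=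
    integral_sub h2.int_eh h1.int_eh
  have u := master h1 h2 (α := C) (β := C) (γ := C) hC iA iE hE (integrable_zero _ _ _) iQ iQ'
    fun ε h0 hε x => by
      have := (abs_le.1 (hp R G1 G2 c h1 h2 s1 s2 he ε h0 hε x)).2
      simp only [Pi.sub_apply, Pi.zero_apply] at this ⊢
      linarith
  have l := master h1 h2 (α := C) (β := C) (γ := C) hC iA.neg iE.neg
    (by simp only [Pi.neg_apply, integral_neg, hE, neg_zero]) (integrable_zero _ _ _) iQ iQ'
    fun ε h0 hε x => by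
      have := (abs_le.1 (hp R G1 G2 c h1 h2 s1 s2 he ε h0 hε x)).1
      simp only [Pi.sub_apply, Pi.zero_apply, Pi.neg_apply] at this ⊢
      linarith
  simp only [Pi.sub_apply, Pi.neg_apply, Pi.zero_apply, integral_neg, integral_zero, eA, eR] at u l
  have n1 : 0 ≤ H1 G1 G2 := integral_nonneg fun x => d2_nonneg x
  have n2 : 0 ≤ RL G1 c := integral_nonneg fun x => by positivity
  have := mul_nonneg hC n2
  exact abs_le.2 ⟨by nlinarith, by nlinarith⟩

end Crest.Agent.N207.Ph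

end
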