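import Crest.Agent.N207.Ph.En2

/-!
# Row 207, block PHI (helper41): the theorem `en`
-/

set_option autoImplicit false
set_option linter.unusedSectionVars false

open scoped ContDiff Topology
open Set Filter Finset MeasureTheory Metric
open Crest.GeometryTopology.CoordMetric Crest.GeometryTopology.ChartCurvature
  Crest.GeometryTopology.MetricFamily

noncomputable section

namespace Crest.Agent.N207.Ph

open Sk Lg

namespace EQ

theorem tr2_lapJ (k H : M2 (Fin 4) ℝ) (q : M4 (Fin 4) ℝ) :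
    tr2 k (lapJ H q) = ∑ a, ∑ b, H a b * tr2 k (q a b) := by
  simp only [tr2, lapJ, mul_sum]
  perm4 i j a b => (a, b, i, j); ring

theorem en_jet {H H1 k r Q db : M2 (Fin 4) ℝ} {τ dH : M3 (Fin 4) ℝ} {q q1 : M4 (Fin 4) ℝ}
    {b : Fin 4 → ℝ} (hk : Sy2 k) (hr : ∀ i j, r i j = -(1 / 2) * (lapJ H q i j + lapJ (H - H1) q1 i j) +
      Q i j + (1 / 2) * (db i j + db j i)) :
    (1 / 2) * ∑ c, tr2 (τ c) (τ c) + ∑ a, (-(1 / 2) * ∑ c, (dH a a c * tr2 k (τ c) +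
      H a c * (tr2 (τ a) (τ c) + tr2 k (q a c))) + ∑ j, (τ a a j * b j + k a j * db a j)) =
    tr2 k r - (1 / 2) * ∑ a, ∑ c, dH a a c * tr2 k (τ c) -
      (1 / 2) * ∑ a, ∑ c, (H a c - (1 : Matrix (Fin 4) (Fin 4) ℝ) a c) * tr2 (τ a) (τ c) +
      ∑ a, ∑ j, τ a a j * b j + (1 / 2) * ∑ a, ∑ c, (H a c - H1 a c) * tr2 k (q1 a c) - tr2 k Q := by
  have e : r = (-(1 / 2) : ℝ) • (lapJ H q + lapJ (H - H1) q1) + Q +
      (1 / 2 : ℝ) • (db + fun i j => db j i) := by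
    funext i j; simp only [hr, Pi.add_apply, Pi.smul_apply, smul_eq_mul]
  have e2 : tr2 k (fun i j => db j i) = tr2 k db := by
    simp only [tr2]; rw [sum_comm]
    exact sum_congr rfl fun a _ => sum_congr rfl fun b _ => by rw [hk b a]
  have e3 : ∑ a, ∑ j, k a j * db a j = tr2 k db := rfl
  have e4 : ∑ a, ∑ c, (H a c - (1 : Matrix (Fin 4) (Fin 4) ℝ) a c) * tr2 (τ a) (τ c) =
      ∑ a, ∑ c, H a c * tr2 (τ a) (τ c) - ∑ c, tr2 (τ c) (τ c) := by
    simp [sub_mul, sum_sub_distrib, Matrix.one_apply]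
  rw [e, e4]
  simp only [tr2_add, tr2_smul, tr2_lapJ, e2, mul_add, sum_add_distrib, ← mul_sum, e3, Pi.sub_apply]
  ring

/-- the flux of the energy identity -/
def enF (G1 G2 : MetricField 4) (a : Fin 4) (z : E4) : ℝ :=
  -(1 / 2) * ∑ c, iv G2 z a c * tr2 ((G2 - G1) z) (jet (G2 - G1) z c) +
    ∑ j, (G2 - G1) z a j * (gauT flat G2 z ![j] - gauT flat G1 z ![j])

variable {R : ℝ} {G G1 G2 : MetricField 4}

theorem Fr.c_B (h : Fr R G) (j : Fin 4) : ContDiff ℝ 1 fun z => gauT flat G z ![j] := by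
  rw [show (fun z => gauT flat G z ![j]) = fun z => gv (iv G z) (jet G z) j from
    funext fun z => gauT_const 1 G z j]
  exact contDiff_iff_contDiffAt.2 fun x => contDiffAt_pi.1 (cA_gv (h.c_iv x) (h.c_jet x)) j

theorem Fr.B_out (h : Fr R G) (j : Fin 4) {x : E4} (hx : R < ‖x‖) : gauT flat G x ![j] = 0 := by
  rw [show gauT flat G x ![j] = _ from gauT_const 1 G x j, h.jet_out hx, gv_zero]; rfl

theorem Fr.int_B (h : Fr R G) : Integrable fun x => ∑ j, gauT flat G x ![j] ^ 2 :=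
  integrable_of_ball R (continuous_finsetSum _ fun j _ => (h.c_B j).continuous.pow 2) fun x hx => by
    simp [h.B_out _ hx]

section

variable (h1 : Fr R G1) (h2 : Fr R G2)
include h1 h2

theorem jet_K : jet (G2 - G1) = fun z => jet G2 z - jet G1 z :=
  funext fun z => jet_sub (h2.c2 z).d (h1.c2 z).d

theorem c_K (x : E4) : ContDiffAt (F := M2 (Fin 4) ℝ) ℝ 1 (G2 - G1) x := (h2.c_g x).sub (h1.c_g x)

theorem c_jK (x : E4) : ContDiffAt ℝ 1 (jet (G2 - G1)) x := by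
  rw [jet_K h1 h2]; exact (h2.c_jet x).sub (h1.c_jet x)

theorem c_enF (a : Fin 4) : ContDiff ℝ 1 (enF G1 G2 a) := contDiff_iff_contDiffAt.2 fun x => by
  refine (contDiffAt_const.mul (.sum fun c _ =>
    (contDiffAt_pi.1 (contDiffAt_pi.1 (h2.c_iv x) a) c).mul (cA_tr2 (c_K h1 h2 x)
      (contDiffAt_pi.1 (c_jK h1 h2 x) c)))).add (.sum fun j _ =>
    (contDiffAt_pi.1 (contDiffAt_pi.1 (c_K h1 h2 x) a) j).mul
      ((h2.c_B j).contDiffAt.sub (h1.c_B j).contDiffAt))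

theorem pd_enF (a : Fin 4) (x : E4) : pderiv a (enF G1 G2 a) x =
    -(1 / 2) * ∑ c, (pderiv a (fun z => (G2 z)⁻¹ a c) x * tr2 ((G2 - G1) x) (jet (G2 - G1) x c) +
      iv G2 x a c * (tr2 (jet (G2 - G1) x a) (jet (G2 - G1) x c) +
        tr2 ((G2 - G1) x) (jet2 (G2 - G1) x a c))) +
    ∑ j, (jet (G2 - G1) x a a j * (gauT flat G2 x ![j] - gauT flat G1 x ![j]) +
      (G2 - G1) x a j * (pderiv a (fun z => gauT flat G2 z ![j]) x -
        pderiv a (fun z => gauT flat G1 z ![j]) x)) := by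
  have dK := (c_K h1 h2 x).differentiableAt one_ne_zero
  have dJ := (c_jK h1 h2 x).differentiableAt one_ne_zero
  have hk : HD2 univ 0 (fun r => (G2 - G1) (ln x a r)) (jet (G2 - G1) x a) :=
    ln_mat (fun i j => dA_ap2 dK i j) a
  have hτ : ∀ c, HD2 univ 0 (fun r => jet (G2 - G1) (ln x a r) c) (jet2 (G2 - G1) x a c) :=
    fun c i j => pd_line (dA_ap3 dJ c i j) a
  have hH := fun c => pd_line (dA_ap2 (h2.c2 x).d_iv a c) a
  have hB := fun j => (pd_line ((h2.c_B j).differentiable one_ne_zero x) a).fun_sub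
    (pd_line ((h1.c_B j).differentiable one_ne_zero x) a)
  have h := ((HasDerivWithinAt.fun_sum (u := univ) fun c _ =>
    (hH c).fun_mul (hd_tr2 hk (hτ c))).const_mul (-(1 / 2))).fun_add
      (HasDerivWithinAt.fun_sum (u := univ) fun j _ => (hk a j).fun_mul (hB j))
  simp only [ln_zero] at h
  exact pd_eq ((c_enF h1 h2 a).differentiable one_ne_zero x) h

theorem jet2_K (x : E4) : jet2 (G2 - G1) x = jet2 G2 x - jet2 G1 x := by
  funext c d a b
  simp only [jet2, jet_K h1 h2, Pi.sub_apply]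
  exact pd_sub c (dA_ap3 (h2.c2 x).d_jet d a b) (dA_ap3 (h1.c2 x).d_jet d a b)

end

theorem en_num {C δ s K0 K1 u D : ℝ} (hC : 0 ≤ C) (hδ : 0 < δ) (h1 : δ ≤ 1)
    (hδC : δ * (32 * C + 20000) ≤ 1 / 16) (hs : 0 < s) (h0 : 0 ≤ K0) (h2 : 0 ≤ K1)
    (hu : (K0 / s) ^ 2 ≤ u) (hD : K1 ^ 2 = D) :
    (1 / 2) * (4 * (4 * (64 * (δ / s) * (16 * (K0 * K1))))) +
      (1 / 2) * (4 * (4 * (8 * δ * (16 * (K1 * K1))))) +
      (1 / 2) * (4 * (4 * (64 * K0 * (16 * (K0 * (δ / s ^ 2)))))) +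
      16 * (K0 * (C * ((δ / s) ^ 2 * (K0 + s / δ * K1)))) ≤ (1 / 16) * u + (1 / 16) * D := by
  set v := K0 / s with hv
  have v0 : 0 ≤ v := by positivity
  have e : (1 / 2) * (4 * (4 * (64 * (δ / s) * (16 * (K0 * K1))))) +
      (1 / 2) * (4 * (4 * (8 * δ * (16 * (K1 * K1))))) +
      (1 / 2) * (4 * (4 * (64 * K0 * (16 * (K0 * (δ / s ^ 2)))))) +
      16 * (K0 * (C * ((δ / s) ^ 2 * (K0 + s / δ * K1)))) =
      δ * (8192 * (v * K1) + 1024 * K1 ^ 2 + 8192 * v ^ 2 + 16 * C * (δ * v ^ 2 + v * K1)) := by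
    rw [hv]; field_simp; ring
  have a1 : v * K1 ≤ v ^ 2 + K1 ^ 2 := by nlinarith [sq_nonneg (v - K1), mul_nonneg v0 h2]
  have a2 : δ * v ^ 2 ≤ v ^ 2 + K1 ^ 2 := by nlinarith [sq_nonneg v, sq_nonneg K1]
  have a3 : 8192 * (v * K1) + 1024 * K1 ^ 2 + 8192 * v ^ 2 + 16 * C * (δ * v ^ 2 + v * K1) ≤
      (32 * C + 20000) * (v ^ 2 + K1 ^ 2) := by
    nlinarith [mul_le_mul_of_nonneg_left (add_le_add a2 a1) hC, sq_nonneg v, sq_nonneg K1]
  rw [e, ← hD]
  have a4 := mul_le_mul_of_nonneg_left a3 hδ.le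
  have a5 := mul_le_mul_of_nonneg_right hδC (show 0 ≤ v ^ 2 + K1 ^ 2 by positivity)
  nlinarith

/-- the pointwise inequality behind `EN` -/
theorem en_pt : ∃ δ, 0 < δ ∧ ∀ (R : ℝ) (G1 G2 : MetricField 4), Fr R G1 → Fr R G2 →
    Sml 2 G1 δ → Sml 2 G2 δ → ∀ ε, 0 < ε → ε ≤ 1 → ∀ x : E4,
    (1 / 2) * d2 G1 G2 x + ∑ a, pderiv a (enF G1 G2 a) x ≤
      (1 / 8) * (k2 G1 G2 x / (‖x‖ ^ 2 + ε)) + (1 / 8) * d2 G1 G2 x + 4 * ((‖x‖ ^ 2 + ε) *
        ∑ i, ∑ j, (ricci G2 x i j - ricci G1 x i j) ^ 2) +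
      512 * (∑ j, gauT flat G1 x ![j] ^ 2 + ∑ j, gauT flat G2 x ![j] ^ 2) := by
  obtain ⟨C, hC, hq⟩ := qq_lip
  refine ⟨1 / (16 * (32 * C + 20000)), by positivity, fun R G1 G2 h1 h2 s1 s2 ε h0 hε x => ?_⟩
  set δ := 1 / (16 * (32 * C + 20000)) with hδ
  have δ0 : 0 < δ := by positivity
  have δC : δ * (32 * C + 20000) ≤ 1 / 16 := by rw [hδ]; exact le_of_eq (by field_simp)
  have δ1 : δ ≤ 1 / 100 := by nlinarith [mul_nonneg δ0.le hC]
  have hx := mem_univ x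
  set s := ‖x‖ + 1 with hs
  have s0 : 0 < s := by positivity
  have w0 : 0 < ‖x‖ ^ 2 + ε := by positivity
  set K0 := √(k2 G1 G2 x)
  set K1 := √(d2 G1 G2 x)
  have K00 : 0 ≤ K0 := Real.sqrt_nonneg _
  have K10 : 0 ≤ K1 := Real.sqrt_nonneg _
  have q0 : K0 ^ 2 = k2 G1 G2 x := Real.sq_sqrt (k2_nonneg x)
  have q1 : K1 ^ 2 = d2 G1 G2 x := Real.sq_sqrt (d2_nonneg x)
  have ks : Sy2 ((G2 - G1) x) := fun a b => by
    simp only [Pi.sub_apply, Matrix.sub_apply, (h1.c2 x).g_sy a b, (h2.c2 x).g_sy a b]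
  have id := en_jet (H := iv G2 x) (H1 := iv G1 x) (τ := jet (G2 - G1) x)
    (r := fun i j => ricci G2 x i j - ricci G1 x i j)
    (Q := fun i j => qq (iv G2 x) (jet G2 x) i j - qq (iv G1 x) (jet G1 x) i j)
    (db := fun i j => pderiv i (fun z => gauT flat G2 z ![j]) x -
      pderiv i (fun z => gauT flat G1 z ![j]) x)
    (dH := fun c a b => pderiv c (fun z => (G2 z)⁻¹ a b) x) (q := jet2 (G2 - G1) x)
    (q1 := jet2 G1 x) (b := fun j => gauT flat G2 x ![j] - gauT flat G1 x ![j]) ks fun i j => by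
      rw [ricci_one (h2.c2 x), ricci_one (h1.c2 x), jet2_K h1 h2, lapJ_sub, sub_lapJ]
      have gf : ∀ G z j, gauT flat G z ![j] = gv (iv G z) (jet G z) j := gauT_const 1
      simp only [qq, gauT_const, gf, Pi.sub_apply]
      ring
  have ed : ∑ c, tr2 (jet (G2 - G1) x c) (jet (G2 - G1) x c) = d2 G1 G2 x := by
    simp only [tr2, d2, pow_two]; rfl
  simp only [pd_enF h1 h2]
  rw [← ed, id, ed]
  have bk : ∀ a b, |(G2 - G1) x a b| ≤ K0 := k_le x
  have bτ : ∀ c a b, |jet (G2 - G1) x c a b| ≤ K1 := d_le x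
  have n1 := (s1 x).near.mono δ1
  have n2 := (s2 x).near.mono δ1
  have p1 := h1.riem.posDef x hx
  have p2 := h2.riem.posDef x hx
  have t1 := Rad.sum4_le fun a => Rad.sum4_le fun c => Rad.abs_mul_le
    (Rad.jg_pd_inv h2.riem hx (s2 x) δ1 one_le_two s0 a a c) (tr2_le bk (bτ c))
  have t2 := Rad.sum4_le fun a => Rad.sum4_le fun c => Rad.abs_mul_le
    (Rad.jg_inv h2.riem hx (s2 x) δ1 a c) (tr2_le (bτ a) (bτ c))
  have t3 := Rad.sum4_le fun a => Rad.sum4_le fun c => Rad.abs_mul_le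
    (inv_sub_le p1 p2 n1 n2 (k_le x) a c) (tr2_le (k := jet2 G1 x a c) bk
      (Rad.jg_pd2 h1.riem hx (s1 x) le_rfl s0 a c))
  have et : δ / s * (K0 + s / δ * K1) = δ / s * K0 + K1 := by field_simp
  have bτ' : ∀ c a b, |jet (G2 - G1) x c a b| ≤ δ / s * (K0 + s / δ * K1) := fun c a b => by
    rw [et]; exact (bτ c a b).trans (le_add_of_nonneg_left (by positivity))
  have bk' : ∀ a b, |(G2 - G1) x a b| ≤ K0 + s / δ * K1 := fun a b =>
    (bk a b).trans (le_add_of_nonneg_right (by positivity))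
  have t4 := tr2_le bk (hq ⟨0, 0, iv G1 x, iv G2 x, (G2 - G1) x, jet G1 x, jet G2 x,
    jet (G2 - G1) x, δ / s, K0 + s / δ * K1, by norm_num, by norm_num, by
      rw [sub_self, abs_zero]; positivity, near_inv_le p1 n1, near_inv_le p2 n2,
    inv_sub_le p1 p2 n1 n2 bk', Rad.jg_pd (s1 x) one_le_two s0, Rad.jg_pd (s2 x) one_le_two s0,
    fun c a b => by simpa only [jet_K h1 h2, Pi.sub_apply] using bτ' c a b, bk', bτ'⟩)
  have t5 : tr2 ((G2 - G1) x) (fun i j => ricci G2 x i j - ricci G1 x i j) ≤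
      (1 / 16) * (k2 G1 G2 x / (‖x‖ ^ 2 + ε)) +
        4 * ((‖x‖ ^ 2 + ε) * ∑ i, ∑ j, (ricci G2 x i j - ricci G1 x i j) ^ 2) := by
    refine (sum_le_sum fun i _ => sum_le_sum fun j _ =>
      young (1 / 16) (by norm_num) w0).trans (le_of_eq ?_)
    simp only [k2, sum_add_distrib, ← mul_sum, ← sum_div, Pi.sub_apply, Matrix.sub_apply]
    norm_num
  have t6 : ∑ a, ∑ j, jet (G2 - G1) x a a j * (gauT flat G2 x ![j] - gauT flat G1 x ![j]) ≤
      (1 / 16) * d2 G1 G2 x +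
        512 * (∑ j, gauT flat G1 x ![j] ^ 2 + ∑ j, gauT flat G2 x ![j] ^ 2) := by
    calc _ ≤ ∑ _a : Fin 4, ∑ j, ((1 / 256) * K1 ^ 2 +
          128 * (gauT flat G1 x ![j] ^ 2 + gauT flat G2 x ![j] ^ 2)) :=
          sum_le_sum fun a _ => sum_le_sum fun j _ => by
            have := sq_le_sq' (abs_le.1 (bτ a a j)).1 (abs_le.1 (bτ a a j)).2
            nlinarith [sq_nonneg (jet (G2 - G1) x a a j / 16 -
              8 * (gauT flat G2 x ![j] - gauT flat G1 x ![j])),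
              sq_nonneg (gauT flat G2 x ![j] + gauT flat G1 x ![j])]
      _ = _ := by simp only [q1, Fin.sum_univ_four]; ring
  have t7 := en_num hC δ0 (δ1.trans (by norm_num)) δC s0 K00 K10
    (u := k2 G1 G2 x / (‖x‖ ^ 2 + ε)) (by
      rw [div_pow, q0]; exact sq_div_le x (k2_nonneg x) h0 hε) q1
  have a1 := (abs_le.1 t1).1
  have a2 := (abs_le.1 t2).1
  have a3 := (abs_le.1 t3).2
  have a4 := (abs_le.1 t4).1
  simp only [iv] at a4 ⊢
  linarith

end EQ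

open EQ in
theorem en : ENStmt := by
  obtain ⟨δ, hδ, hp⟩ := en_pt
  refine ⟨δ, 2048, hδ, by norm_num, fun G1 G2 f1 f2 s1 s2 => ?_⟩
  obtain ⟨R, h1, h2⟩ := exists_fr f1 f2
  obtain ⟨iE, hE⟩ := int_div (R := R) (c_enF h1 h2) fun a x hx => by
    have : (G2 - G1) x = 0 := by rw [Pi.sub_apply, h1.g_out hx, h2.g_out hx, sub_self]
    simp [enF, this, tr2]
  have cr : Continuous fun x => ∑ i, ∑ j, (ricci G2 x i j - ricci G1 x i j) ^ 2 :=
    continuous_finsetSum _ fun i _ => continuous_finsetSum _ fun j _ =>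
      ((h2.c_ric i j).sub (h1.c_ric i j)).pow 2
  have iQ := integrable_of_ball R cr fun x hx => by simp [h1.ric_out hx, h2.ric_out hx]
  have iQ' : Integrable fun x : E4 => ‖x‖ ^ 2 * ∑ i, ∑ j, (ricci G2 x i j - ricci G1 x i j) ^ 2 :=
    integrable_of_ball R ((continuous_norm.pow 2).mul cr) fun x hx => by
      simp [h1.ric_out hx, h2.ric_out hx]
  have u := master h1 h2 (α := 1 / 8) (β := 1 / 8) (γ := 4) (by norm_num)
    ((int_d2 h1 h2).const_mul (1 / 2)) iE.neg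
    (by simp only [Pi.neg_apply, integral_neg, hE, neg_zero])
    ((h1.int_B.add h2.int_B).const_mul 512) iQ iQ' fun ε h0 hε x => by
      have := hp R G1 G2 h1 h2 s1 s2 ε h0 hε x
      simp only [Pi.neg_apply, Pi.add_apply]
      linarith
  rw [integral_const_mul, integral_const_mul, integral_add' h1.int_B h2.int_B] at u
  change 1 / 2 * H1 G1 G2 ≤ _ + 4 * RD G1 G2 + 512 * (BL G1 + BL G2) at u
  have n2 : 0 ≤ RD G1 G2 := integral_nonneg fun x => by positivity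
  linarith

end Crest.Agent.N207.Ph

end
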