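import Crest.Agent.N207.Ph.ExD
import Crest.Agent.N207.Ph.Pb0

/-!
# Row 207, block PHI (helper49): naturality under linear isometries
-/

set_option autoImplicit false

open scoped ContDiff Topology
open Set Filter
open Crest.GeometryTopology.CoordMetric
open Crest.Agent.R202.Tens

noncomputable section

namespace Crest.Agent.N207.Ph

open Sk G

theorem chr_flat : christoffel flat = fun _ _ _ _ => 0 := by
  funext y k a b
  simp [christoffel, flat, pderiv]

theorem cov_flat {k : ℕ} (T : Tn 4 k) :
    cov flat T = fun y J => pderiv (J 0) (fun z => T z (Fin.tail J)) y := by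
  funext y J
  simp [cov, chr_flat]

theorem symd_eq (V : Tn 4 1) (y : E4) (i j : Fin 4) :
    symd V y i j = cov flat V y ![i, j] + cov flat V y ![j, i] := by
  rw [cov_flat]; rfl

theorem symd_pull (A : Iso) {V : Tn 4 1} (hV : SmT V univ) :
    symd (pullT A V) = pbm A (symd V) := by
  funext y
  ext i j
  rw [symd_eq, AI.cov_pullT (pull_flat A) (mem_univ y)
    (AI.smT_diff isOpen_univ hV (mem_univ _)), pbm_apply, pullT, pullT, AI.evT_two, AI.evT_two]
  simp only [symd_eq, add_mul, Finset.sum_add_distrib]
  congr 1
  · exact Finset.sum_congr rfl fun a _ => Finset.sum_congr rfl fun b _ => by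
      simp only [Matrix.cons_val_zero, Matrix.cons_val_one]; ring
  · rw [Finset.sum_comm]
    exact Finset.sum_congr rfl fun a _ => Finset.sum_congr rfl fun b _ => by
      simp only [Matrix.cons_val_zero, Matrix.cons_val_one]; ring

theorem lapT_flat {k : ℕ} (T : Tn 4 k) (y : E4) (I : Fin k → Fin 4) :
    lapT flat T y I = R240.Fr.lap (fun z => T z I) y := by
  simp only [lapT, trT, cov_flat, flat, inv_one, Matrix.one_apply, ite_mul, one_mul, zero_mul,
    Finset.sum_ite_eq, Finset.mem_univ, if_true, Fin.cons_zero, Fin.tail_cons]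
  rfl

theorem ricci_pbm {ψ : E4 → E4} {G : MetricField 4} (p : Pull (pbm ψ G) G ψ univ univ) :
    ricci (pbm ψ G) = pbm ψ (ricci G) := by
  funext y i j
  exact congrFun (AI.ricT_pull p (mem_univ y)) ![i, j]

theorem eqv : EQVStmt := fun A => by
  refine ⟨fun G hG => ?_, fun V hV => symd_pull A hV, fun K hK y i j => ?_⟩
  · have p := pull_pbm A.contDiff (inj_iso A) hG
    exact ⟨p.riem', fun y => gauT_pull p (pull_flat A) (mem_univ y), ricci_pbm p⟩
  · have h := congrFun (AI.lapT_pullT (pull_flat A) (mem_univ y) (T := matT K)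
      fun I => (hK _ _).contDiffOn) ![i, j]
    rw [lapT_flat, show lapT flat (matT K) = matT fun z => Matrix.of fun a b =>
      R240.Fr.lap (fun w => K w a b) z from funext fun z => funext fun I => lapT_flat _ z I] at h
    exact h

end Crest.Agent.N207.Ph

end
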