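import Crest.Agent.N207.Ph.NwDefs

/-!
# Row 207, block PHI (helper6): the two halves of `EX` (FROZEN)
-/

set_option autoImplicit false

open scoped ContDiff Topology
open Set Metric
open Crest.GeometryTopology.CoordMetric

noncomputable section

namespace Crest.Agent.N207.Ph

open Sk

/-- the gauge 1-form `B (G - k) - B G - U` -/
def Vg (G k : MetricField 4) (U : Tn 4 1) : Tn 4 1 := fun y I =>
  Lg.gauT flat (fun z => G z - k z) y I - Lg.gauT flat G y I - U y I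

/-- a solution of the gauged equation on `2 (|y| + 1) ≤ 2ⁿ` -/
structure Sol (Γ : Subgroup Iso) (G : MetricField 4) (n : ℕ) (k : MetricField 4) (U : Tn 4 1)
    (ε : ℕ → ℝ) : Prop where
  sm : ∀ i j, ContDiff ℝ ∞ fun y => k y i j
  sy : ∀ y, (k y).IsSymm
  inv : Inv Γ k
  usm : SmT U univ
  uout : ∀ x : E4, 2 ^ n ≤ ‖x‖ → U x = 0
  uinv : ∀ γ ∈ Γ, ∀ x, U x = pullT γ U x
  eqn : ∀ y : E4, 2 * (‖y‖ + 1) ≤ 2 ^ n → ∀ i j, ricci (fun z => G z - k z) y i j =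
    (1 / 2) * symd (Vg G k U) y i j + (1 - up 1 2 y) * ricci G y i j
  jet : ∀ (l : ℕ) (y : E4), 2 ^ l ≤ ‖y‖ + 1 → ‖y‖ + 1 ≤ 2 ^ (l + 1) →
    (∀ m ≤ 3, ∀ i j, J1 m (fun z => k z i j) y (‖y‖ + 1) (ε l)) ∧
    ∀ i j, |symd U y i j| ≤ ε l / 4 ^ l

/-- (EXA) the Picard iteration -/
def EXAStmt : Prop :=
  ∃ δ0 C : ℝ, 0 < δ0 ∧ 0 < C ∧ ∀ Cs : ℕ → ℝ, ∃ Cs' : ℕ → ℝ, ∀ (Γ : Subgroup Iso)
    (G : MetricField 4) (δ : ℝ), Fl G → Inv Γ G → δ ≤ δ0 → DS 4 G δ → All Cs G →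
    ∃ (ε : ℕ → ℝ) (A : ℝ) (n0 : ℕ), (∀ l, 0 ≤ ε l) ∧ (∀ n, ∑ l ∈ Finset.range n, ε l ≤ C * δ) ∧
      (∀ l, ε l ≤ A / 3 ^ l) ∧ ∀ n, n0 ≤ n → ∃ (k : MetricField 4) (U : Tn 4 1), Sol Γ G n k U ε ∧
        (∀ (y : E4) (m : ℕ) (i j : Fin 4), J1 m (fun z => k z i j) y (‖y‖ + 1) (Cs' m)) ∧
        ∀ e, RicB G e → ∀ y : E4, ‖y‖ ≤ 64 → ∀ m ≤ 2, ∀ i j, J1 m (fun z => k z i j) y 1 (C * e)

/-- (EXB) cutting, the gauge estimate, gluing -/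
def EXBStmt : Prop := EXAStmt → VEStmt → GLStmt → EXStmt

/-- (EQV) naturality of the gauge 1-form and of `symd` under linear isometries -/
def EQVStmt : Prop :=
  ∀ (A : Iso), (∀ G : MetricField 4, IsRiemannianOn G univ → IsRiemannianOn (pbm A G) univ ∧
      (∀ y, Lg.gauT flat (pbm A G) y = pullT A (Lg.gauT flat G) y) ∧
      ricci (pbm A G) = pbm A (ricci G)) ∧
    (∀ V : Tn 4 1, SmT V univ → symd (pullT A V) = pbm A (symd V)) ∧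
    ∀ K : MetricField 4, (∀ i j, ContDiff ℝ ∞ fun y => K y i j) → ∀ y i j,
      R240.Fr.lap (fun z => pbm A K z i j) y =
        pbm A (fun z => Matrix.of fun a b => R240.Fr.lap (fun w => K w a b) z) y i j

end Crest.Agent.N207.Ph

end
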