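import Crest.Agent.N207.Ph.Ey2

/-!
# Row 207, block PHI (helper11): the source of the Picard iteration, estimates
-/

set_option autoImplicit false
set_option linter.unusedSectionVars false

open scoped ContDiff Topology
open Set Filter Metric
open Crest.GeometryTopology.CoordMetric

noncomputable section

namespace Crest.Agent.N207.Ph.Ey

open Crest.Agent.NLib.Ell Crest.Agent.N207.Lg Crest.Agent.N207.G Sk Hc Ez
open Crest.Agent.R240.Fr (lap)
open Crest.Agent.R238 (Ell)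

variable {G k : MetricField 4} {χ : E4 → ℝ} {K δ : ℝ} {ε C : ℕ → ℝ} {n : ℕ}

/-- the standing hypotheses -/
structure Hy (K : ℝ) (G : MetricField 4) (ε : ℕ → ℝ) : Prop where
  K0 : 0 ≤ K
  riem : IsRiemannianOn G univ
  nn : ∀ l, 0 ≤ ε l
  le : ∀ l, (6 + K) * ε l ≤ 1 / 100
  ck : ∀ i j, WD 3 (fun l => 6 * ε l) (dv G i j)

theorem dv_sm (hG : IsRiemannianOn G univ) (i j : Fin 4) : ContDiff ℝ ∞ (dv G i j) :=
  (sm_of hG i j).sub contDiff_const

theorem hy_of (hK : 0 ≤ K) (hG : IsRiemannianOn G univ) (hε : Env ε δ)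
    (hδ : δ ≤ 1 / (100 * (6 + K))) (hJ : ∀ (l : ℕ) (y : E4), 2 ^ l ≤ ‖y‖ + 1 →
      ‖y‖ + 1 ≤ 2 ^ (l + 1) → JG 4 G y (‖y‖ + 1) (ε l)) : Hy K G ε := by
  refine ⟨hK, hG, hε.nn, fun l => ?_, fun i j l y h1 h2 => ?_⟩
  · have h1 : ε l ≤ 1 / (100 * (6 + K)) := ((Finset.single_le_sum (fun i _ => hε.nn i)
      (Finset.self_mem_range_succ l)).trans (hε.sum _)).trans hδ
    rw [le_div_iff₀ (by positivity)] at h1
    linarith
  · refine (ck_of_jb (c := 3 * ε l) fun Y hY => ?_).mono (le_of_eq (by ring))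
    obtain ⟨i', h3, h4, h5, h6⟩ := exists_lv_cl hY h1 h2
    exact ⟨(dv_sm hG i j).contDiffAt, fun m hm => (hJ i' _ h3 h4 m hm i j).trans (hε.nb l i' h5 h6)⟩

theorem dv_sub (G k : MetricField 4) (i j : Fin 4) :
    dv (fun z => G z - k z) i j = fun x => dv G i j x - k x i j := funext fun x => by
  simp only [dv, Matrix.sub_apply]; ring

theorem Hy.sub (h : Hy K G ε) (hk : Ad ε K k) (i j : Fin 4) :
    WD 3 (fun l => (6 + K) * ε l) (dv (fun z => G z - k z) i j) := fun l y h1 h2 => by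
  rw [dv_sub]
  exact ((h.ck i j l y h1 h2).sub (hk.wd i j l y h1 h2)).mono (le_of_eq (by ring))

theorem Hy.nr (h : Hy K G ε) (hk : Ad ε K k) : Nr fun z => G z - k z := fun x => by
  obtain ⟨l, h1, h2⟩ := exists_shell x
  refine ⟨fun a b => ?_, fun a b => (h.sub hk a b l x h1 h2).bdd.trans (h.le l)⟩
  simp only [Matrix.sub_apply, g_sy h.riem (mem_univ x) a b, (hk.sy x).apply a b]

theorem Hy.six (h : Hy K G ε) (l : ℕ) : 6 * ε l ≤ 1 / 100 :=
  (mul_le_mul_of_nonneg_right (le_add_of_nonneg_right h.K0) (h.nn l)).trans (h.le l)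

theorem Hy.nr0 (h : Hy K G ε) : Nr G := fun x => by
  obtain ⟨l, h1, h2⟩ := exists_shell x
  exact ⟨g_sy h.riem (mem_univ x), fun a b => (h.ck a b l x h1 h2).bdd.trans (h.six l)⟩

theorem Hy.riem' (h : Hy K G ε) (hk : Ad ε K k) (hs : SmM k) :
    IsRiemannianOn (fun z => G z - k z) univ :=
  (h.nr hk).riem fun a b => (sm_of h.riem a b).sub (hs a b)

theorem c2_of (hG : IsRiemannianOn G univ) (i j : Fin 4) : ContDiff ℝ 2 fun y => G y i j :=
  (sm_of hG i j).of_le (kle 2)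

theorem div_sq {a s : ℝ} {l : ℕ} (ha : 0 ≤ a) (h : 2 ^ l ≤ s) : a / s ^ 2 ≤ a / 4 ^ l := by
  rw [show (4 : ℝ) ^ l = (2 ^ l) ^ 2 by rw [← pow_mul, mul_comm, pow_mul]; norm_num]
  gcongr

theorem ss_zero (χ : E4 → ℝ) (G : MetricField 4) (i j : Fin 4) : (fun x => SS χ G 0 x i j) =
    fun x => χ x * (-2 * (up 1 2 x * ricci G x i j)) := funext fun x => by
  simp [SS]

theorem zero_est (hC : ∀ k, 0 < C k) (hu : ∀ k y, CK k (C k) (up 1 2) y) : ∃ c : ℝ, 0 < c ∧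
    ∀ (K : ℝ) (G : MetricField 4) (ε : ℕ → ℝ) (n : ℕ) (χ : E4 → ℝ), Hy K G ε → Chi C n χ →
      WM 1 (fun l => c * ε l / 4 ^ l) (SS χ G 0) := by
  obtain ⟨R, hR, h⟩ := ric_ck 1 1
  have h1 := hC 1
  refine ⟨192 * C 1 ^ 2 * R, by positivity, fun K G ε n χ hG hχ i j l y h2 h3 => ?_⟩
  have h4 := hG.nn l
  rw [ss_zero]
  refine ((hχ.ck 1 y).mul (((hu 1 y).mul (h G y _ ((hG.six l).trans (by norm_num)) hG.nr0
    (c2_of hG.riem) (fun a b => hG.ck a b l y h2 h3) i j)).const_mul (-2))).mono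
      (le_trans (le_of_eq ?_) (div_sq (by positivity) h2))
  rw [abs_neg, abs_two]
  ring

theorem lip0 (m : ℕ) : ∃ C : ℝ, 0 < C ∧ ∀ (g g' : MetricField 4) (y : E4) (η d : ℝ),
    η ≤ 1 → Nr g → Nr g' → (∀ i j, CK (m + 2) η (dv g i j) y) →
    (∀ i j, CK (m + 2) η (dv g' i j) y) → (∀ i j, CK (m + 2) d (fun x => g x i j - g' x i j) y) →
    ∀ i j, CK m (C * η * d / (‖y‖ + 1) ^ 2) (fun x => PP g i j x - PP g' i j x) y := by
  obtain ⟨C, hC, h⟩ := lip m 2
  refine ⟨C, hC, fun g g' y η d h1 h2 h3 h4 h5 h6 i j =>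
    cka_of_forall (N := C * d / (‖y‖ + 1) ^ 2) fun t ht0 ht1 => ?_⟩
  have h0 := (h4 0 0).nonneg
  exact (h g g' y (η + t) d (by linarith) (by linarith) h2 h3
    (fun i j => (h4 i j).mono (by linarith)) (fun i j => (h5 i j).mono (by linarith)) h6 i j).mono
    (le_of_eq (by ring))

theorem lip_est (hC : ∀ k, 0 < C k) : ∃ L : ℝ, 0 < L ∧ ∀ (K : ℝ) (G : MetricField 4) (ε : ℕ → ℝ)
    (n : ℕ) (χ : E4 → ℝ), Hy K G ε → Chi C n χ → ∀ m ≤ 1, ∀ k k', Ad ε K k → Ad ε K k' →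
    ∀ (l : ℕ) (y : E4) (d : ℝ), 2 ^ l ≤ ‖y‖ + 1 → ‖y‖ + 1 ≤ 2 ^ (l + 1) →
    (∀ i j, CK (m + 2) d (fun z => k z i j - k' z i j) y) → ∀ i j,
      CK m (L * (6 + K) * ε l * d / 4 ^ l) (fun z => SS χ G k z i j - SS χ G k' z i j) y := by
  choose R hR h using lip0
  have hp : ∀ m, 0 < 2 ^ (m + 1) * (C m * R m) := fun m => by
    have := hC m; have := hR m; positivity
  refine ⟨∑ m ∈ Finset.range 2, 2 ^ (m + 1) * (C m * R m),
    Finset.sum_pos (fun m _ => hp m) ⟨0, by simp⟩,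
    fun K G ε n χ hG hχ m hm k k' hk hk' l y d h1 h2 hd i j => ?_⟩
  have h3 := Finset.single_le_sum (f := fun m => 2 ^ (m + 1) * (C m * R m))
    (fun m _ => (hp m).le) (Finset.mem_range.2 (show m < 2 by omega))
  have h4 := hG.nn l
  have h5 := (hd 0 0).nonneg
  have h6 := hG.K0
  have h7 := hp m
  refine (((hχ.ck m y).mul (h m _ _ y _ d ((hG.le l).trans (by norm_num)) (hG.nr hk') (hG.nr hk)
    (fun a b => (hG.sub hk' a b l y h1 h2).of_le (by omega))
    (fun a b => (hG.sub hk a b l y h1 h2).of_le (by omega))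
    (fun a b => (hd a b).congr fun z _ => by simp only [Matrix.sub_apply]; ring) i j)).congr
      fun z _ => by simp only [SS, Matrix.of_apply]; ring).mono ?_
  calc _ = 2 ^ (m + 1) * (C m * R m) * (6 + K) * ε l * d / (‖y‖ + 1) ^ 2 := by ring
    _ ≤ 2 ^ (m + 1) * (C m * R m) * (6 + K) * ε l * d / 4 ^ l := div_sq (by positivity) h1
    _ ≤ _ := by gcongr

/-- the principal coefficients of the bootstrap -/
def tau (χ : E4 → ℝ) (G k : MetricField 4) : MetricField 4 := fun x => Matrix.of fun a b =>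
  (1 : Matrix (Fin 4) (Fin 4) ℝ) a b - χ x * hd (fun z => G z - k z) a b x

/-- the lower order terms of the bootstrap -/
def FF (χ : E4 → ℝ) (G k : MetricField 4) : MetricField 4 := fun x => Matrix.of fun i j =>
  χ x * (∑ a, ∑ b, (hd G a b x - hd (fun z => G z - k z) a b x) * jet2 G x a b i j +
    (QQ G i j x - QQ (fun z => G z - k z) i j x) - 2 * (up 1 2 x * ricci G x i j))

theorem boot_est (hC : ∀ k, 0 < C k) (hu : ∀ k y, CK k (C k) (up 1 2) y) (Cs : ℕ → ℝ) (m : ℕ)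
    (B : ℝ) : ∃ M : ℝ, ∀ (K : ℝ) (G : MetricField 4) (ε : ℕ → ℝ) (n : ℕ) (χ : E4 → ℝ)
    (k : MetricField 4), Hy K G ε → Chi C n χ → All Cs G → Ad ε K k → WM (m + 1) (fun _ => B) k →
      WM m (fun _ => M) (tau χ G k) ∧ WM m (fun l => M / 4 ^ l) (FF χ G k) := by
  set A := ∑ j ∈ Finset.range (m + 4), |Cs j| with hA
  have hA0 : 0 ≤ A := Finset.sum_nonneg fun _ _ => abs_nonneg _
  obtain ⟨C1, hC1, h1⟩ := bdd m (2 * A + |B|)
  obtain ⟨C2, hC2, h2⟩ := ric_ck m (2 * A)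
  have h3 := hC m
  set X := 2 ^ (m + 1) * (C m * (16 * (2 ^ (m + 1) * (2 * C1 * (16 * (2 * A)))) + 2 * C1 +
    2 * (2 ^ (m + 1) * (C m * (C2 * (2 * A)))))) with hX
  have hX0 : 0 ≤ X := by positivity
  refine ⟨1 + 2 ^ (m + 1) * (C m * C1) + X, fun K G ε n χ k hG hχ hCs hk hB => ?_⟩
  have h4 : ∀ y i j, CK (m + 2) (2 * A) (dv G i j) y := fun y i j =>
    ck_of_jb fun Y _ => ⟨(dv_sm hG.riem i j).contDiffAt, fun r hr => (hCs _ r i j).trans (by
      rw [mul_one]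
      exact (le_abs_self _).trans (Finset.single_le_sum (f := fun j => |Cs j|)
        (fun _ _ => abs_nonneg _) (Finset.mem_range.2 (by omega))))⟩
  have h5 := fun y => h1 G y hG.nr0 fun i j =>
    ((h4 y i j).of_le (Nat.le_succ _)).mono (le_add_of_nonneg_right (abs_nonneg B))
  have h6 := fun (l : ℕ) y (e1 : 2 ^ l ≤ ‖y‖ + 1) e2 => h1 _ y (hG.nr hk) fun i j => by
    rw [dv_sub]
    exact (((h4 y i j).of_le (Nat.le_succ _)).sub (hB i j l y e1 e2)).mono
      (by linarith [le_abs_self B])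
  refine ⟨fun a b l y e1 e2 => ((CK.const ((1 : Matrix (Fin 4) (Fin 4) ℝ) a b)).sub
    ((hχ.ck m y).mul ((h6 l y e1 e2 a b).1.of_le (Nat.le_succ _)))).mono ?_,
    fun i j l y e1 e2 => ?_⟩
  · have : ‖(1 : Matrix (Fin 4) (Fin 4) ℝ) a b‖ ≤ 1 := by
      rw [Matrix.one_apply]; split_ifs <;> simp
    show _ ≤ 1 + 2 ^ (m + 1) * (C m * C1) + X
    linarith
  have h7 : ∀ a b, CK m (4 / (‖y‖ + 1) * (4 / (‖y‖ + 1) * (2 * A)))
      (fun x => jet2 G x a b i j) y := fun a b => by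
    have := ((h4 y i j).pderiv b).pderiv a
    rwa [← TR.pd_dv] at this
  refine ((hχ.ck m y).mul (((CK.sum_le fun a => CK.sum_le fun b =>
    (((h5 y a b).1.of_le (Nat.le_succ _)).sub ((h6 l y e1 e2 a b).1.of_le (Nat.le_succ _))).mul
      (h7 a b)).add ((h5 y i j).2.sub (h6 l y e1 e2 i j).2)).sub (((hu m y).mul
        (h2 G y _ le_rfl hG.nr0 (c2_of hG.riem) (h4 y) i j)).const_mul 2))).mono ?_
  have hs := Hc.sc_pos y
  calc _ = X / (‖y‖ + 1) ^ 2 := by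
        rw [hX, abs_two, Fintype.card_fin]
        push_cast
        field_simp
        ring
    _ ≤ X / 4 ^ l := div_sq hX0 e1
    _ ≤ _ := by
        show _ ≤ (1 + 2 ^ (m + 1) * (C m * C1) + X) / 4 ^ l
        gcongr
        exact le_add_of_nonneg_left (by positivity)

theorem sum_dn {a : ℕ → ℝ} {e : ℝ} (h : ∀ m, ∑ l ∈ Finset.range m, a l ≤ e) (m : ℕ) :
    ∑ l ∈ Finset.range m, a (l - 1) ≤ 2 * e := by
  have h0 := h 0
  have h1 := h 1
  rw [Finset.sum_range_zero] at h0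
  rw [Finset.sum_range_one] at h1
  rcases m with _ | m
  · rw [Finset.sum_range_zero]; linarith
  · rw [Finset.sum_range_succ']
    simp only [Nat.add_sub_cancel, Nat.zero_sub]
    linarith [h m]

theorem ricb_est (hC : ∀ k, 0 < C k) (hu : ∀ k y, CK k (C k) (up 1 2) y)
    (hG : IsRiemannianOn G univ) (hχ : Chi C n χ) {e : ℝ} (h : RicB G e) : ∃ J : ℕ → ℝ,
    (∀ m, ∑ l ∈ Finset.range m, J l ≤ 4096 * (C 0 * C 1) * e) ∧ WM 0 J (SS χ G 0) := by
  obtain ⟨J, h0, h1, h2⟩ := h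
  have c0 := hC 0
  have c1 := hC 1
  refine ⟨fun l => 512 * (C 0 * C 1) * (J (l - 1 - 1) + J (l - 1) + J l + J (l + 1)), fun m => ?_,
    fun i j l y e1 e2 => ?_⟩
  · have h3 := h1 (m + 1)
    rw [Finset.sum_range_succ'] at h3
    have h4 : ∑ l ∈ Finset.range m, (J (l - 1 - 1) + J (l - 1) + J l + J (l + 1)) ≤ 8 * e := by
      simp only [Finset.sum_add_distrib]
      linarith [sum_dn h1 m, sum_dn (a := fun l => J (l - 1)) (sum_dn h1) m, h1 m, h0 0]
    rw [← Finset.mul_sum]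
    exact (mul_le_mul_of_nonneg_left h4 (by positivity)).trans (le_of_eq (by ring))
  have hJ : 0 ≤ J (l - 1 - 1) + J (l - 1) + J l + J (l + 1) := by
    linarith [h0 (l - 1 - 1), h0 (l - 1), h0 l, h0 (l + 1)]
  have h3 : CK 0 (2 * (2 ^ 1 * (16 ^ 1 * C 1 * (2 ^ 1 * (J (l - 1 - 1) + J (l - 1) + J l +
      J (l + 1)))))) (fun x => up 1 2 x * ricci G x i j) y := ck_of_jb fun Y hY => by
    obtain ⟨h4, h5⟩ := cl_norm (y := y) hY
    rcases lt_or_ge ‖cl y Y‖ 1 with h6 | h6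
    · refine (JB.const (0 : ℝ) (by rw [norm_zero]; positivity)).congr ?_
      filter_upwards [(isOpen_lt continuous_norm continuous_const).mem_nhds h6] with z hz
      rw [up_eq_zero one_pos one_lt_two (le_of_lt hz), zero_mul]
    obtain ⟨r, h7, h8⟩ := exists_nat_pow_near h6 one_lt_two
    have h9 : r < l + 2 := pow_lt_imp (by rw [pow_succ _ (l + 1)]; linarith [Hc.sc_pos y])
    have h10 : l < r + 3 := pow_lt_imp (by
      rw [pow_succ _ (r + 2), pow_succ _ (r + 1)]; linarith)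
    have h11 : J r ≤ J (l - 1 - 1) + J (l - 1) + J l + J (l + 1) := by
      rcases (by omega : r = l - 1 - 1 ∨ r = l - 1 ∨ r = l ∨ r = l + 1) with e | e | e | e <;>
        rw [e] <;> linarith [h0 (l - 1 - 1), h0 (l - 1), h0 l, h0 (l + 1)]
    exact (jb_of_ck (up_smooth _ _).contDiffAt (hu 1 _)).mul (Hc.sc_pos _).le
      ((JB.mk (m := 1) (ric_sm hG i j).contDiffAt fun q hq =>
        (h2 r _ h7 h8.le q hq i j).trans h11).scale (norm_nonneg _) (Hc.sc_pos _).le one_le_two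
          (by linarith))
  rw [ss_zero]
  refine ((hχ.ck 0 y).mul (h3.const_mul (-2))).mono (le_of_eq ?_)
  rw [abs_neg, abs_two]
  ring

/-- the source map of the Picard iteration -/
theorem src : SRCStmt := by
  obtain ⟨C, hC, hu, hχ⟩ := exists_chi
  obtain ⟨c, hc, h0⟩ := zero_est hC hu
  obtain ⟨L, hL, h1⟩ := lip_est hC
  have c0 := hC 0
  have c1 := hC 1
  refine ⟨c + 4096 * (C 0 * C 1), by positivity, fun K hK => ⟨L * (6 + K), 1 / (100 * (6 + K)),
    by positivity, by positivity, fun Cs => ?_⟩⟩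
  choose M hM using boot_est hC hu Cs
  refine ⟨M, fun Γ G ε δ n hF hI hA hε hδ hJ _ => ?_⟩
  obtain ⟨χ, hχ⟩ := hχ n
  have hG := hy_of hK hF.riem hε hδ hJ
  refine ⟨SS χ G, ⟨fun k y hy => ?_, fun k hk hs => ⟨ss_sm hχ.sm hG.riem (hG.riem' hk hs),
    ss_sy hG.riem (hG.riem' hk hs), ss_inv hχ.iso hG.riem (hG.riem' hk hs) hI⟩,
    fun i j => (h0 K G ε n χ hG hχ i j).mono fun l => ?_, h1 K G ε n χ hG hχ,
    fun m B k hk hB => ⟨tau χ G k, FF χ G k, fun x => ell_tau (hG.nr hk) (hχ.abs x) x,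
      (hM m B K G ε n χ k hG hχ hA hk hB).1, (hM m B K G ε n χ k hG hχ hA hk hB).2,
      ss_split (c2_of hG.riem) fun i j => (hk.wd i j).contDiff.of_le (by norm_cast)⟩⟩,
    fun k U hs hk hU he y hy i j =>
      ss_eqn hG.riem (hG.riem' hk hs) hs hU (hχ.one y hy) (he y i j), fun e he => ?_⟩
  · ext i j
    simp only [SS, Matrix.of_apply, hχ.out y hy, zero_mul, Matrix.zero_apply]
  · have := hε.nn l
    gcongr
    exact le_add_of_nonneg_right (by positivity)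
  · obtain ⟨J, h2, h3⟩ := ricb_est hC hu hG.riem hχ he
    obtain ⟨_, -, h4, -⟩ := he
    have h5 := h4 0
    rw [Finset.sum_range_zero] at h5
    exact ⟨J, fun m => (h2 m).trans (by gcongr; exact le_add_of_nonneg_left hc.le), h3⟩

end Crest.Agent.N207.Ph.Ey

end
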