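import Crest.Agent.N207.Ph.Ez1
import Crest.Agent.N207.Ph.Ey3
import Crest.Agent.N207.Ph.Cm1

/-!
# Row 207, block PHI (helper6): envelopes and `EXA` from the abstract iteration
-/

set_option autoImplicit false

open scoped ContDiff Topology
open Set Metric Finset
open Crest.GeometryTopology.CoordMetric Crest.GeometryTopology.ChartCurvature

noncomputable section

namespace Crest.Agent.N207.Ph.Ez

open Sk

theorem geo_dist {q : ℝ} (h0 : 0 ≤ q) (h1 : q < 1) (j m : ℕ) :
    ∑ l ∈ range m, q ^ Nat.dist j l ≤ (1 + q) / (1 - q) := by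
  have hq : 0 < 1 - q := by linarith
  have g : ∀ n, ∑ l ∈ range n, q ^ l ≤ 1 / (1 - q) := fun n => by
    rw [one_div, ← tsum_geometric_of_lt_one h0 h1]
    exact (summable_geometric_of_lt_one h0 h1).sum_le_tsum _ fun i _ => by positivity
  calc _ ≤ ∑ l ∈ range (j + 1 + m), q ^ Nat.dist j l :=
        sum_le_sum_of_subset_of_nonneg (range_subset_range.2 (by omega)) fun i _ _ => by positivity
    _ = ∑ l ∈ range (j + 1), q ^ l + q * ∑ l ∈ range m, q ^ l := by
        rw [sum_range_add, mul_sum, ← sum_range_reflect (fun l => q ^ l) (j + 1)]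
        congr 1
        · refine sum_congr rfl fun l hl => ?_
          have := mem_range.1 hl
          congr 1
          unfold Nat.dist; omega
        · refine sum_congr rfl fun l _ => ?_
          rw [← pow_succ']
          congr 1
          unfold Nat.dist; omega
    _ ≤ 1 / (1 - q) + q * (1 / (1 - q)) := by gcongr <;> exact g _
    _ = _ := by field_simp

theorem wE_eq (j l : ℕ) : wE j l = (1 / 4) ^ Nat.dist j l := by
  unfold wE
  rcases le_total j l with h | h
  · obtain ⟨d, rfl⟩ := Nat.exists_eq_add_of_le h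
    have e : Nat.dist j (j + d) = d := by unfold Nat.dist; omega
    have h1 : (1 : ℝ) ≤ 4 ^ d := one_le_pow₀ (by norm_num)
    rw [e, pow_add, min_eq_right]
    · rw [one_div, inv_pow]; field_simp
    · rw [div_le_div_iff₀ (by positivity) (by positivity)]
      have : (0 : ℝ) < 4 ^ j := by positivity
      have h2 : (1 : ℝ) ≤ 4 ^ d * 4 ^ d := one_le_mul_of_one_le_of_one_le h1 h1
      nlinarith [mul_pos this this]
  · obtain ⟨d, rfl⟩ := Nat.exists_eq_add_of_le h
    have e : Nat.dist (l + d) l = d := by unfold Nat.dist; omega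
    have h1 : (1 : ℝ) ≤ 4 ^ d := one_le_pow₀ (by norm_num)
    rw [e, pow_add, min_eq_left]
    · rw [one_div, inv_pow]; field_simp
    · rw [div_le_div_iff₀ (by positivity) (by positivity)]
      have : (0 : ℝ) < 4 ^ l := by positivity
      have h2 : (1 : ℝ) ≤ 4 ^ d * 4 ^ d := one_le_mul_of_one_le_of_one_le h1 h1
      nlinarith [mul_pos this this]

/-- the envelope of a finite sequence -/
def env (a : ℕ → ℝ) (N j : ℕ) : ℝ := ∑ p ∈ range N, (1 / 3) ^ Nat.dist j p * a p

theorem env_shift {a : ℕ → ℝ} (ha : ∀ l, 0 ≤ a l) (N i j : ℕ) :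
    env a N i ≤ 3 ^ Nat.dist j i * env a N j := by
  unfold env
  rw [mul_sum]
  refine sum_le_sum fun p _ => ?_
  rw [← mul_assoc]
  refine mul_le_mul_of_nonneg_right ?_ (ha p)
  obtain ⟨d, hd⟩ : ∃ d, Nat.dist j i + Nat.dist i p = Nat.dist j p + d :=
    Nat.exists_eq_add_of_le (Nat.dist.triangle_inequality j i p)
  have e : ((1 : ℝ) / 3) ^ Nat.dist i p =
      3 ^ Nat.dist j i * ((1 / 3) ^ Nat.dist j p * (1 / 3) ^ d) := by
    rw [← pow_add, ← hd, pow_add, ← mul_assoc, ← mul_pow]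
    norm_num
  rw [e]
  gcongr
  exact mul_le_of_le_one_right (by positivity) (pow_le_one₀ (by norm_num) (by norm_num))

theorem env_nn {a : ℕ → ℝ} (ha : ∀ l, 0 ≤ a l) (N j : ℕ) : 0 ≤ env a N j :=
  sum_nonneg fun p _ => mul_nonneg (by positivity) (ha p)

theorem env_env {a : ℕ → ℝ} {δ : ℝ} (ha : ∀ l, 0 ≤ a l) (N : ℕ)
    (hs : ∑ l ∈ range N, a l ≤ δ) : Env (env a N) (2 * δ) where
  nn := env_nn ha N
  sum n := by
    unfold env
    rw [sum_comm]
    calc _ ≤ ∑ p ∈ range N, 2 * a p := sum_le_sum fun p _ => by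
          rw [← sum_mul]
          refine mul_le_mul_of_nonneg_right ?_ (ha p)
          have := geo_dist (q := 1 / 3) (by norm_num) (by norm_num) p n
          simp only [Nat.dist_comm p] at this
          exact this.trans (by norm_num)
      _ ≤ 2 * δ := by rw [← mul_sum]; gcongr
  nb j i h1 h2 := by
    refine (env_shift ha N i j).trans (mul_le_mul_of_nonneg_right ?_ (env_nn ha N j))
    calc (3 : ℝ) ^ Nat.dist j i ≤ 3 ^ 1 :=
          pow_le_pow_right₀ (by norm_num) (by unfold Nat.dist; omega)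
      _ = 3 := by norm_num
  cv j m := by
    calc _ ≤ ∑ l ∈ range m, (3 / 4) ^ Nat.dist j l * env a N j := sum_le_sum fun l _ => by
          rw [wE_eq]
          calc _ ≤ (1 / 4) ^ Nat.dist j l * (3 ^ Nat.dist j l * env a N j) := by
                gcongr; exact env_shift ha N l j
            _ = _ := by rw [← mul_assoc, ← mul_pow]; norm_num
      _ ≤ 7 * env a N j := by
          rw [← sum_mul]
          refine mul_le_mul_of_nonneg_right ?_ (env_nn ha N j)
          exact (geo_dist (q := 3 / 4) (by norm_num) (by norm_num) j m).trans (by norm_num)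

theorem le_env {a : ℕ → ℝ} (ha : ∀ l, 0 ≤ a l) {N j : ℕ} (hj : j < N) : a j ≤ env a N j := by
  have := single_le_sum (f := fun p => (1 / 3 : ℝ) ^ Nat.dist j p * a p)
    (fun p _ => mul_nonneg (by positivity) (ha p)) (mem_range.2 hj)
  simpa [env] using this

theorem env_dec {a : ℕ → ℝ} {δ : ℝ} (ha : ∀ l, 0 ≤ a l) (N : ℕ)
    (hs : ∑ l ∈ range N, a l ≤ δ) (j : ℕ) : env a N j ≤ 3 ^ N * δ / 3 ^ j := by
  calc _ ≤ ∑ p ∈ range N, 3 ^ N / 3 ^ j * a p := sum_le_sum fun p hp => by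
        refine mul_le_mul_of_nonneg_right ?_ (ha p)
        have := mem_range.1 hp
        rw [one_div, inv_pow, inv_eq_one_div, div_le_div_iff₀ (by positivity) (by positivity),
          one_mul, ← pow_add]
        exact pow_le_pow_right₀ (by norm_num) (by unfold Nat.dist; omega)
    _ ≤ 3 ^ N / 3 ^ j * δ := by rw [← mul_sum]; gcongr
    _ = _ := by ring

theorem jg_out {G : MetricField 4} {R : ℝ} (hR : ∀ x : E4, R ≤ ‖x‖ → G x = 1) {y : E4}
    (hy : R < ‖y‖) (m : ℕ) (s : ℝ) {c : ℝ} (hc : 0 ≤ c) : JG m G y s c := by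
  intro k _ i j
  have e : dv G i j =ᶠ[𝓝 y] fun _ => 0 := by
    filter_upwards [(isOpen_lt continuous_const continuous_norm).mem_nhds hy] with z hz
    simp [dv, hR z (le_of_lt hz)]
  refine Cm.j1_congr ?_ e
  simp [J1, hc]

theorem exa_of (hP : PICStmt) (hS : SRCStmt) : EXAStmt := by
  obtain ⟨θ, C, hθ, hC, hP⟩ := hP
  obtain ⟨c, hc, hS⟩ := hS
  have hK : 0 < C * c := by positivity
  obtain ⟨L1, δ1, hL1, hδ1, hS⟩ := hS (C * c) hK.le
  refine ⟨min (δ1 / 2) (min (1 / (2 * c)) (θ / (2 * (L1 + 1)))), 2 ^ 20 * (C * c),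
    by positivity, by positivity, fun Cs => ?_⟩
  obtain ⟨M, hS⟩ := hS Cs
  obtain ⟨Cs', hP⟩ := hP M
  refine ⟨fun m => 16 ^ m * Cs' m, fun Γ G δ hG hI hδ ⟨a, ha, hs, hJ⟩ hA => ?_⟩
  have hδ0 : 0 ≤ δ := by simpa using hs 0
  obtain ⟨R, hR⟩ := hG.flat
  obtain ⟨N, hN⟩ := pow_unbounded_of_one_lt (R + 1) (one_lt_two (α := ℝ))
  have hE := env_env ha N (hs N)
  have h1 : 2 * δ ≤ δ1 := by linarith [hδ.trans (min_le_left _ _)]
  have h2 : c * (2 * δ) ≤ 1 := by
    have := (hδ.trans (min_le_right _ _)).trans (min_le_left _ _)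
    rw [le_div_iff₀ (by positivity)] at this
    linarith
  have h3 : L1 * (2 * δ) ≤ θ := by
    have := (hδ.trans (min_le_right _ _)).trans (min_le_right _ _)
    rw [le_div_iff₀ (by positivity)] at this
    nlinarith
  have hJ' : ∀ (l : ℕ) (y : E4), 2 ^ l ≤ ‖y‖ + 1 → ‖y‖ + 1 ≤ 2 ^ (l + 1) →
      JG 4 G y (‖y‖ + 1) (env a N l) := fun l y q1 q2 => by
    rcases lt_or_ge l N with h | h
    · exact fun k hk i j => (hJ l y q1 q2 k hk i j).trans (le_env ha h)
    · refine jg_out hR ?_ _ _ (env_nn ha N l)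
      have : (2 : ℝ) ^ N ≤ 2 ^ l := pow_le_pow_right₀ (by norm_num) h
      linarith
  refine ⟨fun l => 4096 * (C * c) * env a N l, 4096 * (C * c) * (3 ^ N * δ), N + 2,
    fun l => mul_nonneg (by positivity) (env_nn ha N l), fun n => ?_, fun l => ?_, fun n hn => ?_⟩
  · rw [← mul_sum]
    calc _ ≤ 4096 * (C * c) * (2 * δ) := by gcongr; exact hE.sum n
      _ ≤ _ := by nlinarith [mul_nonneg hK.le hδ0]
  · rw [mul_div_assoc]
    exact mul_le_mul_of_nonneg_left (env_dec ha N (hs N) l) (by positivity)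
  obtain ⟨S, hSrc, hEq, hRB⟩ := hS Γ G _ _ n hG hI hA hE h1 hJ' fun y hy => hR y (by
    have : (2 : ℝ) ^ (N + 2) ≤ 2 ^ n := pow_le_pow_right₀ (by norm_num) hn
    rw [pow_add] at this
    linarith)
  obtain ⟨k, ksm, kad, kinv, kall, keq, kU, kimp⟩ := hP Γ n S _ c L1 _ hE hc.le hL1 h2 h3 hSrc
  obtain ⟨Ssm, -, Sinv⟩ := hSrc.sm k kad ksm
  refine ⟨k, UU n (S k), ⟨ksm, kad.sy, kinv, (la.1 n _).1, (la.1 n _).2,
    UU_inv n (fun i j => (Ssm i j).continuous) (Sinv kinv), hEq k _ ksm kad (la.1 n _).1 keq,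
    fun l y q1 q2 => ⟨fun m hm i j => ?_, fun i j => ?_⟩⟩, fun y m i j => ?_,
    fun e he y hy m hm i j => ?_⟩
  · refine ((kad.wd i j l y q1 q2).j1 hm).trans ?_
    have : (16 : ℝ) ^ m ≤ 16 ^ 3 := pow_le_pow_right₀ (by norm_num) hm
    have h0 := mul_nonneg hK.le (env_nn ha N l)
    nlinarith
  · refine (kU i j l y q1 q2).bdd.trans ?_
    have h0 := mul_nonneg hK.le (env_nn ha N l)
    rw [div_le_div_iff_of_pos_right (by positivity)]
    nlinarith
  · obtain ⟨l, q1, q2⟩ := exists_lv y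
    exact (kall m i j l y q1 q2.le).j1 le_rfl
  · obtain ⟨J, hJs, hJw⟩ := hRB e he
    obtain ⟨l, q1, q2⟩ := exists_lv y
    have hl : l < 7 := pow_lt_imp (by linarith)
    have he0 : 0 ≤ e := by obtain ⟨J, -, h, -⟩ := he; simpa using h 0
    refine Cm.j1_anti (((kimp J _ hJs hJw i j l y q1 q2.le).j1 hm).trans ?_) zero_le_one
      (by linarith [norm_nonneg y])
    have q3 : (16 : ℝ) ^ m ≤ 16 ^ 2 := pow_le_pow_right₀ (by norm_num) hm
    have q4 : (4 : ℝ) ^ l ≤ 4 ^ 6 := pow_le_pow_right₀ (by norm_num) (by omega)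
    calc (16 : ℝ) ^ m * (C * 4 ^ l * (c * e)) ≤ 16 ^ 2 * (C * 4 ^ 6 * (c * e)) := by gcongr
      _ = _ := by ring

end Crest.Agent.N207.Ph.Ez

namespace Crest.Agent.N207.Ph

theorem exa : EXAStmt := Ez.exa_of Ez.pic Ey.src

end Crest.Agent.N207.Ph

end
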