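import Crest.Agent.N207.Ph.Exb2

/-!
# Row 207, block PHI (helper49): `EXB`
-/

set_option autoImplicit false

open scoped ContDiff Topology
open Set Filter MeasureTheory Metric
open Crest.GeometryTopology.CoordMetric
open Crest.Agent.R202.Tens

noncomputable section

namespace Crest.Agent.N207.Ph

open Sk G

namespace Xb

theorem zz_int : ∃ K : ℝ, 0 ≤ K ∧ ∀ {Γ : Subgroup Iso} {G k : MetricField 4} {U : Tn 4 1} {n : ℕ}
    {ε : ℕ → ℝ} {R A : ℝ}, Sol Γ G n k U ε → Fl G → Fl (gt G k R) → 1 ≤ R → 8 * R = 2 ^ n →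
    (∀ y : E4, R ≤ ‖y‖ → G =ᶠ[𝓝 y] flat) → Sml 2 (gt G k R) (1 / 8) → (∀ l, ε l ≤ A / 3 ^ l) →
    (∫ x : E4, ‖x‖ ^ 2 * ∑ i, ∑ j, zz G k U R x i j ^ 2) ≤ K * A ^ 2 * (4 / 9) ^ n := by
  obtain ⟨C, hC, h⟩ := rg_le
  obtain ⟨D, hD, h2⟩ := jg_two 2
  refine ⟨16 * ((2 * C * D + 1) * 12 ^ 4) ^ 2 * v1, by have := v1_nonneg; positivity, ?_⟩
  intro Γ G k U n ε R A S hG ht hR hn h0 hs hA
  have hA0 : 0 ≤ A := by
    have a := hA 0
    have b := (S.jet 0 0 (by simp) (by simp)).2 0 0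
    simp only [pow_zero, div_one] at a b
    linarith [abs_nonneg (symd U 0 0 0)]
  have a := int_ball (f := fun x => ‖x‖ ^ 2 * ∑ i, ∑ j, zz G k U R x i j ^ 2) (ρ := 2 ^ n)
    (c := (2 ^ n) ^ 2 * (16 * ((2 * C * D + 1) * 12 ^ 4 * A / 12 ^ n) ^ 2)) (by positivity)
    (fun x hx => sq_le hx fun i j => ?_) fun x hx => by
      simp [zz_out S (by linarith) hn h0 (hn ▸ hx)]
  · refine a.trans_eq ?_
    rw [show (12 : ℝ) ^ n = (2 ^ n) ^ 2 * 3 ^ n by
        rw [← pow_mul, mul_comm n, pow_mul, ← mul_pow]; norm_num,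
      show (4 / 9 : ℝ) ^ n = (2 ^ n) ^ 2 / (3 ^ n) ^ 2 by
        rw [← div_pow, ← div_pow, ← pow_mul, mul_comm n, pow_mul]; norm_num]
    field_simp
  rcases lt_or_ge ‖x‖ R with hx' | hx'
  · rw [zz_in S hR hn hx', abs_zero]; positivity
  obtain ⟨l, hl, hl'⟩ := exists_nat_pow_near (x := ‖x‖ + 1) (y := 2)
    (by linarith [norm_nonneg x]) one_lt_two
  obtain ⟨j1, j2⟩ := S.jet l x hl hl'.le
  have e0 : 0 ≤ ε l := le_trans (by positivity) (j1 0 (by norm_num) 0 0)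
  have g := (h2 G k R x 0 (ε l) hG S.sm hR (jg_congr (Ad.jg_flat _ _ _ le_rfl) (h0 x hx'))
    fun m hm => j1 m (by omega)).1
  have g' : JG 2 (gt G k R) x (‖x‖ + 1) (min (D * (0 + ε l)) (1 / 8)) :=
    fun m hm i j => le_min (g m hm i j) (hs x m hm i j)
  refine (zz_mid S ht (h0 x hx') (h _ x _ _ ht.riem (by positivity) (min_le_right _ _) g')
    j2 i j).trans ?_
  have hln : n ≤ l + 4 := by
    by_contra hc
    rw [pow_succ] at hl'
    have : (2 : ℝ) ^ (l + 5) ≤ 2 ^ n := pow_le_pow_right₀ one_le_two (by omega)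
    rw [pow_add] at this
    linarith
  have p4 : (4 : ℝ) ^ l ≤ (‖x‖ + 1) ^ 2 := by
    rw [show (4 : ℝ) ^ l = (2 ^ l) ^ 2 by rw [← pow_mul, mul_comm, pow_mul]; norm_num]
    gcongr
  calc _ ≤ 2 * (C * (D * (0 + ε l) / 4 ^ l)) + ε l / 4 ^ l := by
        gcongr
        exact min_le_left _ _
    _ = (2 * C * D + 1) * (ε l / 4 ^ l) := by ring
    _ ≤ (2 * C * D + 1) * (A / 3 ^ l / 4 ^ l) := by gcongr; exact hA l
    _ = (2 * C * D + 1) * 12 ^ 4 * A / 12 ^ (l + 4) := by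
        rw [div_div, ← mul_pow, pow_add]; norm_num; field_simp
    _ ≤ _ := by gcongr; norm_num

theorem gp_ric : ∃ K : ℝ, 0 ≤ K ∧ ∀ {G k : MetricField 4} {R κ : ℝ}, Fl G → Fl (gp G k R) →
    (∀ i j, ContDiff ℝ ∞ fun y => k y i j) → 64 < R → Sml 2 G (1 / 8) → Sml 2 (gp G k R) (1 / 8) →
    ∀ y : E4, ‖y‖ ≤ 64 → (∀ m ≤ 2, ∀ i j, J1 m (fun z => k z i j) y 1 κ) → ∀ i j,
      |ricci (gp G k R) y i j - ricci G y i j| ≤ K * κ := by
  obtain ⟨C, hC, h⟩ := ric_lip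
  obtain ⟨D, hD, h2⟩ := jb_up 2 2
  refine ⟨C * (2 ^ 2 * D), by positivity, fun {G k R κ} hG hp hk hR s1 s2 y hy hj i j => ?_⟩
  have u := (h2 32 (2 * 32) (by norm_num) (by norm_num) (by norm_num) y (by linarith)).scale
    (s' := 1) (l := 1) (by norm_num) zero_le_one le_rfl (by norm_num)
  refine (h ⟨G, gp G k R, y, 2 ^ 2 * (1 ^ 2 * D * κ), hG.riem, hp.riem, Ws.Sml.one s1 y,
    Ws.Sml.one s2 y, fun m hm a b => ((u.mul zero_le_one
      (jb_neg ⟨(hk a b).contDiffAt, fun l hl => hj l hl a b⟩)).congr ?_).bd m hm⟩ i j).trans_eq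
    (by ring)
  filter_upwards [glu_ev_in (by linarith : 0 < R) (by linarith : R < 2 * R) (gk G k) flat
    (by linarith : ‖y‖ < R)] with z hz
  rw [gp, Ws.glu_apply, gt, hz, gk, Matrix.sub_apply]
  ring

end Xb

open Xb

theorem exb : EXBStmt := by
  rintro ⟨δa, Ca, hδa, hCa, hA⟩ ⟨δv, Cv, hδv, hCv, hV⟩ -
  choose D hD hJ using jg_two
  obtain ⟨Kz, hKz, hZ⟩ := zz_int
  obtain ⟨Kr, hKr, hR⟩ := gp_ric
  have hv := v1_nonneg
  have hD3 := hD 3
  set K : ℝ := 64 ^ 2 * (16 * (1 + Kr * Ca) ^ 2) * (64 ^ 4 * v1) + Cv * (Ca + 1) ^ 2 with hK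
  have hK0 : 0 ≤ K := by positivity
  have hη : 0 < min δv (1 / 8) := lt_min hδv (by norm_num)
  refine ⟨min δa (min δv (1 / 8) / (D 3 * (1 + Ca))), K + 1 + D 3 * (1 + Ca), by positivity,
    by positivity, fun Cs => ?_⟩
  obtain ⟨Cs', hA⟩ := hA Cs
  refine ⟨fun m => D m * (∑ j ∈ Finset.range (m + 1), |Cs j| + ∑ j ∈ Finset.range (m + 1), |Cs' j|),
    fun Γ G δ τ hΓ hG hi hδ hS hall hτ => ?_⟩
  obtain ⟨ε, A, n0, e0, e1, e2, hn⟩ := hA Γ G δ hG hi (hδ.trans (min_le_left _ _)) hS hall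
  have hδ0 := Ad.ds_nonneg hS
  have hδ1 : D 3 * (δ + Ca * δ) ≤ min δv (1 / 8) := by
    have := (le_div_iff₀ (by positivity)).1 (hδ.trans (min_le_right _ _))
    linarith
  have hδ2 : δ + Ca * δ ≤ D 3 * (δ + Ca * δ) := le_mul_of_one_le_left (by positivity) hD3
  have hCδ : 0 ≤ Ca * δ := by positivity
  have m1 := min_le_left δv (1 / 8)
  have m2 := min_le_right δv (1 / 8)
  obtain ⟨R0, hR0⟩ := hG.flat
  have t1 := (tendsto_pow_atTop_atTop_of_one_lt (one_lt_two (α := ℝ))).eventually_gt_atTop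
    (8 * max R0 64)
  have t2 := ((tendsto_pow_atTop_nhds_zero_of_lt_one (r := (4 / 9 : ℝ)) (by norm_num)
    (by norm_num)).const_mul (Kz * A ^ 2)).eventually_le_const (u := τ ^ 2) (by simpa using pow_pos hτ 2)
  obtain ⟨n, ⟨n1, n2⟩, n3⟩ := (((eventually_ge_atTop n0).and t1).and t2).exists
  obtain ⟨k, U, S, hk, hke⟩ := hn n n1
  obtain ⟨R, h8⟩ : ∃ R : ℝ, 8 * R = 2 ^ n := ⟨2 ^ n / 8, by ring⟩
  have r1 : R0 < R := by linarith [le_max_left R0 64]
  have r2 : 64 < R := by linarith [le_max_right R0 64]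
  have h0 : ∀ y : E4, R ≤ ‖y‖ → G =ᶠ[𝓝 y] flat := fun y hy =>
    (Ws.ev_gt (r1.trans_le hy)).mono fun z hz => hR0 z hz.le
  have sG := Ad.ds_sml hS (by norm_num : 3 ≤ 4)
  have sk : ∀ y : E4, ∀ m ≤ 3, ∀ i j, J1 m (fun z => k z i j) y (‖y‖ + 1) (Ca * δ) :=
    fun y m hm i j => by
      obtain ⟨l, hl, hl'⟩ := exists_nat_pow_near (x := ‖y‖ + 1) (y := 2)
        (by linarith [norm_nonneg y]) one_lt_two
      have b := e1 (l + 1)
      rw [Finset.sum_range_succ] at b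
      exact ((S.jet l y hl hl'.le).1 m hm i j).trans
        (by linarith [Finset.sum_nonneg fun x (_ : x ∈ Finset.range l) => e0 x])
  have s2 := fun y => hJ 3 G k R y _ _ hG S.sm (by linarith) (sG y) (sk y)
  have ft : Fl (gt G k R) := fl_gt hG S.sm S.sy (by linarith) fun y =>
    jg_of_le (jg_mono (jg_gk hG S.sm (by positivity) (sG y) (sk y)) (by linarith)) (by norm_num)
  have fp : Fl (gp G k R) := Ws.fl_glu (by norm_num) (by norm_num) hG ft
  have sG' : ∀ c, δ ≤ c → Sml 2 G c := fun c hc y => jg_of_le (jg_mono (sG y) hc) (by norm_num)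
  have st : ∀ c, min δv (1 / 8) ≤ c → Sml 2 (gt G k R) c := fun c hc y =>
    jg_of_le (jg_mono (s2 y).1 (hδ1.trans hc)) (by norm_num)
  refine ⟨gp G k R, fp, Ws.inv_glu hi (Ws.inv_glu (inv_sub hi S.inv) (inv_flat Γ)), ?_,
    fun y m i j => ?_, fun y hy => Cm.glu_in (by norm_num) (by norm_num)
      (mem_ball_zero_iff.1 hy).le, fun e he hB => ?_⟩
  · obtain ⟨εG, g0, g1, g2⟩ := hS
    refine ⟨fun l => D 3 * (εG l + ε l), fun l => by have := g0 l; have := e0 l; positivity,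
      fun n => ?_, fun l y hl hl' => (hJ 3 G k R y _ _ hG S.sm (by linarith)
        (jg_of_le (g2 l y hl hl') (by norm_num)) (S.jet l y hl hl').1).2⟩
    rw [← Finset.mul_sum, Finset.sum_add_distrib]
    calc _ ≤ D 3 * (δ + Ca * δ) := by gcongr; exacts [g1 n, e1 n]
      _ ≤ _ := by nlinarith
  · rw [mul_one]
    exact (hJ m G k R y _ _ hG S.sm (by linarith)
      (fun l hl i j => (hall y l i j).trans (by rw [mul_one]; exact le_sum_abs Cs hl))
      fun l hl i j => (hk y l i j).trans (le_sum_abs Cs' hl)).2 m le_rfl i j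
  have he0 : 0 < e := hτ.trans_le he
  have hCe : 0 ≤ Ca * e := by positivity
  have a := hV Γ G (gt G k R) (vv G k U R) (zz G k U R) ((Ca + 1) * e) hΓ hG ft
    (sG' _ (by linarith)) (st _ m1) (vv_sm S hG ft)
    ⟨8 * R + 1, fun x hx => (vv_out S (by linarith) h8 h0 (by linarith)).eq_of_nhds⟩
    (fun γ hγ => vv_inv S hG hi ft hγ) (fun x i j => by simp [zz])
    (fun x hx m hm i j => by
      refine ((jb_neg ⟨(S.sm i j).contDiffAt, fun l hl => hke e hB x (by linarith) l hl i j⟩).congr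
        ?_).bd m (by omega) |>.trans (by linarith)
      filter_upwards [glu_ev_in (by linarith : 0 < R) (by linarith : R < 2 * R) (gk G k) flat
        (by linarith : ‖x‖ < R)] with z hz
      simp only [gt, hz, gk, Matrix.sub_apply]
      ring)
    (fun x hx _ i j => (ricB_le hB hx i j).trans (by linarith))
    ((hZ S hG ft (by linarith) h8 h0 (st _ m2) e2).trans (n3.trans (by gcongr; linarith)))
  have b := rl_split fp ft (B := (1 + Kr * Ca) * e) (fun x h1 h2 i j => by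
      have c1 := abs_le.1 (ricB_le hB h1 i j)
      have c2 := abs_le.1 (hR hG fp S.sm r2 (sG' _ (by linarith))
        (fun y => jg_of_le (jg_mono (s2 y).2 (hδ1.trans m2)) (by norm_num)) x h2 (hke e hB x h2) i j)
      exact abs_le.2 ⟨by linarith, by linarith⟩)
    fun x hx => ricci_congr (glu_ev_out (by norm_num) (by norm_num) _ _ (by linarith))
  calc _ ≤ K * e ^ 2 := by rw [hK]; linarith
    _ ≤ (K + 1) ^ 2 * e ^ 2 := by gcongr; nlinarith
    _ ≤ _ := by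
      have := mul_pos (by linarith : 0 < D 3) (by linarith : 0 < 1 + Ca)
      rw [← mul_pow]
      exact pow_le_pow_left₀ (by positivity) (mul_le_mul_of_nonneg_right (by linarith) he0.le) 2

end Crest.Agent.N207.Ph

end
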