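import Crest.Agent.N207.Ph.St
import Crest.Agent.N207.U.JG
import Crest.Agent.N207.A.Co6
import Crest.Agent.N207.I.NkRs
import Crest.Agent.N207.GE.Dist

/-!
# Row 207, block PHI (helper89): the time step `WS`, file 1: gluing, scaling, pointwise bounds
-/

set_option autoImplicit false
set_option linter.unusedSectionVars false

open scoped ContDiff Manifold Topology
open Set MeasureTheory Filter Metric
open Crest.GeometryTopology.CoordMetric Crest.GeometryTopology.ChartCurvature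
  Crest.GeometryTopology.MetricFamily
open Crest.Agent.R247

noncomputable section

namespace Crest.Agent.N207.Ph.Ws

open Sk U

variable {a b : ℝ} {y : E4} {G G1 G2 : MetricField 4}

theorem up_cd (a b : ℝ) : ContDiff ℝ ∞ (up a b) :=
  Real.smoothTransition.contDiff.comp (((contDiff_norm_sq ℝ).sub contDiff_const).div_const _)

theorem up_zero (ha : 0 < a) (hab : a < b) (h : ‖y‖ ≤ a) : up a b y = 0 :=
  Real.smoothTransition.zero_of_nonpos (div_nonpos_of_nonpos_of_nonneg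
    (by nlinarith [norm_nonneg y]) (by nlinarith))

theorem up_one (ha : 0 < a) (hab : a < b) (h : b ≤ ‖y‖) : up a b y = 1 :=
  Real.smoothTransition.one_of_one_le (by rw [le_div_iff₀ (by nlinarith)]; nlinarith)

theorem up_nonneg (a b : ℝ) (y : E4) : 0 ≤ up a b y := Real.smoothTransition.nonneg _

theorem up_le_one (a b : ℝ) (y : E4) : up a b y ≤ 1 := Real.smoothTransition.le_one _

theorem up_iso (a b : ℝ) (γ : Iso) (y : E4) : up a b (γ y) = up a b y := by
  rw [up, up, γ.norm_map]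

theorem glu_apply (i j : Fin 4) :
    glu a b G1 G2 y i j = G1 y i j + up a b y * (G2 y i j - G1 y i j) := rfl

theorem glu_lo (ha : 0 < a) (hab : a < b) (h : ‖y‖ ≤ a) : glu a b G1 G2 y = G1 y := by
  rw [glu, up_zero ha hab h, zero_smul, add_zero]

theorem glu_hi (ha : 0 < a) (hab : a < b) (h : b ≤ ‖y‖) : glu a b G1 G2 y = G2 y := by
  rw [glu, up_one ha hab h, one_smul, add_sub_cancel]

theorem ev_lt (h : ‖y‖ < a) : ∀ᶠ z in 𝓝 y, ‖z‖ < a :=
  continuous_norm.continuousAt.eventually (gt_mem_nhds h)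

theorem ev_gt (h : a < ‖y‖) : ∀ᶠ z in 𝓝 y, a < ‖z‖ :=
  continuous_norm.continuousAt.eventually (lt_mem_nhds h)

theorem glu_lo_ev (ha : 0 < a) (hab : a < b) (h : ‖y‖ < a) : glu a b G1 G2 =ᶠ[𝓝 y] G1 :=
  (ev_lt h).mono fun _ hz => glu_lo ha hab hz.le

theorem glu_hi_ev (ha : 0 < a) (hab : a < b) (h : b < ‖y‖) : glu a b G1 G2 =ᶠ[𝓝 y] G2 :=
  (ev_gt h).mono fun _ hz => glu_hi ha hab hz.le

theorem glu_pos (h1 : (G1 y).PosDef) (h2 : (G2 y).PosDef) : (glu a b G1 G2 y).PosDef := by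
  have e : glu a b G1 G2 y = up a b y • G2 y + (1 - up a b y) • G1 y := by
    rw [glu, smul_sub, sub_smul, one_smul]; abel
  rw [e]
  rcases (up_nonneg a b y).eq_or_lt with h | h
  · rw [← h]; simpa using h1
  · exact (h2.smul h).add_posSemidef (h1.posSemidef.smul (sub_nonneg.2 (up_le_one a b y)))

theorem fl_glu (ha : 0 < a) (hab : a < b) (h1 : Fl G1) (h2 : Fl G2) : Fl (glu a b G1 G2) := by
  obtain ⟨R, hR⟩ := h2.flat
  refine ⟨⟨isOpen_univ, fun i j => (h1.riem.contDiffOn i j).add ((up_cd a b).contDiffOn.mul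
    ((h2.riem.contDiffOn i j).sub (h1.riem.contDiffOn i j))), fun x hx =>
      glu_pos (h1.riem.posDef x hx) (h2.riem.posDef x hx)⟩, max R b, fun x hx => ?_⟩
  rw [glu_hi ha hab ((le_max_right _ _).trans hx), hR x ((le_max_left _ _).trans hx)]

theorem inv_glu {Γ : Subgroup Iso} (h1 : Inv Γ G1) (h2 : Inv Γ G2) : Inv Γ (glu a b G1 G2) := by
  intro γ hγ x
  funext I
  have e : pullT γ (matT (glu a b G1 G2)) x I = pullT γ (matT G1) x I +
      up a b (γ x) * (pullT γ (matT G2) x I - pullT γ (matT G1) x I) := by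
    simp only [pullT]
    rw [← AI.evT_sub, ← AI.evT_mul, ← AI.evT_add]
    rfl
  rw [e, ← h1 γ hγ x, ← h2 γ hγ x, up_iso]
  rfl

theorem DS.nonneg {m : ℕ} {δ : ℝ} (h : DS m G δ) : 0 ≤ δ := by
  obtain ⟨ε, -, h2, -⟩ := h
  simpa using h2 0

theorem DS.sml {m : ℕ} {δ : ℝ} (h : DS m G δ) : Sml m G δ := by
  obtain ⟨ε, h1, h2, h3⟩ := h
  intro y
  obtain ⟨l, hl, hl'⟩ := exists_nat_pow_near (x := ‖y‖ + 1) (y := 2)
    (by linarith [norm_nonneg y]) one_lt_two
  refine jg_mono (h3 l y hl hl'.le) le_rfl (le_trans ?_ (h2 (l + 1)))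
  exact Finset.single_le_sum (fun i _ => h1 i) (Finset.self_mem_range_succ l)

theorem ds_glu (hG : GLStmt) : ∃ C : ℝ, 0 < C ∧ ∀ (G1 G2 : MetricField 4) (δ1 δ2 : ℝ), Fl G1 →
    Fl G2 → DS 4 G1 δ1 → DS 3 G2 δ2 → DS 3 (glu 16 24 G1 G2) (C * (δ1 + δ2)) := by
  obtain ⟨C, hC, h⟩ := hG 3 3
  refine ⟨C, hC, fun G1 G2 δ1 δ2 f1 f2 ⟨ε, a1, a2, a3⟩ ⟨ε', b1, b2, b3⟩ =>
    ⟨fun l => C * (ε l + ε' l), fun l => mul_nonneg hC.le (add_nonneg (a1 l) (b1 l)),
      fun n => ?_, fun l y h1 h2 => ?_⟩⟩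
  · rw [← Finset.mul_sum, Finset.sum_add_distrib]
    exact mul_le_mul_of_nonneg_left (add_le_add (a2 n) (b2 n)) hC.le
  · exact h G1 G2 16 24 (by norm_num) (by norm_num) (by norm_num) y _ _ (by positivity)
      (add_nonneg (a1 l) (b1 l)) (fun h => by linarith)
      (fun i j => Or.inl ((f1.riem.contDiffOn i j).contDiffAt univ_mem))
      (fun i j => Or.inl ((f2.riem.contDiffOn i j).contDiffAt univ_mem))
      (Or.inl (jg_mono (a3 l y h1 h2) (by norm_num) (by linarith [b1 l])))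
      (Or.inl (jg_mono (b3 l y h1 h2) le_rfl (by linarith [a1 l])))

theorem J1.one {k : ℕ} {f : E4 → ℝ} {s c : ℝ} (h : J1 k f y s c) (hs : 1 ≤ s) : J1 k f y 1 c :=
  le_trans (mul_le_mul_of_nonneg_left (pow_le_pow_left₀ zero_le_one hs k) (norm_nonneg _)) h

theorem Sml.one {m : ℕ} {δ : ℝ} (h : Sml m G δ) (y : E4) : JG m G y 1 δ :=
  fun k hk i j => J1.one (h y k hk i j) (by linarith [norm_nonneg y])

/-! ### constant multiples of a metric -/

theorem scal_csmul {c : ℝ} (hc : c ≠ 0) (G : MetricField 4) (y : E4) :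
    scalarCurv (fun z => c • G z) y = c⁻¹ * scalarCurv G y := by
  simp only [scalarCurv, I.ricci_csmul hc, I.minv_smul hc, Matrix.smul_apply, smul_eq_mul,
    Finset.mul_sum, mul_assoc]

theorem gam_csmul {c : ℝ} (hc : c ≠ 0) (G : MetricField 4) (f h : E4 → ℝ) (y : E4) :
    Bo84.gam (fun z => c • G z) f h y = c⁻¹ * Bo84.gam G f h y := by
  simp only [Bo84.gam, inverseField, I.minv_smul hc, Matrix.smul_apply, smul_eq_mul,
    Finset.mul_sum, mul_assoc]

theorem sqrt_det_smul (c : ℝ) (A : Matrix (Fin 4) (Fin 4) ℝ) : √(c • A).det = c ^ 2 * √A.det := by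
  rw [Matrix.det_smul, Fintype.card_fin, show c ^ 4 = (c ^ 2) ^ 2 by ring,
    Real.sqrt_mul (by positivity), Real.sqrt_sq (by positivity)]

/-! ### flat ends -/

theorem ricci_flat (h : ∀ᶠ z in 𝓝 y, G z = 1) (i j : Fin 4) : ricci G y i j = 0 := by
  rw [ricci_congr (G' := fun _ => 1) h]
  simp [ricci, christoffel, pderiv]

theorem Fl.ric (h : Fl G) : ∃ R : ℝ, ∀ y : E4, R < ‖y‖ → ∀ i j, ricci G y i j = 0 := by
  obtain ⟨R, hR⟩ := h.flat
  exact ⟨R, fun y hy => ricci_flat ((ev_gt hy).mono fun z hz => hR z hz.le)⟩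

theorem integrable_of {f : E4 → ℝ} (hf : Continuous f) {R : ℝ} (h : ∀ y : E4, R < ‖y‖ → f y = 0) :
    Integrable f := hf.integrable_of_hasCompactSupport (HasCompactSupport.intro
      (isCompact_closedBall 0 R) fun y hy => h y (by simpa using hy))

/-- the density of the action -/
def lg (G : MetricField 4) (y : E4) : ℝ := √(G y).det * scalarCurv G y

theorem Fl.int_lg (h : Fl G) {φ : E4 → ℝ} (hφ : Continuous φ) : Integrable fun y => φ y * lg G y := by
  obtain ⟨R, hR⟩ := Fl.ric h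
  refine integrable_of (R := R) (hφ.mul (continuousOn_univ.1
    ((sm_sqrt_det h.riem).mul (sm_scal h.riem)).continuousOn)) fun y hy => ?_
  simp [lg, scalarCurv, hR y hy]

theorem Fl.int_rl (h : Fl G) : Integrable fun x : E4 => ‖x‖ ^ 2 * ∑ i, ∑ j, ricci G x i j ^ 2 := by
  obtain ⟨R, hR⟩ := Fl.ric h
  refine integrable_of (R := R) ((continuous_norm.pow 2).mul (continuous_finset_sum _ fun i _ =>
    continuous_finset_sum _ fun j _ => (continuousOn_univ.1
      (sm_ricci h.riem i j).continuousOn).pow 2)) fun y hy => ?_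
  simp [hR y hy]

/-! ### pointwise bounds -/

theorem pb_fixed {ι : Type*} {x : ι → E4} {R : ℝ} (hx : ∀ i, ‖x i‖ ≤ R) {f : E4 → ℝ}
    (hf : ContDiff ℝ ∞ f) (m : ℕ) : PB x (fun _ => 1) m (fun _ => 1) fun _ => f := by
  refine PB.of_itd (fun _ => one_pos) (fun _ => hf.contDiffAt) fun k _ => ?_
  obtain ⟨C, hC⟩ := (isCompact_closedBall (0 : E4) R).exists_bound_of_continuousOn
    (hf.continuous_iteratedFDeriv (kle k)).continuousOn
  exact ⟨|C|, abs_nonneg C, fun i => by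
    simpa using (hC (x i) (by simpa using hx i)).trans (le_abs_self C)⟩

/-- the velocity of the glued family -/
def vel (T : Tn 4 2) : Tn 4 2 := smT (fun y => 1 - up 16 24 y) T

/-- data of the pointwise estimate -/
structure Dt where
  P : MetricField 4
  x : E4
  T : Tn 4 2
  w : ℝ
  Y : ℝ
  riem : IsRiemannianOn P univ
  le : ‖x‖ ≤ 32
  jg : JG 2 P x 1 (1 / 8)
  sm : ∀ I, ContDiffAt ℝ ∞ (fun z => T z I) x
  nn : 0 ≤ w
  jt : ∀ k ≤ 2, ∀ I, J1 k (fun z => T z I) x 1 w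
  ric : ∀ i j, |ricci P x i j| ≤ Y

theorem est : ∃ C : ℝ, 0 < C ∧ ∀ d : Dt, (∀ i j, |dRic d.P (vel d.T) d.x ![i, j]| ≤ C * d.w) ∧
    |√(d.P d.x).det * (-ip d.P (ricT d.P) (vel d.T) d.x +
      1 / 2 * trF d.P (vel d.T) d.x * scalarCurv d.P d.x)| ≤ C * (d.w * d.Y) := by
  have h : MW (fun d : Dt => d.x) (fun _ => 1) 2 (fun _ => 1) fun d => d.P :=
    MW.of_jg (fun d => ⟨univ, d.riem, mem_univ _⟩) (fun _ => one_pos) (fun _ => zero_le_one)
      (K := 1) (fun _ => le_rfl) (fun d => jg_mono d.jg (Nat.zero_le _) le_rfl) (fun _ => 1 / 8)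
      fun d k hk a b => by simpa using d.jg k hk a b
  have hT : PT (fun d : Dt => d.x) (fun _ => 1) 2 (fun d => d.w) fun d => vel d.T := fun I =>
    (pb_fixed (fun d : Dt => d.le) (contDiff_const.sub (up_cd 16 24)) 2).bmul
      (PB.of_itd (fun _ => one_pos) (fun d => d.sm I) fun k hk =>
        ⟨1, zero_le_one, fun d => by simpa [J1] using d.jt k hk I⟩)
  have hR : PT (fun d : Dt => d.x) (fun _ => 1) 0 (fun d => d.Y) fun d => ricT d.P := fun I =>
    ⟨fun d => (sm_ricci d.riem _ _).contDiffAt univ_mem, 1, zero_le_one,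
      fun d => by simpa [ricT] using d.ric (I 0) (I 1)⟩
  have h0 := h.of_le (Nat.zero_le 2)
  have c2 : ∀ {k : ℕ} {S : Dt → Tn 4 k}, PT (fun d : Dt => d.x) (fun _ => 1) 2 (fun d => d.w) S →
      PT (fun d : Dt => d.x) (fun _ => 1) 0 (fun d => d.w) fun d => cov d.P (cov d.P (S d)) :=
    fun hS => (h.pred.cov (h.cov hS)).wte fun d => by simp
  have e1 : ∀ i j, ∃ C, ∀ d : Dt, |dRic d.P (vel d.T) d.x ![i, j]| ≤ C * d.w := fun i j => by
    obtain ⟨C, -, hC⟩ := (((((PB.sum Finset.univ fun a _ => PB.sum Finset.univ fun b _ =>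
      (h0.ginv a b).bmul (c2 hT ![a, i, j, b])).add (PB.sum Finset.univ fun a _ =>
        PB.sum Finset.univ fun b _ => (h0.ginv a b).bmul (c2 hT ![a, j, i, b]))).sub
      (h0.trT (c2 hT) ![i, j])).sub (c2 (h.trT hT) ![i, j])).cmul (1 / 2)).val
    refine ⟨C, fun d => ?_⟩
    rw [dRic_apply, hessT, ← cov_fnT d.P, fnT_trF]
    exact hC d
  obtain ⟨C1, hC1, h1⟩ := unif (κ := Fin 4 × Fin 4) (ι := Dt)
    (P := fun p d C => |dRic d.P (vel d.T) d.x ![p.1, p.2]| ≤ C * d.w)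
    (fun p d C D hCD hP => hP.trans (mul_le_mul_of_nonneg_right hCD d.nn)) fun p => e1 p.1 p.2
  obtain ⟨C2, hC2, h2⟩ := ((((h0.ip hR (hT.of_le (Nat.zero_le 2))).neg).wte
    (ψ := fun d => d.w * d.Y) fun d => mul_comm _ _).add
      (((h0.trT (hT.of_le (Nat.zero_le 2)) ![]).cmul (1 / 2)).mul (h0.trT hR ![]))).val
  refine ⟨C1 + 3 * C2, by positivity, fun d => ⟨fun i j => (h1 (i, j) d).trans
    (mul_le_mul_of_nonneg_right (by linarith) d.nn), ?_⟩⟩
  have hw : 0 ≤ d.w * d.Y := mul_nonneg d.nn ((abs_nonneg _).trans (d.ric 0 0))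
  have h3 : √(d.P d.x).det ≤ 3 := d.jg.near.sqrt_det_le.trans (by norm_num)
  rw [abs_mul, abs_of_nonneg (Real.sqrt_nonneg _)]
  exact (mul_le_mul h3 (h2 d) (abs_nonneg _) (by norm_num)).trans (by nlinarith)

end Crest.Agent.N207.Ph.Ws

end
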