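import Crest.Agent.N207.Ph.Eqv
import Crest.Agent.N207.Ph.Cm1
import Crest.Agent.N207.Ph.Ws1

/-!
# Row 207, block PHI (helper49): pointwise tools for `EXB`
-/

set_option autoImplicit false

open scoped ContDiff Topology
open Set Filter
open Crest.GeometryTopology.CoordMetric
open Crest.Agent.R202.Tens

noncomputable section

namespace Crest.Agent.N207.Ph.Xb

open Sk U

theorem gau_flat (G : MetricField 4) (y : E4) (j : Fin 4) : Lg.gauT flat G y ![j] =
    ∑ c, ∑ a, (G y)⁻¹ c a * pderiv c (fun z => G z a j) y -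
      (1 / 2) * ∑ a, ∑ b, (G y)⁻¹ a b * pderiv j (fun z => G z a b) y := by
  simp only [Lg.gauT, Lg.gv, Lg.uT, Lg.vT, Lg.tr2, Lg.iv, Lg.TG, Lg.a3, cov_flat]
  rfl

theorem gau_congr {G G' : MetricField 4} {y : E4} (h : G =ᶠ[𝓝 y] G') :
    Lg.gauT flat G =ᶠ[𝓝 y] Lg.gauT flat G' := by
  have h1 : matT G =ᶠ[𝓝 y] matT G' := h.mono fun z hz => by funext I; simp only [matT, hz]
  filter_upwards [h, AI.cov_congr (G := flat) EventuallyEq.rfl h1] with z hz hz'
  funext I
  unfold Lg.gauT Lg.iv Lg.TG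
  rw [hz, hz']

theorem gau_sm {G : MetricField 4} {U : Set E4} (hG : IsRiemannianOn G U) :
    SmT (Lg.gauT flat G) U := fun I => by
  have hI : I = ![I 0] := by funext s; fin_cases s; rfl
  rw [hI]
  simp only [gau_flat]
  have h := fun c a b => contDiffOn_pderiv hG.isOpen (hG.contDiffOn a b) c
  exact (ContDiffOn.sum fun _ _ => ContDiffOn.sum fun _ _ => (sm_inv hG _ _).mul (h _ _ _)).sub
    (contDiffOn_const.mul
      (ContDiffOn.sum fun _ _ => ContDiffOn.sum fun _ _ => (sm_inv hG _ _).mul (h _ _ _)))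

theorem gau_one (y : E4) (I : Fin 1 → Fin 4) : Lg.gauT flat flat y I = 0 := by
  have hI : I = ![I 0] := by funext s; fin_cases s; rfl
  rw [hI, gau_flat]
  simp [flat, pderiv]

theorem inv_pbm_eq {Γ : Subgroup Iso} {G : MetricField 4} (h : Inv Γ G) {γ : Iso} (hγ : γ ∈ Γ) :
    pbm γ G = G := by
  funext y
  ext i j
  exact (congrFun (h γ hγ y) ![i, j]).symm

theorem gau_inv {Γ : Subgroup Iso} {G : MetricField 4} (hG : IsRiemannianOn G univ) (h : Inv Γ G)
    {γ : Iso} (hγ : γ ∈ Γ) (x : E4) : Lg.gauT flat G x = pullT γ (Lg.gauT flat G) x := by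
  have := gauT_pull (pull_pbm γ.contDiff (inj_iso γ) hG) (pull_flat γ) (mem_univ x)
  rwa [inv_pbm_eq h hγ] at this

theorem inv_flat (Γ : Subgroup Iso) : Inv Γ flat :=
  fun γ _ x => AI.matT_pull (pull_flat γ) (mem_univ x)

theorem inv_sub {Γ : Subgroup Iso} {G k : MetricField 4} (h1 : Inv Γ G) (h2 : Inv Γ k) :
    Inv Γ fun z => G z - k z := by
  intro γ hγ x
  funext I
  have e : pullT γ (matT fun z => G z - k z) x I =
      pullT γ (matT G) x I - pullT γ (matT k) x I := AI.pullT_sub _ _ _ _ _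
  rw [e, ← h1 γ hγ x, ← h2 γ hγ x]
  rfl

theorem posDef_near {A : Matrix (Fin 4) (Fin 4) ℝ} (hs : A.IsSymm) (h : Near A (1 / 8)) :
    A.PosDef := by
  refine Matrix.PosDef.of_dotProduct_mulVec_pos ?_ fun v hv => ?_
  · ext i j
    simpa using hs.apply i j
  have hv' : (WithLp.toLp 2 v : E4) ≠ 0 := fun h0 => hv (by simpa using congrArg WithLp.ofLp h0)
  have e : star v ⬝ᵥ A.mulVec v = bil A (WithLp.toLp 2 v) (WithLp.toLp 2 v) := by
    rw [bil_apply]
    simp only [dotProduct, Matrix.mulVec, Finset.mul_sum, star_trivial]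
    exact Finset.sum_congr rfl fun i _ => Finset.sum_congr rfl fun j _ => by ring
  have h1 := (abs_le.1 (h.bil_abs (WithLp.toLp 2 v))).1
  have h2 := pow_pos (norm_pos_iff.2 hv') 2
  rw [e]
  linarith

section fam

variable {ι : Type*} {x : ι → E4} {s φ : ι → ℝ} {m : ℕ} {G G' : ι → MetricField 4}

theorem mw_gau (h : MW x s (m + 1) φ G) (j : Fin 4) :
    PB x s m (fun i => φ i / s i) fun i y => Lg.gauT flat (G i) y ![j] :=
  ((PB.sum Finset.univ fun c _ => PB.sum Finset.univ fun a _ =>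
    (h.pred.ginv c a).bmul (h.dent c a j)).sub ((PB.sum Finset.univ fun a _ =>
      PB.sum Finset.univ fun b _ => (h.pred.ginv a b).bmul (h.dent j a b)).cmul (1 / 2))).congr'
    fun i y => gau_flat (G i) y j

theorem pb_pd_sub {f g : ι → E4 → ℝ} (hs : ∀ i, 0 < s i) (hf : ∀ i, ContDiffAt ℝ ∞ (f i) (x i))
    (hg : ∀ i, ContDiffAt ℝ ∞ (g i) (x i)) (h : PB x s (m + 1) φ fun i y => f i y - g i y)
    (j : Fin 4) :
    PB x s m (fun i => φ i / s i) fun i y => pderiv j (f i) y - pderiv j (g i) y :=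
  (h.pd hs j).congr fun i => by
    filter_upwards [ev_diff (hf i), ev_diff (hg i)] with y h1 h2
    exact (pd_sub j h1 h2).symm

variable (h : MW x s 2 (fun _ => 1) G) (h' : MW x s 2 (fun _ => 1) G')
  (d : ∀ a b, PB x s 2 φ fun i y => G' i y a b - G i y a b)
include h h' d

theorem d_inv (a b : Fin 4) : PB x s 2 φ fun i y => (G' i y)⁻¹ a b - (G i y)⁻¹ a b := by
  refine ((PB.sum Finset.univ fun e _ => (PB.sum Finset.univ fun c _ =>
    (h'.ginv a c).bmul (d c e)).mulb (h.ginv e b)).neg).congr fun i => ?_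
  filter_upwards [h.ev (P := fun i y => (G i y).PosDef) (fun i U y hU hy => hU.posDef y hy) i,
    h'.ev (P := fun i y => (G' i y).PosDef) (fun i U y hU hy => hU.posDef y hy) i] with y hA hB
  have e : (G' i y)⁻¹ - (G i y)⁻¹ = -((G' i y)⁻¹ * (G' i y - G i y) * (G i y)⁻¹) := by
    rw [Matrix.mul_sub, Matrix.nonsing_inv_mul _ (isUnit_iff_ne_zero.2 hB.det_pos.ne'),
      Matrix.sub_mul, Matrix.one_mul, Matrix.mul_assoc,
      Matrix.mul_nonsing_inv _ (isUnit_iff_ne_zero.2 hA.det_pos.ne'), Matrix.mul_one, neg_sub]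
  exact congrFun (congrFun e a) b

theorem d_chr (a b c : Fin 4) : PB x s 1 (fun i => φ i / s i)
    fun i y => christoffel (G' i) y a b c - christoffel (G i) y a b c := by
  have k := fun j p q => pb_pd_sub h.pos (h'.ent p q).sm (h.ent p q).sm (d p q) j
  refine ((PB.sum Finset.univ fun l _ => ((((d_inv h h' d a l).pred.mul
    (((h'.dent b c l).add (h'.dent c b l)).sub (h'.dent l b c))).wte fun i => by ring).add
    ((h.pred.ginv a l).bmul (((k b c l).add (k c b l)).sub (k l b c))))).cmul (1 / 2)).congr'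
    fun i y => ?_
  simp only [christoffel, inverseField]
  rw [← mul_sub, ← Finset.sum_sub_distrib]
  congr 1
  exact Finset.sum_congr rfl fun l _ => by ring

theorem d_chr2 (a b c p q r : Fin 4) : PB x s 0 (fun i => φ i / s i ^ 2) fun i y =>
    christoffel (G' i) y a b c * christoffel (G' i) y p q r -
      christoffel (G i) y a b c * christoffel (G i) y p q r :=
  ((((d_chr h h' d a b c).pred.mul (h'.pred.chr p q r)).wte fun i => by ring).add
    (((h.pred.chr a b c).mul (d_chr h h' d p q r).pred).wte fun i => by ring)).congr'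
    fun i y => by ring

theorem d_ric (a b : Fin 4) :
    PB x s 0 (fun i => φ i / s i ^ 2) fun i y => ricci (G' i) y a b - ricci (G i) y a b := by
  have k1 := fun c => (pb_pd_sub h.pos (h'.chr c a b).sm (h.chr c a b).sm
    (d_chr h h' d c a b) c).wte (ψ := fun i => φ i / s i ^ 2) fun i => by ring
  have k2 := (pb_pd_sub h.pos (PB.sum Finset.univ fun c _ => h'.chr c c a).sm
    (PB.sum Finset.univ fun c _ => h.chr c c a).sm
    ((PB.sum Finset.univ fun c _ => d_chr h h' d c c a).congr' fun i y =>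
      (Finset.sum_sub_distrib _ _).symm) b).wte (ψ := fun i => φ i / s i ^ 2) fun i => by ring
  refine ((((PB.sum Finset.univ fun c _ => k1 c).sub k2).add (PB.sum Finset.univ fun c _ =>
    PB.sum Finset.univ fun e _ => d_chr2 h h' d c c e e a b)).sub (PB.sum Finset.univ fun c _ =>
    PB.sum Finset.univ fun e _ => d_chr2 h h' d c b e e c a)).congr' fun i y => ?_
  simp only [ricci, Finset.sum_sub_distrib]
  ring

end fam

/-- two metrics at a point -/
structure D2 where
  G : MetricField 4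
  G' : MetricField 4
  x : E4
  κ : ℝ
  riem : IsRiemannianOn G univ
  riem' : IsRiemannianOn G' univ
  jg : JG 2 G x 1 (1 / 8)
  jg' : JG 2 G' x 1 (1 / 8)
  dif : ∀ k ≤ 2, ∀ a b, J1 k (fun y => G' y a b - G y a b) x 1 κ

/-- the Ricci tensor is Lipschitz in the 2-jets -/
theorem ric_lip : ∃ C : ℝ, 0 < C ∧ ∀ (d : D2) (i j : Fin 4),
    |ricci d.G' d.x i j - ricci d.G d.x i j| ≤ C * d.κ := by
  have h : ∀ G : D2 → MetricField 4, (∀ d, IsRiemannianOn (G d) univ) →
      (∀ d, JG 2 (G d) d.x 1 (1 / 8)) → MW (fun d : D2 => d.x) (fun _ => 1) 2 (fun _ => 1) G :=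
    fun G h1 h2 => MW.of_jg (fun d => ⟨univ, h1 d, mem_univ _⟩) (fun _ => one_pos)
      (fun _ => zero_le_one) (K := 1) (fun _ => le_rfl)
      (fun d => jg_mono (h2 d) (Nat.zero_le _) le_rfl) (fun _ => 1 / 8)
      fun d k hk a b => by simpa using h2 d k hk a b
  have h1 := h _ D2.riem D2.jg
  have h2 := h _ D2.riem' D2.jg'
  have k := d_ric h1 h2 (φ := D2.κ) fun a b => PB.of_itd (fun _ => one_pos)
    (fun d => ((h2.ent a b).sm d).sub ((h1.ent a b).sm d)) fun k hk =>
      ⟨1, zero_le_one, fun d => by simpa [J1] using d.dif k hk a b⟩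
  have hκ : ∀ d : D2, 0 ≤ d.κ := fun d => le_trans (by positivity) (d.dif 0 (by norm_num) 0 0)
  obtain ⟨C, hC, h3⟩ := unif (κ := Fin 4 × Fin 4) (ι := D2)
    (P := fun p d C => |ricci d.G' d.x p.1 p.2 - ricci d.G d.x p.1 p.2| ≤ C * d.κ)
    (fun p d C D hCD hP => hP.trans (mul_le_mul_of_nonneg_right hCD (hκ d))) fun p => by
      obtain ⟨C, -, hC⟩ := (k p.1 p.2).val
      exact ⟨C, fun d => by simpa using hC d⟩
  exact ⟨C, hC, fun d i j => h3 (i, j) d⟩

/-- curvature and gauge terms are linear in the 2-jets -/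
theorem rg_le : ∃ C : ℝ, 0 < C ∧ ∀ (G : MetricField 4) (x : E4) (s ε : ℝ),
    IsRiemannianOn G univ → 0 < s → ε ≤ 1 / 8 → JG 2 G x s ε → ∀ i j,
      |ricci G x i j| ≤ C * (ε / s ^ 2) ∧
      |pderiv i (fun z => Lg.gauT flat G z ![j]) x| ≤ C * (ε / s ^ 2) := by
  have h := Dat.mw 2 (fun _ => 1) (1 / 8)
  obtain ⟨C, hC, h1⟩ := unif (κ := Fin 4 × Fin 4) (ι := Dat 2 (fun _ => 1) (1 / 8))
    (P := fun p d C => |ricci d.G d.x p.1 p.2| ≤ C * (d.w / d.s ^ 2) ∧
      |pderiv p.1 (fun z => Lg.gauT flat d.G z ![p.2]) d.x| ≤ C * (d.w / d.s ^ 2))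
    (fun p d C D hCD hP => by
      have := d.nn
      exact ⟨hP.1.trans (by gcongr), hP.2.trans (by gcongr)⟩)
    fun p => by
      obtain ⟨C1, c1, h2⟩ := (h.ricci p.1 p.2).val
      obtain ⟨C2, c2, h3⟩ := (((mw_gau h p.2).pd h.pos p.1).wte
        (ψ := fun d => d.w / d.s ^ 2) fun d => by ring).val
      refine ⟨C1 + C2, fun d => ?_⟩
      have := d.nn
      exact ⟨(h2 d).trans (by gcongr; linarith), (h3 d).trans (by gcongr; linarith)⟩
  exact ⟨C, hC, fun G x s ε a c d e i j => h1 (i, j) ⟨G, univ, x, s, ε, a, mem_univ _, c,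
    jg_nonneg e, d, jg_mono e (Nat.zero_le _) d, fun k hk i j => by simpa using e k hk i j⟩⟩

end Crest.Agent.N207.Ph.Xb

end
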