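import Crest.Agent.N207.Ph.Pb0

/-!
# Row 207, block PHI (helper49): jets of pull-backs; `PBIso`, `PBAll`
-/

set_option autoImplicit false

open scoped ContDiff Topology Nat
open Set Filter MeasureTheory
open Crest.GeometryTopology.CoordMetric Crest.GeometryTopology.ChartCurvature
  Crest.GeometryTopology.MetricFamily
open Crest.Agent.R202.Tens

noncomputable section

namespace Crest.Agent.N207.Ph

open Sk G

theorem jb_iso (m : ℕ) (A : Iso) {G : MetricField 4} {y : E4} {s c : ℝ} (hs : 0 ≤ s)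
    (h : ∀ a b, JB m (dv G a b) (A y) s c) (i j : Fin 4) :
    JB m (dv (pbm A G) i j) y s (4 * (4 * (2 ^ m * (2 ^ m * c)))) := by
  have hc : ∀ i a, JB m (fun _ : E4 => A (ee i) a) y s 1 := fun i a =>
    JB.const _ ((PiLp.norm_apply_le _ a).trans (by simp))
  have h1 := fun a b => ((JB.iso A (h a b)).mul hs (hc i a)).mul hs (hc j b)
  have h2 := JB.sum Finset.univ hs fun a _ => JB.sum Finset.univ hs fun b _ => h1 a b
  simp only [Finset.card_univ, Fintype.card_fin, Nat.cast_ofNat, mul_one] at h2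
  refine h2.congr (Eventually.of_forall fun z => ?_)
  have h3 : pbm A flat z i j = (1 : Matrix (Fin 4) (Fin 4) ℝ) i j := by rw [pbm_iso_one A rfl]
  simp only [dv]
  rw [← h3, pbm_apply, pbm_apply, fderiv_iso]
  simp only [sub_mul, Finset.sum_sub_distrib]
  rfl

theorem pbiso : PBIsoStmt := by
  intro m
  have hJ : ∀ (A : Iso) (G : MetricField 4), Fl G → ∀ (y : E4) (s c : ℝ), 0 ≤ s →
      JG m G (A y) s c → JG m (pbm A G) y s (4 * (4 * (2 ^ m * 2 ^ m)) * c) :=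
    fun A G hG y s c hs h => jg_of_jb fun i j =>
      (jb_iso m A hs (jb_of_jg (hG.sm _) h) i j).mono (le_of_eq (by ring))
  refine ⟨4 * (4 * (2 ^ m * 2 ^ m)), by positivity, fun A G hG => ⟨fl_iso A hG,
    eh_pbm A.contDiff A.bijective (inj_iso A) hG.riem, rl_iso A hG.riem, bl_iso A hG.riem,
    hJ A G hG, fun δ ⟨ε, h0, h1, h2⟩ => ⟨fun l => 4 * (4 * (2 ^ m * 2 ^ m)) * ε l,
      fun l => mul_nonneg (by positivity) (h0 l), fun n => ?_, fun l y a b => ?_⟩⟩⟩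
  · rw [← Finset.mul_sum]
    exact mul_le_mul_of_nonneg_left (h1 n) (by positivity)
  · refine hJ A G hG y _ _ (by positivity) ?_
    have := h2 l (A y) (by rwa [A.norm_map]) (by rwa [A.norm_map])
    rwa [A.norm_map] at this

/-- the constant of `jb_pbm` -/
def Kp (m : ℕ) (d δ : ℝ) : ℝ :=
  4 * (4 * (2 ^ (m + 1) * (2 ^ (m + 1) * ((m + 1)! * (1 + d) ^ (m + 1) * δ * (1 + d)) * (1 + d)))) +
    (d + d + 4 * (2 ^ (m + 1) * (d * d)))

theorem fderiv_eq_add {ψ : E4 → E4} (hψ : ContDiff ℝ ∞ ψ) : fderiv ℝ ψ =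
    fun y => ContinuousLinearMap.id ℝ E4 + fderiv ℝ (fun z => ψ z - z) y := by
  funext y
  rw [fderiv_fun_sub (hψ.differentiable (by simp) y) differentiableAt_fun_id, fderiv_fun_id]
  abel

theorem jb_pbm {m : ℕ} {ψ : E4 → E4} {G : MetricField 4} {x : E4} {s d δ : ℝ} (hs : 0 < s)
    (hψ : ContDiff ℝ ∞ ψ) (hG : ∀ a b, JB (m + 1) (dv G a b) (ψ x) s δ)
    (hP : JB (m + 2) (fun z => ψ z - z) x s (d * s)) (i j : Fin 4) :
    JB (m + 1) (dv (pbm ψ G) i j) x s (Kp m d δ) := by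
  have hdP := JB.fderiv hs hP
  have h0 := hdP.nonneg
  have hf := fderiv_eq_add hψ
  have hd : JB (m + 1) (fderiv ℝ ψ) x s (1 + d) := by
    rw [hf]; exact (JB.const _ ContinuousLinearMap.norm_id_le).add hs.le hdP
  refine jg_pull hs (by linarith) hG hψ.contDiffAt hd (fun i j => ?_)
    (Eventually.of_forall fun y => pbm_apply ψ G y) i j
  have h1 := ((jb_coord hs.le hdP j i).add hs.le (jb_coord hs.le hdP i j)).add hs.le
    (JB.sum Finset.univ hs.le fun a _ =>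
      (jb_coord hs.le hdP i a).mul hs.le (jb_coord hs.le hdP j a))
  simp only [Finset.card_univ, Fintype.card_fin, Nat.cast_ofNat] at h1
  refine h1.congr (Eventually.of_forall fun y => ?_)
  generalize fderiv ℝ (fun z => ψ z - z) = Q at hf
  simp only [hf, add_apply, ContinuousLinearMap.id_apply, PiLp.add_apply,
    add_mul, mul_add, Finset.sum_add_distrib]
  rw [inner_ee, inner_ee_ee]
  simp
  ring

theorem Nid.val {m : ℕ} {ψ : E4 ≃ₜ E4} {δ : ℝ} (h : Nid m ψ δ) (y : E4) :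
    ‖ψ y - y‖ ≤ δ * (‖y‖ + 1) := by
  simpa [J1, norm_iteratedFDeriv_zero] using h.jet y 0 (Nat.zero_le _)

theorem Nid.jb {m : ℕ} {ψ : E4 ≃ₜ E4} {δ : ℝ} (h : Nid m ψ δ) (y : E4) :
    JB m (fun z => ψ z - z) y (‖y‖ + 1) (δ * (‖y‖ + 1)) :=
  ⟨(h.sm.sub contDiff_id).contDiffAt, h.jet y⟩

theorem Nid.scale {m : ℕ} {ψ : E4 ≃ₜ E4} {δ : ℝ} (h : Nid m ψ δ) (hδ : δ ≤ 1 / 2) (y : E4) :
    ‖y‖ + 1 ≤ 2 * (‖ψ y‖ + 1) := by
  have h1 := h.val y
  have h2 := norm_sub_norm_le y (ψ y)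
  rw [norm_sub_rev] at h2
  have h3 : δ * (‖y‖ + 1) ≤ 1 / 2 * (‖y‖ + 1) := by gcongr
  linarith

theorem le_sum_abs (C : ℕ → ℝ) {k n : ℕ} (h : k ≤ n) :
    C k ≤ ∑ j ∈ Finset.range (n + 1), |C j| :=
  (le_abs_self _).trans (Finset.single_le_sum (f := fun j => |C j|) (fun _ _ => abs_nonneg _)
    (Finset.mem_range.2 (Nat.lt_succ_of_le h)))

theorem pball : PBAllStmt := by
  intro Cs Cp
  refine ⟨fun k => Kp k (∑ j ∈ Finset.range (k + 2 + 1), |Cp j|)
    (2 ^ (k + 1) * ∑ j ∈ Finset.range (k + 1 + 1), |Cs j|), fun ψ G hψ hG hA hP y k i j => ?_⟩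
  have hs : 0 < ‖y‖ + 1 := by positivity
  rw [mul_one]
  refine (jb_pbm hs hψ.sm (fun a b => JB.scale (s := ‖ψ y‖ + 1)
    ⟨(hG.sm _ a b).sub contDiffAt_const, fun l hl => ?_⟩ (by positivity) hs.le one_le_two
    (hψ.scale (by norm_num) y)) ⟨(hψ.sm.sub contDiff_id).contDiffAt, fun l hl => ?_⟩ i j).bd k
    (Nat.le_succ k)
  · have := hA (ψ y) l a b
    rw [mul_one] at this
    exact le_trans this (le_sum_abs Cs hl)
  · exact le_trans (hP y l) (mul_le_mul_of_nonneg_right (le_sum_abs Cp hl) hs.le)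

end Crest.Agent.N207.Ph

end
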