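import Crest.Agent.N207.Ph.Exb1
import Crest.Agent.N207.Ph.Pb1
import Crest.Agent.N207.Ph.Ad1

/-!
# Row 207, block PHI (helper49): the cut and glued metrics of `EXB`
-/

set_option autoImplicit false

open scoped ContDiff Topology
open Set Filter MeasureTheory Metric
open Crest.GeometryTopology.CoordMetric
open Crest.Agent.R202.Tens

noncomputable section

namespace Crest.Agent.N207.Ph.Xb

open Sk G

/-- the corrected metric -/
def gk (G k : MetricField 4) : MetricField 4 := fun z => G z - k z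

/-- the corrected metric, cut at `R` -/
def gt (G k : MetricField 4) (R : ℝ) : MetricField 4 := glu R (2 * R) (gk G k) flat

/-- the glued metric -/
def gp (G k : MetricField 4) (R : ℝ) : MetricField 4 := glu 32 (2 * 32) G (gt G k R)

/-- the gauge 1-form -/
def vv (G k : MetricField 4) (U : Tn 4 1) (R : ℝ) : Tn 4 1 := fun y I =>
  Lg.gauT flat (gt G k R) y I - Lg.gauT flat G y I - U y I

/-- the error -/
def zz (G k : MetricField 4) (U : Tn 4 1) (R : ℝ) : MetricField 4 := fun x => Matrix.of fun i j =>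
  ricci (gt G k R) x i j - ((1 / 2) * (pderiv i (fun y => vv G k U R y ![j]) x +
    pderiv j (fun y => vv G k U R y ![i]) x) + (1 - up 1 2 x) * ricci G x i j)

/-- the volume of the unit ball -/
def v1 : ℝ := volume.real (closedBall (0 : E4) 1)

variable {G k : MetricField 4} {U : Tn 4 1} {R : ℝ} {y : E4} {m : ℕ} {s c c' : ℝ}

theorem v1_nonneg : 0 ≤ v1 := measureReal_nonneg

theorem jb_neg {f : E4 → ℝ} (h : JB m f y s c) : JB m (fun z => -f z) y s c :=
  ⟨h.sm.neg, fun l hl => by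
    rw [show (fun z => -f z) = -f from rfl, iteratedFDeriv_neg_apply, norm_neg]
    exact h.bd l hl⟩

theorem gk_sm (hG : Fl G) (hk : ∀ i j, ContDiff ℝ ∞ fun y => k y i j) (i j : Fin 4) :
    ContDiffAt ℝ ∞ (fun z => gk G k z i j) y := (hG.sm y i j).sub (hk i j).contDiffAt

theorem gt_sm (hG : Fl G) (hk : ∀ i j, ContDiff ℝ ∞ fun y => k y i j) (hR : 0 < R) (i j : Fin 4) :
    ContDiffAt ℝ ∞ (fun z => gt G k R z i j) y :=
  Cm.glu_sm hR (by linarith) (fun _ => gk_sm hG hk) (fun _ => Cm.flat_sm) i j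

theorem jg_gk (hG : Fl G) (hk : ∀ i j, ContDiff ℝ ∞ fun y => k y i j) (hs : 0 ≤ s)
    (h1 : JG m G y s c) (h2 : ∀ l ≤ m, ∀ i j, J1 l (fun z => k z i j) y s c') :
    JG m (gk G k) y s (c + c') := jg_of_jb fun i j =>
  (JB.add hs (jb_of_jg (hG.sm y) h1 i j)
    (jb_neg ⟨(hk i j).contDiffAt, fun l hl => h2 l hl i j⟩)).congr
    (Eventually.of_forall fun z => by simp only [dv, gk, Matrix.sub_apply]; ring)

theorem jg_two (m : ℕ) : ∃ C : ℝ, 1 ≤ C ∧ ∀ (G k : MetricField 4) (R : ℝ) (y : E4) (c c' : ℝ),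
    Fl G → (∀ i j, ContDiff ℝ ∞ fun y => k y i j) → 1 ≤ R → JG m G y (‖y‖ + 1) c →
    (∀ l ≤ m, ∀ i j, J1 l (fun z => k z i j) y (‖y‖ + 1) c') →
    JG m (gt G k R) y (‖y‖ + 1) (C * (c + c')) ∧ JG m (gp G k R) y (‖y‖ + 1) (C * (c + c')) := by
  obtain ⟨C, hC, h⟩ := Cm.gl' m
  refine ⟨(C + 1) * (C + 1), by nlinarith, fun G k R y c c' hG hk hR h1 h2 => ?_⟩
  have hs : 0 ≤ ‖y‖ + 1 := by positivity
  have hc := N207.U.jg_nonneg h1
  have hc' : 0 ≤ c' := le_trans (by positivity) (h2 0 (Nat.zero_le _) 0 0)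
  have hcc : 0 ≤ c + c' := by positivity
  have a := h (gk G k) flat R (by linarith) y _ (c + c') hs hcc (fun _ => by linarith)
    (fun _ => ⟨gk_sm hG hk, jg_gk hG hk hs h1 h2⟩) fun _ => ⟨Cm.flat_sm, Ad.jg_flat _ _ _ hcc⟩
  have b := h G (gt G k R) 32 (by norm_num) y _ ((C + 1) * (c + c')) hs (by positivity)
    (fun _ => by linarith) (fun _ => ⟨hG.sm y, jg_mono h1 (by nlinarith)⟩)
    fun _ => ⟨gt_sm hG hk (by linarith), jg_mono a (by nlinarith)⟩
  exact ⟨jg_mono a (by nlinarith [mul_nonneg hC.le (mul_nonneg hC.le hcc)]),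
    jg_mono b (by nlinarith [mul_nonneg hC.le (mul_nonneg hC.le hcc)])⟩

theorem fl_gt (hG : Fl G) (hk : ∀ i j, ContDiff ℝ ∞ fun y => k y i j) (hy : ∀ y, (k y).IsSymm)
    (hR : 0 < R) (h : Sml 0 (gk G k) (1 / 8)) : Fl (gt G k R) :=
  ⟨⟨isOpen_univ, fun i j _ _ => (gt_sm hG hk hR i j).contDiffWithinAt, fun y _ =>
    Ws.glu_pos (posDef_near (Matrix.IsSymm.sub (by
      simpa using (hG.riem.posDef y (mem_univ y)).isHermitian) (hy y)) (h y).near)
      Matrix.PosDef.one⟩, 2 * R, fun _ hx => Cm.glu_out hR (by linarith) hx⟩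

theorem int_ball {f : E4 → ℝ} {ρ : ℝ} (hρ : 0 ≤ ρ) (h : ∀ x, ‖x‖ ≤ ρ → |f x| ≤ c)
    (h0 : ∀ x, ρ < ‖x‖ → f x = 0) : ∫ x, f x ≤ c * (ρ ^ 4 * v1) := by
  rw [← setIntegral_eq_integral_of_forall_compl_eq_zero (s := closedBall 0 ρ) fun x hx =>
    h0 x (by rwa [mem_closedBall_zero_iff, not_le] at hx)]
  have := norm_setIntegral_le_of_norm_le_const (f := f) (μ := volume) (s := closedBall 0 ρ)
    measure_closedBall_lt_top fun x hx => h x (mem_closedBall_zero_iff.1 hx)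
  rw [Measure.addHaar_real_closedBall' _ _ hρ, finrank_euclideanSpace_fin] at this
  exact (le_abs_self _).trans this

theorem sq_le {Z : Matrix (Fin 4) (Fin 4) ℝ} {ρ b : ℝ} (hy : ‖y‖ ≤ ρ) (h : ∀ i j, |Z i j| ≤ b) :
    |‖y‖ ^ 2 * ∑ i, ∑ j, Z i j ^ 2| ≤ ρ ^ 2 * (16 * b ^ 2) := by
  rw [abs_of_nonneg (by positivity)]
  have : ∑ i, ∑ j, Z i j ^ 2 ≤ ∑ _i : Fin 4, ∑ _j : Fin 4, b ^ 2 :=
    Finset.sum_le_sum fun i _ => Finset.sum_le_sum fun j _ => by
      rw [← sq_abs]; exact pow_le_pow_left₀ (abs_nonneg _) (h i j) 2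
  simp only [Finset.sum_const, Finset.card_univ, Fintype.card_fin, nsmul_eq_mul] at this
  gcongr
  push_cast at this
  linarith

theorem rl_split {G1 G2 : MetricField 4} (h1 : Fl G1) (h2 : Fl G2) {B : ℝ}
    (hb : ∀ x : E4, 1 ≤ ‖x‖ → ‖x‖ ≤ 64 → ∀ i j, |ricci G1 x i j| ≤ B)
    (he : ∀ x : E4, 64 < ‖x‖ → ricci G1 x = ricci G2 x) :
    RL G1 1 ≤ 64 ^ 2 * (16 * B ^ 2) * (64 ^ 4 * v1) + RL G2 2 := by
  have hm : MeasurableSet ({x : E4 | 1 ≤ ‖x‖} ∩ closedBall 0 64) :=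
    (Ad.meas_ge 1).inter measurableSet_closedBall
  have i1 := h1.ric_int.indicator hm
  have i2 := h2.ric_int.indicator (Ad.meas_ge 2)
  have a := int_ball (f := ({x : E4 | 1 ≤ ‖x‖} ∩ closedBall 0 64).indicator
    fun x => ‖x‖ ^ 2 * ∑ i, ∑ j, ricci G1 x i j ^ 2) (c := 64 ^ 2 * (16 * B ^ 2)) (ρ := 64)
    (by norm_num) (fun x hx => by
      by_cases h : x ∈ {x : E4 | 1 ≤ ‖x‖} ∩ closedBall 0 64
      · rw [indicator_of_mem h]; exact sq_le hx (hb x h.1 hx)
      · rw [indicator_of_notMem h, abs_zero]; positivity)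
    fun x hx => indicator_of_notMem (fun h => (mem_closedBall_zero_iff.1 h.2).not_gt hx) _
  rw [RL, RL, ← integral_indicator (Ad.meas_ge 1), ← integral_indicator (Ad.meas_ge 2)]
  refine le_trans ?_ (add_le_add_left a _)
  rw [← integral_add i1 i2]
  refine integral_mono (h1.ric_int.indicator (Ad.meas_ge 1)) (i1.add i2) fun x => ?_
  have n1 := indicator_nonneg (s := {x : E4 | 1 ≤ ‖x‖} ∩ closedBall 0 64)
    (fun x _ => Ad.ric_nonneg G1 x) x
  have n2 := indicator_nonneg (s := {x : E4 | 2 ≤ ‖x‖}) (fun x _ => Ad.ric_nonneg G2 x) x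
  by_cases h : x ∈ {x : E4 | 1 ≤ ‖x‖}
  · rcases le_or_gt ‖x‖ 64 with h' | h'
    · rw [indicator_of_mem h]
      rw [indicator_of_mem (mem_inter h (mem_closedBall_zero_iff.2 h'))]
      linarith
    · rw [indicator_of_mem h, he x h']
      rw [indicator_of_mem (show x ∈ {x : E4 | 2 ≤ ‖x‖} from (by linarith : 2 ≤ ‖x‖))]
      linarith
  · rw [indicator_of_notMem h]
    linarith

theorem ricB_le {e : ℝ} (h : RicB G e) (hy : 1 ≤ ‖y‖) (i j : Fin 4) : |ricci G y i j| ≤ e := by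
  obtain ⟨J, h0, h1, h2⟩ := h
  obtain ⟨l, hl, hl'⟩ := exists_nat_pow_near hy one_lt_two
  have a : |ricci G y i j| ≤ J l := by
    simpa [J1] using h2 l y hl hl'.le 0 (by norm_num) i j
  have b := h1 (l + 1)
  rw [Finset.sum_range_succ] at b
  linarith [Finset.sum_nonneg fun x (_ : x ∈ Finset.range l) => h0 x]

section sol

variable {Γ : Subgroup Iso} {n : ℕ} {ε : ℕ → ℝ} (S : Sol Γ G n k U ε)
include S

theorem vv_sm (hG : Fl G) (ht : Fl (gt G k R)) : SmT (vv G k U R) univ := fun I =>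
  ((gau_sm ht.riem I).sub (gau_sm hG.riem I)).sub (S.usm I)

theorem vv_inv (hG : Fl G) (hi : Inv Γ G) (ht : Fl (gt G k R)) {γ : Iso} (hγ : γ ∈ Γ) (x : E4) :
    vv G k U R x = pullT γ (vv G k U R) x := by
  funext I
  have a := gau_inv ht.riem (Ws.inv_glu (inv_sub hi S.inv) (inv_flat Γ)) hγ x
  have e : pullT γ (vv G k U R) x I = pullT γ (fun z J => Lg.gauT flat (gt G k R) z J -
      Lg.gauT flat G z J) x I - pullT γ U x I := AI.pullT_sub _ _ _ _ _
  rw [e, AI.pullT_sub, ← a, ← gau_inv hG.riem hi hγ x, ← S.uinv γ hγ x]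
  rfl

theorem vv_out (hR : 0 < R) (hn : 8 * R = 2 ^ n) (h0 : ∀ y : E4, R ≤ ‖y‖ → G =ᶠ[𝓝 y] flat)
    (hy : 8 * R < ‖y‖) : vv G k U R =ᶠ[𝓝 y] 0 := by
  filter_upwards [gau_congr (glu_ev_out hR (by linarith) (gk G k) flat (by linarith : 2 * R < ‖y‖)),
    gau_congr (h0 y (by linarith)), Ws.ev_gt hy] with z h1 h2 h3
  funext I
  simp only [vv, gt, h1, h2, S.uout z (by linarith), sub_self, Pi.zero_apply]

theorem zz_in (hR : 1 ≤ R) (hn : 8 * R = 2 ^ n) (hy : ‖y‖ < R) (i j : Fin 4) :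
    zz G k U R y i j = 0 := by
  have e : gt G k R =ᶠ[𝓝 y] gk G k := glu_ev_in (by linarith) (by linarith) _ _ hy
  have h : ∀ i j, pderiv i (fun y => vv G k U R y ![j]) y = pderiv i (fun y => Vg G k U y ![j]) y :=
    fun i j => (AI.pderiv_congr ((gau_congr e).mono fun z hz => by
      simp only [vv, hz]; rfl) i).eq_of_nhds
  simp only [zz, Matrix.of_apply, h, ricci_congr e]
  exact sub_eq_zero.2 (S.eqn y (by linarith) i j)

theorem zz_out (hR : 0 < R) (hn : 8 * R = 2 ^ n) (h0 : ∀ y : E4, R ≤ ‖y‖ → G =ᶠ[𝓝 y] flat)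
    (hy : 8 * R < ‖y‖) (i j : Fin 4) : zz G k U R y i j = 0 := by
  have h : ∀ i j, pderiv i (fun y => vv G k U R y ![j]) y = 0 := fun i j => by
    rw [(AI.pderiv_congr (f' := fun _ => 0) ((vv_out S hR hn h0 hy).mono fun z hz => by
      simp only [hz, Pi.zero_apply]) i).eq_of_nhds]
    simp [pderiv]
  have e : gt G k R =ᶠ[𝓝 y] flat := glu_ev_out hR (by linarith) _ _ (by linarith)
  simp [zz, h, ricci_congr e, ricci_congr (h0 y (by linarith)), ricci_flat]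

theorem zz_mid (ht : Fl (gt G k R)) (h0 : G =ᶠ[𝓝 y] flat) {b b' : ℝ}
    (h1 : ∀ i j, |ricci (gt G k R) y i j| ≤ b ∧
      |pderiv i (fun z => Lg.gauT flat (gt G k R) z ![j]) y| ≤ b)
    (h2 : ∀ i j, |symd U y i j| ≤ b') (i j : Fin 4) : |zz G k U R y i j| ≤ 2 * b + b' := by
  have d : ∀ {T : Tn 4 1}, SmT T univ → ∀ I, DifferentiableAt ℝ (fun z => T z I) y := fun h I =>
    ((h I).contDiffAt univ_mem).differentiableAt (by simp)
  have h : ∀ i j, pderiv i (fun y => vv G k U R y ![j]) y =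
      pderiv i (fun z => Lg.gauT flat (gt G k R) z ![j]) y - pderiv i (fun z => U z ![j]) y :=
    fun i j => by
      rw [← pd_sub i (d (gau_sm ht.riem) _) (d S.usm _)]
      exact (AI.pderiv_congr ((gau_congr h0).mono fun z hz => by
        simp only [vv, hz, gau_one, sub_zero]) i).eq_of_nhds
  have a := abs_le.1 (h1 i j).1
  have b1 := abs_le.1 (h1 i j).2
  have b2 := abs_le.1 (h1 j i).2
  have b3 := abs_le.1 (h2 i j)
  have b4 := (abs_nonneg _).trans (h2 i j)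
  simp only [symd, Matrix.of_apply] at b3
  simp only [zz, Matrix.of_apply, h, ricci_congr h0, ricci_flat, mul_zero, add_zero]
  exact abs_le.2 ⟨by linarith, by linarith⟩

end sol

end Crest.Agent.N207.Ph.Xb

end
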