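import Crest.Agent.N207.Ph.Hc3
import Crest.Agent.N207.Lg.Flat
import Crest.Agent.N207.CB.Boot
import Crest.Agent.N207.U.Met

/-!
# Row 207, block PHI (helper11): the nonlinear part of the gauged Ricci operator on cells
-/

set_option autoImplicit false
set_option linter.unusedSectionVars false

open scoped ContDiff Topology
open Set Filter Metric
open Crest.GeometryTopology.CoordMetric

noncomputable section

namespace Crest.Agent.N207.Ph.Ey

open Crest.Agent.NLib.Ell Crest.Agent.N207.Lg Sk Hc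
open Crest.Agent.R240.Fr (lap)

/-- symmetric and close to `δ` -/
def Nr (g : MetricField 4) : Prop :=
  ∀ x, (∀ a b, g x a b = g x b a) ∧ ∀ a b, |dv g a b x| ≤ 1 / 100

variable {g : MetricField 4} {x : E4}

theorem Nr.pos (h : Nr g) (x : E4) : (g x).PosDef :=
  (I.pos_of_small (h x).1 (h x).2).posDef (by norm_num)

theorem Nr.det (h : Nr g) (x : E4) : 1 / 384 ≤ (g x).det := by
  have h0 := (h.pos x).det_pos
  have h1 : |((g x)⁻¹).det| ≤ _ := Matrix.det_le (abv := AbsoluteValue.abs)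
    (U.abs_inv_le h0.ne'.isUnit (ε := 1 / 100) (by norm_num) (h x).2)
  rw [Matrix.det_nonsing_inv, Ring.inverse_eq_inv', abs_of_pos (inv_pos.2 h0),
    inv_le_comm₀ h0 (by positivity)] at h1
  refine le_trans (le_of_eq ?_) h1
  norm_num [Nat.factorial]

theorem Nr.c2 (h : Nr g) (hc : ∀ a b, ContDiffAt ℝ 2 (fun z => g z a b) x) : C2 g x :=
  ⟨hc, Eventually.of_forall fun z => (h z).1, (h.pos x).det_pos⟩

theorem Nr.riem (h : Nr g) (hc : ∀ a b, ContDiff ℝ ∞ fun z => g z a b) : IsRiemannianOn g univ :=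
  ⟨isOpen_univ, fun a b => (hc a b).contDiffOn, fun z _ => h.pos z⟩

theorem Nr.hd_eq (h : Nr g) (a b : Fin 4) (x : E4) :
    hd g a b x = ∑ c, (g x)⁻¹ a c * dv g c b x := by
  have e := congrFun (congrFun (Matrix.nonsing_inv_mul _ (h.pos x).det_pos.ne'.isUnit) a) b
  rw [Matrix.mul_apply] at e
  simp only [hd, dv, mul_sub, Finset.sum_sub_distrib, e, Matrix.one_apply]
  simp

theorem nr_flat : Nr flat := fun x => ⟨fun a b => by simp [flat, Matrix.one_apply, eq_comm],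
  fun a b => by simp [dv, flat]⟩

/-- the first order part -/
def QQ (g : MetricField 4) (i j : Fin 4) (y : E4) : ℝ :=
  2 * qd (iv g y) (jet g y) i j - gv (iv g y) (jet g y) i * gv (iv g y) (jet g y) j

/-- `Δ g + 2 Ric g - symd B` -/
def PP (g : MetricField 4) (i j : Fin 4) (y : E4) : ℝ :=
  ∑ a, ∑ b, hd g a b y * jet2 g y a b i j + QQ g i j y

theorem pp_eq (h : C2 g x) (i j : Fin 4) : PP g i j x =
    lap (fun z => g z i j) x + 2 * ricci g x i j - symd (gauT flat g) x i j := by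
  have e : lap (fun z => g z i j) x = ∑ a, jet2 g x a a i j := rfl
  have e2 : flat = fun _ => 1 := rfl
  rw [ricci_one h, e, e2]
  simp only [PP, QQ, hd, sub_mul, Finset.sum_sub_distrib, Matrix.one_apply, ite_mul, one_mul,
    zero_mul, Finset.sum_ite_eq, Finset.mem_univ, if_true, symd, Matrix.of_apply, gauT_const, lapJ,
    iv]
  ring

theorem ric_eq (h : C2 g x) (i j : Fin 4) :
    ricci g x i j = ricJ (iv g x) (jet g x) (jet2 g x) i j := by
  rw [(c2_one x).ricci_eq h, TG_const, TTG_const, ricci_const, zero_add]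

/-! ### pairs of functions -/

section LP

variable {D : Type} {k : ℕ} {y : D → E4} {κ : D → ℝ} {φ ψ : D × Bool × E4 → ℝ}

/-- bounded, with a difference of size `κ` -/
def LP (k : ℕ) (y : D → E4) (κ : D → ℝ) (φ : D × Bool × E4 → ℝ) : Prop :=
  ∃ C, 0 ≤ C ∧ ∀ d, (∀ b, CK k C (fun x => φ (d, b, x)) (y d)) ∧
    CK k (C * κ d) (fun x => φ (d, true, x) - φ (d, false, x)) (y d)

theorem LP.cst (hκ : ∀ d, 0 ≤ κ d) {c : D → ℝ} {K : ℝ} (hc : ∀ d, |c d| ≤ K) :
    LP k y κ fun p => c p.1 :=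
  ⟨|K|, abs_nonneg _, fun d => ⟨fun _ => (CK.const (c d)).mono ((hc d).trans (le_abs_self K)),
    CK.of_zero (mul_nonneg (abs_nonneg _) (hκ d)) fun _ _ => sub_self _⟩⟩

theorem lp_cl (hκ : ∀ d, 0 ≤ κ d) : Cl (LP k y κ) where
  const c := LP.cst hκ (c := fun _ => c) fun _ => le_rfl
  add := by
    rintro φ ψ ⟨C, hC, h⟩ ⟨C', hC', h'⟩
    exact ⟨C + C', by positivity, fun d => ⟨fun b => ((h d).1 b).add ((h' d).1 b),
      (((h d).2.add (h' d).2).congr fun z _ => by ring).mono (le_of_eq (by ring))⟩⟩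
  mul := by
    rintro φ ψ ⟨C, hC, h⟩ ⟨C', hC', h'⟩
    refine ⟨2 * (2 ^ (k + 1) * (C * C')), by positivity, fun d =>
      ⟨fun b => (((h d).1 b).mul ((h' d).1 b)).mono ?_, ((((h d).2.mul ((h' d).1 true)).add
        (((h d).1 false).mul (h' d).2)).congr fun z _ => by ring).mono (le_of_eq (by ring))⟩⟩
    have : 0 ≤ 2 ^ (k + 1) * (C * C') := by positivity
    linarith

theorem LP.of_le (h : LP k y κ φ) {j : ℕ} (hj : j ≤ k) : LP j y κ φ :=
  h.imp fun _ hC => ⟨hC.1, fun d => ⟨fun b => ((hC.2 d).1 b).of_le hj, (hC.2 d).2.of_le hj⟩⟩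

theorem LP.inv (h : LP k y κ φ) {c : ℝ} (hc : 0 < c) (h0 : ∀ p, c ≤ φ p) :
    LP k y κ fun p => (φ p)⁻¹ := by
  obtain ⟨C, hC, h⟩ := h
  obtain ⟨E, hE⟩ := NLib.Ell.comp 4 k (1 / 2) C (by norm_num) (by norm_num) ℝ ℝ (fun t => t⁻¹) (Ioi 0)
    (Icc c C) isOpen_Ioi isCompact_Icc (fun t ht => hc.trans_le ht.1) CB.Bt.sm_inv0
  have h1 : ∀ d b, CK k |E| (fun x => (φ (d, b, x))⁻¹) (y d) := fun d b =>
    CKA.mono (hE _ _ isOpen_ball (fun Y hY => ⟨h0 _, (le_abs_self _).trans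
      (((h d).1 b).bdd_cl hY)⟩) ((h d).1 b)) (le_abs_self E)
  refine ⟨|E| + 2 ^ (k + 1) * (C * (2 ^ (k + 1) * (|E| * |E|))), by positivity, fun d =>
    ⟨fun b => (h1 d b).mono (le_add_of_nonneg_right (by positivity)),
      ((((h d).2.mul ((h1 d true).mul (h1 d false))).neg).congr fun z _ => ?_).mono ?_⟩⟩
  · have := (hc.trans_le (h0 (d, true, z))).ne'
    have := (hc.trans_le (h0 (d, false, z))).ne'
    field_simp
    ring
  · rcases hC.eq_or_lt with rfl | hC'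
    · have := (((h d).1 true).bdd)
      linarith [h0 (d, true, y d), le_abs_self (φ (d, true, y d)), Real.norm_eq_abs (φ (d, true, y d))]
    · have := (mul_nonneg_iff_of_pos_left hC').1 (h d).2.nonneg
      nlinarith [mul_nonneg (abs_nonneg E) this]

theorem LP.pd (h : LP (k + 1) y κ φ) (i : Fin 4) :
    LP k y κ fun p => (‖y p.1‖ + 1) * pderiv i (fun x => φ (p.1, p.2.1, x)) p.2.2 := by
  obtain ⟨C, hC, h⟩ := h
  have e : ∀ (d : D) (M : ℝ), |‖y d‖ + 1| * (4 / (‖y d‖ + 1) * M) = 4 * M := fun d M => by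
    rw [abs_of_pos (Hc.sc_pos _)]
    have := Hc.sc_pos (y d)
    field_simp
  refine ⟨4 * C, by positivity, fun d => ⟨fun b => ((((h d).1 b).pderiv i).const_mul _).mono
    (e d C).le, CKA.mono (CKA.congr (((h d).2.pderiv i).const_mul (‖y d‖ + 1)) isOpen_ball
      fun Y hY => ?_) (by rw [e, mul_assoc])⟩⟩
  have h1 := fun b => (((h d).1 b).contDiffAt_cl hY).differentiableAt (by simp)
  simp only [pderiv, fderiv_fun_sub (h1 true) (h1 false), sub_apply, mul_sub]

end LP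

/-- two metrics on a cell -/
structure Dt (m : ℕ) (K : ℝ) where
  g : Bool → MetricField 4
  y : E4
  η : ℝ
  d : ℝ
  pos : 0 < η
  le : η ≤ K
  nr : ∀ b, Nr (g b)
  jt : ∀ b i j, CK m η (dv (g b) i j) y
  dif : ∀ i j, CK m d (fun x => g true x i j - g false x i j) y

namespace Dt

variable {m k : ℕ} {K : ℝ}

/-- the class of the data -/
abbrev L (m : ℕ) (K : ℝ) (k : ℕ) : (Dt m K × Bool × E4 → ℝ) → Prop :=
  LP k (fun D : Dt m K => D.y) fun D => D.d / D.η

theorem kap (D : Dt m K) : 0 ≤ D.d / D.η := div_nonneg (D.dif 0 0).nonneg D.pos.le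

theorem cls : Cl (L m K k) := lp_cl kap

theorem eta : L m K k fun p => p.1.η :=
  LP.cst kap (K := K) fun D => by rw [abs_of_pos D.pos]; exact D.le

theorem nn (i j : Fin 4) : L m K m fun p => p.1.η⁻¹ * dv (p.1.g p.2.1) i j p.2.2 :=
  ⟨1, zero_le_one, fun D => ⟨fun b => ((D.jt b i j).const_mul D.η⁻¹).mono (by
    rw [abs_of_pos (inv_pos.2 D.pos), inv_mul_cancel₀ D.pos.ne']),
    (((D.dif i j).const_mul D.η⁻¹).congr fun z _ => by simp only [dv]; ring).mono (by
      simp only [abs_of_pos (inv_pos.2 D.pos), one_mul, div_eq_inv_mul, le_refl])⟩⟩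

theorem gg (i j : Fin 4) : L m K m fun p => p.1.g p.2.1 p.2.2 i j := by
  have h := cls.add (cls.mul eta (nn (m := m) (K := K) i j))
    (cls.const ((1 : Matrix (Fin 4) (Fin 4) ℝ) i j))
  refine (congrArg _ (funext fun p => ?_)).mp h
  rw [mul_inv_cancel_left₀ p.1.pos.ne', dv, sub_add_cancel]

theorem hh : P2 (L m K m) fun p => iv (p.1.g p.2.1) p.2.2 :=
  CB.Bt.cl_inv cls gg ((CB.Bt.cl_det cls gg).inv (by norm_num) fun p => (p.1.nr _).det _)

theorem dd (a b : Fin 4) : L m K m fun p => p.1.η⁻¹ * hd (p.1.g p.2.1) a b p.2.2 := by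
  refine (congrArg _ (funext fun p => ?_)).mp
    (cls.sum Finset.univ fun c => cls.mul (hh a c) (nn (m := m) (K := K) c b))
  rw [(p.1.nr _).hd_eq, Finset.mul_sum]
  exact Finset.sum_congr rfl fun c _ => by simp only [iv]; ring

theorem pd_cm (c : ℝ) (i : Fin 4) (f : E4 → ℝ) :
    pderiv i (fun x => c * f x) = fun x => c * pderiv i f x := funext fun _ => pd_cmul i c

theorem tt : P3 (L (m + 1) K m) fun p => ((‖p.1.y‖ + 1) / p.1.η) • jet (p.1.g p.2.1) p.2.2 :=
  fun c a b => by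
    refine (congrArg _ (funext fun p => ?_)).mp ((nn (m := m + 1) (K := K) a b).pd c)
    simp only [pd_cm, TR.pd_dv, Pi.smul_apply, smul_eq_mul, Lg.jet]
    ring

theorem tt2 : P4 (L (m + 2) K m)
    fun p => ((‖p.1.y‖ + 1) ^ 2 / p.1.η) • jet2 (p.1.g p.2.1) p.2.2 := fun c d a b => by
  refine (congrArg _ (funext fun p => ?_)).mp ((tt (m := m + 1) (K := K) d a b).pd c)
  simp only [pd_cm, Pi.smul_apply, smul_eq_mul, jet2]
  ring

theorem qq (i j : Fin 4) :
    L (m + 1) K m fun p => ((‖p.1.y‖ + 1) / p.1.η) ^ 2 * QQ (p.1.g p.2.1) i j p.2.2 := by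
  have h1 : P2 (L (m + 1) K m) _ := fun a b => (hh a b).of_le (Nat.le_succ m)
  refine (congrArg _ (funext fun p => ?_)).mp (cls.sub (cls.mul (cls.const 2) (cls.qd h1 tt i j))
    (cls.mul (cls.gv h1 tt i) (cls.gv h1 tt j)))
  simp only [qd_hom, gv_smul', Pi.smul_apply, smul_eq_mul, QQ]
  ring

end Dt

theorem pp_lp (m : ℕ) (K : ℝ) (i j : Fin 4) : Dt.L (m + 2) K m
    fun p => ((‖p.1.y‖ + 1) / p.1.η) ^ 2 * PP (p.1.g p.2.1) i j p.2.2 := by
  have h1 : Dt.L (m + 2) K m _ := (Dt.qq (m := m + 1) i j).of_le (Nat.le_succ m)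
  refine (congrArg _ (funext fun p => ?_)).mp (Dt.cls.add (Dt.cls.sum Finset.univ fun a =>
    Dt.cls.sum Finset.univ fun b => Dt.cls.mul ((Dt.dd a b).of_le (Nat.le_add_right m 2))
      (Dt.tt2 a b i j)) h1)
  simp only [PP, mul_add, Finset.mul_sum, Pi.smul_apply, smul_eq_mul]
  congr 1
  exact Finset.sum_congr rfl fun a _ => Finset.sum_congr rfl fun b _ => by ring

theorem ric_lp (m : ℕ) (K : ℝ) (i j : Fin 4) : Dt.L (m + 2) K m fun p => (‖p.1.y‖ + 1) ^ 2 *
    ricJ (iv (p.1.g p.2.1) p.2.2) (jet (p.1.g p.2.1) p.2.2) (jet2 (p.1.g p.2.1) p.2.2) i j := by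
  have h1 : P2 (Dt.L (m + 2) K m) _ := fun a b => (Dt.hh a b).of_le (Nat.le_add_right m 2)
  have h2 : P3 (Dt.L (m + 2) K m) fun p => (‖p.1.y‖ + 1) • jet (p.1.g p.2.1) p.2.2 :=
    fun c a b => by
      refine (congrArg _ (funext fun p => ?_)).mp
        (Dt.cls.mul Dt.eta ((Dt.tt (m := m + 1) (K := K) c a b).of_le (Nat.le_succ m)))
      have := p.1.pos.ne'
      simp only [Pi.smul_apply, smul_eq_mul]
      field_simp
  have h3 : P4 (Dt.L (m + 2) K m) fun p => (‖p.1.y‖ + 1) ^ 2 • jet2 (p.1.g p.2.1) p.2.2 :=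
    fun c d a b => by
      refine (congrArg _ (funext fun p => ?_)).mp (Dt.cls.mul Dt.eta (Dt.tt2 (K := K) c d a b))
      have := p.1.pos.ne'
      simp only [Pi.smul_apply, smul_eq_mul]
      field_simp
  refine (congrArg _ (funext fun p => ?_)).mp (Dt.cls.ricJ h1 h2 h3 i j)
  simp only [ricJ_hom, Pi.smul_apply, smul_eq_mul]

theorem unif2 {D : Type} {k : ℕ} {y : D → E4} {κ : D → ℝ} (hκ : ∀ d, 0 ≤ κ d)
    {φ : Fin 4 → Fin 4 → D × Bool × E4 → ℝ} (h : ∀ i j, LP k y κ (φ i j)) :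
    ∃ C, 0 < C ∧ ∀ d i j, (∀ b, CK k C (fun x => φ i j (d, b, x)) (y d)) ∧
      CK k (C * κ d) (fun x => φ i j (d, true, x) - φ i j (d, false, x)) (y d) := by
  choose C hC h using h
  have h1 : ∀ i j, C i j ≤ ∑ i, ∑ j, C i j + 1 := fun i j =>
    ((Finset.single_le_sum (fun j _ => hC i j) (Finset.mem_univ j)).trans
      (Finset.single_le_sum (f := fun i => ∑ j, C i j)
        (fun i _ => Finset.sum_nonneg fun j _ => hC i j) (Finset.mem_univ i))).trans (by linarith)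
  have h2 : 0 ≤ ∑ i, ∑ j, C i j := Finset.sum_nonneg fun i _ => Finset.sum_nonneg fun j _ => hC i j
  exact ⟨_, by positivity, fun d i j => ⟨fun b => ((h i j d).1 b).mono (h1 i j),
    (h i j d).2.mono (mul_le_mul_of_nonneg_right (h1 i j) (hκ d))⟩⟩

theorem ck_div {k : ℕ} {M c : ℝ} {f : E4 → ℝ} {y : E4} (hc : 0 < c)
    (h : CK k M (fun x => c * f x) y) : CK k (M / c) f y :=
  ((h.const_mul c⁻¹).congr fun z _ => (inv_mul_cancel_left₀ hc.ne' _).symm).mono (by
    rw [abs_of_pos (inv_pos.2 hc), div_eq_inv_mul])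

/-- the Lipschitz estimate of `PP` -/
theorem lip (m : ℕ) (K : ℝ) : ∃ C : ℝ, 0 < C ∧ ∀ (g g' : MetricField 4) (y : E4) (η d : ℝ),
    0 < η → η ≤ K → Nr g → Nr g' → (∀ i j, CK (m + 2) η (dv g i j) y) →
    (∀ i j, CK (m + 2) η (dv g' i j) y) → (∀ i j, CK (m + 2) d (fun x => g x i j - g' x i j) y) →
    ∀ i j, CK m (C * η * d / (‖y‖ + 1) ^ 2) (fun x => PP g i j x - PP g' i j x) y := by
  obtain ⟨C, hC, h⟩ := unif2 Dt.kap (pp_lp m K)
  refine ⟨C, hC, fun g g' y η d h0 h1 h2 h3 h4 h5 h6 i j => ?_⟩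
  have hs := Hc.sc_pos y
  have h7 := (h ⟨fun b => bif b then g else g', y, η, d, h0, h1, fun b => by cases b <;> assumption,
    fun b => by cases b <;> assumption, h6⟩ i j).2
  simp only [cond_true, cond_false, ← mul_sub] at h7
  refine (ck_div (by positivity) h7).mono (le_of_eq ?_)
  field_simp

/-- the Ricci tensor -/
theorem ric_ck (m : ℕ) (K : ℝ) : ∃ C : ℝ, 0 < C ∧ ∀ (g : MetricField 4) (y : E4) (d : ℝ),
    d ≤ K → Nr g → (∀ i j, ContDiff ℝ 2 fun x => g x i j) → (∀ i j, CK (m + 2) d (dv g i j) y) →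
    ∀ i j, CK m (C * d / (‖y‖ + 1) ^ 2) (fun x => ricci g x i j) y := by
  obtain ⟨C, hC, h⟩ := unif2 Dt.kap (ric_lp m (|K| + 1))
  refine ⟨C / (|K| + 1), by positivity, fun g y d h1 h2 h3 h4 i j => ?_⟩
  have hs := Hc.sc_pos y
  have h7 := (h ⟨fun b => bif b then g else flat, y, |K| + 1, d, by positivity, le_rfl,
    fun b => by cases b; exacts [nr_flat, h2], fun b => by
      cases b
      · exact fun i j => CK.of_zero (by positivity) fun z _ => sub_self _
      · exact fun i j => (h4 i j).mono (by linarith [le_abs_self K]), h4⟩ i j).2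
  simp only [cond_true, cond_false, ← ric_eq (h2.c2 fun a b => (h3 a b).contDiffAt),
    ← ric_eq (nr_flat.c2 fun a b => contDiffAt_const), ricci_flat, mul_zero, sub_zero] at h7
  refine (ck_div (by positivity) h7).mono (le_of_eq ?_)
  field_simp

/-- the coefficients of the bootstrap -/
theorem bdd (m : ℕ) (K : ℝ) : ∃ C : ℝ, 0 < C ∧ ∀ (g : MetricField 4) (y : E4), Nr g →
    (∀ i j, CK (m + 1) K (dv g i j) y) → ∀ i j, CK (m + 1) C (hd g i j) y ∧
      CK m (C / (‖y‖ + 1) ^ 2) (QQ g i j) y := by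
  obtain ⟨C, hC, h⟩ := unif2 Dt.kap (Dt.dd (m := m + 1) (K := |K| + 1))
  obtain ⟨C', hC', h'⟩ := unif2 Dt.kap (Dt.qq (m := m) (K := |K| + 1))
  refine ⟨C * (|K| + 1) + C' * (|K| + 1) ^ 2, by positivity, fun g y h1 h2 i j => ?_⟩
  have hs := Hc.sc_pos y
  let D : Dt (m + 1) (|K| + 1) := ⟨fun _ => g, y, |K| + 1, 0, by positivity, le_rfl, fun _ => h1,
    fun _ i j => (h2 i j).mono (by linarith [le_abs_self K]),
    fun _ _ => CK.of_zero le_rfl fun _ _ => sub_self _⟩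
  refine ⟨(ck_div (c := (|K| + 1)⁻¹) (by positivity) ((h D i j).1 true)).mono ?_,
    (ck_div (c := ((‖y‖ + 1) / (|K| + 1)) ^ 2) (by positivity) ((h' D i j).1 true)).mono ?_⟩
  · rw [div_inv_eq_mul]
    exact le_add_of_nonneg_right (by positivity)
  · rw [div_pow, div_div_eq_mul_div]
    gcongr
    exact le_add_of_nonneg_left (by positivity)

end Crest.Agent.N207.Ph.Ey

end
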