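import Crest.Agent.N207.Ph.Nw8
import Crest.Agent.N207.Ph.ExD

/-!
# Row 207, block PHI (helper48): abstract Picard iteration for `k = KK n (S k)`, definitions
-/

set_option autoImplicit false

open scoped ContDiff Topology
open Set Metric
open Crest.GeometryTopology.CoordMetric Crest.GeometryTopology.ChartCurvature

noncomputable section

namespace Crest.Agent.N207.Ph.Ez

open Crest.Agent.R238 (Ell)
open Crest.Agent.R240.Fr (lap)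

/-- entrywise `WD` -/
def WM (m : ℕ) (a : ℕ → ℝ) (k : MetricField 4) : Prop := ∀ i j, WD m a fun y => k y i j

/-- smooth entries -/
def SmM (k : MetricField 4) : Prop := ∀ i j, ContDiff ℝ ∞ fun y => k y i j

/-- slowly varying summable envelopes -/
structure Env (ε : ℕ → ℝ) (δ : ℝ) : Prop where
  nn : ∀ l, 0 ≤ ε l
  sum : ∀ n, ∑ l ∈ Finset.range n, ε l ≤ δ
  nb : Nb ε fun l => 3 * ε l
  cv : ∀ j m, ∑ l ∈ Finset.range m, wE j l * ε l ≤ 7 * ε j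

/-- admissible perturbations -/
structure Ad (ε : ℕ → ℝ) (K : ℝ) (k : MetricField 4) : Prop where
  sy : ∀ y, (k y).IsSymm
  wd : WM 3 (fun l => K * ε l) k

/-- the source map -/
structure Src (Γ : Subgroup Iso) (n : ℕ) (S : MetricField 4 → MetricField 4) (ε : ℕ → ℝ)
    (K L0 L1 : ℝ) (M : ℕ → ℝ → ℝ) : Prop where
  out : ∀ k (y : E4), 2 ^ n ≤ ‖y‖ + 1 → S k y = 0
  sm : ∀ k, Ad ε K k → SmM k → SmM (S k) ∧ (∀ y, (S k y).IsSymm) ∧ (Inv Γ k → Inv Γ (S k))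
  zero : WM 1 (fun l => L0 * ε l / 4 ^ l) (S 0)
  lip : ∀ m ≤ 1, ∀ k k', Ad ε K k → Ad ε K k' → ∀ (l : ℕ) (y : E4) (d : ℝ), 2 ^ l ≤ ‖y‖ + 1 →
    ‖y‖ + 1 ≤ 2 ^ (l + 1) → (∀ i j, CK (m + 2) d (fun z => k z i j - k' z i j) y) →
    ∀ i j, CK m (L1 * ε l * d / 4 ^ l) (fun z => S k z i j - S k' z i j) y
  boot : ∀ (m : ℕ) (B : ℝ) (k : MetricField 4), Ad ε K k → WM (m + 1) (fun _ => B) k →
    ∃ τ F : MetricField 4, (∀ x, Ell (1 / 2) 2 (τ x)) ∧ WM m (fun _ => M m B) τ ∧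
      WM m (fun l => M m B / 4 ^ l) F ∧ ∀ x i j, lap (fun y => k y i j) x - S k x i j =
        ∑ a, ∑ b, τ x a b * pderiv a (pderiv b fun y => k y i j) x - F x i j

/-- the abstract fixed point theorem -/
def PICStmt : Prop :=
  ∃ θ C : ℝ, 0 < θ ∧ 1 ≤ C ∧ ∀ M : ℕ → ℝ → ℝ, ∃ Cs' : ℕ → ℝ, ∀ (Γ : Subgroup Iso) (n : ℕ)
    (S : MetricField 4 → MetricField 4) (ε : ℕ → ℝ) (L0 L1 δ : ℝ), Env ε δ → 0 ≤ L0 → 0 ≤ L1 →
    L0 * δ ≤ 1 → L1 * δ ≤ θ → Src Γ n S ε (C * L0) L0 L1 M →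
    ∃ k : MetricField 4, SmM k ∧ Ad ε (C * L0) k ∧ Inv Γ k ∧ (∀ m, WM m (fun _ => Cs' m) k) ∧
      (∀ x i j, lap (fun y => k y i j) x + symd (UU n (S k)) x i j = S k x i j) ∧
      WM 0 (fun l => C * L0 * ε l / 4 ^ l) (symd (UU n (S k))) ∧
      ∀ (J : ℕ → ℝ) (e : ℝ), (∀ m, ∑ l ∈ Finset.range m, J l ≤ e) → WM 0 J (S 0) →
        WM 2 (fun l => C * 4 ^ l * e) k

/-- the instance: `S k = χₙ (PP G - PP (G - k)) - 2 up 1 2 Ric G` (any `S` will do) -/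
def SRCStmt : Prop :=
  ∃ c : ℝ, 0 < c ∧ ∀ K : ℝ, 0 ≤ K → ∃ L1 δ0 : ℝ, 0 ≤ L1 ∧ 0 < δ0 ∧ ∀ Cs : ℕ → ℝ,
    ∃ M : ℕ → ℝ → ℝ, ∀ (Γ : Subgroup Iso) (G : MetricField 4) (ε : ℕ → ℝ) (δ : ℝ) (n : ℕ),
    Fl G → Inv Γ G → All Cs G → Env ε δ → δ ≤ δ0 →
    (∀ (l : ℕ) (y : E4), 2 ^ l ≤ ‖y‖ + 1 → ‖y‖ + 1 ≤ 2 ^ (l + 1) → Sk.JG 4 G y (‖y‖ + 1) (ε l)) →
    (∀ y : E4, 2 ^ n ≤ 4 * (‖y‖ + 1) → G y = 1) →
    ∃ S : MetricField 4 → MetricField 4, Src Γ n S ε K c L1 M ∧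
      (∀ k U, SmM k → Ad ε K k → SmT U univ →
        (∀ x i j, lap (fun y => k y i j) x + symd U x i j = S k x i j) →
        ∀ y : E4, 2 * (‖y‖ + 1) ≤ 2 ^ n → ∀ i j, ricci (fun z => G z - k z) y i j =
          (1 / 2) * symd (Vg G k U) y i j + (1 - up 1 2 y) * ricci G y i j) ∧
      ∀ e, RicB G e → ∃ J : ℕ → ℝ, (∀ m, ∑ l ∈ Finset.range m, J l ≤ c * e) ∧ WM 0 J (S 0)

end Crest.Agent.N207.Ph.Ez

end
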