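import Crest.Agent.N207.Ph.Ey1
import Crest.Agent.N207.Ph.EzD
import Crest.Agent.N207.Ph.Eqv
import Crest.Agent.N207.Lg.Nat
import Crest.Agent.N207.Lg.Pop

/-!
# Row 207, block PHI (helper11): the source of the Picard iteration, algebra
-/

set_option autoImplicit false
set_option linter.unusedSectionVars false

open scoped ContDiff Topology
open Set Filter Metric
open Crest.GeometryTopology.CoordMetric

noncomputable section

namespace Crest.Agent.N207.Ph.Ey

open Crest.Agent.NLib.Ell Crest.Agent.N207.Lg Crest.Agent.N207.G Sk Hc Ez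
open Crest.Agent.R240.Fr (lap)
open Crest.Agent.R238 (Ell)

theorem cka_of_forall {U : Set E4} {k : ℕ} {a M N : ℝ} {f : E4 → ℝ}
    (h : ∀ t, 0 < t → t ≤ 1 → CKA a U k (M + t * N) f) : CKA a U k M f := by
  have hle : ∀ {x r : ℝ}, (∀ t, 0 < t → t ≤ 1 → x ≤ (M + t * N) * r) → x ≤ M * r :=
    fun {x r} hx => by
      have h1 : Tendsto (fun t : ℝ => (M + t * N) * r) (𝓝[>] 0) (𝓝 ((M + 0 * N) * r)) :=
        (Continuous.tendsto (by fun_prop) 0).mono_left nhdsWithin_le_nhds
      rw [zero_mul, add_zero] at h1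
      exact ge_of_tendsto h1 (mem_of_superset (Ioc_mem_nhdsGT one_pos) fun t ht => hx t ht.1 ht.2)
  have h0 : ∀ {k : ℕ} {f : E4 → ℝ}, (∀ t, 0 < t → t ≤ 1 → CKA a U k (M + t * N) f) →
      CKA a U 0 M f := fun h => ⟨fun x hx => by
    simpa using hle (r := 1) fun t h1 h2 => by simpa using (h t h1 h2).bdd hx,
    fun x hx y hy => hle fun t h1 h2 => (h t h1 h2).ho.hol x hx y hy⟩
  induction k generalizing f with
  | zero => exact h0 h
  | succ k ih => exact ⟨h0 h, (h 1 one_pos le_rfl).diff, fun i => ih fun t h1 h2 => (h t h1 h2).pd i⟩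

theorem up_ck' (k : ℕ) : ∃ C : ℝ, 0 < C ∧ ∀ ρ : ℝ, 1 / 2 ≤ ρ → ∀ y, CK k C (up ρ (2 * ρ)) y := by
  obtain ⟨C, hC, h⟩ := jb_up (k + 1) 2
  refine ⟨2 * (2 ^ (k + 1) * C), by positivity, fun ρ hρ y => ck_of_jb fun Y _ => ?_⟩
  rcases le_or_gt ‖cl y Y‖ (2 * ρ) with h1 | h1
  · exact (h ρ (2 * ρ) (by linarith) (by linarith) (by linarith) _ h1).scale (by linarith)
      (Hc.sc_pos _).le one_le_two (by linarith)
  · refine (JB.const (1 : ℝ) ?_).congr ?_
    · rw [norm_one]
      exact one_le_mul_of_one_le_of_one_le (one_le_pow₀ one_le_two) hC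
    · filter_upwards [(isOpen_lt continuous_const continuous_norm).mem_nhds h1] with z hz
      exact up_eq_one (by linarith) (by linarith) (le_of_lt hz)

/-- the cut-off functions -/
structure Chi (C : ℕ → ℝ) (n : ℕ) (χ : E4 → ℝ) : Prop where
  sm : ContDiff ℝ ∞ χ
  abs : ∀ x, |χ x| ≤ 1
  iso : ∀ (A : Iso) (x : E4), χ (A x) = χ x
  out : ∀ x : E4, 2 ^ n ≤ ‖x‖ + 1 → χ x = 0
  one : ∀ x : E4, 2 * (‖x‖ + 1) ≤ 2 ^ n → χ x = 1
  ck : ∀ k y, CK k (C k) χ y

theorem exists_chi : ∃ C : ℕ → ℝ, (∀ k, 0 < C k) ∧ (∀ k y, CK k (C k) (up 1 2) y) ∧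
    ∀ n, ∃ χ, Chi C n χ := by
  choose C hC h using up_ck'
  refine ⟨fun k => 1 + C k, fun k => by have := hC k; positivity, fun k y => ?_, fun n => ?_⟩
  · simpa using (h k 1 (by norm_num) y).mono (le_add_of_nonneg_left zero_le_one)
  rcases n with _ | n
  · exact ⟨fun _ => 0, contDiff_const, by simp, fun _ _ => rfl, fun _ _ => rfl,
      fun x hx => by linarith [norm_nonneg x, pow_zero (2 : ℝ)],
      fun k y => CK.zero.mono (by have := hC k; positivity)⟩
  have h1 : (1 : ℝ) ≤ 2 ^ n := one_le_pow₀ one_le_two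
  refine ⟨fun x => 1 - up (2 ^ n - 1 / 2) (2 * (2 ^ n - 1 / 2)) x,
    contDiff_const.sub (up_smooth _ _), fun x => ?_, fun A x => by simp only [up, A.norm_map],
    fun x hx => ?_, fun x hx => ?_, fun k y => ?_⟩
  · rw [up, abs_le]
    constructor <;> linarith [Real.smoothTransition.nonneg ((‖x‖ ^ 2 - (2 ^ n - 1 / 2) ^ 2) /
      ((2 * (2 ^ n - 1 / 2)) ^ 2 - (2 ^ n - 1 / 2) ^ 2)), Real.smoothTransition.le_one
        ((‖x‖ ^ 2 - (2 ^ n - 1 / 2) ^ 2) / ((2 * (2 ^ n - 1 / 2)) ^ 2 - (2 ^ n - 1 / 2) ^ 2))]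
  · rw [up_eq_one (by linarith) (by linarith) (by rw [pow_succ] at hx; linarith), sub_self]
  · rw [up_eq_zero (by linarith) (by linarith) (by rw [pow_succ] at hx; linarith), sub_zero]
  · simpa using (CK.const (1 : ℝ)).sub (h k (2 ^ n - 1 / 2) (by linarith) y)

variable {G g k : MetricField 4} {χ : E4 → ℝ} {Γ : Subgroup Iso}

/-- the source -/
def SS (χ : E4 → ℝ) (G k : MetricField 4) : MetricField 4 := fun x => Matrix.of fun i j =>
  χ x * (PP G i j x - PP (fun z => G z - k z) i j x - 2 * (up 1 2 x * ricci G x i j))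

theorem sm_of (hg : IsRiemannianOn g univ) : SmM g := fun i j =>
  contDiffOn_univ.1 (hg.contDiffOn i j)

theorem pp_eq' (hg : IsRiemannianOn g univ) (i j : Fin 4) : PP g i j = fun x =>
    lap (fun z => g z i j) x + 2 * ricci g x i j - symd (gauT flat g) x i j :=
  funext fun x => pp_eq (.of_riem hg (mem_univ x)) i j

theorem gau_sm (hg : IsRiemannianOn g univ) (I : Fin 1 → Fin 4) :
    ContDiff ℝ ∞ fun y => gauT flat g y I := contDiffOn_univ.1 (smT_gauT riem_flat hg I)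

theorem ric_sm (hg : IsRiemannianOn g univ) (i j : Fin 4) : ContDiff ℝ ∞ fun y => ricci g y i j :=
  contDiffOn_univ.1 (sm_ricci hg i j)

theorem pp_sm (hg : IsRiemannianOn g univ) (i j : Fin 4) : ContDiff ℝ ∞ (PP g i j) := by
  rw [pp_eq' hg]
  exact ((lap_contDiff (sm_of hg i j)).add (contDiff_const.mul (ric_sm hg i j))).sub
    (symd_smooth (gau_sm hg) i j)

theorem pp_sy (hg : IsRiemannianOn g univ) (i j : Fin 4) (x : E4) : PP g i j x = PP g j i x := by
  have e : (fun z => g z i j) = fun z => g z j i := funext fun z => g_sy hg (mem_univ z) i j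
  simp only [pp_eq' hg, e, (C2.of_riem hg (mem_univ x)).ricci_sy i j, symd, Matrix.of_apply]
  ring

theorem inv_iff' {f : MetricField 4} : Inv Γ f ↔ ∀ γ ∈ Γ, ∀ y i j,
    ∑ a, ∑ b, om γ i a * om γ j b * f (γ y) a b = f y i j := by
  rw [inv_iff]
  refine forall₂_congr fun γ _ => ⟨fun h y i j => by rw [← pbm_iso, h], fun h => ?_⟩
  funext y
  ext i j
  rw [pbm_iso, h]

theorem inv_sub' (hG : Inv Γ G) (hk : Inv Γ k) : Inv Γ fun z => G z - k z :=
  inv_iff'.2 fun γ hγ y i j => by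
    simp only [Matrix.sub_apply, mul_sub, Finset.sum_sub_distrib, inv_iff'.1 hG γ hγ,
      inv_iff'.1 hk γ hγ]

theorem ric_inv (hg : IsRiemannianOn g univ) (hI : Inv Γ g) : Inv Γ (ricci g) :=
  inv_iff.2 fun γ hγ => by rw [← ((eqv γ).1 g hg).2.2, inv_iff.1 hI γ hγ]

theorem pp_inv (hg : IsRiemannianOn g univ) (hI : Inv Γ g) :
    Inv Γ fun x => Matrix.of fun i j => PP g i j x := inv_iff'.2 fun γ hγ y i j => by
  have h1 := (eqv γ).2.2 g (sm_of hg) y i j
  have h2 := congrFun₂ (congrFun ((eqv γ).2.1 _ (smT_gauT riem_flat hg)) y) i j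
  rw [← funext ((eqv γ).1 g hg).2.1] at h2
  rw [inv_iff.1 hI γ hγ, pbm_iso] at h1 h2
  have h3 := inv_iff'.1 (ric_inv hg hI) γ hγ y i j
  simp only [Matrix.of_apply, pp_eq' hg] at h1 ⊢
  rw [h1, h2, ← h3]
  simp only [mul_add, mul_sub, Finset.sum_add_distrib, Finset.sum_sub_distrib, Finset.mul_sum]
  congr 2
  exact Finset.sum_congr rfl fun _ _ => Finset.sum_congr rfl fun _ _ => by ring

theorem ss_sm (hχ : ContDiff ℝ ∞ χ) (hG : IsRiemannianOn G univ)
    (hg : IsRiemannianOn (fun z => G z - k z) univ) : SmM (SS χ G k) := fun i j =>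
  hχ.mul (((pp_sm hG i j).sub (pp_sm hg i j)).sub
    (contDiff_const.mul ((up_smooth _ _).mul (ric_sm hG i j))))

theorem ss_sy (hG : IsRiemannianOn G univ) (hg : IsRiemannianOn (fun z => G z - k z) univ)
    (y : E4) : (SS χ G k y).IsSymm := Matrix.IsSymm.ext fun i j => by
  simp only [SS, Matrix.of_apply, pp_sy hG j i, pp_sy hg j i,
    (C2.of_riem hG (mem_univ y)).ricci_sy j i]

theorem ss_inv (hχ : ∀ (A : Iso) (x : E4), χ (A x) = χ x) (hG : IsRiemannianOn G univ)
    (hg : IsRiemannianOn (fun z => G z - k z) univ) (hI : Inv Γ G) (hk : Inv Γ k) :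
    Inv Γ (SS χ G k) := inv_iff'.2 fun γ hγ y i j => by
  have h1 := inv_iff'.1 (pp_inv hG hI) γ hγ y i j
  have h2 := inv_iff'.1 (pp_inv hg (inv_sub' hI hk)) γ hγ y i j
  have h3 := inv_iff'.1 (ric_inv hG hI) γ hγ y i j
  have h4 : up 1 2 (γ y) = up 1 2 y := by simp only [up, γ.norm_map]
  simp only [Matrix.of_apply] at h1 h2
  simp only [SS, Matrix.of_apply, hχ, h4]
  rw [← h1, ← h2, ← h3]
  simp only [Finset.mul_sum, ← Finset.sum_sub_distrib]
  exact Finset.sum_congr rfl fun _ _ => Finset.sum_congr rfl fun _ _ => by ring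

theorem ss_eqn (hG : IsRiemannianOn G univ) (hg : IsRiemannianOn (fun z => G z - k z) univ)
    (hk : SmM k) {U : Tn 4 1} (hU : SmT U univ) {y : E4} (hχ : χ y = 1) {i j : Fin 4}
    (h : lap (fun y => k y i j) y + symd U y i j = SS χ G k y i j) :
    ricci (fun z => G z - k z) y i j =
      (1 / 2) * symd (Vg G k U) y i j + (1 - up 1 2 y) * ricci G y i j := by
  have e : ∀ a b, pderiv a (fun y => Vg G k U y ![b]) y =
      pderiv a (fun y => gauT flat (fun z => G z - k z) y ![b]) y -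
        pderiv a (fun y => gauT flat G y ![b]) y - pderiv a (fun y => U y ![b]) y := fun a b => by
    simp only [Vg]
    rw [pd_sub a (dA ((gau_sm hg _).sub (gau_sm hG _)) y) (dA (contDiffOn_univ.1 (hU _)) y),
      pd_sub a (dA (gau_sm hg _) y) (dA (gau_sm hG _) y)]
  simp only [SS, Matrix.of_apply, hχ, pp_eq' hG, pp_eq' hg, Matrix.sub_apply,
    Ph.lap_sub (sm_of hG i j) (hk i j), symd] at h
  simp only [symd, Matrix.of_apply, e]
  linarith

theorem jet2_sub (hG : ∀ i j, ContDiff ℝ 2 fun y => G y i j)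
    (hk : ∀ i j, ContDiff ℝ 2 fun y => k y i j) (x : E4) (a b i j : Fin 4) :
    jet2 (fun z => G z - k z) x a b i j =
      jet2 G x a b i j - pderiv a (pderiv b fun y => k y i j) x := by
  have e : (fun z => jet (fun z => G z - k z) z b i j) =
      fun z => pderiv b (fun y => G y i j) z - pderiv b (fun y => k y i j) z :=
    funext fun z => pd_sub b (d2 (hG i j) z) (d2 (hk i j) z)
  rw [jet2, e]
  exact pd_sub a (pv_diff (hG i j) b x) (pv_diff (hk i j) b x)

theorem ss_split (hG : ∀ i j, ContDiff ℝ 2 fun y => G y i j)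
    (hk : ∀ i j, ContDiff ℝ 2 fun y => k y i j) (x : E4) (i j : Fin 4) :
    lap (fun y => k y i j) x - SS χ G k x i j =
      ∑ a, ∑ b, ((1 : Matrix (Fin 4) (Fin 4) ℝ) a b - χ x * hd (fun z => G z - k z) a b x) *
        pderiv a (pderiv b fun y => k y i j) x -
      χ x * (∑ a, ∑ b, (hd G a b x - hd (fun z => G z - k z) a b x) * jet2 G x a b i j +
        (QQ G i j x - QQ (fun z => G z - k z) i j x) - 2 * (up 1 2 x * ricci G x i j)) := by
  simp only [SS, Matrix.of_apply, PP, jet2_sub hG hk, lap_eq_sum, sub_mul, mul_sub,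
    Finset.sum_sub_distrib, Matrix.one_apply, ite_mul, one_mul, zero_mul, Finset.sum_ite_eq,
    Finset.mem_univ, if_true, mul_assoc, ← Finset.mul_sum]
  ring

theorem ell_tau (h : Nr g) {c : ℝ} (hc : |c| ≤ 1) (x : E4) : Ell (1 / 2) 2
    (Matrix.of fun a b => (1 : Matrix (Fin 4) (Fin 4) ℝ) a b - c * hd g a b x) := by
  have h1 : ∀ a b, |c * hd g a b x| ≤ 1 * (4 * (2 * (1 / 100))) := fun a b =>
    Rad.abs_mul_le hc (by
      rw [h.hd_eq]
      exact Rad.sum4_le fun e => Rad.abs_mul_le (U.abs_inv_le (h.pos x).det_pos.ne'.isUnit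
        (ε := 1 / 100) (by norm_num) (h x).2 a e) ((h x).2 e b))
  refine ⟨fun a b => ?_, fun z => ?_⟩
  · have := (h.pos x).inv.1.apply a b
    simp only [star_trivial] at this
    simp only [Matrix.of_apply, hd, this, Matrix.one_apply, eq_comm]
  · have h2 := abs_le.1 (Rad.quad_le h1 (WithLp.toLp 2 z))
    rw [EuclideanSpace.real_norm_sq_eq] at h2
    simp only [Matrix.of_apply, sub_mul, Finset.sum_sub_distrib, Matrix.one_apply, ite_mul, one_mul,
      zero_mul, Finset.sum_ite_eq, Finset.mem_univ, if_true, ← pow_two] at h2 ⊢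
    have h3 : 0 ≤ ∑ i, z i ^ 2 := by positivity
    constructor <;> linarith [h2.1, h2.2]

end Crest.Agent.N207.Ph.Ey

end
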