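import Crest.Agent.N207.Ph.EzD

/-!
# Row 207, block PHI (helper48): abstract Picard iteration, `pic : PICStmt`
-/

set_option autoImplicit false

open scoped ContDiff Topology
open Set Metric Filter
open Crest.GeometryTopology.CoordMetric Crest.GeometryTopology.ChartCurvature

noncomputable section

namespace Crest.Agent.N207.Ph.Ez

open Crest.Agent.R238 (Ell)
open Crest.Agent.R240.Fr (lap)
open Crest.Agent.NLib.Ell (CKA)

theorem ck_limit {k : ℕ} {M : ℝ} {u : ℕ → E4 → ℝ} {f : E4 → ℝ} {y : E4}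
    (h : ∀ m, CK k M (u m) y) (hf : ∀ x, Tendsto (fun m => u m x) atTop (𝓝 (f x))) :
    CK k M f y :=
  CKA.limit (l := atTop) (u := fun m Y => u m (cl y Y)) isOpen_ball (by norm_num)
    (Eventually.of_forall h) fun _ _ => hf _

theorem lap_sub2 {g h : E4 → ℝ} (hg : ContDiff ℝ 2 g) (hh : ContDiff ℝ 2 h) (x : E4) :
    lap (fun y => g y - h y) x = lap g x - lap h x := by
  have d1 : ∀ {g : E4 → ℝ}, ContDiff ℝ 2 g → ∀ y, DifferentiableAt ℝ g y := fun hg y =>
    hg.differentiable (by norm_num) y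
  have d2 : ∀ {g : E4 → ℝ}, ContDiff ℝ 2 g → ∀ i, DifferentiableAt ℝ (pderiv i g) x :=
    fun hg i => (((hg.fderiv_right (m := 1) (by norm_num)).clm_apply contDiff_const).differentiable
      (by norm_num)) x
  simp only [lap_eq_sum, ← Finset.sum_sub_distrib]
  refine Finset.sum_congr rfl fun i _ => ?_
  rw [show pderiv i (fun y => g y - h y) = fun y => pderiv i g y - pderiv i h y from
    funext fun y => pd_sub i (d1 hg y) (d1 hh y), pd_sub i (d2 hg i) (d2 hh i)]

theorem Env.le {ε : ℕ → ℝ} {δ : ℝ} (h : Env ε δ) (l : ℕ) : ε l ≤ δ :=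
  (Finset.single_le_sum (fun i _ => h.nn i) (Finset.self_mem_range_succ l)).trans (h.sum (l + 1))

theorem Env.cv' {ε : ℕ → ℝ} {δ c : ℝ} (h : Env ε δ) (hc : 0 ≤ c) (j m : ℕ) :
    ∑ l ∈ Finset.range m, wE j l * (c * ε l) ≤ 7 * (c * ε j) := by
  have := mul_le_mul_of_nonneg_left (h.cv j m) hc
  rw [Finset.mul_sum] at this
  calc _ = ∑ l ∈ Finset.range m, c * (wE j l * ε l) := Finset.sum_congr rfl fun l _ => by ring
    _ ≤ _ := this.trans (le_of_eq (by ring))

theorem Env.nb' {ε : ℕ → ℝ} {δ c : ℝ} (h : Env ε δ) (hc : 0 ≤ c) :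
    Nb (fun l => c * ε l) fun l => 7 * (c * ε l) := fun j i h1 h2 => by
  have h3 := mul_le_mul_of_nonneg_left (h.nb j i h1 h2) hc
  have h4 := mul_nonneg hc (h.nn j)
  beta_reduce at h3 ⊢
  linarith

theorem ad_zero {ε : ℕ → ℝ} {δ K : ℝ} (h : Env ε δ) (hK : 0 ≤ K) : Ad ε K 0 :=
  ⟨fun _ => Matrix.isSymm_zero, fun _ _ l _ _ _ => CK.zero.mono (mul_nonneg hK (h.nn l))⟩

theorem inv_zero (Γ : Subgroup Iso) : Inv Γ 0 := inv_iff.2 fun γ _ => by
  funext x; ext i j; simp [pbm_iso]

theorem wE_mul (j l : ℕ) : wE j l * 4 ^ l ≤ 4 ^ j := by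
  have h : (0 : ℝ) < 4 ^ l := by positivity
  exact (mul_le_mul_of_nonneg_right (min_le_right _ _) h.le).trans (le_of_eq (by field_simp))

/-- `∑ₗ r ^ |j - l| ≤ (1 + r) / (1 - r)`-type bound -/
theorem sum_min {q : ℝ} (hq : 1 < q) (j m : ℕ) :
    ∑ l ∈ Finset.range m, min (q ^ l / q ^ j) (q ^ j / q ^ l) ≤ (q + 1) / (q - 1) := by
  have hq0 : 0 < q := by linarith
  have hq1 : 0 < q - 1 := by linarith
  have key : ∀ m, ∑ l ∈ Finset.range m, min (q ^ l / q ^ j) (q ^ j / q ^ l) ≤
      if m ≤ j then q ^ m / q ^ j / (q - 1) else (q + 1 - q * (q ^ j / q ^ m)) / (q - 1) := by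
    intro m
    induction m with
    | zero => simp only [Finset.range_zero, Finset.sum_empty, zero_le, if_true]; positivity
    | succ m ih =>
      rw [Finset.sum_range_succ]
      rcases lt_trichotomy m j with h | h | h
      · rw [if_pos h.le] at ih
        rw [if_pos (by omega)]
        refine (add_le_add ih (min_le_left _ _)).trans (le_of_eq ?_)
        field_simp; ring
      · subst h
        rw [if_pos le_rfl] at ih
        rw [if_neg (by omega)]
        refine (add_le_add ih (min_le_left _ _)).trans (le_of_eq ?_)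
        field_simp; ring
      · rw [if_neg (by omega)] at ih ⊢
        refine (add_le_add ih (min_le_right _ _)).trans (le_of_eq ?_)
        field_simp; ring
  refine (key m).trans ?_
  split_ifs with h
  · refine div_le_div_of_nonneg_right ?_ hq1.le
    have : q ^ m / q ^ j ≤ 1 := by
      rw [div_le_one (by positivity)]; exact pow_le_pow_right₀ hq.le h
    linarith
  · refine div_le_div_of_nonneg_right ?_ hq1.le
    have : 0 ≤ q * (q ^ j / q ^ m) := by positivity
    linarith

theorem sum_wE (j m : ℕ) : ∑ l ∈ Finset.range m, wE j l ≤ 2 :=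
  (sum_min (q := 4) (by norm_num) j m).trans (by norm_num)

variable {Γ : Subgroup Iso} {n : ℕ} {S : MetricField 4 → MetricField 4} {ε : ℕ → ℝ}
  {K L0 L1 δ θ : ℝ} {M : ℕ → ℝ → ℝ}

theorem Src.dist (h : Src Γ n S ε K L0 L1 M) (hε : Env ε δ) (hL : 0 ≤ L1) (hθ : L1 * δ ≤ θ)
    {m : ℕ} (hm : m ≤ 1) {k k' : MetricField 4} (hk : Ad ε K k) (hk' : Ad ε K k') {D : ℝ}
    (hD : 0 ≤ D) (hd : WM (m + 2) (fun l => D * ε l) fun z => k z - k' z) :
    WM m (fun l => θ * D * ε l / 4 ^ l) fun z => S k z - S k' z := fun i j l y h1 h2 => by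
  refine (h.lip m hm k k' hk hk' l y _ h1 h2 (fun i j => hd i j l y h1 h2) i j).mono ?_
  have h3 : L1 * ε l ≤ θ := (mul_le_mul_of_nonneg_left (hε.le l) hL).trans hθ
  have h4 := mul_le_mul_of_nonneg_right h3 (mul_nonneg hD (hε.nn l))
  exact div_le_div_of_nonneg_right (by linarith) (by positivity)

theorem Src.size (h : Src Γ n S ε K L0 L1 M) (hε : Env ε δ) (hL : 0 ≤ L1) (hθ : L1 * δ ≤ θ)
    (hK : 0 ≤ K) (hθK : θ * K ≤ L0) {k : MetricField 4} (hk : Ad ε K k) :
    WM 1 (fun l => 2 * L0 * ε l / 4 ^ l) (S k) := fun i j l y h1 h2 => by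
  have h3 := h.dist hε hL hθ le_rfl hk (ad_zero hε hK) hK
    (fun i j => by simpa using hk.wd i j) i j l y h1 h2
  refine (((h.zero i j l y h1 h2).add h3).congr fun z _ => by simp).mono ?_
  have h4 := mul_le_mul_of_nonneg_right hθK (hε.nn l)
  rw [← add_div]
  exact div_le_div_of_nonneg_right (by linarith) (by positivity)

theorem symd_UU_sub (n : ℕ) {f g : MetricField 4} (hf : ∀ i j, Continuous fun y => f y i j)
    (hg : ∀ i j, Continuous fun y => g y i j) (x : E4) (i j : Fin 4) :
    symd (UU n fun y => f y - g y) x i j = symd (UU n f) x i j - symd (UU n g) x i j := by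
  rw [(la.2.2.1 n f g hf hg).1]
  simp only [symd, Matrix.of_apply, Pi.sub_apply]
  rw [pd_sub i (dA (UU_smooth n f _) x) (dA (UU_smooth n g _) x),
    pd_sub j (dA (UU_smooth n f _) x) (dA (UU_smooth n g _) x)]
  ring

theorem WM.cont {m : ℕ} {a : ℕ → ℝ} {k : MetricField 4} (h : WM m a k) (i j : Fin 4) :
    Continuous fun y => k y i j := (h i j).contDiff.continuous

/-- the bootstrap -/
theorem boot (C : ℝ) (M : ℕ → ℝ → ℝ) : ∃ Cs' : ℕ → ℝ, ∀ (Γ : Subgroup Iso) (n : ℕ)
    (S : MetricField 4 → MetricField 4) (ε : ℕ → ℝ) (K L0 L1 : ℝ) (k : MetricField 4),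
    Src Γ n S ε K L0 L1 M → Ad ε K k → WM 3 (fun _ => C) k →
    (∀ i j, WS (fun l => 2 / 4 ^ l) fun y => S k y i j) →
    (∀ x i j, lap (fun y => k y i j) x + symd (UU n (S k)) x i j = S k x i j) →
    ∀ m, WM (m + 1) (fun _ => Cs' m) k := by
  choose Cn hCn Hn using fun m M' => nsw m (1 / 2) 2 M' (by norm_num) (by norm_num)
  choose U hU HU using lu
  refine ⟨fun m => Nat.rec C (fun m B => Cn m (M m B) * (M m B + U m * 14 + C)) m,
    fun Γ n S ε K L0 L1 k h hk h3 hS heq m => ?_⟩
  induction m with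
  | zero => exact fun i j => (h3 i j).of_le (by norm_num)
  | succ m ih =>
    obtain ⟨τ, F, hE, hτ, hF, he⟩ := h.boot m _ k hk ih
    set B : ℝ := Nat.rec C (fun m B => Cn m (M m B) * (M m B + U m * 14 + C)) m
    have hM : 0 ≤ M m B := (hτ 0 0).nonneg 0
    have h7 : ∀ j m, ∑ l ∈ Finset.range m, wE j l * 2 ≤ 14 := fun j m => by
      have := sum_wE j m
      rw [← Finset.sum_mul]; linarith
    intro i j
    refine Hn m (M m B) τ (fun _ _ => 0) (fun _ => 0) (fun y => k y i j)
      (fun y => F y i j - symd (UU n (S k)) y i j) (fun _ => M m B + U m * 14) (fun _ => C)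
      (fun _ => M m B + U m * 14 + C) hE hτ (fun _ l _ _ _ => CK.zero.mono (by positivity))
      (fun l _ _ _ => CK.zero.mono (by positivity)) (fun l y h1 h2 => ?_) (fun y => ?_)
      (h3 i j).ws (fun x => ?_) fun _ _ _ _ => le_rfl
    · refine ((hF i j l y h1 h2).sub ((HU m n (S k) (fun _ => 2) hS).1 (fun _ => 14) h7 i j l y
        h1 h2)).mono (le_of_eq ?_)
      beta_reduce; ring
    · obtain ⟨l, h1, h2⟩ := exists_lv y
      exact ⟨C, (h3 i j l y h1 h2.le).of_le (by norm_num)⟩
    · have := he x i j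
      have := heq x i j
      simp only [zero_mul, Finset.sum_const_zero, add_zero]
      linarith

theorem pic : PICStmt := by
  obtain ⟨C1, hC1, H1⟩ := le 1
  obtain ⟨C0, hC0, H0⟩ := le 0
  obtain ⟨U0, hU0, HU⟩ := lu 0
  set Q := C1 + C0 + U0 + 1 with hQ
  have hQ0 : 0 < Q := by positivity
  refine ⟨1 / (14 * Q), 14 * Q, by positivity, by linarith, fun M => ?_⟩
  obtain ⟨Cs', HB⟩ := boot (14 * Q) M
  refine ⟨Cs', fun Γ n S ε L0 L1 δ hε hL0 hL1 h0δ hθ h => ?_⟩
  set θ := 1 / (14 * Q) with hθd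
  set K := 14 * Q * L0 with hKd
  have hθ0 : 0 < θ := by positivity
  have hθQ : θ * (14 * Q) = 1 := by rw [hθd]; field_simp
  have hK : 0 ≤ K := by positivity
  have hθK : θ * K ≤ L0 := by rw [hKd, ← mul_assoc, hθQ, one_mul]
  have size := fun {k : MetricField 4} (hk : Ad ε K k) => h.size hε hL1 hθ hK hθK hk
  have h2L : 0 ≤ 2 * L0 := by positivity
  -- the iterates
  let k : ℕ → MetricField 4 := fun m => Nat.rec 0 (fun _ g => KK n (S g)) m
  have hk : ∀ m, SmM (k m) ∧ Ad ε K (k m) ∧ Inv Γ (k m) := fun m => by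
    induction m with
    | zero => exact ⟨fun _ _ => contDiff_const, ad_zero hε hK, inv_zero Γ⟩
    | succ m ih =>
      obtain ⟨s1, s2, s3⟩ := h.sm _ ih.2.1 ih.1
      refine ⟨KK_smooth s1 (h.out _), ⟨(la.2.1 n _ s1 (h.out _)).2.1 s2, fun i j => ?_⟩,
        KK_inv (fun i j => (s1 i j).continuous) (h.out _) (s3 ih.2.2)⟩
      refine (H1 n _ (fun l => 2 * L0 * ε l) _ _ s1 s2 (h.out _)
        (fun i j => (size ih.2.1 i j).ws) (size ih.2.1) (hε.cv' h2L) (hε.nb' h2L) i j).mono
        fun l => ?_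
      have := mul_nonneg hL0 (hε.nn l)
      rw [hKd]; nlinarith
  have hsm := fun m => (h.sm _ (hk m).2.1 (hk m).1).1
  have hsy := fun m => (h.sm _ (hk m).2.1 (hk m).1).2.1
  have hd : ∀ m, WM 2 (fun l => K * (1 / 2) ^ m * ε l) fun z => k (m + 1) z - k m z := fun m => by
    induction m with
    | zero => exact fun i j => by simpa [k] using ((hk 1).2.1.wd i j).of_le (j := 2) (by norm_num)
    | succ m ih =>
      have hD : 0 ≤ K * (1 / 2) ^ m := by positivity
      have h1 := h.dist hε hL1 hθ zero_le_one (hk (m + 1)).2.1 (hk m).2.1 hD ih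
      have hc : 0 ≤ θ * (K * (1 / 2) ^ m) := by positivity
      have e := (la.2.2.1 n _ _ (fun i j => (hsm (m + 1) i j).continuous)
        fun i j => (hsm m i j).continuous).2 (h.out _) (h.out _)
      intro i j
      have h2 := H0 n (fun z => S (k (m + 1)) z - S (k m) z) _ _ _
        (fun i j => (hsm (m + 1) i j).sub (hsm m i j)) (fun y => (hsy (m + 1) y).sub (hsy m y))
        (fun y hy => by rw [h.out _ y hy, h.out _ y hy, sub_zero]) (fun i j => (h1 i j).ws) h1
        (hε.cv' hc) (hε.nb' hc) i j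
      rw [e] at h2
      refine h2.mono fun l => ?_
      have h3 : 0 ≤ K * (1 / 2) ^ m * ε l := mul_nonneg hD (hε.nn l)
      have h4 : C0 * (7 * θ) ≤ 1 / 2 := by nlinarith
      calc C0 * (7 * (θ * (K * (1 / 2) ^ m) * ε l))
          = C0 * (7 * θ) * (K * (1 / 2) ^ m * ε l) := by ring
        _ ≤ 1 / 2 * (K * (1 / 2) ^ m * ε l) := mul_le_mul_of_nonneg_right h4 h3
        _ = _ := by ring
  have hcv : ∀ y i j, ∃ v, Tendsto (fun m => k m y i j) atTop (𝓝 v) := fun y i j => by
    obtain ⟨l, h1, h2⟩ := exists_lv y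
    refine cauchySeq_tendsto_of_complete
      (cauchySeq_of_le_geometric (1 / 2) (K * ε l) (by norm_num) fun m => ?_)
    rw [dist_comm, dist_eq_norm]
    exact (hd m i j l y h1 h2.le).bdd.trans (le_of_eq (by ring))
  choose v hv using hcv
  let kk : MetricField 4 := fun y => Matrix.of (v y)
  have hlim : ∀ i j y, Tendsto (fun m => k m y i j) atTop (𝓝 (kk y i j)) := fun i j y => hv y i j
  have had : Ad ε K kk := ⟨fun y => by
      ext i j
      refine tendsto_nhds_unique (hlim j i y) ?_
      simpa only [((hk _).2.1.sy y).apply i j] using hlim i j y,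
    fun i j l y h1 h2 => ck_limit (fun m => (hk m).2.1.wd i j l y h1 h2) (hlim i j)⟩
  have hinv : Inv Γ kk := inv_iff.2 fun γ hγ => by
    funext x
    ext i j
    refine tendsto_nhds_unique ?_ (hlim i j x)
    have e : ∀ m, k m x i j = ∑ a, ∑ b, om γ i a * om γ j b * k m (γ x) a b := fun m => by
      rw [← pbm_iso, inv_iff.1 (hk m).2.2 γ hγ]
    simp only [e, pbm_iso]
    exact tendsto_finsetSum _ fun a _ => tendsto_finsetSum _ fun b _ =>
      (hlim a b _).const_mul _
  have hdd : ∀ m, WM 2 (fun l => 2 * K * (1 / 2) ^ m * ε l) fun z => kk z - k m z := fun m => by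
    have h1 : ∀ p, WM 2 (fun l => 2 * K * (1 / 2) ^ m * (1 - (1 / 2) ^ p) * ε l)
        fun z => k (p + m) z - k m z := fun p => by
      induction p with
      | zero => exact fun i j l y _ _ => CK.of_zero (by simp) fun z _ => by simp
      | succ p ih =>
        intro i j l y h1 h2
        refine (((hd (p + m) i j l y h1 h2).add (ih i j l y h1 h2)).congr fun z _ => ?_).mono
          (le_of_eq ?_)
        · rw [Nat.add_right_comm]; simp
        · beta_reduce; ring
    intro i j l y h2 h3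
    refine ck_limit (u := fun p z => (k (p + m) z - k m z) i j)
      (fun p => (h1 p i j l y h2 h3).mono ?_) fun x =>
        ((hlim i j x).comp (tendsto_add_atTop_nat m)).sub_const _
    have h4 : 0 ≤ 2 * K * (1 / 2) ^ m * (1 / 2) ^ p * ε l := mul_nonneg (by positivity) (hε.nn l)
    beta_reduce; linarith
  have heq : ∀ x i j, lap (fun y => kk y i j) x + symd (UU n (S kk)) x i j = S kk x i j := by
    intro x i j
    obtain ⟨l, h1, h2⟩ := exists_lv x
    have hs := sc_pos x
    have hb : ∀ m, |lap (fun y => kk y i j) x + symd (UU n (S kk)) x i j - S kk x i j| ≤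
        (4 * (4 / (‖x‖ + 1) * (4 / (‖x‖ + 1) * (K * ε l))) + U0 * (7 * (θ * (2 * K) * ε l)) / 4 ^ l
          + θ * (2 * K) * ε l / 4 ^ l) * (1 / 2) ^ m := fun m => by
      have hD : 0 ≤ 2 * K * (1 / 2) ^ m := by positivity
      have hc : 0 ≤ θ * (2 * K * (1 / 2) ^ m) := by positivity
      have d1 := h.dist hε hL1 hθ zero_le_one had (hk m).2.1 hD (hdd m)
      have b1 := (CK.lap (k := 0) (hdd (m + 1) i j l x h1 h2.le)).bdd
      have b2 := ((HU n _ _ fun i j => (d1 i j).ws).1 _ (hε.cv' hc) i j l x h1 h2.le).bdd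
      have b3 := (d1 i j l x h1 h2.le).bdd
      rw [symd_UU_sub n (size had).cont (size (hk m).2.1).cont] at b2
      have e1 : lap (fun y => (kk y - k (m + 1) y) i j) x =
          lap (fun y => kk y i j) x - lap (fun y => k (m + 1) y i j) x :=
        lap_sub2 ((had.wd i j).of_le (j := 2) (by norm_num)).contDiff
          (((hk (m + 1)).1 i j).of_le R247.Bo84.two_le_infty) x
      have e2 : lap (fun y => k (m + 1) y i j) x + symd (UU n (S (k m))) x i j =
          S (k m) x i j := lap_KK (hsm m) (h.out _) x i j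
      rw [e1] at b1
      simp only [Real.norm_eq_abs, Matrix.sub_apply] at b1 b2 b3
      have e3 : lap (fun y => kk y i j) x + symd (UU n (S kk)) x i j - S kk x i j =
          (lap (fun y => kk y i j) x - lap (fun y => k (m + 1) y i j) x) +
          (symd (UU n (S kk)) x i j - symd (UU n (S (k m))) x i j) -
          (S kk x i j - S (k m) x i j) := by linarith
      rw [e3]
      refine ((abs_sub _ _).trans (add_le_add ((abs_add_le _ _).trans (add_le_add b1 b2))
        b3)).trans (le_of_eq ?_)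
      ring
    have ht := (tendsto_pow_atTop_nhds_zero_of_lt_one (r := (1 / 2 : ℝ)) (by norm_num)
      (by norm_num)).const_mul (4 * (4 / (‖x‖ + 1) * (4 / (‖x‖ + 1) * (K * ε l))) +
        U0 * (7 * (θ * (2 * K) * ε l)) / 4 ^ l + θ * (2 * K) * ε l / 4 ^ l)
    rw [mul_zero] at ht
    exact sub_eq_zero.1 (abs_nonpos_iff.1 (ge_of_tendsto' ht hb))
  have hεL : ∀ l, L0 * ε l ≤ 1 := fun l => (mul_le_mul_of_nonneg_left (hε.le l) hL0).trans h0δ
  have hall := HB Γ n S ε K L0 L1 kk h had (fun i j => (had.wd i j).mono fun l => by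
      rw [hKd]; nlinarith [hεL l]) (fun i j l y h1 h2 => ((size had i j).ws l y h1 h2).trans
        (div_le_div_of_nonneg_right (by nlinarith [hεL l]) (by positivity))) heq
  refine ⟨kk, fun i j => contDiff_infty.2 fun m => ((hall m i j).of_le (Nat.le_succ m)).contDiff,
    had, hinv, fun m i j => (hall m i j).of_le (Nat.le_succ m), heq, fun i j => ?_,
    fun J e hJ hS => ?_⟩
  · refine ((HU n _ _ fun i j => (size had i j).ws).1 _ (hε.cv' h2L) i j).mono fun l => ?_
    have := mul_nonneg hL0 (hε.nn l)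
    exact div_le_div_of_nonneg_right (by nlinarith) (by positivity)
  · have he : 0 ≤ e := by simpa using hJ 0
    have hJ0 := (hS 0 0).nonneg
    set E := 14 * Q * e with hE
    have hE0 : 0 ≤ E := by positivity
    have hs : ∀ m, ∑ l ∈ Finset.range m, (J l + L1 * ε l * E) ≤ 2 * e := fun m => by
      rw [Finset.sum_add_distrib, ← Finset.sum_mul, ← Finset.mul_sum]
      have h1 : L1 * ∑ l ∈ Finset.range m, ε l ≤ θ :=
        (mul_le_mul_of_nonneg_left (hε.sum m) hL1).trans hθ
      have h2 := mul_le_mul_of_nonneg_right h1 hE0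
      have h3 : θ * E = e := by rw [hE, ← mul_assoc, hθQ, one_mul]
      linarith [hJ m]
    have hn : ∀ l, 0 ≤ J l + L1 * ε l * E := fun l =>
      add_nonneg (hJ0 l) (mul_nonneg (mul_nonneg hL1 (hε.nn l)) hE0)
    have hm : ∀ m, WM 2 (fun l => 14 * Q * 4 ^ l * e) (k m) := fun m => by
      induction m with
      | zero => exact fun i j l y _ _ => CK.zero.mono (by positivity)
      | succ m ih =>
        have h1 : WM 0 (fun l => 4 ^ l * (J l + L1 * ε l * E) / 4 ^ l) (S (k m)) :=
          fun i j l y h1 h2 => by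
            have h3 := h.lip 0 zero_le_one _ _ (hk m).2.1 (ad_zero hε hK) l y _ h1 h2
              (fun i j => by simpa using ih i j l y h1 h2) i j
            refine (((hS i j l y h1 h2).add h3).congr fun z _ => by simp).mono (le_of_eq ?_)
            rw [hE]; field_simp
        intro i j
        refine (H0 n _ _ _ (fun l => 4 * 4 ^ l * (2 * e)) (hsm m) (hsy m) (h.out _)
          (fun i j => (h1 i j).ws) h1 (fun j p => ?_) (fun j i h2 _ => ?_) i j).mono fun l => ?_
        · calc _ ≤ ∑ l ∈ Finset.range p, 4 ^ j * (J l + L1 * ε l * E) :=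
                Finset.sum_le_sum fun l _ => by
                  rw [← mul_assoc]; exact mul_le_mul_of_nonneg_right (wE_mul j l) (hn l)
            _ ≤ 4 ^ j * (2 * e) := by
                rw [← Finset.mul_sum]; exact mul_le_mul_of_nonneg_left (hs p) (by positivity)
            _ ≤ _ := by
                have : 0 ≤ 4 ^ j * (2 * e) := by positivity
                linarith
        · have h3 : (4 : ℝ) ^ i ≤ 4 ^ (j + 1) := pow_le_pow_right₀ (by norm_num) h2
          have h4 : J i + L1 * ε i * E ≤ 2 * e :=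
            (Finset.single_le_sum (f := fun l => J l + L1 * ε l * E) (fun l _ => hn l)
              (Finset.self_mem_range_succ i)).trans (hs (i + 1))
          rw [pow_succ'] at h3
          exact mul_le_mul h3 h4 (hn i) (by positivity)
        · have : 0 ≤ 4 ^ l * e := by positivity
          nlinarith
    exact fun i j l y h1 h2 => ck_limit (fun m => hm m i j l y h1 h2) (hlim i j)

end Crest.Agent.N207.Ph.Ez

end
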