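import Crest.Agent.N207.Ph.Sw2
import Crest.Agent.N207.TR.Top

/-!
# Row 207, block PHI (helper2): the change of the radius, and `SW`
-/

set_option autoImplicit false
set_option linter.unusedSectionVars false

open scoped ContDiff Manifold Topology Nat
open Set MeasureTheory Filter Metric
open Crest.GeometryTopology.CoordMetric Crest.GeometryTopology.ChartCurvature
  Crest.GeometryTopology.MetricFamily
open Crest.Agent.R202.Tens

noncomputable section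

namespace Crest.Agent.N207.Ph.Sw

open Sk G

section

variable {G1 K : MetricField 4} {κ : ℝ} {y : E4} {Γ : Subgroup Iso}

open Classical in
/-- `G₁` inside, `G₂` outside the sphere of radius `c` -/
def pw (c : ℝ) (G1 G2 : MetricField 4) : MetricField 4 := fun y => if ‖y‖ < c then G1 y else G2 y

variable (hκ : 1 ≤ κ) (e : ∀ z : E4, 6 * κ < ‖z‖ → ‖z‖ < 11 * κ → G1 z = K z)
include hκ e

theorem pw_in (hy : ‖y‖ < 11 * κ) : pw (8 * κ) G1 K =ᶠ[𝓝 y] G1 := (ev_lt hy).mono fun z hz => by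
  rw [pw]
  split_ifs with h
  exacts [rfl, (e z (by linarith [not_lt.1 h]) hz).symm]

theorem pw_out (hy : 6 * κ < ‖y‖) : pw (8 * κ) G1 K =ᶠ[𝓝 y] K := (ev_gt hy).mono fun z hz => by
  rw [pw]
  split_ifs with h
  exacts [e z hz (by linarith), rfl]

theorem pw_fl (h1 : Fl G1) (h2 : Fl K) : Fl (pw (8 * κ) G1 K) := by
  have key : ∀ y : E4, ∃ G, Fl G ∧ pw (8 * κ) G1 K =ᶠ[𝓝 y] G := fun y => by
    rcases lt_or_ge ‖y‖ (8 * κ) with h | h
    exacts [⟨G1, h1, pw_in hκ e (by linarith)⟩, ⟨K, h2, pw_out hκ e (by linarith)⟩]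
  obtain ⟨R, hR⟩ := h2.flat
  refine ⟨⟨isOpen_univ, fun i j y _ => ?_, fun y _ => ?_⟩, max R (8 * κ), fun x hx => ?_⟩
  · obtain ⟨G, hG, h⟩ := key y
    exact ((hG.sm y i j).congr_of_eventuallyEq (h.mono fun z hz => by simp only [hz])).contDiffWithinAt
  · obtain ⟨G, hG, h⟩ := key y
    rw [h.eq_of_nhds]
    exact hG.riem.posDef y (mem_univ y)
  · rw [pw, if_neg (not_lt.2 ((le_max_right _ _).trans hx)), hR x ((le_max_left _ _).trans hx)]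

omit hκ e in
theorem pw_inv {c : ℝ} (h1 : Inv Γ G1) (h2 : Inv Γ K) : Inv Γ (pw c G1 K) := by
  intro γ hγ x
  by_cases h : ‖x‖ < c
  · rw [AI.pullT_congr (T' := matT G1) EventuallyEq.rfl (by
      funext I; simp only [matT, pw, γ.norm_map, if_pos h]), ← h1 γ hγ x]
    funext I; simp only [matT, pw, if_pos h]
  · rw [AI.pullT_congr (T' := matT K) EventuallyEq.rfl (by
      funext I; simp only [matT, pw, γ.norm_map, if_neg h]), ← h2 γ hγ x]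
    funext I; simp only [matT, pw, if_neg h]

end

theorem int_split {f : E4 → ℝ} (hf : Integrable f) {c : ℝ} (hc : 1 ≤ c) :
    ∫ y in {y : E4 | 1 ≤ ‖y‖}, f y =
      (∫ y in {y : E4 | 1 ≤ ‖y‖ ∧ ‖y‖ < c}, f y) + ∫ y in {y : E4 | c ≤ ‖y‖}, f y := by
  rw [← setIntegral_union (s := {y : E4 | 1 ≤ ‖y‖ ∧ ‖y‖ < c}) (t := {y : E4 | c ≤ ‖y‖})
    (disjoint_left.2 fun y a b => not_le.2 a.2 b) (Ad.meas_ge c) hf.integrableOn hf.integrableOn]
  congr 2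
  ext y
  simp only [mem_ofPred_eq, mem_union]
  exact ⟨fun h => (lt_or_ge ‖y‖ c).imp (fun a => ⟨h, a⟩) id, fun h => h.elim And.left hc.trans⟩

theorem num_le {l B a b c x : ℝ} (hl : 0 ≤ l) (hB : 0 ≤ B) (ha : 0 ≤ a) (hb : 0 ≤ b) (hc : 0 ≤ c)
    (h : x ≤ 4096 * l * B * a + l * c) : b + x ≤ (1 + l + 4096 * l * B) * (a + b + c) := by
  have h1 := mul_nonneg hl hB
  nlinarith [mul_nonneg h1 hb, mul_nonneg h1 hc, mul_nonneg hl hb, mul_nonneg hl ha]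

variable {M : Type*} [TopologicalSpace M] [ChartedSpace E4 M] [IsManifold 𝓘(ℝ, E4) ∞ M]
  [CompactSpace M] [T3Space M] [ConnectedSpace M] [MeasurableSpace M] [BorelSpace M]

set_option maxHeartbeats 800000 in
/-- **change of the radius** -/
theorem rad (hCM : CMStmt M) (hRG : RGStmt) : ∃ η0 δ0 : ℝ, 0 < η0 ∧ 0 < δ0 ∧ ∀ L : ℝ, 1 ≤ L →
    ∃ C : ℝ, 0 < C ∧ ∀ (g : Met 4 M) (N : Nk M) (m1 : ℕ) (η V ρ e κ : ℝ) (Cs : ℕ → ℝ)
    (G K : MetricField 4), 4 ≤ m1 → η ≤ η0 → Rng N ρ → Good g N m1 η Cs V → Ebd g N 2 ρ e →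
    1 ≤ κ → κ ≤ L → 1024 * (κ * ρ) ≤ N.b → PE g N (ρ / 64) G δ0 → Fl K → Inv N.Γ K → DS 3 K δ0 →
    (∀ y : E4, 6 < ‖y‖ → ‖y‖ < 11 → K y = g.pm N.Ψ ((κ * ρ / 64) • y)) →
    |Sv g N (ρ / 64) G - ((∫ p in N.Om (8 * (κ * ρ / 64)), g.scal p ∂g.vol) +
      (Nat.card N.Γ : ℝ)⁻¹ * (κ * ρ / 64) ^ 2 *
        ∫ y in {y : E4 | 8 ≤ ‖y‖}, √(K y).det * scalarCurv K y)| ≤
      C * ρ ^ 2 * (e ^ 2 + RL G 1 + RL K 8) := by
  obtain ⟨η1, C1, hη1, hC1, hCM⟩ := hCM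
  obtain ⟨δ1, C2, hδ1, hC2, hRG⟩ := hRG
  refine ⟨min (min η1 (1 / 200)) (δ1 / 4 / C1), δ1 / 4, by positivity, by positivity, fun L hL => ?_⟩
  set B := volume.real (closedBall (0 : E4) (8 * L)) with hB
  have hB0 : 0 ≤ B := measureReal_nonneg
  refine ⟨C2 * (1 + L ^ 2 + 4096 * L ^ 2 * B), by positivity,
    fun g N m1 η V ρ e κ Cs G K hm hη hR hg he k1 k2 kb hG hK hI hD hE => ?_⟩
  have hN := hR.top
  have hρ : 0 < ρ := by linarith [hR.a_le, hN.a_pos]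
  have h0 : 0 < κ := by linarith
  have ha := hR.a_le
  have hρ1 : ρ ≤ 1 := by linarith [hR.le_b, hR.b_le]
  have hκρ : ρ ≤ κ * ρ := le_mul_of_one_le_left hρ.le k1
  obtain ⟨Cs', hCM⟩ := hCM Cs
  obtain ⟨c1, c2, c3, -⟩ := hCM g N m1 η V ρ hm (hη.trans ((min_le_left _ _).trans (min_le_left _ _)))
    hR hg
  have hη2 : η ≤ 1 / 200 := hη.trans ((min_le_left _ _).trans (min_le_right _ _))
  have hη3 : C1 * η ≤ δ1 / 4 := by
    have := (le_div_iff₀ hC1).1 (hη.trans (min_le_right _ _))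
    linarith
  obtain ⟨u, hu'⟩ : ∃ u, u = ρ / 64 := ⟨_, rfl⟩
  rw [show κ * ρ / 64 = κ * u by rw [hu']; ring] at hE ⊢
  rw [← hu'] at hG c1 c2 c3 ⊢
  have hu : 0 < u := by rw [hu']; positivity
  have hb : 65536 * (κ * u) ≤ N.b := by rw [hu']; linarith
  have hκu : u ≤ κ * u := le_mul_of_one_le_left hu.le k1
  have hau : 16 * N.a ≤ u := by rw [hu']; linarith
  have hn := Ad.norm_smul' hu
  have cv : ∀ y : E4, 1 ≤ ‖y‖ → ‖y‖ < 11 * κ → cm g N u =ᶠ[𝓝 y] rs (g.pm N.Ψ) u :=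
    fun y a b => cm_ev hu (by linarith) (by nlinarith)
  have ov : ∀ z : E4, 6 * κ < ‖z‖ → ‖z‖ < 11 * κ → cm g N u z = rs K κ⁻¹ z := fun z a b => by
    have h1 := Ad.norm_inv_smul h0 z
    rw [(cv z (by linarith) b).eq_of_nhds, rs, rs, hE _ (by nlinarith) (by nlinarith), smul_smul,
      mul_right_comm, mul_inv_cancel₀ h0.ne', one_mul]
  have hK' := Ad.fl_rs (inv_pos.2 h0) hK
  set H := pw (8 * κ) (cm g N u) (rs K κ⁻¹) with hH
  have f1 : Fl H := pw_fl k1 ov c1 hK'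
  have i1 : ∀ y : E4, ‖y‖ < 11 * κ → H =ᶠ[𝓝 y] cm g N u := fun y hy => pw_in k1 ov hy
  have i2 : ∀ y : E4, 6 * κ < ‖y‖ → H =ᶠ[𝓝 y] rs K κ⁻¹ := fun y hy => pw_out k1 ov hy
  have f2 : EqOn G H (ball 0 2) := fun y hy => by
    have := mem_ball_zero_iff.1 hy
    rw [(i1 y (by linarith)).eq_of_nhds]
    exact hG.eq (mem_ball_zero_iff.2 (by linarith))
  have rg := hRG N.Γ G H hN.grp hG.fl f1 hG.inv (pw_inv c2 (Ad.inv_rs hI _))
    (ds_mono hG.ds (by linarith)) (ds_mono (ds_glue2 (ds_le c3 (by norm_num)) hD k1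
      (fun y hy => i1 y (by linarith)) fun y hy => i2 y (by linarith)) (by linarith)) f2
  -- the action of `H`
  have hD1 : {x : E4 | u ≤ ‖x‖ ∧ ‖x‖ < 8 * (κ * u)} ⊆ shell N.a N.b := fun x hx =>
    ⟨by linarith [hx.1, hN.a_pos], by linarith [hx.2]⟩
  have p1 : (fun y : E4 => u • y) ⁻¹' {x : E4 | u ≤ ‖x‖ ∧ ‖x‖ < 8 * (κ * u)} =
      {y : E4 | 1 ≤ ‖y‖ ∧ ‖y‖ < 8 * κ} := by
    ext y
    simp only [mem_preimage, mem_ofPred_eq, hn]
    exact ⟨fun h => ⟨by nlinarith [h.1], by nlinarith [h.2]⟩,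
      fun h => ⟨by nlinarith [h.1], by nlinarith [h.2]⟩⟩
  have p2 : N.Om u ∪ N.Ψ '' {x : E4 | u ≤ ‖x‖ ∧ ‖x‖ < 8 * (κ * u)} = N.Om (8 * (κ * u)) := by
    rw [Nk.Om, Nk.Om, union_assoc, ← image_union]
    congr 2
    ext x
    simp only [shell, mem_union, mem_ofPred_eq]
    exact ⟨fun h => h.elim (fun a => ⟨a.1, by linarith [a.2]⟩)
      fun a => ⟨by linarith [a.1, hN.a_pos], a.2⟩,
      fun h => (lt_or_ge ‖x‖ u).imp (fun a => ⟨h.1, a⟩) fun a => ⟨a, h.2⟩⟩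
  have s1 := sh (g := g) (G := H) (D := {x : E4 | u ≤ ‖x‖ ∧ ‖x‖ < 8 * (κ * u)}) hN hu ⟨by linarith [hN.a_pos], by linarith⟩
    ((Ad.meas_ge u).inter (isOpen_lt continuous_norm continuous_const).measurableSet) hD1
    (fun γ _ x hx => by simpa only [mem_ofPred_eq, γ.norm_map] using hx) (fun x hx => hx.1)
    fun y hy => by
      have h1 : y ∈ {y : E4 | 1 ≤ ‖y‖ ∧ ‖y‖ < 8 * κ} := p1 ▸ hy
      exact (i1 y (by linarith [h1.2])).trans (cv y h1.1 (by linarith [h1.2]))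
  rw [p1, p2] at s1
  have p3 : (fun y : E4 => κ⁻¹ • y) ⁻¹' {y : E4 | 8 ≤ ‖y‖} = {y : E4 | 8 * κ ≤ ‖y‖} := by
    ext y
    simp only [mem_preimage, mem_ofPred_eq]
    rw [Ad.norm_inv_smul h0 y]
    exact ⟨fun h => by nlinarith, fun h => by nlinarith⟩
  have s2 : ∫ y in {y : E4 | 8 * κ ≤ ‖y‖}, √(H y).det * scalarCurv H y =
      κ ^ 2 * ∫ y in {y : E4 | 8 ≤ ‖y‖}, √(K y).det * scalarCurv K y := by
    rw [int_scale (inv_pos.2 h0) (Ad.meas_ge 8), p3, setIntegral_congr_fun (Ad.meas_ge _)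
      fun y (hy : 8 * κ ≤ ‖y‖) => (eh_ev (i2 y (by linarith))).trans
        (eh_rs (inv_pos.2 h0) hK.riem (mem_univ _)), integral_const_mul]
    field_simp
  have s3 := eh_sub hG.fl f1 f2
  rw [int_split (Ad.int_eh' f1) (c := 8 * κ) (by linarith), s2] at s3
  -- the Ricci energy of `H`
  have r1 : RL H 1 ≤ 4096 * L ^ 2 * B * e ^ 2 + L ^ 2 * RL K 8 := by
    rw [RL, int_split f1.ric_int (c := 8 * κ) (by linarith)]
    refine add_le_add ?_ ?_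
    · have hs : {y : E4 | 1 ≤ ‖y‖ ∧ ‖y‖ < 8 * κ} ⊆ closedBall 0 (8 * L) := fun y hy =>
        mem_closedBall_zero_iff.2 (by linarith [hy.2])
      refine (Real.le_norm_self _).trans ((norm_setIntegral_le_of_norm_le_const
        (C := 4096 * L ^ 2 * e ^ 2) ((measure_mono hs).trans_lt measure_closedBall_lt_top)
        fun y hy => ?_).trans ?_)
      · have hy1 : 1 ≤ ‖y‖ := hy.1
        have hy2 : ‖y‖ < 8 * κ := hy.2
        have hx : u • y ∈ shell N.a N.b := hD1 (p1.ge hy)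
        have q1 : ∀ i j, ricci H y i j ^ 2 ≤ 4 * e ^ 2 := fun i j => by
          rw [(AI.ricci_congr ((i1 y (by linarith)).trans (cv y hy1 (by linarith)))).eq_of_nhds,
            Ad.ricci_rs hu (hN.par.riem g) hx, mul_pow]
          have q2 := ric_ebd hN hg hη2 hρ he hx (by rw [hn, ← hu']; nlinarith)
            (by rw [hn]; nlinarith) i j
          have q3 : (u ^ 2) ^ 2 ≤ (ρ ^ 2) ^ 2 := by gcongr; rw [hu']; linarith
          calc _ ≤ (ρ ^ 2) ^ 2 * (4 * (e / ρ ^ 2) ^ 2) := by gcongr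
            _ = _ := by field_simp
        have q4 : ∑ i, ∑ j, ricci H y i j ^ 2 ≤ ∑ _i : Fin 4, ∑ _j : Fin 4, 4 * e ^ 2 :=
          Finset.sum_le_sum fun i _ => Finset.sum_le_sum fun j _ => q1 i j
        simp only [Finset.sum_const, Finset.card_univ, Fintype.card_fin, nsmul_eq_mul,
          Nat.cast_ofNat] at q4
        rw [Real.norm_of_nonneg (Ad.ric_nonneg H y)]
        calc _ ≤ (8 * L) ^ 2 * (4 * (4 * (4 * e ^ 2))) := by gcongr; linarith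
          _ = _ := by ring
      · rw [mul_right_comm _ B]
        exact mul_le_mul_of_nonneg_left (measureReal_mono hs measure_closedBall_lt_top.ne)
          (by positivity)
    · rw [setIntegral_congr_fun (Ad.meas_ge _) (g := fun y =>
        ‖y‖ ^ 2 * ∑ i, ∑ j, ricci (rs K κ⁻¹) y i j ^ 2) fun y (hy : 8 * κ ≤ ‖y‖) => by
          simp only [(AI.ricci_congr (i2 y (by linarith))).eq_of_nhds], mul_comm 8 κ]
      exact (Ad.RL_rs h0 hK 8).trans_le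
        (mul_le_mul_of_nonneg_right (by gcongr) (Ad.RL_nonneg K 8))
  have hc0 : (0 : ℝ) ≤ (Nat.card N.Γ : ℝ)⁻¹ := by positivity
  have hc1 : (Nat.card N.Γ : ℝ)⁻¹ ≤ 1 := Nat.cast_inv_le_one _
  have n1 := Ad.RL_nonneg G 1
  have n2 := Ad.RL_nonneg K 8
  have n3 := Ad.RL_nonneg H 1
  rw [Sv, s1, show ∀ a c x y z : ℝ, a + c * u ^ 2 * x - (a + c * u ^ 2 * y + c * (κ * u) ^ 2 * z) =
    c * u ^ 2 * (x - (y + κ ^ 2 * z)) from fun _ _ _ _ _ => by ring, s3, abs_mul,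
    abs_of_nonneg (by positivity)]
  have q5 : (Nat.card N.Γ : ℝ)⁻¹ * u ^ 2 ≤ ρ ^ 2 :=
    (mul_le_of_le_one_left (by positivity) hc1).trans (by gcongr; rw [hu']; linarith)
  have q6 := num_le (sq_nonneg L) hB0 (sq_nonneg e) n1 n2 r1
  calc _ ≤ ρ ^ 2 * (C2 * ((1 + L ^ 2 + 4096 * L ^ 2 * B) * (e ^ 2 + RL G 1 + RL K 8))) :=
        mul_le_mul q5 (rg.trans (mul_le_mul_of_nonneg_left q6 hC2.le)) (abs_nonneg _)
          (by positivity)
    _ = _ := by ring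

theorem pe_mono {g : Met 4 M} {N : Nk M} {u δ δ' : ℝ} {G : MetricField 4} (h : PE g N u G δ)
    (hδ : δ ≤ δ') : PE g N u G δ' := ⟨h.fl, h.inv, ds_mono h.ds hδ, h.eq⟩

theorem sw1 (hT : TRANS M) (hCM : CMStmt M) (hRG : RGStmt) :
    ∃ η0 δ0 : ℝ, 0 < η0 ∧ 0 < δ0 ∧ ∀ L : ℝ, 1 ≤ L → ∃ C : ℝ, 0 < C ∧ ∀ (g : Met 4 M) (N N' : Nk M)
    (m1 : ℕ) (η V ρ ρ' e : ℝ) (Cs : ℕ → ℝ) (G G' : MetricField 4), 4 ≤ m1 → η ≤ η0 →
    Rng N ρ → Rng N' ρ' → N'.b = N.b → Good g N m1 η Cs V → Good g N' m1 η Cs V → ρ ≤ ρ' →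
    ρ' ≤ L * ρ → Cmp N N' (ρ / 64) N.b → Ebd g N 2 ρ e →
    PE g N (ρ / 64) G δ0 → PE g N' (ρ' / 64) G' δ0 →
    |Sv g N (ρ / 64) G - Sv g N' (ρ' / 64) G'| ≤ C * ρ ^ 2 * (e ^ 2 + RL G 1 + RL G' 1) := by
  obtain ⟨η1, C1, hη1, hC1, h1⟩ := ch hT
  obtain ⟨η2, δ2, hη2, hδ2, h2⟩ := rad hCM hRG
  refine ⟨min (min η1 η2) (δ2 / 2 / C1), min δ2 (δ2 / 2 / C1), by positivity, by positivity,
    fun L hL => ?_⟩
  obtain ⟨C, hC, h2⟩ := h2 L hL
  refine ⟨C * 2048, by positivity,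
    fun g N N' m1 η V ρ ρ' e Cs G G' hm hη hR hR' hb hg hg' k1 k2 hc he hG hG' => ?_⟩
  have hρ : 0 < ρ := by linarith [hR.a_le, hR.top.a_pos]
  have hb' := hb ▸ hR'.le_b
  obtain ⟨K, f1, f2, f3, f4, f5, f6⟩ := h1 g N N' m1 η V (ρ' / 64) _ Cs G' hm
    (hη.trans ((min_le_left _ _).trans (min_le_left _ _))) hR.top hR'.top hb
    (by linarith [hR.a_le]) (by linarith [hR'.a_le]) (by linarith) hg hg'
    (fun r hr => hc r ⟨by linarith [hr.1], hr.2⟩) hG'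
  have e1 : ρ' / ρ * ρ = ρ' := div_mul_cancel₀ _ hρ.ne'
  have q1 := (le_div_iff₀ hC1).1 (hη.trans (min_le_right _ _))
  have q2 := (le_div_iff₀ hC1).1 (min_le_right δ2 (δ2 / 2 / C1))
  have := h2 g N m1 η V ρ e (ρ' / ρ) Cs G K hm
    (hη.trans ((min_le_left _ _).trans (min_le_right _ _))) hR hg he ((one_le_div hρ).2 k1)
    ((div_le_iff₀ hρ).2 k2) (by rwa [e1]) (pe_mono hG (min_le_left _ _)) f1 f2
    (ds_mono f3 (by linarith)) (by rwa [e1])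
  rw [e1, ← f6] at this
  refine this.trans ?_
  have n1 := Ad.RL_nonneg G 1
  have n2 := sq_nonneg e
  calc _ ≤ C * ρ ^ 2 * (2048 * (e ^ 2 + RL G 1 + RL G' 1)) :=
        mul_le_mul_of_nonneg_left (by linarith) (by positivity)
    _ = _ := by ring

end Crest.Agent.N207.Ph.Sw

namespace Crest.Agent.N207.Ph

open Sk

variable {M : Type*} [TopologicalSpace M] [ChartedSpace E4 M] [IsManifold 𝓘(ℝ, E4) ∞ M]
  [CompactSpace M] [T3Space M] [ConnectedSpace M] [MeasurableSpace M] [BorelSpace M]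

/-- **(SW)** -/
theorem sw (hT : TRANS M) (hCM : CMStmt M) (hRG : RGStmt) : SWStmt M := by
  obtain ⟨η0, δ0, hη0, hδ0, h⟩ := Sw.sw1 hT hCM hRG
  refine ⟨η0, δ0, hη0, hδ0, fun L hL => ?_⟩
  obtain ⟨C, hC, h⟩ := h L hL
  refine ⟨C, hC, fun g N N' m1 η V ρ ρ' e e' Cs G G' hm hη hR hR' hb hg hg' k1 k2 hc he he' hG hG' => ?_⟩
  have n1 := Ad.RL_nonneg G 1
  have n2 := Ad.RL_nonneg G' 1
  rcases le_total ρ ρ' with k | k
  · rw [min_eq_left k] at hc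
    refine (h g N N' m1 η V ρ ρ' e Cs G G' hm hη hR hR' hb hg hg' k k2 hc he hG hG').trans ?_
    exact mul_le_mul_of_nonneg_left (by linarith [sq_nonneg e']) (by positivity)
  · rw [min_eq_right k, ← hb] at hc
    have hρ : 0 < ρ' := by linarith [hR'.a_le, hR'.top.a_pos]
    rw [abs_sub_comm]
    refine (h g N' N m1 η V ρ' ρ e' Cs G' G hm hη hR' hR hb.symm hg' hg k k1 (TR.cmp_symm hc) he'
      hG' hG).trans ?_
    exact mul_le_mul (by gcongr) (by linarith [sq_nonneg e]) (by positivity) (by positivity)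

end Crest.Agent.N207.Ph

end
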