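import Crest.Agent.N207.Ph.Fin0
import Crest.Agent.N207.Ph.Sw3
import Crest.Agent.N207.Ph.Exb
import Crest.Agent.N207.Ph.Exa
import Crest.Agent.N207.TR.Main

/-!
# Row 207, block PHI (helper85): `PHI'`
-/

set_option autoImplicit false

open scoped ContDiff Manifold

namespace Crest.Agent.N207.Ph

open Sk

variable {M : Type*} [TopologicalSpace M] [ChartedSpace E4 M] [IsManifold 𝓘(ℝ, E4) ∞ M]
  [CompactSpace M] [T3Space M] [ConnectedSpace M] [MeasurableSpace M] [BorelSpace M]

theorem phiF {F : Flow M} (hB : Base F) : PHI' F :=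
  phi_of hB exa exb (sw (TR.trans M) (cmS M) (rg en qu hc))

end Crest.Agent.N207.Ph
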