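import Crest.Agent.N207.Ph.Defs
import Crest.Agent.N207.G.Gl1

/-!
# Row 207, block PHI (helper49): gluing two metrics on a shell
-/

set_option autoImplicit false

open scoped ContDiff Topology Nat
open Set Filter
open Crest.GeometryTopology.CoordMetric

noncomputable section

namespace Crest.Agent.N207.Ph

open Sk G

theorem jb_out {X Y Z : Type} [NormedAddCommGroup X] [NormedSpace ℝ X] [NormedAddCommGroup Y]
    [NormedSpace ℝ Y] [NormedAddCommGroup Z] [NormedSpace ℝ Z] {m : ℕ} {f : X → Y} {g : Y → Z}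
    {x : X} {s c D : ℝ} (hs : 0 < s) (hD : 1 ≤ D) (h : JB m g (f x) 1 c) (hf : JB m f x s D) :
    JB m (fun y => g (f y)) x s (m ! * D ^ m * c) := by
  have e0 : s • s⁻¹ • x = x := smul_inv_smul₀ hs.ne' x
  have h1 : JB m (fun w => f (s • w)) (s⁻¹ • x) 1 D := JB.unit hs (by rw [e0]; exact hf)
  have h2 := JB.comp1 (f := fun w => f (s • w)) (x := s⁻¹ • x) (g := g) hD
    (by simpa only [e0] using h) h1.sm fun i _ hi => by simpa using h1.bd i hi
  simpa only [smul_inv_smul₀ hs.ne'] using JB.of_unit hs h2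

theorem up_eq_one {a b : ℝ} (ha : 0 < a) (hab : a < b) {y : E4} (hy : b ≤ ‖y‖) : up a b y = 1 := by
  have h : 0 < b ^ 2 - a ^ 2 := by nlinarith
  refine Real.smoothTransition.one_of_one_le ?_
  rw [le_div_iff₀ h]
  nlinarith

theorem up_eq_zero {a b : ℝ} (ha : 0 < a) (hab : a < b) {y : E4} (hy : ‖y‖ ≤ a) :
    up a b y = 0 := by
  have h : 0 < b ^ 2 - a ^ 2 := by nlinarith
  refine Real.smoothTransition.zero_of_nonpos (div_nonpos_of_nonpos_of_nonneg ?_ h.le)
  nlinarith [norm_nonneg y]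

theorem up_smooth (a b : ℝ) : ContDiff ℝ ∞ (up a b) :=
  Real.smoothTransition.contDiff.comp (((contDiff_norm_sq ℝ).sub contDiff_const).div_const _)

theorem jb_up (m : ℕ) (Λ : ℝ) : ∃ C, 1 ≤ C ∧ ∀ a b : ℝ, 0 < a → a < b → b ≤ Λ * (b - a) →
    ∀ y : E4, ‖y‖ ≤ b → JB m (up a b) y b C := by
  obtain ⟨C1, hC1, h1⟩ := exists_jb_fixed (ψ := fun w : E4 => ‖w‖ ^ 2) (contDiff_norm_sq ℝ) m 1
  set D : ℝ := 2 ^ m * (|Λ| * C1) + (|Λ| + 1) with hD
  have hD1 : 1 ≤ D := by
    have : 0 ≤ 2 ^ m * (|Λ| * C1) := by positivity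
    linarith [abs_nonneg Λ]
  obtain ⟨C2, hC2, h2⟩ := exists_jb_fixed (ψ := Real.smoothTransition)
    Real.smoothTransition.contDiff m D
  refine ⟨m ! * D ^ m * C2, ?_, fun a b ha hab hb y hy => ?_⟩
  · have h1 : (1 : ℝ) ≤ m ! := by exact_mod_cast Nat.factorial_pos _
    exact one_le_mul_of_one_le_of_one_le
      (one_le_mul_of_one_le_of_one_le h1 (one_le_pow₀ hD1)) hC2
  have hb0 : 0 < b := ha.trans hab
  have hd : 0 < b ^ 2 - a ^ 2 := by nlinarith
  have hΛ := le_abs_self Λ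
  have k1 : b ^ 2 / (b ^ 2 - a ^ 2) ≤ |Λ| := by
    rw [div_le_iff₀ hd]
    have : b ≤ |Λ| * (b - a) := hb.trans (by gcongr)
    have h3 : 0 ≤ |Λ| * (b - a) := by positivity
    nlinarith
  have k2 : a ^ 2 / (b ^ 2 - a ^ 2) ≤ |Λ| + 1 := by
    refine le_trans ?_ (k1.trans (by linarith))
    gcongr
  have hq : JB m (fun z : E4 => (‖z‖ ^ 2 - a ^ 2) / (b ^ 2 - a ^ 2)) y b D := by
    have h3 := ((JB.const (m := m) (x := y) (s := b) (b ^ 2 / (b ^ 2 - a ^ 2)) (c := |Λ|)
      (by rwa [Real.norm_of_nonneg (by positivity)])).mul hb0.le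
      (h1 b hb0 y (by rwa [one_mul]))).add hb0.le
      (JB.const (-(a ^ 2 / (b ^ 2 - a ^ 2))) (c := |Λ| + 1)
        (by rwa [norm_neg, Real.norm_of_nonneg (by positivity)]))
    refine h3.congr (Eventually.of_forall fun z => ?_)
    simp only [norm_smul, norm_inv, Real.norm_of_nonneg hb0.le]
    field_simp
    ring
  have h4 := h2 1 one_pos _ (by rw [mul_one]; exact hq.val)
  simp only [inv_one, one_smul] at h4
  exact jb_out (g := Real.smoothTransition) hb0 hD1 h4 hq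

theorem glu_ev_out {a b : ℝ} (ha : 0 < a) (hab : a < b) (G1 G2 : MetricField 4) {y : E4}
    (hy : b < ‖y‖) : glu a b G1 G2 =ᶠ[𝓝 y] G2 := by
  filter_upwards [(isOpen_lt continuous_const continuous_norm).mem_nhds hy] with z hz
  simp [glu, up_eq_one ha hab (le_of_lt hz)]

theorem glu_ev_in {a b : ℝ} (ha : 0 < a) (hab : a < b) (G1 G2 : MetricField 4) {y : E4}
    (hy : ‖y‖ < a) : glu a b G1 G2 =ᶠ[𝓝 y] G1 := by
  filter_upwards [(isOpen_lt continuous_norm continuous_const).mem_nhds hy] with z hz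
  simp [glu, up_eq_zero ha hab (le_of_lt hz)]

theorem gl : GLStmt := by
  intro m Λ
  obtain ⟨C, hC, h⟩ := jb_up m Λ
  set l := |Λ| + 1 with hl
  have hl1 : 1 ≤ l := by linarith [abs_nonneg Λ]
  have hK : 0 ≤ 2 ^ m * (l ^ m * C * 2) := by positivity
  refine ⟨1 + 2 ^ m * (l ^ m * C * 2), by positivity,
    fun G1 G2 a b ha hab hb y s c hs hc hsa s1 s2 j1 j2 => ?_⟩
  have hm : c ≤ (1 + 2 ^ m * (l ^ m * C * 2)) * c := le_mul_of_one_le_left hc (by linarith)
  by_cases h1 : b < ‖y‖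
  · exact jg_mono (jg_congr (j2.resolve_right (by linarith)) (glu_ev_out ha hab _ _ h1)) hm
  by_cases h2 : ‖y‖ < a
  · exact jg_mono (jg_congr (j1.resolve_right h1) (glu_ev_in ha hab _ _ h2)) hm
  have b1 := jb_of_jg (fun i j => (s1 i j).resolve_right h1) (j1.resolve_right h1)
  have b2 := jb_of_jg (fun i j => (s2 i j).resolve_right h2) (j2.resolve_right h2)
  have hy := not_lt.1 h1
  have hu := (h a b ha hab hb y hy).scale (ha.trans hab).le hs hl1 ((hsa hy).trans (by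
    have := le_abs_self Λ
    have := abs_nonneg Λ
    nlinarith))
  refine jg_of_jb fun i j => ?_
  have h3 := (b1 i j).add hs (hu.mul hs ((b2 i j).add hs
    ((b1 i j).clm (-ContinuousLinearMap.id ℝ ℝ) hs (l := 1) (by simp))))
  refine (h3.congr (Eventually.of_forall fun z => ?_)).mono (le_of_eq (by ring))
  simp [dv, glu]
  ring

end Crest.Agent.N207.Ph

end
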