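import Crest.Agent.N207.Ph.Hc2
import Crest.Agent.N207.U.Cmp

/-!
# Row 207, block PHI (helper11): harmonic coordinates, part 4: the cut-off, the inverse map
-/

set_option autoImplicit false
set_option linter.unusedSectionVars false

open scoped ContDiff Topology NNReal
open Set Filter Metric
open Crest.GeometryTopology.CoordMetric

noncomputable section

namespace Crest.Agent.N207.Ph.Hc

open Crest.Agent.NLib.Ell Crest.Agent.N207.G Sk
open Crest.Agent.N207.U (PB jc jc_eq_pd)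

theorem exists_inv {v : E4 → E4} (hv : ContDiff ℝ ∞ v) (h : ∀ x, ‖fderiv ℝ v x‖ ≤ 1 / 2) :
    ∃ Φ : E4 ≃ₜ E4, (∀ x, Φ x = x + v x) ∧ ContDiff ℝ ∞ Φ.symm := by
  have hd := hv.differentiable (by simp)
  have hA : ApproximatesLinearOn (fun x => x + v x)
      (ContinuousLinearEquiv.refl ℝ E4 : E4 →L[ℝ] E4) univ (1 / 2 : ℝ≥0) := fun x _ y _ => by
    have := convex_univ.norm_image_sub_le_of_norm_fderiv_le (𝕜 := ℝ) (fun z _ => hd z)
      (fun z _ => h z) (mem_univ y) (mem_univ x)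
    rw [show x + v x - (y + v y) - (ContinuousLinearEquiv.refl ℝ E4 : E4 →L[ℝ] E4) (x - y) =
      v x - v y by simp; abel]
    simpa using this
  refine ⟨hA.toHomeomorph _ (Or.inr (by simp; norm_num)), fun _ => rfl,
    Homeomorph.contDiff_symm _ (f₀' := fun a => ContinuousLinearEquiv.ofUnit
      (Units.oneSub (-fderiv ℝ v a) (by rw [norm_neg]; linarith [h a]))) (fun a => ?_)
      (contDiff_id.add hv)⟩
  refine ((hasFDerivAt_id a).add (hd a).hasFDerivAt).congr_fderiv ?_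
  ext z k
  simp [ContinuousLinearEquiv.ofUnit]

theorem jb_proj {m : ℕ} {u : E4 → E4} {x : E4} {s c : ℝ} (hs : 0 ≤ s) (h : JB m u x s c)
    (a : Fin 4) : JB m (fun y => u y a) x s c := by
  simpa using h.clm (EuclideanSpace.proj a : E4 →L[ℝ] ℝ) hs (R240.Fr.norm_proj_le a)

theorem jb_of_proj {m : ℕ} {u : E4 → E4} {x : E4} {s c : ℝ} (hs : 0 ≤ s)
    (h : ∀ a, JB m (fun y => u y a) x s c) : JB m u x s (4 * c) := by
  have h1 := JB.sum Finset.univ hs fun a _ => (h a).clm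
    (ContinuousLinearMap.toSpanSingleton ℝ (EuclideanSpace.single a (1 : ℝ) : E4)) hs (l := 1)
    (by rw [ContinuousLinearMap.norm_toSpanSingleton]; simp)
  refine (h1.congr (Eventually.of_forall fun z => ?_)).mono (by simp)
  simpa using ((EuclideanSpace.basisFun (Fin 4) ℝ).sum_repr (u z)).symm

theorem jc_add {u : E4 → E4} {z : E4} (hu : DifferentiableAt ℝ u z) (a j : Fin 4) :
    jc (fun x => x + u x) z a j - (1 : Matrix (Fin 4) (Fin 4) ℝ) a j =
      pderiv j (fun x => u x a) z := by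
  rw [← jc_eq_pd hu]
  simp [jc, fderiv_fun_add differentiableAt_fun_id hu, Matrix.one_apply]

/-- the data of `inv_jet` -/
structure Di (m : ℕ) (K : ℝ) where
  Φ : E4 ≃ₜ E4
  v : E4 → E4
  y : E4
  ε : ℝ
  eq : ∀ x, Φ x = x + v x
  sm : ContDiff ℝ ∞ Φ.symm
  small : ∀ x, JB 1 v x (‖x‖ + 1) (1 / 8 * (‖x‖ + 1))
  jet : ∀ x, JB (m + 1) v x (‖x‖ + 1) (ε * (‖x‖ + 1))
  le : ε ≤ K

theorem inv_jet (m : ℕ) (K : ℝ) : ∃ C : ℝ, 0 < C ∧ ∀ D : Di m K,
    JB (m + 1) (fun z => D.Φ.symm z - z) D.y (‖D.y‖ + 1) (C * D.ε * (‖D.y‖ + 1)) := by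
  have h0 : ∀ D : Di m K, 0 ≤ D.ε := fun D => by simpa using (D.jet 0).nonneg
  have hv : ∀ D : Di m K, ContDiff ℝ ∞ D.v := fun D =>
    contDiff_iff_contDiffAt.2 fun x => (D.jet x).sm
  have hΦ : ∀ D : Di m K, ⇑D.Φ = fun x => x + D.v x := fun D => funext D.eq
  have e1 : ∀ (D : Di m K) (z : E4), D.Φ.symm z - z = -D.v (D.Φ.symm z) := fun D z => by
    have := D.eq (D.Φ.symm z)
    rw [D.Φ.apply_symm_apply] at this
    rw [sub_eq_iff_eq_add, neg_add_eq_sub, eq_sub_iff_add_eq, ← this]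
  have hs : ∀ D : Di m K, ‖D.y‖ + 1 ≤ 2 * (‖D.Φ.symm D.y‖ + 1) ∧
      ‖D.Φ.symm D.y‖ + 1 ≤ 2 * (‖D.y‖ + 1) := fun D => by
    have h1 := abs_norm_sub_norm_le (D.Φ.symm D.y) D.y
    rw [e1, norm_neg] at h1
    replace h1 := abs_le.1 (h1.trans (D.small _).val)
    constructor <;> linarith [h1.1, h1.2, norm_nonneg D.y, norm_nonneg (D.Φ.symm D.y)]
  have h1 : ∀ a j, PB (fun D : Di m K => D.Φ.symm D.y) (fun D => ‖D.y‖ + 1) m (fun D => D.ε)
      fun D z => jc D.Φ z a j - (1 : Matrix (Fin 4) (Fin 4) ℝ) a j := fun a j => by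
    have h2 : PB (fun D : Di m K => D.Φ.symm D.y) (fun D => ‖D.Φ.symm D.y‖ + 1) (m + 1)
        (fun D => D.ε * (‖D.Φ.symm D.y‖ + 1)) fun D z => D.v z a :=
      PB.of_itd (fun D => sc_pos _) (fun D => (jb_proj (sc_pos _).le (D.jet _) a).sm)
        fun k hk => ⟨1, zero_le_one, fun D => by
          rw [one_mul]; exact (jb_proj (sc_pos _).le (D.jet _) a).bd k hk⟩
    refine (((h2.pd (fun D => sc_pos _) j).wte fun D => mul_div_cancel_right₀ _
      (sc_pos _).ne').scale (fun D => sc_pos _) (K := 2) fun D => by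
        rw [abs_of_pos (sc_pos _)]; exact (hs D).1).congr' fun D z => ?_
    rw [hΦ, jc_add ((hv D).differentiable (by simp) z)]
  have h2 := PB.jc_inv_sub (Φ := fun D : Di m K => D.Φ.symm) (Ψ := fun D => D.Φ)
    (x := fun D => D.y) (fun D => D.sm.contDiffAt)
    (fun D => by rw [hΦ]; exact (contDiff_id.add (hv D)).contDiffAt)
    (fun D => Eventually.of_forall D.Φ.apply_symm_apply) (fun D => D.le) (ε := 1 / 8)
    (by norm_num) (fun D a j => by
      rw [hΦ, jc_add ((hv D).differentiable (by simp) _)]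
      have h3 := ((jb_proj (sc_pos _).le (D.small (D.Φ.symm D.y)) a).fderiv (sc_pos _)).val
      simpa [pderiv] using (fderiv ℝ (fun x => D.v x a) (D.Φ.symm D.y)).le_of_opNorm_le h3
        (EuclideanSpace.single j 1)) h1
  have hu : ∀ D : Di m K, ContDiff ℝ ∞ fun z => D.Φ.symm z - z := fun D => D.sm.sub contDiff_id
  have hu' : ∀ (D : Di m K) a, ContDiff ℝ ∞ fun z => (D.Φ.symm z - z) a := fun D a =>
    (EuclideanSpace.proj a : E4 →L[ℝ] ℝ).contDiff.comp (hu D)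
  have h3 : ∀ a, PB (fun D : Di m K => D.y) (fun D => ‖D.y‖ + 1) (m + 1)
      (fun D => D.ε * (‖D.y‖ + 1)) fun D z => (D.Φ.symm z - z) a := fun a => by
    refine PB.of_pd (fun D => sc_pos _) ⟨fun D => (hu' D a).contDiffAt, 2, zero_le_two,
      fun D => ?_⟩ fun j => ((h2 a j).wte fun D => (mul_div_cancel_right₀ _
        (sc_pos _).ne').symm).congr' fun D z => ?_
    · have h4 := (jb_proj (sc_pos _).le (D.jet (D.Φ.symm D.y)) a).val
      have h5 := mul_le_mul_of_nonneg_left (hs D).2 (h0 D)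
      simp only [e1, PiLp.neg_apply, abs_neg]
      exact h4.trans (by linarith)
    · rw [← jc_add ((hu D).differentiable (by simp) z)]
      simp only [add_sub_cancel]
  choose C hC h4 using fun a => (h3 a).itd (fun D => sc_pos _) fun D => by
    have := h0 D
    positivity
  have hC' : 0 ≤ ∑ a, C a := Finset.sum_nonneg fun a _ => hC a
  refine ⟨4 * (∑ a, C a + 1), by positivity, fun D => (jb_of_proj (sc_pos _).le
    (c := (∑ a, C a + 1) * (D.ε * (‖D.y‖ + 1))) fun a => ⟨(hu' D a).contDiffAt, fun k hk =>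
      (h4 a k hk D).trans ?_⟩).mono (le_of_eq (by ring))⟩
  have := h0 D
  have := Finset.single_le_sum (f := C) (fun a _ => hC a) (Finset.mem_univ a)
  gcongr
  linarith

/-! ### the cut-off -/

theorem up_ev_one {ρ : ℝ} (hρ : 0 < ρ) {x : E4} (hx : 2 * ρ < ‖x‖) :
    ∀ᶠ z in 𝓝 x, up ρ (2 * ρ) z = 1 := by
  filter_upwards [(isOpen_lt continuous_const continuous_norm).mem_nhds hx] with z hz
  exact up_eq_one hρ (by linarith) (le_of_lt hz)

theorem up_ev_zero {ρ : ℝ} (hρ : 0 < ρ) {x : E4} (hx : ‖x‖ < ρ) :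
    ∀ᶠ z in 𝓝 x, up ρ (2 * ρ) z = 0 := by
  filter_upwards [(isOpen_lt continuous_norm continuous_const).mem_nhds hx] with z hz
  exact up_eq_zero hρ (by linarith) (le_of_lt hz)

theorem up_ck (k : ℕ) : ∃ C : ℝ, 0 < C ∧ ∀ ρ : ℝ, 1 ≤ ρ → ∀ y, CK k C (up ρ (2 * ρ)) y := by
  obtain ⟨C, hC, h⟩ := jb_up (k + 1) 2
  refine ⟨2 * (2 ^ (k + 1) * C), by positivity, fun ρ hρ y => ck_of_jb fun Y _ => ?_⟩
  rcases le_or_gt ‖cl y Y‖ (2 * ρ) with h1 | h1
  · exact (h ρ (2 * ρ) (by linarith) (by linarith) (by linarith) _ h1).scale (by linarith)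
      (sc_pos _).le one_le_two (by linarith)
  · refine (JB.const (1 : ℝ) ?_).congr (up_ev_one (by linarith) h1)
    rw [norm_one]
    exact one_le_mul_of_one_le_of_one_le (one_le_pow₀ one_le_two) hC

/-- the field `w`, cut between `ρ` and `2 ρ` -/
def ct (ρ : ℝ) (w : E4 → E4) (x : E4) : E4 := w x - up ρ (2 * ρ) x • w x

theorem ct_wd (k : ℕ) : ∃ C : ℝ, 0 < C ∧ ∀ (ρ : ℝ) (w : E4 → E4) (a : ℕ → ℝ), 1 ≤ ρ → WD k a w →
    WD k (fun l => C * a l) (ct ρ w) := by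
  obtain ⟨C, hC, h⟩ := up_ck k
  exact ⟨1 + 2 ^ (k + 1) * C, by positivity, fun ρ w a hρ hw l y h1 h2 =>
    ((hw l y h1 h2).sub ((h ρ hρ y).smulF (hw l y h1 h2))).mono (le_of_eq (by ring))⟩

theorem ct_sm (ρ : ℝ) {w : E4 → E4} (hw : ContDiff ℝ ∞ w) : ContDiff ℝ ∞ (ct ρ w) :=
  hw.sub ((up_smooth _ _).smul hw)

theorem ct_eqv (ρ : ℝ) {Γ : Subgroup Iso} {w : E4 → E4} (hw : Eqv Γ w) : Eqv Γ (ct ρ w) :=
  fun γ hγ x => by simp only [ct, up, hw γ hγ x, γ.norm_map, map_sub, map_smul]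

theorem ct_out {ρ : ℝ} (hρ : 0 < ρ) (w : E4 → E4) {x : E4} (hx : 2 * ρ ≤ ‖x‖) : ct ρ w x = 0 := by
  simp [ct, up_eq_one hρ (by linarith) hx]

theorem jb_of_wd {k : ℕ} {c : ℝ} {v : E4 → E4} (hv : ContDiff ℝ ∞ v)
    (h : WD k (fun l => c * 2 ^ l) v) (x : E4) :
    JB k v x (‖x‖ + 1) (16 ^ k * c * (‖x‖ + 1)) := by
  obtain ⟨l, h1, h2⟩ := exists_shell x
  have hc : 0 ≤ c := by simpa using h.nonneg 0
  refine (jb_of_ck hv.contDiffAt (h l x h1 h2)).mono ?_
  simp only [mul_assoc]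
  gcongr

end Crest.Agent.N207.Ph.Hc

end
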