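import Crest.Agent.N207.Ph.Nw4

/-!
# Row 207, block PHI (helper48): Newton kit, part 5: `lh : LHStmt`
-/

set_option autoImplicit false
set_option linter.unusedSectionVars false

open scoped ContDiff Topology Pointwise
open MeasureTheory Set Filter Metric

noncomputable section

namespace Crest.Agent.N207.Ph

open Crest.Agent.R240.Fr (NK cN cN_pos lap)

variable {F : Type*} [NormedAddCommGroup F] [NormedSpace ℝ F]

/-- the shells are invariant under isometries -/
theorem int_Sh_iso (A : Iso) (l : ℕ) (φ : E4 → F) :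
    ∫ y in Sh l, φ (A y) = ∫ y in Sh l, φ y := by
  have h := A.measurePreserving.setIntegral_preimage_emb A.toHomeomorph.measurableEmbedding φ (Sh l)
  have e : A ⁻¹' Sh l = Sh l := by
    ext y; simp [Sh]
  rwa [e] at h

theorem NK_iso (A : Iso) (y : E4) : NK (A y) = NK y := by simp [NK]

theorem NK_neg (y : E4) : NK (0 - y) = NK y := by simp [NK]

theorem eq_zero_of_fixed {Γ : Subgroup Iso} (hΓ : Sk.Grp Γ) {v : E4} (h : ∀ γ ∈ Γ, γ v = v) :
    v = 0 := by
  by_contra hv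
  exact hΓ.ne ((Subgroup.eq_bot_iff_forall _).2 fun γ hγ => hΓ.free γ hγ v hv (h γ hγ))

theorem NS_zero {Γ : Subgroup Iso} (hΓ : Sk.Grp Γ) {f : E4 → E4} (hf : Continuous f)
    (he : Eqv Γ f) (l : ℕ) : NS l f 0 = 0 := by
  refine eq_zero_of_fixed hΓ fun γ hγ => ?_
  unfold NS
  have h := (γ.toContinuousLinearEquiv : E4 →L[ℝ] E4).integral_comp_comm (intOn_NS hf l 0)
  refine h.symm.trans ?_
  rw [← int_Sh_iso γ l fun y => NK (0 - y) • f y]
  refine integral_congr_ae (Eventually.of_forall fun y => ?_)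
  simp only [NK_neg, NK_iso, he γ hγ y, map_smul]
  rfl

theorem Nw_zero_of_eqv {Γ : Subgroup Iso} (hΓ : Sk.Grp Γ) {f : E4 → E4} (hf : Continuous f)
    (hfs : HasCompactSupport f) (he : Eqv Γ f) : Nw f 0 = 0 := by
  obtain ⟨n, hn⟩ := exists_lv_zero hfs
  rw [Nw_eq_sum hf hn]
  exact Finset.sum_eq_zero fun l _ => NS_zero hΓ hf he l

theorem Nw_eqv {Γ : Subgroup Iso} {f : E4 → E4} (hf : Continuous f) (hfs : HasCompactSupport f)
    (he : Eqv Γ f) : Eqv Γ (Nw f) := fun γ hγ x => by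
  rw [← Nw_isom]
  simp only [he γ hγ]
  exact Nw_clm (γ.toContinuousLinearEquiv : E4 →L[ℝ] E4) hf hfs x

theorem wH_nonneg (j l : ℕ) : 0 ≤ wH j l := le_min zero_le_one (by positivity)

theorem wH_near {i j : ℕ} (h : j ≤ i + 2) (l : ℕ) : wH i l ≤ 64 * wH j l := by
  unfold wH
  rw [mul_min_of_nonneg _ _ (by norm_num : (0 : ℝ) ≤ 64)]
  refine min_le_min (by norm_num) ?_
  rw [← mul_div_assoc, div_le_div_iff₀ (by positivity) (by positivity)]
  have h1 : (8 : ℝ) ^ j ≤ 8 ^ (i + 2) := pow_le_pow_right₀ (by norm_num) h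
  have h2 : (0 : ℝ) < 8 ^ l := by positivity
  rw [pow_add] at h1
  nlinarith

theorem lh_sup : ∃ C : ℝ, 0 < C ∧ ∀ (Γ : Subgroup Iso) (f : E4 → E4) (a : ℕ → ℝ) (b : ℝ) (j : ℕ)
    (x : E4), Sk.Grp Γ → Continuous f → HasCompactSupport f → Eqv Γ f →
    WS (fun l => a l / 2 ^ l) f → (∀ n, ∑ l ∈ Finset.range n, wH j l * a l ≤ b) →
    2 ^ j ≤ ‖x‖ + 1 → ‖x‖ + 1 ≤ 2 ^ (j + 1) → ‖Nw f x‖ ≤ C * 2 ^ j * b := by
  have hN := cN_pos
  have hI := IB_pos 3
  have hI2 := IB_pos 2
  refine ⟨8 * IB 3 * cN + 64 * IB 2 * cN, by positivity,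
    fun Γ f a b j x hΓ hf hfs he ha hb h1 h2 => ?_⟩
  obtain ⟨n, hn⟩ := exists_lv_zero hfs
  rw [Nw_eq_sum hf hn]
  refine (norm_sum_le_of_le _ (n := fun l => (8 * IB 3 * cN + 64 * IB 2 * cN) * 2 ^ j *
    (wH j l * a l)) fun l _ => ?_).trans ?_
  · have hc := ha.nonneg l
    have hl : (0 : ℝ) < 2 ^ l := by positivity
    have ha0 : 0 ≤ a l := by
      have := mul_nonneg hc hl.le
      rwa [div_mul_cancel₀ _ hl.ne'] at this
    have hfl : ∀ y ∈ Sh l, ‖f y‖ ≤ a l / 2 ^ l := fun y hy => ha l y hy.1 hy.2.le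
    rcases le_or_gt j l with h | h
    · have h3 := NS_sub_le hf hc hfl x
      rw [NS_zero hΓ hf he, sub_zero, div_mul_cancel₀ _ hl.ne'] at h3
      have h4 : wH j l = 1 := min_eq_left (by
        rw [le_div_iff₀ (by positivity), one_mul]; exact pow_le_pow_right₀ (by norm_num) h)
      rw [h4, one_mul]
      have h5 : ‖x‖ ≤ 2 * 2 ^ j := by rw [pow_succ] at h2; linarith
      calc _ ≤ 4 * IB 3 * cN * a l * (2 * 2 ^ j) := h3.trans (by gcongr)
        _ = 8 * IB 3 * cN * 2 ^ j * a l := by ring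
        _ ≤ _ := by gcongr; linarith [mul_pos (mul_pos (by norm_num : (0 : ℝ) < 64) hI2) hN]
    · have h3 := NS_le hc hfl h1
      have h4 : wH j l = 8 ^ l / 8 ^ j := min_eq_right (by
        rw [div_le_one (by positivity)]; exact pow_le_pow_right₀ (by norm_num) h.le)
      have e4 : ∀ m : ℕ, (4 : ℝ) ^ m = 2 ^ m * 2 ^ m := fun m => by rw [← mul_pow]; norm_num
      have e8 : ∀ m : ℕ, (8 : ℝ) ^ m = 2 ^ m * 2 ^ m * 2 ^ m := fun m => by
        rw [← mul_pow, ← mul_pow]; norm_num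
      calc _ ≤ 64 * IB 2 * cN * (a l / 2 ^ l) * (4 ^ l * (4 ^ l / 4 ^ j)) :=
            h3.trans (by gcongr; exact min_le_right _ _)
        _ = 64 * IB 2 * cN * 2 ^ j * (8 ^ l / 8 ^ j * a l) := by
            rw [e4 l, e4 j, e8 l, e8 j]; field_simp
        _ ≤ _ := by
            rw [h4]; gcongr; linarith [mul_pos (mul_pos (by norm_num : (0 : ℝ) < 8) hI) hN]
  · rw [← Finset.mul_sum]
    exact mul_le_mul_of_nonneg_left (hb n) (by positivity)

theorem lh : LHStmt := by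
  intro k
  obtain ⟨C, hC, H⟩ := lh_sup
  obtain ⟨D, hD, HD⟩ := sw_lap k
  refine ⟨4 * (D * (256 * C + 2)), by positivity,
    fun Γ f a a' b hΓ hf hfs he ha ha' hb hab l y h1 h2 => ?_⟩
  have hb0 : ∀ j, 0 ≤ b j := fun j => by simpa using hb j 0
  have ha0 : ∀ l, 0 ≤ a l := fun l => by
    have hl : (0 : ℝ) < 2 ^ l := by positivity
    have := mul_nonneg (ha.nonneg l) hl.le
    rwa [div_mul_cancel₀ _ hl.ne'] at this
  refine (CK.of_proj (M := D * ((256 * C + 2) * 2 ^ l * b l)) fun i => ?_).mono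
    (le_of_eq (by ring))
  have hfi : ContDiff ℝ ∞ fun x => f x i := (R240.Fr.contDiff_coord i).comp hf
  have hfis : HasCompactSupport fun x => f x i := hfs.comp_left (g := fun v : E4 => v i) rfl
  have e : (fun x => Nw f x i) = Nw fun x => f x i := funext fun x =>
    (Nw_clm (EuclideanSpace.proj (𝕜 := ℝ) i : E4 →L[ℝ] ℝ) hf.continuous hfs x).symm
  obtain ⟨n, hn⟩ := exists_lv_zero hfs
  refine HD (fun x => Nw f x i) (fun l => 2 ^ l * a' l)
    (fun j => C * 2 ^ j * ∑ l ∈ Finset.range n, wH j l * a l)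
    (fun l => (256 * C + 2) * 2 ^ l * b l) (e ▸ Nw_contDiff hfi hfis) (fun j z h3 h4 => ?_)
    (fun j z h3 h4 => ?_) (fun j i h3 h4 => ?_) (fun j i h3 h4 => ?_) l y h1 h2
  · have e2 : lap (fun x => Nw f x i) = fun x => f x i := by
      rw [e]; exact funext (lap_Nw hfi hfis)
    rw [e2]
    refine ((ha' j z h3 h4).proj i).mono (le_of_eq ?_)
    beta_reduce
    rw [show (4 : ℝ) ^ j = 2 ^ j * 2 ^ j by rw [← mul_pow]; norm_num]
    field_simp
  · refine (PiLp.norm_apply_le _ i).trans ?_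
    let a1 : ℕ → ℝ := fun l => if l < n then a l else 0
    have h5 := H Γ f a1 (∑ l ∈ Finset.range n, wH j l * a l) j z hΓ hf.continuous hfs he
      (fun l y hy hy' => ?_) (fun m => ?_) h3 h4
    · exact h5
    · by_cases hl : l < n
      · simpa [a1, hl] using ha l y hy hy'
      · rw [hn y ((pow_le_pow_right₀ one_le_two (not_lt.1 hl)).trans hy)]
        simp [a1, hl]
    · calc ∑ l ∈ Finset.range m, wH j l * a1 l
          = ∑ l ∈ (Finset.range m).filter (· < n), wH j l * a l := by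
            rw [Finset.sum_filter]
            exact Finset.sum_congr rfl fun l _ => by simp only [a1]; split_ifs <;> simp
        _ ≤ _ := Finset.sum_le_sum_of_subset_of_nonneg
            (fun l hl => Finset.mem_range.2 (Finset.mem_filter.1 hl).2)
            fun l _ _ => mul_nonneg (wH_nonneg _ _) (ha0 l)
  · have h5 : (2 : ℝ) ^ i ≤ 2 ^ (j + 1) := pow_le_pow_right₀ one_le_two h3
    have h6 := hab j i h3 h4
    have h7 := hb0 j
    have h8 : (0 : ℝ) < 2 ^ i := by positivity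
    have h9 : (0 : ℝ) < 2 ^ j := by positivity
    rw [pow_succ] at h5
    calc 2 ^ i * a' i ≤ 2 ^ j * 2 * b j := (mul_le_mul_of_nonneg_left h6 h8.le).trans (by gcongr)
      _ ≤ _ := by nlinarith [mul_nonneg (mul_pos hC h9).le h7]
  · have h5 : (2 : ℝ) ^ i ≤ 2 ^ (j + 2) := pow_le_pow_right₀ one_le_two h3
    have h6 : ∑ l ∈ Finset.range n, wH i l * a l ≤ 64 * b j := by
      refine le_trans (Finset.sum_le_sum fun l _ =>
        mul_le_mul_of_nonneg_right (wH_near h4 l) (ha0 l)) ?_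
      simp only [mul_assoc, ← Finset.mul_sum]
      linarith [hb j n]
    have h7 := hb0 j
    have h9 : (0 : ℝ) < 2 ^ j := by positivity
    rw [pow_add] at h5
    calc C * 2 ^ i * ∑ l ∈ Finset.range n, wH i l * a l ≤ C * (2 ^ j * 2 ^ 2) * (64 * b j) := by
          have : 0 ≤ ∑ l ∈ Finset.range n, wH i l * a l :=
            Finset.sum_nonneg fun l _ => mul_nonneg (wH_nonneg _ _) (ha0 l)
          gcongr
      _ ≤ _ := by nlinarith [mul_nonneg h9.le h7]

end Crest.Agent.N207.Ph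

end
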