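import Crest.Agent.N207.Ph.Hc3
import Crest.Agent.N207.Ph.Hc4
import Crest.Agent.N207.Ph.Nw5
import Crest.Agent.N207.Ga.Ten

/-!
# Row 207, block PHI (helper11): harmonic coordinates, part 5: `hc : HCStmt`
-/

set_option autoImplicit false
set_option linter.unusedSectionVars false

open scoped ContDiff Topology
open Set Filter Metric MeasureTheory
open Crest.GeometryTopology.CoordMetric

noncomputable section

namespace Crest.Agent.N207.Ph

namespace Hc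

open Crest.Agent.NLib.Ell Crest.Agent.N207.G Sk
open Crest.Agent.R240.Fr (lap)

variable {G : MetricField 4}

theorem gau_eq (hG : IsRiemannianOn G univ) (y : E4) (j : Fin 4) :
    Lg.gauT flat G y ![j] = ∑ k, G y j k * gm G k y := by
  rw [Ga.gauT_eq hG riem_flat (mem_univ y), ← Finset.sum_neg_distrib]
  refine Finset.sum_congr rfl fun k _ => ?_
  simp [Ga.sS, gm, christoffel, flat, pderiv]

theorem lapB_proj (hG : IsRiemannianOn G univ) {u : E4 → E4} (hu : ContDiff ℝ 2 u) (x : E4)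
    (k : Fin 4) : laplaceBeltrami G (fun z => u z k) x = (lap u x - DD G u x) k := by
  have h1 := lap_clm (EuclideanSpace.proj k : E4 →L[ℝ] ℝ) hu x
  have h2 := DD_clm (G := G) (EuclideanSpace.proj k : E4 →L[ℝ] ℝ) hu x
  simp only [PiLp.proj_apply] at h1 h2
  rw [PiLp.sub_apply, ← h1, ← h2]
  exact lapB_eq hG ((EuclideanSpace.proj k : E4 →L[ℝ] ℝ).contDiff.comp hu).contDiffAt

theorem gm_pbm (hG : IsRiemannianOn G univ) {Φ : E4 ≃ₜ E4} (h : ContDiff ℝ ∞ Φ)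
    (h' : ContDiff ℝ ∞ Φ.symm) (y : E4) (k : Fin 4) :
    gm (pbm Φ.symm G) k y = -(lap Φ (Φ.symm y) - DD G Φ (Φ.symm y)) k := by
  have p := pull_pbm h' (inj_fderiv (ψ := Φ.symm) h' h) hG
  have h1 := R247.Bo84.lap_pull p (mem_univ y) (f := fun z => Φ z k)
    ((EuclideanSpace.proj k : E4 →L[ℝ] ℝ).contDiff.comp (h.of_le two_le)).contDiffAt
  simp only [Φ.apply_symm_apply] at h1
  rw [lapB_proj hG (h.of_le two_le), lapB_proj p.riem' (u := fun z => z) contDiff_id, lap_id,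
    zero_sub, PiLp.neg_apply, DD_id] at h1
  rw [← h1, neg_neg]

theorem abs_le_norm (v : E4) (a : Fin 4) : |v a| ≤ ‖v‖ := PiLp.norm_apply_le v a

theorem pbm_le (h0 : Sml 0 G (1 / 100)) {ψ : E4 ≃ₜ E4} (h : Nid 1 ψ 1) (y : E4) (j k : Fin 4) :
    |pbm ψ G y j k| ≤ 128 := by
  have h1 : ∀ i a, |fderiv ℝ ψ y (EuclideanSpace.single i 1) a| ≤ 2 := fun i a => by
    have h2 := (fderiv ℝ (fun z => ψ z - z) y).le_of_opNorm_le (Ad.nid_fderiv h y)
      (EuclideanSpace.single i 1)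
    rw [fderiv_fun_sub (h.sm.differentiable (by simp) y) differentiableAt_fun_id] at h2
    simp only [fderiv_fun_id, sub_apply, ContinuousLinearMap.id_apply,
      PiLp.norm_single, norm_one, mul_one] at h2
    have h3 := norm_le_insert' (fderiv ℝ ψ y (EuclideanSpace.single i 1))
      (EuclideanSpace.single i (1 : ℝ) : E4)
    simp only [PiLp.norm_single, norm_one] at h3
    exact (abs_le_norm _ a).trans (by linarith)
  rw [Ad.pbm_apply]
  exact (Rad.sum4_le fun a => Rad.sum4_le fun b => Rad.abs_mul_le (Rad.abs_mul_le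
    (Rad.jg_ent_le (h0 _) le_rfl a b) (h1 j a)) (h1 k b)).trans (by norm_num)

theorem bl_le {c r : ℝ} (hr : 0 ≤ r) (h : ∀ y j, |Lg.gauT flat G y ![j]| ≤ c)
    (h0 : ∀ y : E4, r < ‖y‖ → ∀ j, Lg.gauT flat G y ![j] = 0) :
    BL G ≤ 4 * c ^ 2 * (r ^ 4 * volume.real (ball (0 : E4) 1)) := by
  have e := Measure.addHaar_real_closedBall (volume : Measure E4) 0 hr
  rw [show Module.finrank ℝ E4 = 4 by simp] at e
  rw [BL, ← e, ← setIntegral_eq_integral_of_forall_compl_eq_zero (s := closedBall 0 r)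
    fun x hx => by simp [h0 x (by rwa [mem_closedBall_zero_iff, not_le] at hx)]]
  refine (le_abs_self _).trans (norm_setIntegral_le_of_norm_le_const (μ := volume)
    (f := fun x : E4 => ∑ j, Lg.gauT flat G x ![j] ^ 2) (s := closedBall 0 r)
    measure_closedBall_lt_top fun x _ => Rad.sum4_le fun j => ?_)
  rw [abs_pow]
  exact pow_le_pow_left₀ (abs_nonneg _) (h x j) 2

/-- the tension of the cut coordinates -/
theorem ten_le {w : E4 → E4} {R ρ B : ℝ} (hR : ∀ x : E4, R ≤ ‖x‖ → G x = 1) (hρ : 0 < ρ)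
    (hRρ : R < ρ) (hw : ContDiff ℝ ∞ w)
    (heq : ∀ x, lap w x = DD G (fun x : E4 => x) x + DD G w x)
    (hB : WD 2 (fun l => B / 4 ^ l) (ct ρ w)) (x : E4) :
    ‖lap (fun x => x + ct ρ w x) x - DD G (fun x => x + ct ρ w x) x‖ ≤ 1024 * B / ρ ^ 4 := by
  have hB0 : 0 ≤ B := by simpa using hB.nonneg 0
  rcases lt_or_ge ‖x‖ ρ with h | h
  · have e : (fun x => x + ct ρ w x) =ᶠ[𝓝 x] fun x => x + w x :=
      (up_ev_zero hρ h).mono fun z hz => by simp [ct, hz]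
    rw [lap_congr e, DD_congr e, lap_add (w := fun x => x) contDiff_id (hw.of_le two_le),
      DD_add (w := fun x => x) contDiff_id (hw.of_le two_le), lap_id, zero_add, heq, sub_self,
      norm_zero]
    positivity
  · obtain ⟨l, h1, h2⟩ := exists_shell x
    rw [DD_far (far_ev hR (hRρ.trans_le h)), sub_zero,
      lap_add (w := fun x => x) contDiff_id hB.contDiff, lap_id, zero_add]
    refine (CK.sum_le fun i => wd_pv (wd_pv hB i) i l x h1 h2).bdd.trans ?_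
    have h3 : ρ ^ 4 ≤ (2 ^ (l + 1)) ^ 4 := pow_le_pow_left₀ hρ.le (by linarith) 4
    calc _ = 1024 * B / (2 ^ (l + 1)) ^ 4 := by
          simp only [Fintype.card_fin, show (4 : ℝ) ^ l = 2 ^ l * 2 ^ l by rw [← mul_pow]; norm_num]
          field_simp
          ring
      _ ≤ _ := by gcongr

theorem ten_out {w : E4 → E4} {R ρ : ℝ} (hR : ∀ x : E4, R ≤ ‖x‖ → G x = 1) (hρ : 0 < ρ)
    (hRρ : R < ρ) {x : E4} (hx : 2 * ρ < ‖x‖) :
    lap (fun x => x + ct ρ w x) x - DD G (fun x => x + ct ρ w x) x = 0 := by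
  have e : (fun x => x + ct ρ w x) =ᶠ[𝓝 x] fun x => x :=
    (up_ev_one hρ hx).mono fun z hz => by simp [ct, hz]
  rw [DD_far (far_ev hR (by linarith)), lap_congr e, lap_id, sub_zero]

end Hc

open Hc Crest.Agent.N207.G in
theorem hc : HCStmt := by
  obtain ⟨δ0, C, hδ0, hδ1, hC, h⟩ := sol lh
  choose Cc hCc hct using ct_wd
  choose Ci hCi hinv using inv_jet
  set C1 : ℝ := 16 ^ 3 * (Cc 3 * C) with hC1
  have hC1' : 0 < C1 := by have := hCc 3; positivity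
  have hi := hCi 2 (1 / 8)
  refine ⟨min δ0 (1 / (8 * (Ci 2 (1 / 8) + 1) * C1)), Ci 2 (1 / 8) * C1, by positivity,
    by positivity, fun Cs => ?_⟩
  obtain ⟨Cw, h⟩ := h Cs
  refine ⟨fun k => Ci k (16 ^ (k + 1) * (Cc (k + 1) * Cw (k + 1))) *
    (16 ^ (k + 1) * (Cc (k + 1) * Cw (k + 1))), fun Γ G δ τ hΓ hG hI hδ hS hA hτ => ?_⟩
  have hδ' := hδ.trans (min_le_left _ _)
  have hδ2 : (Ci 2 (1 / 8) + 1) * (C1 * δ) ≤ 1 / 8 := by
    have := hδ.trans (min_le_right _ _)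
    rw [le_div_iff₀ (by positivity)] at this
    linarith
  have hδ3 : 0 ≤ C1 * δ := mul_nonneg hC1'.le (Ad.ds_nonneg hS)
  have h0 := Ad.sml_mono (Ad.ds_sml hS (Nat.zero_le 3)) (hδ'.trans hδ1)
  obtain ⟨w, B, hw, hE, h3, hk, hB, heq⟩ := h Γ G δ hΓ hG hI hδ' hS hA
  obtain ⟨R, hR⟩ := hG.flat
  set Q : ℝ := 64 * (512 * (1024 * (Cc 2 * B))) ^ 2 * volume.real (ball (0 : E4) 1) with hQ
  obtain ⟨ρ, hρ1, hρ2, hρ3⟩ : ∃ ρ : ℝ, 1 ≤ ρ ∧ R < ρ ∧ Q ≤ τ ^ 2 * ρ :=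
    ⟨max (max 1 (R + 1)) (Q / τ ^ 2), (le_max_left _ _).trans (le_max_left _ _),
      (lt_add_one R).trans_le ((le_max_right _ _).trans (le_max_left _ _)),
      (div_le_iff₀' (by positivity)).1 (le_max_right _ _)⟩
  have hρ : 0 < ρ := by linarith
  have hv := ct_sm ρ hw
  have j3 : ∀ x, JB 3 (ct ρ w) x (‖x‖ + 1) (C1 * δ * (‖x‖ + 1)) := fun x =>
    (jb_of_wd (c := Cc 3 * (C * δ)) hv ((hct 3 ρ w _ hρ1 h3).mono fun l => le_of_eq (by ring))
      x).mono (le_of_eq (by rw [hC1]; ring))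
  have j1 : ∀ x, JB 1 (ct ρ w) x (‖x‖ + 1) (1 / 8 * (‖x‖ + 1)) := fun x =>
    ((j3 x).of_le (by norm_num)).mono (by gcongr; nlinarith)
  obtain ⟨Φ, hΦ, hΦ'⟩ := exists_inv hv fun x =>
    ((j1 x).fderiv (Hc.sc_pos x)).val.trans (by norm_num)
  have eΦ : ⇑Φ = fun x => x + ct ρ w x := funext hΦ
  have hs : ContDiff ℝ ∞ Φ := by rw [eΦ]; exact contDiff_id.add hv
  have hout : ∀ x : E4, 2 * ρ ≤ ‖x‖ → Φ.symm x = x := fun x hx => by
    rw [Homeomorph.symm_apply_eq, hΦ, ct_out hρ w hx, add_zero]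
  have hEv : Eqv Γ Φ.symm := fun γ hγ x => by
    rw [Homeomorph.symm_apply_eq, hΦ, ct_eqv ρ hE γ hγ, ← map_add, ← hΦ, Φ.apply_symm_apply]
  have hN : Nid 3 Φ.symm (Ci 2 (1 / 8) * C1 * δ) := ⟨hΦ', hs, ⟨_, hout⟩, fun y k hk => by
    rw [mul_assoc _ C1]
    exact (hinv 2 (1 / 8) ⟨Φ, _, y, _, hΦ, hΦ', j1, j3, by nlinarith⟩).bd k hk, eqv_zero hΓ hEv⟩
  refine ⟨Φ.symm, hN, hEv, ?_, fun y k => (hinv k _ ⟨Φ, _, y, _, hΦ, hΦ', j1, fun x =>
    jb_of_wd (c := Cc (k + 1) * Cw (k + 1)) hv ((hct _ ρ w _ hρ1 (hk _)).mono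
      fun l => le_of_eq (by ring)) x, le_rfl⟩).bd k (Nat.le_succ k)⟩
  have p := pull_pbm hΦ' (inj_fderiv (ψ := Φ.symm) hΦ' hs) hG.riem
  refine (bl_le (c := 512 * (1024 * (Cc 2 * B) / ρ ^ 4)) (r := 2 * ρ) (by positivity)
    (fun y j => ?_) fun y hy j => ?_).trans ?_
  · rw [gau_eq p.riem']
    refine (Rad.sum4_le fun k => Rad.abs_mul_le (pbm_le h0 (Ad.nid_mono hN (by norm_num)
      (by nlinarith)) y j k) (d := 1024 * (Cc 2 * B) / ρ ^ 4) ?_).trans (le_of_eq (by ring))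
    rw [gm_pbm hG.riem hs hΦ', abs_neg]
    refine (abs_le_norm _ k).trans ?_
    generalize Φ.symm y = z
    rw [eΦ]
    exact ten_le hR hρ hρ2 hw heq
      ((hct 2 ρ w _ hρ1 hB).mono fun l => le_of_eq (mul_div_assoc _ _ _).symm) z
  · rw [gau_eq p.riem']
    refine Finset.sum_eq_zero fun k _ => ?_
    rw [gm_pbm hG.riem hs hΦ', hout y hy.le, eΦ, ten_out hR hρ hρ2 hy]
    simp
  · calc _ = Q / ρ ^ 4 := by rw [hQ]; field_simp; ring
      _ ≤ τ ^ 2 * ρ / ρ := by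
          have : 0 ≤ Q := by positivity
          gcongr
          exact le_self_pow₀ hρ1 (by norm_num)
      _ = _ := mul_div_cancel_right₀ _ hρ.ne'

end Crest.Agent.N207.Ph

end
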