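import Crest.Agent.N207.Ph.Kit

/-!
# Row 207, block PHI (helper66): the interpolation statement `INT`
-/

set_option autoImplicit false
set_option linter.unusedSectionVars false

open scoped ContDiff Topology
open Set MeasureTheory Filter Metric
open Crest.GeometryTopology.CoordMetric

noncomputable section

namespace Crest.Agent.N207.Ph

open Hd Sk

namespace Itp

/-- Landau's inequality on a ball -/
theorem landau {F : Type*} [NormedAddCommGroup F] [NormedSpace ℝ F] {z : E4 → F} {x : E4}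
    {r M0 M2 : ℝ} (hr : 0 < r) (hz : Differentiable ℝ z) (h0 : ∀ y ∈ closedBall x r, ‖z y‖ ≤ M0)
    (hM2 : 0 ≤ M2) (hL : ∀ y ∈ closedBall x r, ‖fderiv ℝ z y - fderiv ℝ z x‖ ≤ M2 * r) :
    ‖fderiv ℝ z x‖ ≤ 2 * M0 / r + M2 * r := by
  have hx : x ∈ closedBall x r := mem_closedBall_self hr.le
  have hM0 : 0 ≤ M0 := (norm_nonneg _).trans (h0 x hx)
  refine ContinuousLinearMap.opNorm_le_of_unit_norm (by positivity) fun e he => ?_
  have hn : ‖r • e‖ = r := by rw [norm_smul, he, Real.norm_of_nonneg hr.le, mul_one]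
  have hy : x + r • e ∈ closedBall x r := by simp [hn]
  have h3 := (convex_closedBall x r).norm_image_sub_le_of_norm_fderiv_le'
    (fun w _ => hz w) hL hx hy
  rw [add_sub_cancel_left, hn] at h3
  have h4 := (norm_sub_le (z (x + r • e)) (z x)).trans (add_le_add (h0 _ hy) (h0 _ hx))
  have h5 := norm_sub_norm_le (fderiv ℝ z x (r • e)) (z (x + r • e) - z x)
  rw [norm_sub_rev (fderiv ℝ z x (r • e))] at h5
  have h6 : ‖fderiv ℝ z x (r • e)‖ = r * ‖fderiv ℝ z x e‖ := by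
    rw [map_smul, norm_smul, Real.norm_of_nonneg hr.le]
  have : ‖fderiv ℝ z x e‖ * r ≤ (2 * M0 / r + M2 * r) * r := by
    rw [add_mul, div_mul_cancel₀ _ hr.ne']; linarith
  exact le_of_mul_le_mul_right this hr

structure Dat (Cs : ℕ → ℝ) (f : E4 → ℝ) (σ : ℝ) : Prop where
  pos : 0 < σ
  le : σ ≤ 1
  sm : ContDiff ℝ ∞ f
  cs : HasCompactSupport f
  jet : ∀ (y : E4) (k : ℕ), J1 k f y (‖y‖ + 1) (Cs k)
  en : (∫ x : E4, ∑ c, pderiv c f x ^ 2) ≤ σ ^ 2

/-- the `j`-jets decay with the exponent `g` -/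
def P (Cs : ℕ → ℝ) (j : ℕ) (g : ℝ) : Prop :=
  ∃ C : ℝ, 0 ≤ C ∧ ∀ (f : E4 → ℝ) (σ : ℝ), Dat Cs f σ → ∀ y : E4,
    ‖iteratedFDeriv ℝ j f y‖ * (‖y‖ + 1) ^ j ≤ C * (σ / (‖y‖ + 1)) ^ g

variable {Cs : ℕ → ℝ} {f : E4 → ℝ} {σ g : ℝ} {j : ℕ}

theorem Dat.t_pos (h : Dat Cs f σ) (y : E4) : 0 < σ / (‖y‖ + 1) := by
  have := h.pos; positivity

theorem Dat.t_le (h : Dat Cs f σ) (y : E4) : σ / (‖y‖ + 1) ≤ 1 :=
  (div_le_one (by positivity)).2 (by linarith [h.le, norm_nonneg y])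

theorem P_zero (j : ℕ) : P Cs j 0 :=
  ⟨|Cs j|, abs_nonneg _, fun _ _ h y => by
    rw [Real.rpow_zero, mul_one]; exact (h.jet y j).trans (le_abs_self _)⟩

theorem P.mono {g' : ℝ} (h : P Cs j g) (hg : g' ≤ g) : P Cs j g' := by
  obtain ⟨C, hC, h⟩ := h
  exact ⟨C, hC, fun f σ d y => (h f σ d y).trans (mul_le_mul_of_nonneg_left
    (Real.rpow_le_rpow_of_exponent_ge (d.t_pos y) (d.t_le y) hg) hC)⟩

theorem P.loc (h : P Cs j g) (hg : 0 ≤ g) : ∃ C : ℝ, 0 ≤ C ∧ ∀ (f : E4 → ℝ) (σ : ℝ), Dat Cs f σ →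
    ∀ y x : E4, dist x y ≤ (‖y‖ + 1) / 2 →
      ‖iteratedFDeriv ℝ j f x‖ ≤ C * (σ / (‖y‖ + 1)) ^ g / (‖y‖ + 1) ^ j := by
  obtain ⟨C, hC, h⟩ := h
  refine ⟨C * 2 ^ g * 2 ^ j, by positivity, fun f σ d y x hx => ?_⟩
  have h1 := h f σ d x
  have hs : (‖y‖ + 1) / 2 ≤ ‖x‖ + 1 := by
    have := norm_sub_norm_le y x
    rw [← dist_eq_norm, dist_comm] at this
    linarith
  have hσ := d.pos
  have h2 : (σ / (‖x‖ + 1)) ^ g ≤ 2 ^ g * (σ / (‖y‖ + 1)) ^ g := by
    rw [← Real.mul_rpow (by norm_num) (d.t_pos y).le]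
    refine Real.rpow_le_rpow (d.t_pos x).le ?_ hg
    calc σ / (‖x‖ + 1) ≤ σ / ((‖y‖ + 1) / 2) := div_le_div_of_nonneg_left hσ.le (by positivity) hs
      _ = 2 * (σ / (‖y‖ + 1)) := by field_simp
  have h3 : ((‖y‖ + 1) / 2) ^ j ≤ (‖x‖ + 1) ^ j := pow_le_pow_left₀ (by positivity) hs j
  rw [le_div_iff₀ (by positivity)]
  have h4 : (‖y‖ + 1) ^ j = ((‖y‖ + 1) / 2) ^ j * 2 ^ j := by rw [← mul_pow]; congr 1; ring
  calc ‖iteratedFDeriv ℝ j f x‖ * (‖y‖ + 1) ^ j
      = ‖iteratedFDeriv ℝ j f x‖ * ((‖y‖ + 1) / 2) ^ j * 2 ^ j := by rw [h4, mul_assoc]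
    _ ≤ ‖iteratedFDeriv ℝ j f x‖ * (‖x‖ + 1) ^ j * 2 ^ j := by gcongr
    _ ≤ C * (2 ^ g * (σ / (‖y‖ + 1)) ^ g) * 2 ^ j :=
        mul_le_mul_of_nonneg_right (h1.trans (mul_le_mul_of_nonneg_left h2 hC)) (by positivity)
    _ = _ := by ring

theorem norm_fderiv_sub (f : E4 → ℝ) (j : ℕ) (x y : E4) :
    ‖fderiv ℝ (iteratedFDeriv ℝ j f) y - fderiv ℝ (iteratedFDeriv ℝ j f) x‖ =
      ‖iteratedFDeriv ℝ (j + 1) f y - iteratedFDeriv ℝ (j + 1) f x‖ := by
  rw [fderiv_iteratedFDeriv, Function.comp_apply, Function.comp_apply,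
    ← LinearIsometryEquiv.map_sub, LinearIsometryEquiv.norm_map]

theorem diff_iter (hf : ContDiff ℝ ∞ f) (j : ℕ) : Differentiable ℝ (iteratedFDeriv ℝ j f) :=
  hf.differentiable_iteratedFDeriv (by exact_mod_cast ENat.natCast_lt_top j)

theorem P.mid {a b : ℝ} (hb : 0 ≤ b) (hab : b ≤ a) (h0 : P Cs j a) (h2 : P Cs (j + 2) b) :
    P Cs (j + 1) ((a + b) / 2) := by
  obtain ⟨C0, hC0, h0⟩ := h0.loc (hb.trans hab)
  obtain ⟨C2, hC2, h2⟩ := h2.loc hb
  refine ⟨4 * C0 + C2 / 2, by positivity, fun f σ d y => ?_⟩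
  set s := ‖y‖ + 1 with hs
  have s0 : 0 < s := by positivity
  set t := σ / s with ht
  have t0 : 0 < t := d.t_pos y
  set w := t ^ ((a - b) / 2) with hw
  set v := t ^ ((a + b) / 2) with hv
  have w0 : 0 < w := Real.rpow_pos_of_pos t0 _
  have w1 : w ≤ 1 := Real.rpow_le_one t0.le (d.t_le y) (by linarith)
  have e1 : t ^ a = v * w := by rw [hv, hw, ← Real.rpow_add t0]; congr 1; ring
  have e2 : t ^ b * w = v := by rw [hv, hw, ← Real.rpow_add t0]; congr 1; ring
  have hr : w * s / 2 ≤ s / 2 := by nlinarith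
  have key := landau (z := iteratedFDeriv ℝ j f) (x := y) (r := w * s / 2)
    (M0 := C0 * t ^ a / s ^ j) (M2 := C2 * t ^ b / s ^ (j + 2)) (by positivity)
    (diff_iter d.sm j) (fun x hx => h0 f σ d y x ((mem_closedBall.1 hx).trans hr)) (by positivity)
    (fun x hx => by
      rw [norm_fderiv_sub]
      refine ((convex_closedBall y (w * s / 2)).norm_image_sub_le_of_norm_fderiv_le
        (fun z _ => diff_iter d.sm (j + 1) z) (fun z hz => ?_) (mem_closedBall_self (by positivity))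
        hx).trans (mul_le_mul_of_nonneg_left (mem_closedBall_iff_norm.1 hx) (by positivity))
      rw [norm_fderiv_iteratedFDeriv]
      exact h2 f σ d y z ((mem_closedBall.1 hz).trans hr))
  rw [norm_fderiv_iteratedFDeriv] at key
  refine (mul_le_mul_of_nonneg_right key (by positivity)).trans (le_of_eq ?_)
  rw [e1, ← e2]
  field_simp
  ring

theorem P.step (n : ℕ) : ∀ (j : ℕ) (g : ℝ), 0 ≤ g → P Cs j g →
    P Cs (j + 1) ((n : ℝ) / (n + 2) * g) := by
  induction n with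
  | zero => intro j g _ _; simpa using P_zero (j + 1)
  | succ n ih =>
    intro j g hg h
    have θ0 : (0 : ℝ) ≤ n / (n + 2) := by positivity
    have θ1 : (n : ℝ) / (n + 2) ≤ 1 := (div_le_one (by positivity)).2 (by linarith)
    have h1 := ih j g hg h
    have h2 := ih (j + 1) _ (by positivity) h1
    have h3 := P.mid (by positivity) (by nlinarith [mul_le_mul θ1 θ1 θ0 zero_le_one]) h h2
    refine h3.mono ?_
    have : ((n + 1 : ℕ) : ℝ) / ((n + 1 : ℕ) + 2) ≤ (1 + n / (n + 2) * (n / (n + 2))) / 2 := by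
      push_cast
      have n0 : (0 : ℝ) ≤ n := n.cast_nonneg
      rw [← sub_nonneg]
      have : (1 + (n : ℝ) / (n + 2) * (n / (n + 2))) / 2 - (n + 1) / (n + 1 + 2) =
        2 / ((n + 2) ^ 2 * (n + 3)) := by field_simp; ring
      rw [this]; positivity
    nlinarith

theorem P.iter (n : ℕ) (hg : 0 ≤ g) (h : P Cs 0 g) (j : ℕ) :
    P Cs j (((n : ℝ) / (n + 2)) ^ j * g) := by
  induction j with
  | zero => simpa using h
  | succ j ih =>
    have := P.step n j _ (by positivity) ih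
    rwa [← mul_assoc, ← pow_succ'] at this

/-- the value of the function from the energy and the gradient -/
theorem P.base {b : ℝ} (hb : 0 ≤ b) (hb1 : b ≤ 1) (h : P Cs 1 b) : P Cs 0 ((1 + 2 * b) / 3) := by
  obtain ⟨C, hC, h⟩ := h.loc hb
  set c0 := (volume : Measure E4).real (closedBall 0 1) with hc0
  have c0p : 0 < c0 := ENNReal.toReal_pos (measure_closedBall_pos _ _ one_pos).ne'
    measure_closedBall_lt_top.ne
  refine ⟨√(72 / c0 + C ^ 2 / 2), Real.sqrt_nonneg _, fun f σ d y => ?_⟩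
  set s := ‖y‖ + 1 with hs
  have s0 : 0 < s := by positivity
  set t := σ / s with ht
  have t0 : 0 < t := d.t_pos y
  set w := t ^ ((1 - b) / 3) with hw
  set v := t ^ ((1 + 2 * b) / 3) with hv
  have w0 : 0 < w := Real.rpow_pos_of_pos t0 _
  have v0 : 0 < v := Real.rpow_pos_of_pos t0 _
  have w1 : w ≤ 1 := Real.rpow_le_one t0.le (d.t_le y) (by linarith)
  have e1 : t = v * w * w := by
    rw [hv, hw, ← Real.rpow_add t0, ← Real.rpow_add t0]
    conv_lhs => rw [← Real.rpow_one t]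
    congr 1; ring
  have e2 : t ^ b * w = v := by rw [hv, hw, ← Real.rpow_add t0]; congr 1; ring
  have hr : w * s / 2 ≤ s / 2 := by nlinarith
  have r0 : 0 < w * s / 2 := by positivity
  have f1 : ContDiff ℝ 1 f := d.sm.of_le (by exact_mod_cast le_top)
  -- oscillation on the ball
  have hosc : ∀ x ∈ closedBall y (w * s / 2), |f x - f y| ≤ C * v / 2 := fun x hx => by
    have := (convex_closedBall y (w * s / 2)).norm_image_sub_le_of_norm_fderiv_le (f := f)
      (C := C * t ^ b / s) (fun z _ => f1.differentiable one_ne_zero z)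
      (fun z hz => by
        have := h f σ d y z ((mem_closedBall.1 hz).trans hr)
        rwa [norm_iteratedFDeriv_one, pow_one] at this) (mem_closedBall_self r0.le) hx
    refine this.trans ((mul_le_mul_of_nonneg_left (mem_closedBall_iff_norm.1 hx)
      (by positivity)).trans (le_of_eq ?_))
    rw [← e2]; field_simp
  have i2 : Integrable fun x : E4 => f x ^ 2 / (‖x‖ ^ 2 + 1) :=
    integrable_of_supp d.cs ((f1.continuous.pow 2).div ((continuous_norm.pow 2).add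
      continuous_const) fun x => by positivity) fun x hx => by
        simp [image_eq_zero_of_notMem_tsupport hx]
  have hH : ∫ x in closedBall y (w * s / 2), f x ^ 2 / (‖x‖ ^ 2 + 1) ≤ σ ^ 2 :=
    (setIntegral_le_integral i2 (Eventually.of_forall fun x => by positivity)).trans
      ((hardy_k f1 d.cs one_pos).trans d.en)
  have hpt : ∀ x ∈ closedBall y (w * s / 2), (f y ^ 2 - C ^ 2 * v ^ 2 / 2) / (9 / 2 * s ^ 2) ≤
      f x ^ 2 / (‖x‖ ^ 2 + 1) := fun x hx => by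
    have h1 := hosc x hx
    have h2 : (f x - f y) ^ 2 ≤ (C * v / 2) ^ 2 := by
      rw [← sq_abs]; exact pow_le_pow_left₀ (abs_nonneg _) h1 2
    have h3 : ‖x‖ + 1 ≤ 3 / 2 * s := by
      have := norm_sub_norm_le x y
      have := (mem_closedBall_iff_norm.1 hx).trans hr
      linarith
    have h4 : ‖x‖ ^ 2 + 1 ≤ 9 / 4 * s ^ 2 := by nlinarith [norm_nonneg x]
    calc (f y ^ 2 - C ^ 2 * v ^ 2 / 2) / (9 / 2 * s ^ 2) ≤ (2 * f x ^ 2) / (9 / 2 * s ^ 2) := by
          gcongr; nlinarith [sq_nonneg (2 * f x - f y)]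
      _ = f x ^ 2 / (9 / 4 * s ^ 2) := by field_simp; ring
      _ ≤ _ := by gcongr
  have hI := setIntegral_mono_on (μ := volume) (integrableOn_const measure_closedBall_lt_top.ne)
    i2.integrableOn measurableSet_closedBall hpt
  rw [setIntegral_const, Measure.addHaar_real_closedBall' _ _ r0.le, finrank_euclideanSpace_fin,
    ← hc0, smul_eq_mul] at hI
  have hσ : σ = v * w * w * s := by rw [← e1, ht]; field_simp
  have h5 := hI.trans hH
  rw [hσ, ← mul_div_assoc, div_le_iff₀ (by positivity)] at h5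
  have h6 : f y ^ 2 ≤ (72 / c0 + C ^ 2 / 2) * v ^ 2 := by
    have h7 : (w * s / 2) ^ 4 * c0 * (f y ^ 2 - C ^ 2 * v ^ 2 / 2) ≤
        (w * s / 2) ^ 4 * c0 * (72 / c0 * v ^ 2) := h5.trans (le_of_eq (by field_simp; ring))
    have := le_of_mul_le_mul_left h7 (by positivity)
    linarith
  rw [norm_iteratedFDeriv_zero, pow_zero, mul_one, Real.norm_eq_abs]
  refine abs_le_of_sq_le_sq' ?_ (by positivity) |> fun h => abs_le.2 h
  rw [mul_pow, Real.sq_sqrt (by positivity)]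
  exact h6

theorem P_half (j : ℕ) : P Cs j (1 / 2) := by
  have h1 : P Cs 0 ((1 + 2 * 0) / 3) := P.base le_rfl zero_le_one (P_zero 1)
  have h2 := P.step 18 0 _ (by norm_num) h1
  have h3 := P.base (by norm_num) (by norm_num) h2
  refine (P.iter (32 * j) (by norm_num) h3 j).mono ?_
  have j0 : (0 : ℝ) ≤ j := j.cast_nonneg
  have h4 := one_add_mul_sub_le_pow (a := ((32 * j : ℕ) : ℝ) / ((32 * j : ℕ) + 2))
    (le_trans (by norm_num) (show (0 : ℝ) ≤ _ by positivity)) j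
  have h5 : (15 / 16 : ℝ) ≤ 1 + j * (((32 * j : ℕ) : ℝ) / ((32 * j : ℕ) + 2) - 1) := by
    push_cast
    rw [← sub_nonneg]
    have : 1 + (j : ℝ) * (32 * j / (32 * j + 2) - 1) - 15 / 16 = 1 / (8 * (32 * j + 2)) := by
      field_simp; ring
    rw [this]; positivity
  have h6 := h5.trans h4
  norm_num at h6 ⊢
  linarith

end Itp

theorem int : INTStmt := by
  intro Cs
  choose C hC h using fun j => Itp.P_half (Cs := Cs) j
  refine ⟨C, hC, fun f σ h1 h2 h3 h4 h5 h6 y k => ?_⟩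
  have := h k f σ ⟨h1, h2, h3, h4, h5, h6⟩ y
  rwa [← Real.sqrt_eq_rpow] at this

end Crest.Agent.N207.Ph

end
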