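import Crest.Agent.N207.Ph.Pb1

/-!
# Row 207, block PHI (helper49): `PB`
-/

set_option autoImplicit false

open scoped ContDiff Topology Nat
open Set Filter MeasureTheory
open Crest.GeometryTopology.CoordMetric Crest.GeometryTopology.ChartCurvature
  Crest.GeometryTopology.MetricFamily
open Crest.Agent.R202.Tens

noncomputable section

namespace Crest.Agent.N207.Ph

open Sk G

theorem exists_det : ∃ δ : ℝ, 0 < δ ∧ δ ≤ 1 / 2 ∧ ∀ Q : E4 →L[ℝ] E4, ‖Q‖ ≤ δ →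
    1 / 2 ≤ |(ContinuousLinearMap.id ℝ E4 + Q).det| := by
  have hc : Continuous fun Q : E4 →L[ℝ] E4 => (ContinuousLinearMap.id ℝ E4 + Q).det :=
    ContinuousLinearMap.continuous_det.comp (continuous_const.add continuous_id)
  have h0 : (1 / 2 : ℝ) < (ContinuousLinearMap.id ℝ E4 + 0).det := by
    rw [add_zero, show (ContinuousLinearMap.id ℝ E4).det = 1 from LinearMap.det_id]; norm_num
  obtain ⟨ε, hε, h⟩ := Metric.nhds_basis_closedBall.mem_iff.1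
    (hc.continuousAt.eventually (lt_mem_nhds h0))
  refine ⟨min ε (1 / 2), by positivity, min_le_right _ _, fun Q hQ => ?_⟩
  exact (le_of_lt (h (mem_closedBall_zero_iff.2 (hQ.trans (min_le_left _ _))))).trans
    (le_abs_self _)

theorem sum_sq_le (R : Fin 4 → Fin 4 → ℝ) (v w : E4) (hv : ‖v‖ ≤ 2) (hw : ‖w‖ ≤ 2) :
    (∑ a, ∑ b, R a b * v a * w b) ^ 2 ≤ 16 * ∑ a, ∑ b, R a b ^ 2 := by
  have h := Finset.sum_mul_sq_le_sq_mul_sq Finset.univ (fun p : Fin 4 × Fin 4 => R p.1 p.2)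
    fun p => v p.1 * w p.2
  simp only [Fintype.sum_prod_type, mul_pow, ← Finset.mul_sum, ← Finset.sum_mul,
    ← EuclideanSpace.real_norm_sq_eq] at h
  simp only [mul_assoc]
  refine h.trans ?_
  rw [mul_comm]
  gcongr
  calc ‖v‖ ^ 2 * ‖w‖ ^ 2 ≤ 2 ^ 2 * 2 ^ 2 := by gcongr
    _ = 16 := by norm_num

theorem ric_pbm {ψ : E4 → E4} {G : MetricField 4} (p : Pull (pbm ψ G) G ψ univ univ) (x : E4)
    (h : ‖fderiv ℝ ψ x‖ ≤ 2) :
    ∑ i, ∑ j, ricci (pbm ψ G) x i j ^ 2 ≤ 256 * ∑ a, ∑ b, ricci G (ψ x) a b ^ 2 := by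
  have hv : ∀ i, ‖fderiv ℝ ψ x (ee i)‖ ≤ 2 := fun i =>
    ((fderiv ℝ ψ x).le_opNorm _).trans (by simpa using h)
  have h1 : ∀ i j, ricci (pbm ψ G) x i j ^ 2 ≤ 16 * ∑ a, ∑ b, ricci G (ψ x) a b ^ 2 := by
    intro i j
    have e := congrFun (AI.ricT_pull p (mem_univ x)) ![i, j]
    rw [pullT, AI.evT_ricT] at e
    rw [show ricci (pbm ψ G) x i j = _ from e]
    exact sum_sq_le _ _ _ (hv i) (hv j)
  refine (Finset.sum_le_sum fun i _ => Finset.sum_le_sum fun j _ => h1 i j).trans (le_of_eq ?_)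
  simp only [Finset.sum_const, Finset.card_univ, Fintype.card_fin, nsmul_eq_mul]
  push_cast
  ring

theorem rl_pbm {m : ℕ} {ψ : E4 ≃ₜ E4} {G : MetricField 4} {δ : ℝ} (hψ : Nid m ψ δ)
    (hδ : δ ≤ 1 / 2) (hG : Fl G) (h2 : ∀ x, ‖fderiv ℝ ψ x‖ ≤ 2)
    (hd : ∀ x, 1 / 2 ≤ |(fderiv ℝ ψ x).det|) {c c' : ℝ} (hc : 0 < c')
    (h : ∀ x : E4, c ≤ ‖x‖ → c' ≤ ‖ψ x‖) :
    RL (pbm ψ G) c ≤ 2048 * (1 + 1 / c') ^ 2 * RL G c' := by
  have p := pull_pbm hψ.sm (inj_fderiv hψ.sm hψ.sm') hG.riem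
  have hS : MeasurableSet {x : E4 | c ≤ ‖x‖} :=
    (isClosed_le continuous_const continuous_norm).measurableSet
  have hD : ∀ x ∈ {x : E4 | c ≤ ‖x‖}, HasFDerivWithinAt ψ (fderiv ℝ ψ x) {x : E4 | c ≤ ‖x‖} x :=
    fun x _ => (hψ.sm.differentiable (by simp) x).hasFDerivAt.hasFDerivWithinAt
  have hI := hG.ric_int
  have e := integral_image_eq_integral_abs_det_fderiv_smul (volume : Measure E4) hS hD
    ψ.injective.injOn fun x => ‖x‖ ^ 2 * ∑ i, ∑ j, ricci G x i j ^ 2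
  have i1 := (integrableOn_image_iff_integrableOn_abs_det_fderiv_smul (volume : Measure E4) hS hD
    ψ.injective.injOn fun x => ‖x‖ ^ 2 * ∑ i, ∑ j, ricci G x i j ^ 2).1 hI.integrableOn
  have h3 : ∫ x in ψ '' {x : E4 | c ≤ ‖x‖}, ‖x‖ ^ 2 * ∑ i, ∑ j, ricci G x i j ^ 2 ≤ RL G c' :=
    setIntegral_mono_set hI.integrableOn (Eventually.of_forall fun x => by positivity)
      (LE.le.eventuallyLE (by rintro _ ⟨x, hx, rfl⟩; exact h x hx))
  refine le_trans ?_ (mul_le_mul_of_nonneg_left h3 (by positivity))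
  rw [e, ← integral_const_mul, RL]
  refine integral_mono_of_nonneg (Eventually.of_forall fun x => by positivity)
    (i1.const_mul _) ((ae_restrict_mem hS).mono fun x hx => ?_)
  have k1 := ric_pbm p x (h2 x)
  have k2 : ‖x‖ ≤ 2 * (1 + 1 / c') * ‖ψ x‖ := by
    have := hψ.scale hδ x
    have h4 : 1 ≤ 1 / c' * ‖ψ x‖ := by
      rw [one_div, ← div_eq_inv_mul, le_div_iff₀ hc, one_mul]; exact h x hx
    nlinarith
  simp only [smul_eq_mul]
  calc _ ≤ (2 * (1 + 1 / c') * ‖ψ x‖) ^ 2 * (256 * ∑ a, ∑ b, ricci G (ψ x) a b ^ 2) := by gcongr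
    _ = 2048 * (1 + 1 / c') ^ 2 * (1 / 2 * (‖ψ x‖ ^ 2 * ∑ a, ∑ b, ricci G (ψ x) a b ^ 2)) := by
      ring
    _ ≤ _ := by gcongr; exact hd x

theorem pb : PBStmt := by
  obtain ⟨δ0, h0, h1, hdet⟩ := exists_det
  refine ⟨δ0, 40000, h0, by norm_num, fun ψ G δ hδ0 hδ hψ hG hS => ?_⟩
  have hδ2 := hδ.trans h1
  have hi := inj_fderiv hψ.sm hψ.sm'
  have hQ : ∀ x, ‖fderiv ℝ (fun z => ψ z - z) x‖ ≤ δ := fun x =>
    (JB.fderiv (m := 0) (by positivity) ((hψ.jb x).of_le (by norm_num))).val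
  refine ⟨fl_pbm hψ.sm hi hψ.out hG, fun y => jg_of_jb fun i j => ?_,
    eh_pbm hψ.sm ψ.bijective hi hG.riem, fun c c' hc h => ?_, fun Γ he => inv_pbm hψ.sm he⟩
  · have hs : 0 < ‖y‖ + 1 := by positivity
    refine (jb_pbm (m := 1) hs hψ.sm (fun a b => (jb_of_jg (hG.sm _) (hS (ψ y)) a b).scale
      (by positivity) hs.le one_le_two (hψ.scale hδ2 y)) (hψ.jb y) i j).mono ?_
    have k1 : (1 + δ) ^ 4 ≤ 2 ^ 4 := by gcongr; linarith
    have k2 : δ * δ ≤ δ := by nlinarith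
    have k3 := mul_le_mul_of_nonneg_left k1 hδ0
    simp only [Kp, Nat.reduceAdd, Nat.factorial_two, Nat.cast_ofNat]
    nlinarith
  · refine (rl_pbm hψ hδ2 hG (fun x => ?_) (fun x => ?_) hc h).trans ?_
    · rw [fderiv_eq_add hψ.sm]
      exact (norm_add_le _ _).trans (by linarith [hQ x, ContinuousLinearMap.norm_id_le (𝕜 := ℝ) (E := E4)])
    · rw [fderiv_eq_add hψ.sm]
      exact hdet _ ((hQ x).trans hδ)
    · have : 0 ≤ RL G c' := integral_nonneg fun x => by positivity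
      gcongr; norm_num

end Crest.Agent.N207.Ph

end
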