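import Crest.Agent.N207.Ph.RgD
import Crest.Agent.N207.Ph.Kit
import Crest.Agent.N207.A.Co1
import Crest.Agent.R236.Poinc

/-!
# Row 207, block PHI, leaf RG (helper45): the Korn type inequality
-/

set_option autoImplicit false
set_option linter.unusedSectionVars false

open scoped ContDiff Topology ENNReal
open Set MeasureTheory Filter Metric
open Crest.GeometryTopology.CoordMetric

noncomputable section

namespace Crest.Agent.N207.Ph.Rg

open Hd

theorem sq_lint_le {f : ℝ → ℝ≥0∞} (hf : AEMeasurable f (volume.restrict (Icc (0 : ℝ) 1))) :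
    (∫⁻ t in Icc (0 : ℝ) 1, f t) ^ 2 ≤ ∫⁻ t in Icc (0 : ℝ) 1, f t ^ 2 := by
  have h := ENNReal.lintegral_mul_le_Lp_mul_Lq (volume.restrict (Icc (0 : ℝ) 1))
    Real.HolderConjugate.two_two hf (aemeasurable_const (b := (1 : ℝ≥0∞)))
  simp only [Pi.mul_apply, mul_one, lintegral_const, Measure.restrict_apply,
    MeasurableSet.univ, univ_inter, Real.volume_Icc, sub_zero, ENNReal.ofReal_one,
    ENNReal.rpow_ofNat, one_pow, ENNReal.one_rpow] at h
  calc (∫⁻ t in Icc (0 : ℝ) 1, f t) ^ 2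
      ≤ ((∫⁻ t in Icc (0 : ℝ) 1, f t ^ 2) ^ (1 / 2 : ℝ)) ^ 2 := by gcongr
    _ = _ := by
      rw [← ENNReal.rpow_natCast, ← ENNReal.rpow_mul]
      norm_num

/-- `L²` Poincaré inequality on a convex set (as in `N346.An.Mor.poinc2`) -/
theorem poinc2 {S : Set E4} (hS : MeasurableSet S) (hc : Convex ℝ S) {f : E4 → ℝ}
    (hf : ContDiff ℝ 1 f) {d : ℝ} (hd : ∀ x ∈ S, ∀ y ∈ S, dist x y ≤ d) :
    ∫⁻ y in S, ∫⁻ x in S, ‖f y - f x‖ₑ ^ 2
      ≤ ENNReal.ofReal d ^ 2 * (2 ^ 4 * volume S * ∫⁻ z in S, ‖fderiv ℝ f z‖ₑ ^ 2) := by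
  have hF : Measurable (fun z => ‖fderiv ℝ f z‖ₑ ^ 2) := (measurable_fderiv ℝ f).enorm.pow_const 2
  have hle : ∀ y ∈ S, ∀ x ∈ S, ‖f y - f x‖ₑ ^ 2 ≤ ENNReal.ofReal d ^ 2 *
      ∫⁻ t in Icc (0 : ℝ) 1, ‖fderiv ℝ f ((1 - t) • x + t • y)‖ₑ ^ 2 := by
    intro y hy x hx
    have h1 := R236.Poinc.diff_le isOpen_univ convex_univ hf.contDiffOn (mem_univ x) (mem_univ y)
      (hd x hx y hy)
    have h2 : AEMeasurable (fun t : ℝ => ‖fderiv ℝ f ((1 - t) • x + t • y)‖ₑ)
        (volume.restrict (Icc (0 : ℝ) 1)) :=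
      Measurable.aemeasurable ((measurable_fderiv ℝ f).enorm.comp (by fun_prop))
    calc ‖f y - f x‖ₑ ^ 2 ≤ (ENNReal.ofReal d *
          ∫⁻ t in Icc (0 : ℝ) 1, ‖fderiv ℝ f ((1 - t) • x + t • y)‖ₑ) ^ 2 := by gcongr
      _ = ENNReal.ofReal d ^ 2 *
          (∫⁻ t in Icc (0 : ℝ) 1, ‖fderiv ℝ f ((1 - t) • x + t • y)‖ₑ) ^ 2 := by rw [mul_pow]
      _ ≤ _ := by
        gcongr
        exact sq_lint_le h2
  have hne : ENNReal.ofReal d ^ 2 ≠ ⊤ := ENNReal.pow_ne_top ENNReal.ofReal_ne_top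
  calc ∫⁻ y in S, ∫⁻ x in S, ‖f y - f x‖ₑ ^ 2
      ≤ ∫⁻ y in S, ∫⁻ x in S, ENNReal.ofReal d ^ 2 *
          ∫⁻ t in Icc (0 : ℝ) 1, ‖fderiv ℝ f ((1 - t) • x + t • y)‖ₑ ^ 2 :=
        setLIntegral_mono' hS fun y hy => setLIntegral_mono' hS fun x hx => hle y hy x hx
    _ = ENNReal.ofReal d ^ 2 * ∫⁻ y in S, ∫⁻ x in S,
          ∫⁻ t in Icc (0 : ℝ) 1, ‖fderiv ℝ f ((1 - t) • x + t • y)‖ₑ ^ 2 := by
        rw [← lintegral_const_mul' _ _ hne]
        refine lintegral_congr fun y => ?_
        rw [← lintegral_const_mul' _ _ hne]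
    _ ≤ _ := by
        gcongr
        exact R236.Poinc.seg hS hc hF

theorem intB {f : E4 → ℝ} (hf : Continuous f) : IntegrableOn f B :=
  (hf.continuousOn.integrableOn_compact (isCompact_closedBall 0 (3 / 2))).mono_set
    ball_subset_closedBall

theorem measB : MeasurableSet B := measurableSet_ball

theorem monoB {f g : E4 → ℝ} (hf : Continuous f) (hg : Continuous g) (h : ∀ y ∈ B, f y ≤ g y) :
    ∫ y in B, f y ≤ ∫ y in B, g y := setIntegral_mono_on (intB hf) (intB hg) measB h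

/-- Poincaré inequality for functions of mean zero on `B` -/
theorem poincB {f : E4 → ℝ} (hf : ContDiff ℝ 1 f) (h0 : ∫ y in B, f y = 0) :
    ∫ y in B, f y ^ 2 ≤ 144 * ∫ y in B, g2 f y := by
  have hc := hf.continuous
  have v0 : volume B ≠ 0 := (measure_ball_pos volume (0 : E4) (by norm_num)).ne'
  have v1 : volume B ≠ ⊤ := measure_ball_lt_top.ne
  have e : ∀ t : ℝ, ‖t‖ₑ ^ 2 = ENNReal.ofReal (t ^ 2) := fun t => by
    rw [Real.enorm_eq_ofReal_abs, ← ENNReal.ofReal_pow (abs_nonneg _), sq_abs]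
  have h1 : ∀ y, volume B * ENNReal.ofReal (f y ^ 2) ≤ ∫⁻ x in B, ‖f y - f x‖ₑ ^ 2 := fun y => by
    simp only [e]
    rw [← ofReal_integral_eq_lintegral_ofReal (intB (by fun_prop)) (ae_of_all _ fun x => sq_nonneg _),
      ← ENNReal.ofReal_toReal v1, ← ENNReal.ofReal_mul ENNReal.toReal_nonneg]
    refine ENNReal.ofReal_le_ofReal (le_trans (le_of_eq ?_)
      (monoB (f := fun x => f y ^ 2 - 2 * f y * f x) (by fun_prop) (by fun_prop)
        fun x _ => by nlinarith [sq_nonneg (f x)]))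
    rw [integral_sub (intB continuous_const) (intB (by fun_prop)), integral_const_mul, h0]
    simp [Measure.real]
  have h2 := (lintegral_mono h1).trans (poinc2 measB (convex_ball _ _) hf (d := 3) fun x hx y hy => by
    linarith [dist_triangle_right x y 0, mem_ball.1 hx, mem_ball.1 hy])
  have h3 : ∫⁻ z in B, ‖fderiv ℝ f z‖ₑ ^ 2 ≤ ENNReal.ofReal (∫ y in B, g2 f y) := by
    rw [ofReal_integral_eq_lintegral_ofReal (intB (cont_g2 hf)) (ae_of_all _ (g2_nonneg f))]
    refine lintegral_mono fun z => ?_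
    rw [← ofReal_norm, ← ENNReal.ofReal_pow (norm_nonneg _)]
    refine ENNReal.ofReal_le_ofReal ?_
    rw [← Real.le_sqrt (norm_nonneg _) (g2_nonneg f z)]
    refine ContinuousLinearMap.opNorm_le_bound _ (Real.sqrt_nonneg _) fun v => ?_
    rw [← Real.sqrt_sq (norm_nonneg v), ← Real.sqrt_mul (g2_nonneg f z), Real.norm_eq_abs, mul_comm]
    exact Real.abs_le_sqrt (fderiv_sq_le f z v)
  rw [lintegral_const_mul' _ _ v1, ← ofReal_integral_eq_lintegral_ofReal (intB (by fun_prop))
    (ae_of_all _ fun x => sq_nonneg _)] at h2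
  have h4 : volume B * ENNReal.ofReal (∫ y in B, f y ^ 2) ≤
      volume B * ENNReal.ofReal (144 * ∫ y in B, g2 f y) := by
    refine h2.trans ?_
    calc _ ≤ ENNReal.ofReal 3 ^ 2 * (2 ^ 4 * volume B * ENNReal.ofReal (∫ y in B, g2 f y)) := by
          gcongr
      _ = _ := by
          rw [ENNReal.ofReal_mul (by norm_num), ENNReal.ofReal_ofNat, ENNReal.ofReal_ofNat]; ring
  exact (ENNReal.ofReal_le_ofReal_iff (mul_nonneg (by norm_num)
    (integral_nonneg (g2_nonneg f)))).1 ((ENNReal.mul_le_mul_iff_right v0 v1).1 h4)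

theorem hardyB {f : E4 → ℝ} (hf : ContDiff ℝ 1 f) (hc : HasCompactSupport f) :
    ∫ y in B, f y ^ 2 ≤ 4 * ∫ y, g2 f y := by
  have c1 : Continuous fun x : E4 => f x ^ 2 / (‖x‖ ^ 2 + 1) :=
    (hf.continuous.pow 2).div (by fun_prop) fun x => by positivity
  have i1 : Integrable fun x : E4 => f x ^ 2 / (‖x‖ ^ 2 + 1) :=
    integrable_of_supp hc c1 fun x hx => by simp [image_eq_zero_of_notMem_tsupport hx]
  calc _ ≤ ∫ y in B, 4 * (f y ^ 2 / (‖y‖ ^ 2 + 1)) := by
        refine monoB (hf.continuous.pow 2) (continuous_const.mul c1) fun y hy => ?_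
        rw [← mul_div_assoc, le_div_iff₀ (by positivity)]
        have h1 : ‖y‖ ^ 2 + 1 ≤ 4 := by nlinarith [mem_ball_zero_iff.1 hy, norm_nonneg y]
        nlinarith [sq_nonneg (f y)]
    _ ≤ 4 * ∫ y, f y ^ 2 / (‖y‖ ^ 2 + 1) := by
        rw [integral_const_mul]
        exact mul_le_mul_of_nonneg_left
          (setIntegral_le_integral i1 (ae_of_all _ fun x => by positivity)) (by norm_num)
    _ ≤ _ := mul_le_mul_of_nonneg_left (hardy_k hf hc one_pos) (by norm_num)

/-- **(KORN)** -/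
theorem korn : KornStmt := by
  refine ⟨1 / 10 ^ 8, 500000, by norm_num, by norm_num, fun u k hu hk hc h0 h1 r0 r1 => ?_⟩
  have o1 : (1 : WithTop ℕ∞) ≤ ((⊤ : ℕ∞) : WithTop ℕ∞) := by exact_mod_cast le_top
  have o2 : (2 : WithTop ℕ∞) ≤ ((⊤ : ℕ∞) : WithTop ℕ∞) := WithTop.coe_le_coe.2 le_top
  have u1 := fun i j => sm_pderiv (hu j) i
  have cu := fun j => (hu j).continuous
  have cu1 := fun i j => (u1 i j).continuous
  have cu2 := fun c i j => (sm_pderiv (u1 i j) c).continuous
  have ck := fun i j => (hk i j).continuous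
  have ck1 := fun c i j => (sm_pderiv (hk i j) c).continuous
  have d1 := fun i j y => (u1 i j).differentiable (by simp) y
  have c0 : Continuous (q0 u) := by unfold q0; fun_prop
  have c1 : Continuous (q1 u) := by unfold q1; fun_prop
  have c2 : Continuous (q2 u) := by unfold q2; fun_prop
  have n0 : ∀ y, 0 ≤ q0 u y := fun y => by unfold q0; positivity
  have n1 : ∀ y, 0 ≤ q1 u y := fun y => by unfold q1; positivity
  have n2 : ∀ y, 0 ≤ q2 u y := fun y => by unfold q2; positivity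
  set K : E4 → ℝ := fun y => ∑ c, ∑ i, ∑ j, pderiv c (k i j) y ^ 2 with hK
  have cK : Continuous K := by fun_prop
  have eK : K = fun y => ∑ i, ∑ j, g2 (k i j) y := funext fun y => by
    simp only [hK, g2, Fin.sum_univ_four]; ring
  have ig := fun i j => integrable_g2 ((hk i j).of_le o1) (hc i j)
  have iK : Integrable K := by
    rw [eK]; exact integrable_finsetSum _ fun i _ => integrable_finsetSum _ fun j _ => ig i j
  have kB : ∫ y in B, K y ≤ ∫ y, K y :=
    setIntegral_le_integral iK (ae_of_all _ fun y => by simp only [hK]; positivity)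
  -- the three estimates
  have a0 : ∫ y in B, q0 u y ≤ 144 * ∫ y in B, q1 u y := by
    have e : q1 u = fun y => ∑ j, g2 (u j) y := funext fun y => Finset.sum_comm
    unfold q0
    rw [e, integral_finsetSum _ fun j _ => intB (by fun_prop),
      integral_finsetSum _ fun j _ => intB (cont_g2 ((hu j).of_le o1)), Finset.mul_sum]
    exact Finset.sum_le_sum fun j _ => poincB ((hu j).of_le o1) (h0 j)
  have aK : ∫ y in B, ∑ i, ∑ j, k i j y ^ 2 ≤ 4 * ∫ y, K y := by
    rw [eK, integral_finsetSum _ fun i _ => intB (by fun_prop), integral_finsetSum _ fun i _ =>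
      integrable_finsetSum _ fun j _ => ig i j, Finset.mul_sum]
    refine Finset.sum_le_sum fun i _ => ?_
    rw [integral_finsetSum _ fun j _ => intB (by fun_prop), integral_finsetSum _ fun j _ => ig i j,
      Finset.mul_sum]
    exact Finset.sum_le_sum fun j _ => hardyB ((hk i j).of_le o1) (hc i j)
  set w : Fin 4 → Fin 4 → E4 → ℝ := fun i j y => pderiv i (u j) y - pderiv j (u i) y with hw
  have sw : ∀ i j, ContDiff ℝ 1 (w i j) := fun i j => ((u1 i j).sub (u1 j i)).of_le o1
  have cw := fun i j => (sw i j).continuous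
  have cgw := fun i j => cont_g2 (sw i j)
  have aw : ∫ y in B, ∑ i, ∑ j, w i j y ^ 2 ≤ 576 * ∫ y in B, q2 u y := by
    have b1 : ∫ y in B, ∑ i, ∑ j, w i j y ^ 2 ≤ 144 * ∫ y in B, ∑ i, ∑ j, g2 (w i j) y := by
      rw [integral_finsetSum _ fun i _ => intB (by fun_prop),
        integral_finsetSum _ fun i _ => intB (by fun_prop), Finset.mul_sum]
      refine Finset.sum_le_sum fun i _ => ?_
      rw [integral_finsetSum _ fun j _ => intB (by fun_prop),
        integral_finsetSum _ fun j _ => intB (cgw i j), Finset.mul_sum]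
      refine Finset.sum_le_sum fun j _ => poincB (sw i j) ?_
      rw [hw, integral_sub (intB (cu1 i j)) (intB (cu1 j i)), h1, sub_self]
    have b2 : ∫ y in B, ∑ i, ∑ j, g2 (w i j) y ≤ ∫ y in B, 4 * q2 u y := by
      refine monoB (by fun_prop) (by fun_prop) fun y _ => ?_
      calc _ ≤ ∑ i, ∑ j, ∑ c, (2 * pderiv c (pderiv i (u j)) y ^ 2 +
            2 * pderiv c (pderiv j (u i)) y ^ 2) := by
            refine Finset.sum_le_sum fun i _ => Finset.sum_le_sum fun j _ =>
              Finset.sum_le_sum fun c _ => ?_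
            rw [hw, pd_sub c (d1 i j y) (d1 j i y)]
            nlinarith [sq_nonneg (pderiv c (pderiv i (u j)) y + pderiv c (pderiv j (u i)) y)]
        _ = _ := by simp only [q2, Fin.sum_univ_four]; ring
    rw [integral_const_mul] at b2
    linarith
  have a1 : ∫ y in B, q1 u y ≤ ∫ y in B, ((∑ i, ∑ j, k i j y ^ 2) + 16 / 10 ^ 8 * (q0 u y + q1 u y) +
      1 / 2 * ∑ i, ∑ j, w i j y ^ 2) := by
    refine monoB c1 (by fun_prop) fun y hy => ?_
    calc _ ≤ ∑ i, ∑ j, (k i j y ^ 2 + 1 / 10 ^ 8 * (q0 u y + q1 u y) + 1 / 2 * w i j y ^ 2) := by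
          refine Finset.sum_le_sum fun i _ => Finset.sum_le_sum fun j _ => ?_
          have := r0 y hy i j
          have e : pderiv i (u j) y = (k i j y - rem u k i j y + w i j y) / 2 := by
            simp only [rem, hw]; ring
          rw [e]
          nlinarith [sq_nonneg (k i j y + rem u k i j y),
            sq_nonneg (k i j y - rem u k i j y - w i j y)]
      _ = _ := by simp only [Fin.sum_univ_four]; ring
  have a2 : ∫ y in B, q2 u y ≤
      ∫ y in B, (9 / 2 * K y + 288 / 10 ^ 8 * (q0 u y + q1 u y + q2 u y)) := by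
    refine monoB c2 (by fun_prop) fun y hy => ?_
    have s : ∀ c i j, pderiv c (pderiv i (u j)) y + pderiv c (pderiv j (u i)) y =
        pderiv c (k i j) y - pderiv c (rem u k i j) y := fun c i j => by
      have dk := (hk i j).differentiable (by simp) y
      unfold rem
      rw [pd_sub c (dk.fun_sub (d1 i j y)) (d1 j i y), pd_sub c dk (d1 i j y)]; ring
    have sq : ∀ c i j, (pderiv c (pderiv i (u j)) y + pderiv c (pderiv j (u i)) y) ^ 2 ≤
        2 * pderiv c (k i j) y ^ 2 + 2 / 10 ^ 8 * (q0 u y + q1 u y + q2 u y) := fun c i j => by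
      rw [s]
      nlinarith [r1 y hy c i j, sq_nonneg (pderiv c (k i j) y + pderiv c (rem u k i j) y)]
    calc _ ≤ ∑ c, ∑ i, ∑ j, (3 / 2 * (pderiv c (k i j) y ^ 2 + pderiv i (k c j) y ^ 2 +
            pderiv j (k c i) y ^ 2) + 9 / 2 / 10 ^ 8 * (q0 u y + q1 u y + q2 u y)) := by
          refine Finset.sum_le_sum fun c _ => Finset.sum_le_sum fun i _ =>
            Finset.sum_le_sum fun j _ => ?_
          have s1 := sq c i j
          have s2 := sq i c j
          have s3 := sq j c i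
          rw [pd_comm i c ((hu j).contDiffAt.of_le o2)] at s2
          rw [pd_comm j c ((hu i).contDiffAt.of_le o2), pd_comm j i ((hu c).contDiffAt.of_le o2)] at s3
          generalize pderiv c (pderiv i (u j)) y = X at s1 s2 s3 ⊢
          generalize pderiv c (pderiv j (u i)) y = Y at s1 s2 s3 ⊢
          generalize pderiv i (pderiv j (u c)) y = Z at s1 s2 s3 ⊢
          nlinarith [sq_nonneg ((X + Y) - (X + Z)), sq_nonneg ((X + Y) + (Y + Z)),
            sq_nonneg ((X + Z) + (Y + Z))]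
      _ = _ := by simp only [hK, Fin.sum_univ_four]; ring
  rw [integral_add (intB (by fun_prop)) (intB (by fun_prop)),
    integral_add (intB (by fun_prop)) (intB (by fun_prop)), integral_const_mul, integral_const_mul,
    integral_add (intB c0) (intB c1)] at a1
  rw [integral_add (intB (by fun_prop)) (intB (by fun_prop)), integral_const_mul,
    integral_const_mul] at a2
  rw [integral_add (intB (by fun_prop)) (intB c2), integral_add (intB c0) (intB c1)] at a2 ⊢
  have p0 : 0 ≤ ∫ y in B, q0 u y := integral_nonneg n0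
  have p1 : 0 ≤ ∫ y in B, q1 u y := integral_nonneg n1
  have p2 : 0 ≤ ∫ y in B, q2 u y := integral_nonneg n2
  linarith

end Crest.Agent.N207.Ph.Rg

end
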