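import Crest.Agent.N207.Ph.RgN
import Crest.Agent.N207.I.Rig

/-!
# Row 207, block PHI, leaf RG: the polar factor of the mean derivative (helper42)
-/

set_option autoImplicit false
set_option linter.unusedSectionVars false

open scoped ContDiff Topology NNReal
open Set MeasureTheory Filter Metric
open Crest.GeometryTopology.CoordMetric

noncomputable section

namespace Crest.Agent.N207.Ph.Rg

open Sk

/-- polar decomposition near the identity -/
theorem polar {E : Type*} [NormedAddCommGroup E] [InnerProductSpace ℝ E] [FiniteDimensional ℝ E]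
    (A : E →L[ℝ] E) (hA : ‖A - 1‖ ≤ 1 / 10) :
    ∃ O : E ≃ₗᵢ[ℝ] E, ‖I.cl O - 1‖ ≤ 10 * ‖A - 1‖ ∧
      ∀ x y, inner ℝ x (A (O y)) = inner ℝ y (A (O x)) := by
  haveI := FiniteDimensional.complete ℝ E
  set D := A - 1 with hD
  have hAD : A = 1 + D := by rw [hD]; abel
  set X := A * star A - 1 with hX
  have hXD : X = star D + D + D * star D := by
    rw [hX, hAD]; simp only [star_add, star_one]; noncomm_ring
  have h2 : ‖star D‖ = ‖D‖ := by
    rw [ContinuousLinearMap.star_eq_adjoint]; exact LinearIsometryEquiv.norm_map _ _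
  have hXn : ‖X‖ ≤ 5 / 2 * ‖D‖ := by
    have h1 : ‖X‖ ≤ ‖star D‖ + ‖D‖ + ‖D‖ * ‖star D‖ := by
      rw [hXD]
      exact (norm_add_le _ _).trans (add_le_add (norm_add_le _ _) (norm_mul_le _ _))
    rw [h2] at h1
    nlinarith [norm_nonneg D]
  have hXs : star X = X := by simp [hX]
  obtain ⟨Y, hYs, hYn, hY⟩ := I.sqrt_near X (by linarith) {Y | star Y = Y}
    (isClosed_eq continuous_star continuous_id) (by simp)
    (by
      intro Y h1
      have h1' : star Y = Y := h1
      simp [star_mul, h1', hXs])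
  have hYs : star Y = Y := hYs
  have hY4 : ‖Y‖ ≤ 1 / 4 := by linarith
  let u : (E →L[ℝ] E)ˣ := Units.oneSub (-Y) (by rw [norm_neg]; linarith)
  have hu : (u : E →L[ℝ] E) = 1 + Y := by simp [u]
  set S : E →L[ℝ] E := ↑u⁻¹ with hS
  have hS1 : (1 + Y) * S = 1 := by rw [← hu, hS]; simp
  have hS2 : S * (1 + Y) = 1 := by rw [← hu, hS]; simp
  have hSs : star S * (1 + Y) = 1 := by
    have := congrArg star hS1
    simpa [star_mul, hYs] using this
  have hAA : A * star A = (1 + Y) * (1 + Y) := by rw [hY, hX]; abel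
  have hO : star (star A * S) * (star A * S) = 1 := by
    calc star (star A * S) * (star A * S) = star S * (A * star A) * S := by
          rw [star_mul, star_star]; noncomm_ring
      _ = (star S * (1 + Y)) * ((1 + Y) * S) := by rw [hAA]; noncomm_ring
      _ = 1 := by rw [hSs, hS1, one_mul]
  have hiso : ∀ x, ‖(star A * S) x‖ = ‖x‖ := by
    intro x
    have h1 : inner ℝ ((star A * S) x) ((star A * S) x) = inner ℝ x x := by
      rw [← ContinuousLinearMap.adjoint_inner_right, ← ContinuousLinearMap.star_eq_adjoint]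
      have := congrArg (fun L : E →L[ℝ] E => L x) hO
      simp only [ContinuousLinearMap.mul_apply, ContinuousLinearMap.one_apply] at this ⊢
      rw [this]
    rw [real_inner_self_eq_norm_sq, real_inner_self_eq_norm_sq] at h1
    exact (sq_eq_sq₀ (norm_nonneg _) (norm_nonneg _)).1 h1
  obtain ⟨O, hOe⟩ := I.exists_cl _ hiso
  refine ⟨O, ?_, ?_⟩
  · have e : I.cl O - 1 = star D - I.cl O * Y := by
      have : I.cl O * (1 + Y) = star A := by rw [hOe, mul_assoc, hS2, mul_one]
      rw [hD, star_sub, star_one, ← this]; noncomm_ring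
    have h1 : ‖I.cl O‖ ≤ 1 :=
      ContinuousLinearMap.opNorm_le_bound _ zero_le_one fun x => by simp [I.cl]
    have h3 : ‖I.cl O * Y‖ ≤ ‖Y‖ := (norm_mul_le _ _).trans (by nlinarith [norm_nonneg Y])
    rw [e]
    have := norm_sub_le (star D) (I.cl O * Y)
    nlinarith [norm_nonneg D]
  · have e : A * I.cl O = 1 + Y := by
      rw [hOe, ← mul_assoc, hAA, mul_assoc, hS1, mul_one]
    have hs : star (A * I.cl O) = A * I.cl O := by rw [e, star_add, star_one, hYs]
    intro x y
    show inner ℝ x ((A * I.cl O) y) = inner ℝ y ((A * I.cl O) x)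
    conv_lhs => rw [← hs, ContinuousLinearMap.star_eq_adjoint,
      ContinuousLinearMap.adjoint_inner_right]
    exact real_inner_comm _ _

theorem intBv {Y : Type*} [NormedAddCommGroup Y] {f : E4 → Y} (hf : Continuous f) :
    IntegrableOn f B :=
  (hf.continuousOn.integrableOn_compact (isCompact_closedBall (0 : E4) (3 / 2))).mono_set
    ball_subset_closedBall

/-- rotation invariance of the integral over `B` -/
theorem rotB {Y : Type*} [NormedAddCommGroup Y] [NormedSpace ℝ Y] (R : Iso) (f : E4 → Y) :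
    ∫ y in B, f (R y) = ∫ y in B, f y := by
  have e : (R : E4 → E4) ⁻¹' B = B := by ext x; simp [B]
  have := R.measurePreserving.setIntegral_preimage_emb
    R.toHomeomorph.measurableEmbedding f B
  rwa [e] at this

theorem volB_pos : 0 < volume.real B :=
  ENNReal.toReal_pos (measure_ball_pos volume _ (by norm_num)).ne' measure_ball_lt_top.ne

theorem pol_a (P : E4 → E4) (δ : ℝ) (hδ : δ ≤ 1 / 100) (h : Nr P δ) :
    ∃ R : Iso, (∀ x, ‖R x - x‖ ≤ 30 * δ * ‖x‖) ∧
    ∀ i j, ∫ y in B, pderiv i (fun z => P (R z) j) y = ∫ y in B, pderiv j (fun z => P (R z) i) y := by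
  have hc : Continuous (fderiv ℝ P) := h.sm.continuous_fderiv (by simp)
  have hv := volB_pos
  set v := volume.real B with hvd
  set M : E4 →L[ℝ] E4 := ∫ y in B, fderiv ℝ P y with hM
  have h1 : ‖M - v • (1 : E4 →L[ℝ] E4)‖ ≤ δ * v := by
    have e : M - v • (1 : E4 →L[ℝ] E4) = ∫ y in B, (fderiv ℝ P y - 1) := by
      rw [integral_sub (intBv hc) (intBv continuous_const), setIntegral_const]
    rw [e]
    exact norm_setIntegral_le_of_norm_le_const measure_ball_lt_top fun y _ => h.d1' y
  set A : E4 →L[ℝ] E4 := v⁻¹ • M with hA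
  have hMA : M = v • A := by rw [hA, smul_smul, mul_inv_cancel₀ hv.ne', one_smul]
  have h2 : ‖A - 1‖ ≤ δ := by
    have e : M - v • (1 : E4 →L[ℝ] E4) = v • (A - 1) := by
      rw [hMA]; ext1 x; simp [smul_sub]
    rw [e, norm_smul, Real.norm_of_nonneg hv.le, mul_comm] at h1
    exact le_of_mul_le_mul_right h1 hv
  obtain ⟨R, hR, hs⟩ := polar A (by linarith)
  refine ⟨R, fun x => ?_, fun i j => ?_⟩
  · have := (I.cl R - 1).le_opNorm x
    have h0 := h.nn
    have e : (I.cl R - 1) x = R x - x := rfl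
    rw [e] at this
    refine this.trans (mul_le_mul_of_nonneg_right (by linarith) (norm_nonneg _))
  · have key : ∀ a b : Fin 4, ∫ y in B, pderiv a (fun z => P (R z) b) y =
        v * inner ℝ (EuclideanSpace.single b (1 : ℝ)) (A (R (EuclideanSpace.single a 1))) := by
      intro a b
      let L : (E4 →L[ℝ] E4) →L[ℝ] ℝ := (EuclideanSpace.proj b : E4 →L[ℝ] ℝ).comp
        (ContinuousLinearMap.apply ℝ E4 (R (EuclideanSpace.single a 1)))
      have e1 : ∀ y, pderiv a (fun z => P (R z) b) y = L (fderiv ℝ P (R y)) := by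
        intro y
        have d1 : HasFDerivAt P (fderiv ℝ P (R y)) (I.cl R y) :=
          (h.sm.differentiable (by simp) _).hasFDerivAt
        have d2 := (EuclideanSpace.proj b : E4 →L[ℝ] ℝ).hasFDerivAt.comp y
          (d1.comp y (I.cl R).hasFDerivAt)
        have d3 : HasFDerivAt (fun z => P (R z) b) _ y := d2
        rw [pderiv, d3.fderiv]
        rfl
      simp only [e1]
      rw [rotB R fun y => L (fderiv ℝ P y), L.integral_comp_comm (intBv hc), ← hM, hMA, map_smul,
        EuclideanSpace.inner_single_left]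
      simp only [smul_eq_mul, map_one, one_mul]
      rfl
    rw [key, key, hs]

theorem j1_lin (L : E4 →L[ℝ] E4) {ε : ℝ} (hε : 0 ≤ ε) (hL : ∀ x, ‖L x‖ ≤ ε * ‖x‖) (y : E4) (k : ℕ) :
    J1 k L y (‖y‖ + 1) (ε * (‖y‖ + 1)) := by
  have hn : ‖L‖ ≤ ε := ContinuousLinearMap.opNorm_le_bound _ hε hL
  have hf : fderiv ℝ (L : E4 → E4) = fun _ => L := by ext1 z; exact L.fderiv
  rcases k with _ | _ | k
  · rw [J1, norm_iteratedFDeriv_zero, pow_zero, mul_one]
    exact (hL y).trans (mul_le_mul_of_nonneg_left (by linarith) hε)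
  · rw [J1, zero_add, norm_iteratedFDeriv_one, pow_one, L.fderiv]
    exact mul_le_mul_of_nonneg_right hn (by positivity)
  · rw [J1, ← norm_iteratedFDeriv_fderiv, hf, iteratedFDeriv_succ_const]
    simp only [Pi.zero_apply, norm_zero, zero_mul]
    positivity

theorem Nr.rot {P : E4 → E4} {δ ε : ℝ} (R : Iso) (h : Nr P δ) (hε : 0 ≤ ε)
    (hR : ∀ x, ‖R x - x‖ ≤ ε * ‖x‖) : Nr (fun z => P (R z)) (δ + ε) := by
  refine ⟨h.sm.comp (I.cl R).contDiff, fun y k hk => ?_⟩
  have e : (fun z => P (R z) - z) = ((fun z => P z - z) ∘ R) + (I.cl R - 1 : E4 →L[ℝ] E4) := by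
    ext1 z
    show P (R z) - z = P (R z) - R z + (R z - z)
    abel
  have h1 := h.jet (R y) k hk
  have h2 := j1_lin (I.cl R - 1) hε hR y k
  have s1 : ContDiff ℝ k ((fun z => P z - z) ∘ R) :=
    (h.sm0.comp (I.cl R).contDiff).of_le (by exact_mod_cast le_top)
  rw [J1] at h1 h2 ⊢
  rw [e, iteratedFDeriv_add_apply s1.contDiffAt (I.cl R - 1).contDiff.contDiffAt]
  rw [← R.norm_iteratedFDeriv_comp_right, R.norm_map] at h1
  have h3 := mul_le_mul_of_nonneg_right (norm_add_le (iteratedFDeriv ℝ k ((fun z => P z - z) ∘ R) y)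
    (iteratedFDeriv ℝ k (I.cl R - 1 : E4 →L[ℝ] E4) y)) (by positivity : 0 ≤ (‖y‖ + 1) ^ k)
  linarith

theorem pol_c (P : E4 → E4) (γ R : Iso) (hP : Continuous P) (hγ : ∀ x, γ x = x → x = 0)
    (he : ∀ x, P (γ x) = γ (P x)) (j : Fin 4) : ∫ y in B, P (R y) j = 0 := by
  have h1 : γ (∫ y in B, P y) = ∫ y in B, P y := by
    have := (I.cl γ).integral_comp_comm (intBv hP)
    have e : ∀ y, I.cl γ (P y) = P (γ y) := fun y => (he y).symm
    simp only [e] at this
    rw [rotB γ P] at this
    exact this.symm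
  have h2 := (EuclideanSpace.proj j : E4 →L[ℝ] ℝ).integral_comp_comm (intBv hP)
  rw [hγ _ h1, map_zero] at h2
  rw [rotB R fun y => P y j]
  exact h2

theorem pol : PolStmt :=
  ⟨pol_a, fun _ _ _ R h hε hR => h.rot R hε hR, pol_c⟩

end Crest.Agent.N207.Ph.Rg

end
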