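import Crest.Agent.N207.Ph.Rg4
import Crest.Agent.N207.Ph.RgK
import Crest.Agent.N207.Ph.RgP

/-!
# Row 207, block PHI, leaf RG (helper55): rigidity of the action
-/

set_option autoImplicit false

namespace Crest.Agent.N207.Ph

theorem rg (hEN : ENStmt) (hQU : QUStmt) (hHC : HCStmt) : RGStmt :=
  Rg.rg_of hEN hQU hHC Rg.korn Rg.nid Rg.pol

end Crest.Agent.N207.Ph
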