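import Crest.Agent.N207.Ph.Ve3

/-!
# Row 207, block PHI (helper66): the statement `VE`
-/

set_option autoImplicit false
set_option linter.unusedSectionVars false

open scoped ContDiff Topology
open Set MeasureTheory Filter Metric
open Crest.GeometryTopology.CoordMetric Crest.GeometryTopology.ChartCurvature
  Crest.GeometryTopology.MetricFamily

noncomputable section

namespace Crest.Agent.N207.Ph

open Hd Sk Rad Ve

theorem Ve.ric_flat (x : E4) (i j : Fin 4) : ricci flat x i j = 0 := by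
  have h : ∀ y a b c, christoffel flat y a b c = 0 := fun y a b c => by
    simp [christoffel, flat, pd_const]
  simp [ricci, h, pd_const]

theorem Ve.ric_out {G : MetricField 4} {R : ℝ} (h : ∀ x : E4, R ≤ ‖x‖ → G x = 1) {x : E4}
    (hx : R < ‖x‖) (i j : Fin 4) : ricci G x i j = 0 := by
  have : G =ᶠ[𝓝 x] flat := by
    filter_upwards [(isOpen_lt continuous_const continuous_norm).mem_nhds hx] with y hy
      using h y (le_of_lt hy)
  rw [N207.ricci_congr this, Ve.ric_flat]

theorem Ve.sym_sq_le (q z : Fin 4 → Fin 4 → ℝ) : ∑ i, ∑ j, (1 / 2 * (q i j + q j i) + z i j) ^ 2 ≤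
    2 * ∑ i, ∑ j, q i j ^ 2 + 2 * ∑ i, ∑ j, z i j ^ 2 := by
  have h1 : ∑ i, ∑ j, (1 / 2 * (q i j + q j i) + z i j) ^ 2 ≤
      ∑ i, ∑ j, (q i j ^ 2 + q j i ^ 2 + 2 * z i j ^ 2) :=
    Finset.sum_le_sum fun i _ => Finset.sum_le_sum fun j _ => by
      nlinarith [sq_nonneg (1 / 2 * (q i j + q j i) - z i j), sq_nonneg (q i j - q j i)]
  refine h1.trans (le_of_eq ?_)
  simp only [Fin.sum_univ_four]; ring

theorem ve : VEStmt := by
  obtain ⟨c0, hc0, hc⟩ := exists_c0
  set K : ℝ := 16 * (10 ^ 12 + (768 * c0) ^ 2) with hK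
  set m : ℝ := (volume : Measure E4).real (closedBall 0 2) with hm
  have m0 : 0 ≤ m := measureReal_nonneg
  refine ⟨1 / 10 ^ 6, 14 * (10 ^ 7 + K * m) + 2, by norm_num, by positivity, ?_⟩
  intro Γ G G' V Z κ hΓ hG hG' hs hs' hV ⟨R1, hR1⟩ hinv he h1 h2 hZ
  obtain ⟨R2, hR2⟩ := hG'.flat
  set R : ℝ := max (max R1 R2) 2 with hR
  set v : Fin 4 → E4 → ℝ := fun j y => V y ![j] with hv
  have sv : ∀ j, ContDiff ℝ ∞ (v j) := fun j => sm_univ (hV ![j])
  have sv1 : ∀ j, ContDiff ℝ 1 (v j) := fun j => (sv j).of_le one_le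
  have v0 : ∀ j (x : E4), R < ‖x‖ → v j x = 0 := fun j x hx => by
    simp only [hv, hR1 x (((le_max_left _ _).trans (le_max_left _ _)).trans hx.le), Pi.zero_apply]
  have q0 : ∀ i j (x : E4), R < ‖x‖ → pderiv i (v j) x = 0 := fun i j => pderiv_zero_out (v0 j) i
  have cq : ∀ i j, Continuous (pderiv i (v j)) := fun i j => cont_pderiv (sv1 j) i
  have hκ : 0 ≤ κ := (abs_nonneg _).trans (j1_zero (h1 0 (by simp) 0 zero_le_one 0 0))
  have he' : ∀ x i j, ricci G' x i j = (1 / 2) * (pderiv i (v j) x + pderiv j (v i) x) +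
      chi x * ricci G x i j + Z x i j := he
  have eZ : ∀ i j, (fun x => Z x i j) = fun x => ricci G' x i j -
      ((1 / 2) * (pderiv i (v j) x + pderiv j (v i) x) + chi x * ricci G x i j) := fun i j => by
    funext x; rw [he']; ring
  have cR : ∀ i j, Continuous fun x => ricci G' x i j := fun i j =>
    (sm_univ (sm_ricci hG'.riem i j)).continuous
  have cZ : ∀ i j, Continuous fun x => Z x i j := fun i j => by
    rw [eZ]
    exact (cR i j).sub ((((cq i j).add (cq j i)).const_mul _).add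
      (sm_chi.continuous.mul (sm_univ (sm_ricci hG.riem i j)).continuous))
  have r0 : ∀ i j (x : E4), R < ‖x‖ → ricci G' x i j = 0 := fun i j x hx =>
    Ve.ric_out hR2 (((le_max_right _ _).trans (le_max_left _ _)).trans_lt hx) i j
  have Z0 : ∀ i j (x : E4), R < ‖x‖ → Z x i j = 0 := fun i j x hx => by
    rw [congrFun (eZ i j) x, r0 i j x hx, q0 i j x hx, q0 j i x hx,
      chi_zero ((le_max_right _ _).trans hx.le)]
    ring
  have isq : ∀ {A : Fin 4 → Fin 4 → E4 → ℝ}, (∀ i j, Continuous (A i j)) →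
      (∀ i j (x : E4), R < ‖x‖ → A i j x = 0) →
      Integrable fun x : E4 => ‖x‖ ^ 2 * ∑ i, ∑ j, A i j x ^ 2 := fun hA h0 =>
    integrable_of_ball R ((continuous_norm.pow 2).mul (continuous_finsetSum _ fun i _ =>
      continuous_finsetSum _ fun j _ => (hA i j).pow 2)) fun x hx => by simp [h0 _ _ x hx]
  have iD := isq cq q0
  have iZ := isq cZ Z0
  have iR := isq cR r0
  have iN1 : ∀ j, Integrable fun x => v j x ^ 2 := fun j =>
    integrable_sq (sv j).continuous (hcs_of_ball R (v0 j))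
  have iN : Integrable fun x => ∑ j, v j x ^ 2 := integrable_finsetSum _ fun j _ => iN1 j
  have iι : Integrable ((closedBall (0 : E4) 2).indicator (1 : E4 → ℝ)) :=
    (integrable_indicator_iff measurableSet_closedBall).2
      (integrableOn_const measure_closedBall_lt_top.ne)
  -- Hardy
  have hH : 7 * ∫ x, ∑ j, v j x ^ 2 ≤ ∫ x : E4, ‖x‖ ^ 2 * ∑ i, ∑ j, pderiv i (v j) x ^ 2 := by
    obtain ⟨γ, hγ, hf⟩ := exists_free hΓ.ne hΓ.free
    have h7 : ∀ j, 7 * ∫ x, v j x ^ 2 ≤ ∫ x : E4, ‖x‖ ^ 2 * g2 (v j) x := fun j =>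
      hardy7 (sv1 j) (hcs_of_ball R (v0 j)) fun r hr => M0_of_pull hf hr
        (fun I => (sm_univ (hV I)).continuous.comp (continuous_subtype_val.const_smul r))
        (fun x _ => hinv γ hγ x) ![j]
    rw [integral_finsetSum _ fun j _ => iN1 j, Finset.mul_sum]
    refine (Finset.sum_le_sum fun j _ => h7 j).trans (le_of_eq ?_)
    rw [← integral_finsetSum _ fun j _ => integrable_wg2 (sv1 j) (hcs_of_ball R (v0 j))]
    refine integral_congr_ae (Eventually.of_forall fun x => ?_)
    simp only [g2, Fin.sum_univ_four]; ring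
  -- the null terms
  have sW : ∀ j, ContDiff ℝ ∞ fun y : E4 => ‖y‖ ^ 2 * v j y := fun j => sm_nsq.mul (sv j)
  obtain ⟨i1, e1⟩ := bianchi_weak hG'.riem sW R fun j x hx => by simp [v0 j x hx]
  obtain ⟨i2, e2⟩ := bianchi_weak (W := fun j y => chi y * (‖y‖ ^ 2 * v j y)) hG.riem
    (fun j => sm_chi.mul (sW j)) R fun j x hx => by simp [v0 j x hx]
  obtain ⟨i3, e3⟩ := int_div R (sm_FX sv sW) fun a x hx => by simp [FX, v0 _ x hx]
  have i4 : Integrable fun x => BW G' (fun j y => ‖y‖ ^ 2 * v j y) x -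
      BW G (fun j y => chi y * (‖y‖ ^ 2 * v j y)) x := i1.sub i2
  have i5 : Integrable fun x : E4 => 10 ^ 7 * (‖x‖ ^ 2 * ∑ i, ∑ j, Z x i j ^ 2) +
      K * κ ^ 2 * (closedBall (0 : E4) 2).indicator 1 x := (iZ.const_mul _).add (iι.const_mul _)
  have key := int_le_of (iD.const_mul (7 / 16)) ((iN.const_mul (33 / 16)).add i5) (i4.sub i3)
    (by
      simp only [Pi.sub_apply]
      rw [integral_sub i4 i3, integral_sub i1 i2, e1, e2, e3]; ring)
    fun x => pt_ineq hc0 hc hG.riem hG'.riem (hs x) (hs' x) sv hκ (he' x) (h1 x) (h2 x)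
  simp only [Pi.add_apply] at key
  rw [integral_add (iN.const_mul _) i5, integral_add (iZ.const_mul _) (iι.const_mul _),
    integral_const_mul, integral_const_mul, integral_const_mul, integral_const_mul,
    integral_indicator_one measurableSet_closedBall, ← hm] at key
  have hms : MeasurableSet {x : E4 | 2 ≤ ‖x‖} :=
    (isClosed_le continuous_const continuous_norm).measurableSet
  have i6 : Integrable fun x : E4 => 2 * (‖x‖ ^ 2 * ∑ i, ∑ j, pderiv i (v j) x ^ 2) +
      2 * (‖x‖ ^ 2 * ∑ i, ∑ j, Z x i j ^ 2) := (iD.const_mul _).add (iZ.const_mul _)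
  have fin : RL G' 2 ≤ ∫ x : E4, (2 * (‖x‖ ^ 2 * ∑ i, ∑ j, pderiv i (v j) x ^ 2) +
      2 * (‖x‖ ^ 2 * ∑ i, ∑ j, Z x i j ^ 2)) := by
    refine (setIntegral_mono_on iR.integrableOn i6.integrableOn hms fun x hx => ?_).trans
      (setIntegral_le_integral i6 (Eventually.of_forall fun x => by positivity))
    have := mul_le_mul_of_nonneg_left (Ve.sym_sq_le (fun i j => pderiv i (v j) x) (Z x))
      (sq_nonneg ‖x‖)
    simp only [he' x, chi_zero hx, zero_mul, add_zero]
    linarith
  rw [integral_add (iD.const_mul _) (iZ.const_mul _), integral_const_mul, integral_const_mul] at fin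
  nlinarith

end Crest.Agent.N207.Ph

end
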