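import Crest.Agent.N207.Ph.Ws3
import Crest.Agent.N207.Ph.Gl

/-!
# Row 207, block PHI (helper89): the time step `WS`
-/

set_option autoImplicit false
set_option linter.unusedSectionVars false

open scoped ContDiff Manifold Topology
open Set MeasureTheory Filter Metric
open Crest.GeometryTopology.CoordMetric Crest.GeometryTopology.ChartCurvature
  Crest.GeometryTopology.MetricFamily
open Crest.Agent.R247

noncomputable section

namespace Crest.Agent.N207.Ph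

open Sk U

variable {M : Type*} [TopologicalSpace M] [ChartedSpace E4 M] [IsManifold 𝓘(ℝ, E4) ∞ M]
  [CompactSpace M] [T3Space M] [ConnectedSpace M] [MeasurableSpace M] [BorelSpace M]

namespace Ws

theorem rl_glu : ∃ W : ℝ, 0 ≤ W ∧ ∀ (G1 G : MetricField 4) (Y : ℝ), Fl G1 → Fl G →
    (∀ y : E4, 1 ≤ ‖y‖ → ‖y‖ ≤ 28 → ∀ i j, |ricci (glu 16 24 G1 G) y i j| ≤ Y) →
    RL (glu 16 24 G1 G) 1 ≤ RL G 1 + W * Y ^ 2 := by
  refine ⟨volume.real (closedBall (0 : E4) 28) * (28 ^ 2 * 16), by positivity,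
    fun G1 G Y h1 hG hY => ?_⟩
  have hP := fl_glu (a := 16) (b := 24) (by norm_num) (by norm_num) h1 hG
  have i3 : Integrable ((closedBall (0 : E4) 28).indicator fun _ => 28 ^ 2 * 16 * Y ^ 2) :=
    (integrableOn_const measure_closedBall_lt_top.ne).integrable_indicator measurableSet_closedBall
  have n3 : ∀ y, 0 ≤ (closedBall (0 : E4) 28).indicator (fun _ => 28 ^ 2 * 16 * Y ^ 2) y :=
    fun y => indicator_nonneg (fun _ _ => by positivity) y
  have h2 := setIntegral_mono_on (Fl.int_rl hP).integrableOn ((Fl.int_rl hG).add i3).integrableOn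
    (Ad.meas_ge 1) fun y hy => by
      rcases le_or_gt ‖y‖ 28 with c | c
      · rw [Pi.add_apply, indicator_of_mem (by simpa using c)]
        have h3 : ∑ i, ∑ j, ricci (glu 16 24 G1 G) y i j ^ 2 ≤ ∑ _i : Fin 4, ∑ _j : Fin 4, Y ^ 2 :=
          Finset.sum_le_sum fun i _ => Finset.sum_le_sum fun j _ =>
            sq_le_sq' (abs_le.1 (hY y hy c i j)).1 (abs_le.1 (hY y hy c i j)).2
        simp only [Finset.sum_const, Finset.card_univ, Fintype.card_fin, nsmul_eq_mul] at h3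
        have h4 := mul_le_mul (pow_le_pow_left₀ (norm_nonneg y) c 2) h3 (by positivity)
          (by positivity)
        push_cast at h4
        linarith [Ad.ric_nonneg G y]
      · rw [ricci_congr (glu_hi_ev (by norm_num) (by norm_num) (show 24 < ‖y‖ by linarith))]
        exact le_add_of_nonneg_right (n3 y)
  have h5 := setIntegral_le_integral (s := {x : E4 | 1 ≤ ‖x‖}) i3 (Eventually.of_forall n3)
  rw [integral_add' (Fl.int_rl hG).integrableOn i3.integrableOn] at h2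
  have h6 : ∫ y, (closedBall (0 : E4) 28).indicator (fun _ => 28 ^ 2 * 16 * Y ^ 2) y =
      volume.real (closedBall (0 : E4) 28) * (28 ^ 2 * 16) * Y ^ 2 := by
    rw [integral_indicator measurableSet_closedBall, setIntegral_const, smul_eq_mul]; ring
  exact h2.trans (add_le_add_right (h5.trans_eq h6) _)

variable {N : Nk M} {ρ : ℝ} {G : MetricField 4} (h : Rng N ρ)
include h

theorem ric_jet (g : Met 4 M) {c : ℝ} (hc0 : 0 ≤ c) (hc : ∀ x : E4, ρ / 64 ≤ ‖x‖ → ‖x‖ ≤ ρ →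
    ∀ k ≤ 2, ∀ i j, J1 k (fun z => ricci (g.pm N.Ψ) z i j) x ‖x‖ (c / ρ ^ 2)) (y : E4)
    (y1 : 1 ≤ ‖y‖) (y2 : ‖y‖ ≤ 28) :
    ∀ k ≤ 2, ∀ i j, J1 k (fun z => ricci (cm g N (ρ / 64)) z i j) y 1 c := by
  intro k hk i j
  have hρ := Cm.rho_pos h
  have hy : y ∈ shell (1 / 2) 32 := ⟨by linarith, by linarith⟩
  have hr := h.top.par.riem g
  have e : (fun z => ricci (cm g N (ρ / 64)) z i j) =ᶠ[𝓝 y]
      fun z => (ρ / 64) ^ 2 * ricci (g.pm N.Ψ) ((ρ / 64) • z) i j := by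
    filter_upwards [(isOpen_shell _ _).mem_nhds hy] with z hz
    rw [ricci_congr (cm_rs h g hz), Ad.ricci_rs (Cm.u_pos h) hr (Ad.mid_mem h hz.1.le hz.2)]
  have h1 := J1.one (Ad.j1_rs (Cm.u_pos h) (Cm.norm_u h y).ge (hc _ (by rw [Cm.norm_u h]; nlinarith)
    (by rw [Cm.norm_u h]; nlinarith) k hk i j)) y1
  have h2 : ContDiffAt ℝ ∞ (fun z => ricci (g.pm N.Ψ) ((ρ / 64) • z) i j) y :=
    ContDiffAt.comp (g := fun x => ricci (g.pm N.Ψ) x i j) y ((sm_ricci hr i j).contDiffAt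
      (hr.isOpen.mem_nhds (Ad.mid_mem h hy.1.le hy.2))) (contDiff_const_smul _).contDiffAt
  refine Cm.j1_congr ?_ e
  rw [J1, norm_itd_cmul h2, abs_of_nonneg (sq_nonneg _), mul_assoc]
  refine (mul_le_mul_of_nonneg_left h1 (sq_nonneg _)).trans ?_
  rw [show (ρ / 64) ^ 2 * (c / ρ ^ 2) = c / 4096 by field_simp; ring]
  linarith

theorem d_sv {F : Flow M} (hB : Base F) (hG : Fl G) {a b s : ℝ} (st : F.hc.St a b)
    (hs : s ∈ Icc a b) : HasDerivWithinAt
      (fun s => Sv (F.m s) N (ρ / 64) (glu 16 24 (cm (F.m s) N (ρ / 64)) G))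
      ((∫ p, chi (nu N (ρ / 64)) p * (2 * (F.m s).rc 0 p - (F.m s).scal p ^ 2) ∂(F.m s).vol) +
        (Nat.card N.Γ : ℝ)⁻¹ * (ρ / 64) ^ 2 * ∫ y, ph y * er (glu 16 24 (cm (F.m s) N (ρ / 64)) G)
          (hv ((ρ / 64) ^ 2)⁻¹ (cm (F.m s) N (ρ / 64))) y) (Icc a b) s := by
  have hJ : Icc a b ⊆ Ioo 0 F.T := fun σ hσ => ⟨st.1.trans_le hσ.1, hσ.2.trans_lt st.2.2⟩
  have hχ := nu_chi h
  have A := hB.ok.alg
  have h1 := hB.ok.int.int_dt st (A.sm_mul (A.sm_static hχ) (A.sm_R st))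
    (fun t ht x => (hB.ok.evo.dt_R st t ht x).const_mul (chi (nu N (ρ / 64)) x)) s hs
  have h2 := (fam h F hG.riem).d_int' hJ hs
  have h3 := hB.ok.int.ibp s (hJ hs) hχ (F.m s).sm_scal
  simp only [Flow.hc_R, Flow.hc_lap, Flow.hc_Q, Flow.hc_vol, Flow.hc_gam] at h1 h3
  simp only [sv_eq h _ hG]
  refine (h1.add ((h2.add_const _).const_mul _)).congr_deriv ?_
  have h4 := integral_add (μ := (F.m s).vol)
    (V.integrable_cont (F.m s) (f := fun p => chi (nu N (ρ / 64)) p * (F.m s).lap (F.m s).scal p)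
      (hχ.continuous.mul ((F.m s).sm_lap (F.m s).sm_scal).continuous))
    (V.integrable_cont (F.m s) (f := fun p => chi (nu N (ρ / 64)) p *
      (2 * (F.m s).rc 0 p - (F.m s).scal p ^ 2)) (hχ.continuous.mul ((continuous_const.mul
      ((F.m s).sm_rc 0).continuous).sub ((F.m s).sm_scal.continuous.pow 2))))
  rw [h3, flux_M h] at h4
  rw [integral_congr_ae (Eventually.of_forall fun x => ?_), h4]
  · have := Cm.rho_pos h
    field_simp
    ring
  · ring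

end Ws

open Ws in
theorem ws {F : Flow M} (hB : Base F) : WSStmt F := by
  obtain ⟨η1, CM, hη1, hCM, cmS⟩ := cmS M
  obtain ⟨η2, CV, hη2, hCV, cvS⟩ := cvS M
  obtain ⟨K, hK⟩ := hB.ok.evo.R_bd
  obtain ⟨CG, hCG, dsg⟩ := ds_glu gl
  obtain ⟨C, hC, core⟩ := core
  obtain ⟨W, hW, rlg⟩ := rl_glu
  obtain ⟨δ0, hδ0, hδ1⟩ : ∃ δ0 : ℝ, 0 < δ0 ∧ CG * (CM + 1) * (δ0 + δ0) = 1 / 8 :=
    ⟨1 / (16 * (CG * (CM + 1))), by positivity, by field_simp; norm_num⟩
  obtain ⟨Z, hZ⟩ : ∃ Z : ℝ, Z = 2 * CV ^ 2 + 2 * (C * CV) ^ 2 * 4096 ^ 2 := ⟨_, rfl⟩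
  have hZ0 : 0 ≤ Z := by rw [hZ]; positivity
  refine ⟨min (min η1 η2) (min (1 / 200) δ0), δ0, CG * (CM + 1), by positivity, hδ0, by positivity,
    fun V => ⟨1 + W * Z + ((2 + K ^ 2) * (|V| + 3) + C * CV) + C * CV * Z, by positivity,
      fun N m1 η δ t t' ρ e0 e1 Cs e G hm hη hδ h ht htt ht' hρt hg hi hi2 hE hE0 _ hP hq => ?_⟩⟩
  have n1 : η ≤ η1 := hη.trans ((min_le_left _ _).trans (min_le_left _ _))
  have n2 : η ≤ η2 := hη.trans ((min_le_left _ _).trans (min_le_right _ _))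
  have n3 : η ≤ 1 / 200 := hη.trans ((min_le_right _ _).trans (min_le_left _ _))
  have n4 : η ≤ δ0 := hη.trans ((min_le_right _ _).trans (min_le_right _ _))
  obtain ⟨Cs', cmS⟩ := cmS Cs
  have hρ := Cm.rho_pos h
  have hT := F.hT
  have st : F.hc.St t t' := ⟨by linarith, htt, ht'⟩
  have hJ : Icc t t' ⊆ Ioo 0 F.T := fun σ hσ => ⟨st.1.trans_le hσ.1, hσ.2.trans_lt ht'⟩
  have t0 : t ∈ Icc t t' := ⟨le_rfl, htt.le⟩
  have t1 : t' ∈ Icc t t' := ⟨htt.le, le_rfl⟩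
  have n0 := Cm.eta_nonneg h.top (hg t t0)
  have d0 := DS.nonneg hP.ds
  have fl : ∀ s, Fl (glu 16 24 (cm (F.m s) N (ρ / 64)) G) := fun s =>
    fl_glu (by norm_num) (by norm_num) (Cm.cm_fl _ h) hP.fl
  have ds : ∀ s ∈ Icc t t', DS 3 (glu 16 24 (cm (F.m s) N (ρ / 64)) G) (CG * (CM + 1) * (δ + η)) :=
    fun s hs => by
      obtain ⟨ε, a1, a2, a3⟩ := dsg _ G _ _ (Cm.cm_fl _ h) hP.fl
        (cmS _ N m1 η V ρ hm n1 h (hg s hs)).2.2.1 hP.ds
      refine ⟨ε, a1, fun n => (a2 n).trans ?_, a3⟩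
      rw [mul_assoc]
      exact mul_le_mul_of_nonneg_left (by nlinarith) hCG.le
  have cv := fun s (hs : s ∈ Ioo t t') =>
    cvS _ N m1 η V ρ _ Cs hm n2 h (hg s (Ioo_subset_Icc_self hs)) (hE s hs)
  have cv0 := cvS _ N m1 η V ρ _ Cs hm n2 h (hg t t0) hE0
  have he : ∀ s ∈ Ioo t t', 0 ≤ e s := fun s hs => (sq_nonneg ρ).trans (cv s hs).1
  have he0 : 0 ≤ e0 := (sq_nonneg ρ).trans cv0.1
  have eq0 : ∀ y : E4, ‖y‖ < 32 → glu 16 24 (cm (F.m t) N (ρ / 64)) G y = cm (F.m t) N (ρ / 64) y :=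
    fun y hy => by rw [glu, hq (by simpa using hy), sub_self, smul_zero, add_zero]
  have eq1 : glu 16 24 (cm (F.m t) N (ρ / 64)) G = G := funext fun y => by
    rcases lt_or_ge ‖y‖ 32 with c | c
    · rw [eq0 y c, hq (by simpa using c)]
    · exact glu_hi (by norm_num) (by norm_num) (by linarith)
  obtain ⟨c1, c2⟩ := core (fam h F hP.fl.riem) (D := CV) (e0 := CV * e0) (by positivity) htt hJ
    hCV.le hi he (fun s hs => ⟨(fl s).riem, fun y => jg_mono (DS.sml (ds s hs) y) (by norm_num)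
      (hδ1 ▸ mul_le_mul_of_nonneg_left (add_le_add hδ n4) (by positivity))⟩)
    (fun s hs => ric_jet h _ (mul_nonneg hCV.le (he s hs)) fun x x1 x2 => ((cv s hs).2.2 x x1 x2).2)
    fun y y1 y2 i j => by
      rw [ricci_congr ((ev_lt (show ‖y‖ < 32 by linarith)).mono eq0)]
      simpa [J1] using ric_jet h _ (mul_nonneg hCV.le he0)
        (fun x x1 x2 => (cv0.2.2 x x1 x2).2) y y1 y2 0 (by norm_num) i j
  have hI : 0 ≤ ∫ s in t..t', e s ^ 2 :=
    intervalIntegral.integral_nonneg htt.le fun s _ => sq_nonneg _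
  have hY : (CV * e0 + C * CV * (((ρ / 64) ^ 2)⁻¹ * ∫ s in t..t', e s)) ^ 2 ≤
      Z * (e0 ^ 2 + (∫ s in t..t', e s ^ 2) / ρ ^ 2) := by
    have a1 := (sq_int_le htt hi hi2).trans (mul_le_mul_of_nonneg_right hρt hI)
    have a2 : (((ρ / 64) ^ 2)⁻¹ * ∫ s in t..t', e s) ^ 2 ≤
        4096 ^ 2 * ((∫ s in t..t', e s ^ 2) / ρ ^ 2) := by
      rw [mul_pow]
      exact (mul_le_mul_of_nonneg_left a1 (by positivity)).trans_eq (by field_simp; ring)
    have a3 : 0 ≤ (∫ s in t..t', e s ^ 2) / ρ ^ 2 := by positivity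
    generalize ((ρ / 64) ^ 2)⁻¹ * ∫ s in t..t', e s = X at a2
    generalize (∫ s in t..t', e s ^ 2) / ρ ^ 2 = I at a2 a3
    have a4 := mul_le_mul_of_nonneg_left a2 (sq_nonneg (C * CV))
    have a5 := mul_nonneg (sq_nonneg CV) a3
    have a6 := mul_nonneg (sq_nonneg (C * CV)) (sq_nonneg e0)
    have a7 := sq_nonneg (CV * e0 - C * CV * X)
    rw [hZ]
    linarith
  generalize CV * e0 + C * CV * (((ρ / 64) ^ 2)⁻¹ * ∫ s in t..t', e s) = Y at c1 c2 hY
  have hB0 : 0 ≤ (2 + K ^ 2) * (|V| + 3) + C * CV := by positivity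
  have hCC : 0 ≤ C * CV := by positivity
  have key := ftc_abs (φ := fun s => 2 * mass (F.m s) (N.Om (ρ / 16)))
    (b := fun s => ((2 + K ^ 2) * (|V| + 3) + C * CV) * e s ^ 2 + C * CV * Y ^ 2) htt.le
    (fun s hs => (d_sv h hB hP.fl st hs).continuousWithinAt)
    (fun s hs => (d_sv h hB hP.fl st (Ioo_subset_Icc_self hs)).hasDerivAt (Icc_mem_nhds hs.1 hs.2))
    (((mcW hB _ (by rw [show ρ / 16 = ρ / 64 * 4 by ring]; exact om_meas h (by norm_num) (by
      norm_num))).mono (by rw [uIcc_of_le htt.le]; exact hJ)).intervalIntegrable.const_mul 2)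
    ((hi2.const_mul _).add intervalIntegrable_const) fun s hs => by
      have hs' := Ioo_subset_Icc_self hs
      have hR : Rough (F.m s) N 0 (1 / 100) V := ⟨fun x hx => jg_mono ((hg s hs').jet x hx)
        (Nat.zero_le _) ((mul_le_mul n3 (Ad.wt_le h.top.a_pos hx) (I.wt_nonneg _ _ _)
          (by norm_num)).trans (by norm_num)), (hg s hs').vol⟩
      have a1 := mass_est h (F.m s) (hK s (hJ hs')) (fun x x1 x2 => ((cv s hs).2.2 x x1 x2).1)
        (hB.ok.evo.Q_nonneg 0 s (hJ hs')) (Ad.vol_le h hR (by linarith) le_rfl)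
      have a2 : |(Nat.card N.Γ : ℝ)⁻¹ * (ρ / 64) ^ 2 * ∫ y, ph y * er (glu 16 24
          (cm (F.m s) N (ρ / 64)) G) (hv ((ρ / 64) ^ 2)⁻¹ (cm (F.m s) N (ρ / 64))) y| ≤
          C * CV * (e s * Y) := by
        rw [mul_assoc, abs_mul, abs_mul, abs_of_nonneg (sq_nonneg (ρ / 64)),
          abs_of_nonneg (by positivity : 0 ≤ (Nat.card N.Γ : ℝ)⁻¹)]
        refine (mul_le_of_le_one_left (by positivity) (Nat.cast_inv_le_one _)).trans
          ((mul_le_mul_of_nonneg_left (c2 s hs) (sq_nonneg _)).trans_eq (by field_simp))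
      have a3 : (2 * (e s / ρ ^ 2) ^ 2 + K ^ 2) * ((|V| + 3) * ρ ^ 4) ≤
          (2 + K ^ 2) * (|V| + 3) * e s ^ 2 := by
        have b1 : ρ ^ 4 ≤ e s ^ 2 := by
          rw [show ρ ^ 4 = (ρ ^ 2) ^ 2 by ring]; exact pow_le_pow_left₀ (sq_nonneg ρ) (cv s hs).1 2
        have b2 := mul_le_mul_of_nonneg_left b1 (by positivity : 0 ≤ K ^ 2 * (|V| + 3))
        have b3 : 2 * (e s / ρ ^ 2) ^ 2 * ((|V| + 3) * ρ ^ 4) = 2 * (|V| + 3) * e s ^ 2 := by
          field_simp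
        linarith
      have a4 := mul_le_mul_of_nonneg_left (show e s * Y ≤ e s ^ 2 + Y ^ 2 by
        nlinarith [sq_nonneg (e s - Y), sq_nonneg (e s), sq_nonneg Y]) hCC
      rw [add_sub_right_comm]
      exact (abs_add_le _ _).trans (by linarith)
  refine ⟨_, ⟨fl t', inv_glu (Cm.cm_inv _ h) hP.inv, ds t' t1, fun y hy =>
    glu_lo (by norm_num) (by norm_num) (le_of_lt (by simpa using hy))⟩, ?_, ?_⟩
  · have a1 := rlg _ G Y (Cm.cm_fl _ h) hP.fl (c1 t' t1)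
    have a2 := Ad.RL_nonneg G 1
    have a3 : 0 ≤ (∫ s in t..t', e s ^ 2) / ρ ^ 2 := by positivity
    have a4 := mul_le_mul_of_nonneg_left hY hW
    generalize (∫ s in t..t', e s ^ 2) / ρ ^ 2 = I at a3 a4 ⊢
    have a5 := mul_nonneg (add_nonneg hB0 (mul_nonneg hCC hZ0))
      (by positivity : 0 ≤ RL G 1 + e0 ^ 2 + e1 ^ 2 + I)
    have a6 := mul_nonneg (mul_nonneg hW hZ0) (by positivity : 0 ≤ RL G 1 + e1 ^ 2)
    linarith [sq_nonneg e0, sq_nonneg e1]
  · rw [intervalIntegral.integral_const_mul, intervalIntegral.integral_add (hi2.const_mul _)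
      intervalIntegrable_const, intervalIntegral.integral_const_mul,
      intervalIntegral.integral_const, smul_eq_mul, eq1] at key
    refine key.trans ?_
    have a1 : (t' - t) * Y ^ 2 ≤ Z * (ρ ^ 2 * e0 ^ 2 + ∫ s in t..t', e s ^ 2) :=
      (mul_le_mul hρt hY (sq_nonneg _) (sq_nonneg _)).trans_eq (by field_simp)
    have a2 := mul_le_mul_of_nonneg_left a1 hCC
    generalize ∫ s in t..t', e s ^ 2 = I at hI a2 ⊢
    have a3 := mul_nonneg (by positivity : 0 ≤ 1 + W * Z)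
      (by positivity : 0 ≤ I + ρ ^ 2 * (e0 ^ 2 + e1 ^ 2))
    have a4 := mul_nonneg hB0 (by positivity : 0 ≤ ρ ^ 2 * (e0 ^ 2 + e1 ^ 2))
    have a5 := mul_nonneg (mul_nonneg hCC hZ0) (by positivity : 0 ≤ ρ ^ 2 * e1 ^ 2)
    linarith

end Crest.Agent.N207.Ph

end
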