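import Crest.Agent.N207.Ph.Asm
import Crest.Agent.N207.Ph.Ad4
import Crest.Agent.N207.Ph.Rg
import Crest.Agent.N207.Ph.En3
import Crest.Agent.N207.Ph.Hc5
import Crest.Agent.N207.Ph.Pb2
import Crest.Agent.N207.Ph.Int
import Crest.Agent.N207.Ph.Ve
import Crest.Agent.N207.Ph.Gl
import Crest.Agent.N207.Ph.Ws4
import Crest.Agent.N207.Ph.ExD

/-!
# Row 207, block PHI (helper85): `PHI'` from the three last leaves
-/

set_option autoImplicit false

open scoped ContDiff Manifold

namespace Crest.Agent.N207.Ph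

open Sk

variable {M : Type*} [TopologicalSpace M] [ChartedSpace E4 M] [IsManifold 𝓘(ℝ, E4) ∞ M]
  [CompactSpace M] [T3Space M] [ConnectedSpace M] [MeasurableSpace M] [BorelSpace M]

theorem phi_of {F : Flow M} (hB : Base F) (EXA : EXAStmt) (EXB : EXBStmt) (SW : SWStmt M) :
    PHI' F :=
  phi' (EXB EXA ve gl) (rg en qu hc) (ws hB) (mcW hB) SW
    (ad hB en qu pb pball hc int (cmS M) (cvS M))

end Crest.Agent.N207.Ph
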