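import Crest.Agent.N207.Ph.NwDefs
import Crest.Agent.N207.G.Jb
import Crest.Agent.N207.TR.Core
import Crest.Agent.N207.Rad.Crd

/-!
# Row 207, block PHI (helper11): harmonic coordinates, part 1: calculus on cells, coefficients
-/

set_option autoImplicit false
set_option linter.unusedSectionVars false

open scoped ContDiff Topology
open Set Filter Metric Asymptotics
open Crest.GeometryTopology.CoordMetric

noncomputable section

namespace Crest.Agent.N207.Ph.Hc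

open Crest.Agent.NLib.Ell Crest.Agent.N207.G Sk TR

variable {F : Type} [NormedAddCommGroup F] [NormedSpace ℝ F]

/-- partial derivatives of vector valued functions -/
def pv (i : Fin 4) (w : E4 → F) (x : E4) : F := fderiv ℝ w x (EuclideanSpace.single i 1)

theorem sc_pos (y : E4) : 0 < ‖y‖ + 1 := by positivity

theorem cl_zero (y : E4) : cl y 0 = y := by simp [cl]

theorem cl_sm (y : E4) : ContDiff ℝ ∞ (cl y) := by unfold cl; fun_prop

theorem cl_norm {y Y : E4} (hY : Y ∈ ball (0 : E4) 1) :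
    3 / 4 * (‖y‖ + 1) ≤ ‖cl y Y‖ + 1 ∧ ‖cl y Y‖ + 1 ≤ 5 / 4 * (‖y‖ + 1) := by
  have h1 : ‖cl y Y - y‖ ≤ (‖y‖ + 1) / 4 := by
    rw [cl, add_sub_cancel_left, norm_smul, Real.norm_of_nonneg (by positivity)]
    exact mul_le_of_le_one_right (by positivity) (mem_ball_zero_iff.1 hY).le
  have h2 := abs_le.1 ((abs_norm_sub_norm_le _ _).trans h1)
  constructor <;> linarith [h2.1, h2.2]

theorem fderiv_cl (w : E4 → F) (y Y : E4) :
    fderiv ℝ (fun Y => w (cl y Y)) Y = ((‖y‖ + 1) / 4) • fderiv ℝ w (cl y Y) := by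
  have h := fderiv_comp_smul (𝕜 := ℝ) (f := fun z => w (y + z)) (x := Y) ((‖y‖ + 1) / 4)
  rw [fderiv_comp_add_left] at h
  exact h

theorem exists_shell (y : E4) : ∃ l : ℕ, 2 ^ l ≤ ‖y‖ + 1 ∧ ‖y‖ + 1 ≤ 2 ^ (l + 1) := by
  obtain ⟨l, h1, h2⟩ := exists_nat_pow_near (x := ‖y‖ + 1) (y := 2)
    (by linarith [norm_nonneg y]) one_lt_two
  exact ⟨l, h1, h2.le⟩

variable {k : ℕ} {M N : ℝ} {f g : E4 → F} {y : E4}

theorem ck_val (h : CK k M f y) : ‖f y‖ ≤ M := by
  have := CKA.bdd h (mem_ball_self one_pos)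
  rwa [cl_zero] at this

theorem ck_nonneg (h : CK k M f y) : 0 ≤ M := (norm_nonneg _).trans (ck_val h)

theorem ck_pv (h : CK (k + 1) M f y) (i : Fin 4) : CK k (4 / (‖y‖ + 1) * M) (pv i f) y := by
  have hs := sc_pos y
  have h1 := (CKA.pd h i).smul isOpen_ball (4 / (‖y‖ + 1))
  rw [abs_of_pos (by positivity)] at h1
  refine h1.congr isOpen_ball fun Y _ => ?_
  rw [fderiv_cl, smul_apply, smul_smul,
    show 4 / (‖y‖ + 1) * ((‖y‖ + 1) / 4) = 1 by field_simp, one_smul]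
  rfl

theorem jb_cl {m : ℕ} {Y : E4} {c : ℝ} (hY : Y ∈ ball (0 : E4) 1)
    (h : JB m f (cl y Y) (‖cl y Y‖ + 1) c) : JB m (fun Y => f (cl y Y)) Y 1 c := by
  have hs := sc_pos y
  have h1 : JB m f (cl y Y) ((‖y‖ + 1) / 4) c := by
    simpa using h.scale (l := 1) (s' := (‖y‖ + 1) / 4) (by positivity) (by positivity) le_rfl
      (by linarith [(cl_norm (y := y) hY).1])
  have h2 : JB m (fun z => f (y + z)) (((‖y‖ + 1) / 4) • Y) ((‖y‖ + 1) / 4) c :=
    ⟨h1.sm.comp (f := fun z => y + z) _ (by fun_prop), fun j hj => by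
      rw [iteratedFDeriv_comp_add_left]; exact h1.bd j hj⟩
  exact h2.unit (by positivity)

theorem cka_of_jb {c : ℝ} {u : E4 → F} (h : ∀ Y ∈ ball (0 : E4) 1, JB (k + 1) u Y 1 c) :
    CKA (1 / 2) (ball (0 : E4) 1) k (2 * c) u :=
  CKA.of_bounds isOpen_ball (convex_ball _ _) (by norm_num) (by norm_num)
    (fun Y hY => ((h Y hY).sm.of_le (kle _)).contDiffWithinAt) fun j hj Y hY => by
      simpa using (h Y hY).bd j hj

theorem ck_of_jb {c : ℝ} (h : ∀ Y ∈ ball (0 : E4) 1, JB (k + 1) f (cl y Y) (‖cl y Y‖ + 1) c) :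
    CK k (2 * c) f y := cka_of_jb fun Y hY => jb_cl hY (h Y hY)

theorem eq_cl (f : E4 → F) (y : E4) :
    f = fun x => (fun z => f (cl y (((‖y‖ + 1) / 4)⁻¹ • z))) (x - y) := by
  funext x
  have hs := sc_pos y
  simp only [cl]
  rw [smul_inv_smul₀ (by positivity), add_sub_cancel]

theorem ck_contDiffAt (h : CK k M f y) : ContDiffAt ℝ k f y := by
  have h1 : ContDiffAt ℝ k (fun Y => f (cl y Y)) (((‖y‖ + 1) / 4)⁻¹ • (y - y)) := by
    rw [sub_self, smul_zero]
    exact (CKA.contDiffOn isOpen_ball (by norm_num) h).contDiffAt (ball_mem_nhds _ one_pos)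
  rw [eq_cl f y]
  exact h1.comp (f := fun x => ((‖y‖ + 1) / 4)⁻¹ • (x - y)) y (by fun_prop)

theorem jb_of_ck (hf : ContDiffAt ℝ ∞ f y) (h : CK k M f y) : JB k f y (‖y‖ + 1) (16 ^ k * M) := by
  have hs := sc_pos y
  have hM := ck_nonneg h
  refine ⟨hf, fun j hj => ?_⟩
  have h1 := ((CKA.of_le h hj).ho_iter isOpen_ball).bdd 0 (mem_ball_self one_pos)
  have h2 := norm_comp_smul (fun Y => f (cl y Y)) (a := ((‖y‖ + 1) / 4)⁻¹) (by positivity) 0 j
  rw [smul_zero] at h2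
  have h3 : iteratedFDeriv ℝ j f y =
      iteratedFDeriv ℝ j (fun z => f (cl y (((‖y‖ + 1) / 4)⁻¹ • z))) 0 := by
    have := iteratedFDeriv_comp_sub (𝕜 := ℝ)
      (f := fun z => f (cl y (((‖y‖ + 1) / 4)⁻¹ • z))) j y y
    rw [sub_self] at this
    rw [← this]
    exact congrArg (fun u => iteratedFDeriv ℝ j u y) (eq_cl f y)
  rw [h3]
  calc _ ≤ ((4 : ℕ) ^ j * M * ((‖y‖ + 1) / 4)⁻¹ ^ j) * (‖y‖ + 1) ^ j := by
        gcongr; exact h2.trans (by gcongr)
    _ = 16 ^ j * M := by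
        rw [mul_assoc, ← mul_pow, show ((‖y‖ + 1) / 4)⁻¹ * (‖y‖ + 1) = 4 by field_simp,
          show (16 : ℝ) = 4 * 4 by norm_num, mul_pow]
        push_cast; ring
    _ ≤ _ := by gcongr; norm_num

/-- derivatives of pointwise limits -/
theorem lim_pv [CompleteSpace F] {u : ℕ → E4 → F} (hu : ∀ y, ∃ M, ∀ n, CK (k + 1) M (u n) y)
    (hf : ∀ x, Tendsto (fun n => u n x) atTop (𝓝 (f x))) (i : Fin 4) (x : E4) :
    Tendsto (fun n => pv i (u n) x) atTop (𝓝 (pv i f x)) := by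
  obtain ⟨M, hM⟩ := hu x
  have hs := sc_pos x
  have h := (CKA.limit_one (f := fun Y => f (cl x Y)) (u := fun n Y => u n (cl x Y)) isOpen_ball
    (by norm_num) (Eventually.of_forall fun n => CKA.of_le (hM n) (by omega))
    (fun Y _ => hf _) (mem_ball_self one_pos)).2 (EuclideanSpace.single i 1)
  simp only [fderiv_cl, cl_zero, smul_apply] at h
  have h2 := h.const_smul ((‖x‖ + 1) / 4)⁻¹
  simpa only [pv, inv_smul_smul₀ (show (‖x‖ + 1) / 4 ≠ 0 by positivity)] using h2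

theorem wd_mono {a b : ℕ → ℝ} (h : WD k a f) (hab : ∀ l, a l ≤ b l) : WD k b f :=
  fun l y h1 h2 => CKA.mono (h l y h1 h2) (hab l)

theorem wd_ws {a : ℕ → ℝ} (h : WD k a f) : WS a f := fun l y h1 h2 => ck_val (h l y h1 h2)

theorem wd_pv {a : ℕ → ℝ} (h : WD (k + 1) a f) (i : Fin 4) :
    WD k (fun l => 4 / 2 ^ l * a l) (pv i f) := fun l y h1 h2 =>
  CKA.mono (ck_pv (h l y h1 h2) i) (by
    have := ck_nonneg (h l y h1 h2)
    show 4 / (‖y‖ + 1) * a l ≤ 4 / 2 ^ l * a l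
    gcongr)

theorem wd_ck {a : ℕ → ℝ} (h : WD k a f) (y : E4) : ∃ M, CK k M f y := by
  obtain ⟨l, h1, h2⟩ := exists_shell y
  exact ⟨_, h l y h1 h2⟩

theorem wd_id (k : ℕ) : WD k (fun l => 8 * 2 ^ l) fun x : E4 => x := fun l y _ h2 => by
  refine CKA.mono (ck_of_jb (c := 5 / 4 * (‖y‖ + 1)) fun Y hY => ⟨contDiffAt_fun_id, fun j _ => ?_⟩)
    (by rw [pow_succ] at h2; nlinarith [norm_nonneg y])
  have h := (cl_norm (y := y) hY).2
  rcases j with _ | _ | j
  · simp only [norm_iteratedFDeriv_zero, pow_zero, mul_one]; linarith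
  · rw [zero_add, norm_iteratedFDeriv_one, fderiv_fun_id, pow_one]
    exact (mul_le_of_le_one_left (by positivity) ContinuousLinearMap.norm_id_le).trans h
  · rw [← norm_iteratedFDeriv_fderiv, show (fderiv ℝ fun x : E4 => x) =
      fun _ => ContinuousLinearMap.id ℝ E4 from funext fun _ => fderiv_fun_id,
      iteratedFDeriv_const_of_ne (by omega)]
    simp only [Pi.zero_apply, norm_zero, zero_mul]
    positivity

/-! ### the coefficients -/

/-- `δ - G⁻¹` -/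
def hd (G : MetricField 4) (a b : Fin 4) (x : E4) : ℝ :=
  (1 : Matrix (Fin 4) (Fin 4) ℝ) a b - (G x)⁻¹ a b

/-- `G^{ab} Γ^c_{ab}` -/
def gm (G : MetricField 4) (c : Fin 4) (x : E4) : ℝ :=
  ∑ a, ∑ b, (G x)⁻¹ a b * christoffel G x c a b

theorem gm_cl (G : MetricField 4) (c : Fin 4) (y Y : E4) :
    gm (fun Y => G (cl y Y)) c Y = (‖y‖ + 1) / 4 * gm G c (cl y Y) := by
  have e : ∀ i a b, pderiv i (fun Y => G (cl y Y) a b) Y =
      (‖y‖ + 1) / 4 * pderiv i (fun x => G x a b) (cl y Y) := fun i a b => by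
    unfold pderiv
    rw [fderiv_cl (fun x => G x a b)]; rfl
  simp only [gm, christoffel, inverseField, e, Finset.mul_sum]
  refine Finset.sum_congr rfl fun a _ => Finset.sum_congr rfl fun b _ =>
    Finset.sum_congr rfl fun l _ => by ring

/-- the data of `coef` -/
structure Dc (m : ℕ) (K : ℝ) where
  g : MetricField 4
  x : E4
  ε : ℝ
  riem : IsRiemannianOn g univ
  small : JG 0 g x 1 (1 / 100)
  jet : JG (m + 1) g x 1 ε
  le : ε ≤ K

theorem coef (m : ℕ) (K : ℝ) : ∃ C : ℝ, 0 < C ∧ ∀ D : Dc m K,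
    (∀ a b, JB m (hd D.g a b) D.x 1 (C * D.ε)) ∧ ∀ c, JB m (gm D.g c) D.x 1 (C * D.ε) := by
  have h0 : ∀ D : Dc m K, 0 ≤ D.ε := fun D => Rad.jg_nonneg D.jet
  have hw : (fun D : Dc m K => D.ε) =O[⊤] fun _ => (1 : ℝ) :=
    IsBigO.of_bound K (eventually_top.2 fun D => by simpa [abs_of_nonneg (h0 D)] using D.le)
  have hg : ∀ a b, FO (m + 1) (fun D : Dc m K => D.ε) (fun D => dv D.g a b) fun D => D.x :=
    fun a b => FO.of_le (fun D => sm_dv D.riem (mem_univ _) a b) (C := 1) fun k hk D => by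
      simpa [J1, abs_of_nonneg (h0 D)] using D.jet k hk a b
  have hp : ∀ D : Dc m K, Jt.Pos (1 / 2) (D.g D.x) := fun D =>
    pos_of_dv D.riem (mem_univ _) (Rad.jg_ent D.small)
  have h1 : ∀ a b, FO m (fun _ => 1) (fun (D : Dc m K) y => D.g y a b) fun D => D.x :=
    fun a b => by
      have := (((hg a b).wt hw).mono (Nat.le_succ m)).add
        (FO.const ((1 : Matrix (Fin 4) (Fin 4) ℝ) a b))
      simpa [dv] using this
  have h2 : FO m (fun _ => 1) (fun (D : Dc m K) y => fun a b => D.g y a b) fun D => D.x :=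
    FO.pi fun a => FO.pi fun b => h1 a b
  obtain ⟨C, -, hC⟩ := h2.le
  have h3 : ∀ a b, FO m (fun _ => 1) (fun (D : Dc m K) y => (D.g y)⁻¹ a b) fun D => D.x :=
    fun a b => FO.smoothOn (Φ := fun A : Fin 4 → Fin 4 → ℝ => (Matrix.of A)⁻¹ a b)
      ((isCompact_closedBall (0 : Fin 4 → Fin 4 → ℝ) C).inter_right (Jt.isClosed_pos (1 / 2)))
      (fun A hA => TR.sm_inv a b A (hA.2.posDef (by norm_num))) h2 fun j =>
        ⟨mem_closedBall_zero_iff.2 (by
          simpa [norm_iteratedFDeriv_zero] using hC 0 (Nat.zero_le _) j), hp j⟩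
  have h4 : ∀ a b c, FO m (fun D : Dc m K => D.ε) (fun D => pderiv c (fun y => D.g y a b))
      fun D => D.x := fun a b c => by simpa only [pd_dv] using (hg a b).pd c
  have h5 : ∀ c, FO m (fun D : Dc m K => D.ε) (fun D => gm D.g c) fun D => D.x := fun c =>
    FO.sum Finset.univ fun a _ => FO.sum Finset.univ fun b _ => (h3 a b).mul
      ((FO.const (1 / 2 : ℝ)).mul (FO.sum Finset.univ fun d _ => (h3 c d).mul
        (((h4 b d a).add (h4 a d b)).sub (h4 a b d))))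
  have h6 : ∀ a b, FO m (fun D : Dc m K => D.ε) (fun D => hd D.g a b) fun D => D.x := fun a b => by
    refine (FO.sum Finset.univ fun c _ => (h3 a c).mul ((hg c b).mono (Nat.le_succ m))).congr
      fun D => Eventually.of_forall fun y => ?_
    simp only [hd, dv, mul_sub, Finset.sum_sub_distrib, ginv_g D.riem (mem_univ y),
      Matrix.one_apply]
    simp
  have h7 : FO m (fun D : Dc m K => D.ε)
      (fun D y => fun p : (Fin 4 × Fin 4) ⊕ Fin 4 =>
        Sum.elim (fun q => hd D.g q.1 q.2 y) (fun c => gm D.g c y) p) fun D => D.x :=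
    FO.pi fun p => by
      rcases p with q | c
      · exact h6 q.1 q.2
      · exact h5 c
  obtain ⟨C', hC', h8⟩ := h7.le
  have h9 : ∀ (D : Dc m K) p, JB m (fun y => Sum.elim (fun q : Fin 4 × Fin 4 => hd D.g q.1 q.2 y)
      (fun c => gm D.g c y) p) D.x 1 (C' * D.ε) := fun D p => by
    have := JB.clm (ContinuousLinearMap.proj (R := ℝ) (φ := fun _ : (Fin 4 × Fin 4) ⊕ Fin 4 => ℝ) p)
      zero_le_one ⟨h7.sm D, fun k hk => by simpa [abs_of_nonneg (h0 D)] using h8 k hk D⟩ (l := 1)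
      (ContinuousLinearMap.opNorm_le_bound _ zero_le_one fun v => by
        simpa using norm_le_pi_norm v p)
    simpa using this
  exact ⟨C', hC', fun D => ⟨fun a b => h9 D (Sum.inl (a, b)), fun c => h9 D (Sum.inr c)⟩⟩

/-- the coefficients on one cell -/
theorem coef_ck (k : ℕ) (K : ℝ) : ∃ C : ℝ, 0 < C ∧ ∀ (G : MetricField 4) (y : E4) (ε : ℝ),
    IsRiemannianOn G univ → Sml 0 G (1 / 100) → ε ≤ K →
    (∀ Y ∈ ball (0 : E4) 1, JG (k + 2) G (cl y Y) (‖cl y Y‖ + 1) ε) →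
    (∀ a b, CK k (C * ε) (hd G a b) y) ∧ ∀ c, CK k (C * ε / (‖y‖ + 1)) (gm G c) y := by
  obtain ⟨C, hC, h⟩ := coef (k + 1) K
  refine ⟨8 * C, by positivity, fun G y ε hG h0 hK hJ => ?_⟩
  have hs := sc_pos y
  have hε : 0 ≤ ε := Rad.jg_nonneg (hJ 0 (mem_ball_self one_pos))
  have hr : IsRiemannianOn (fun Y => G (cl y Y)) univ :=
    ⟨isOpen_univ, fun i j => (hG.contDiffOn i j).comp (cl_sm y).contDiffOn (mapsTo_univ _ _),
      fun Y _ => hG.posDef _ (mem_univ _)⟩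
  have hj : ∀ {m c}, ∀ Y ∈ ball (0 : E4) 1, JG m G (cl y Y) (‖cl y Y‖ + 1) c →
      JG m (fun Y => G (cl y Y)) Y 1 c := fun Y hY hh j hj a b =>
    (jb_cl (f := dv G a b) hY ⟨sm_dv hG (mem_univ _) a b, fun j hj => hh j hj a b⟩).bd j hj
  have hD : ∀ Y ∈ ball (0 : E4) 1,
      (∀ a b, JB (k + 1) (fun Y => hd G a b (cl y Y)) Y 1 (C * ε)) ∧
        ∀ c, JB (k + 1) (gm (fun Y => G (cl y Y)) c) Y 1 (C * ε) := fun Y hY =>
    h ⟨fun Y => G (cl y Y), Y, ε, hr, hj Y hY (h0 _), hj Y hY (hJ Y hY), hK⟩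
  refine ⟨fun a b => CKA.mono (cka_of_jb fun Y hY => (hD Y hY).1 a b) (by nlinarith), fun c => ?_⟩
  have h1 := (cka_of_jb fun Y hY => (hD Y hY).2 c).const_mul isOpen_ball (4 / (‖y‖ + 1))
  rw [abs_of_pos (by positivity)] at h1
  refine (h1.congr isOpen_ball fun Y _ => ?_).mono (le_of_eq (by ring))
  rw [gm_cl]; field_simp

end Crest.Agent.N207.Ph.Hc

end
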