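import Crest.Agent.N207.Ph.NwDefs

/-!
# Row 207, block PHI (helper48): Newton kit, part 2: calculus on cells, `rec : RECStmt`
-/

set_option autoImplicit false
set_option linter.unusedSectionVars false

open scoped ContDiff Topology
open MeasureTheory Set Filter Metric
open Crest.GeometryTopology.CoordMetric Crest.GeometryTopology.ChartCurvature

noncomputable section

namespace Crest.Agent.N207.Ph

open Crest.Agent.NLib.Ell (CKA ei)
open Crest.Agent.NLib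

variable {F G : Type} [NormedAddCommGroup F] [NormedSpace ℝ F] [NormedAddCommGroup G]
  [NormedSpace ℝ G]

/-! ### cells and levels -/

theorem sc_pos (y : E4) : 0 < ‖y‖ + 1 := by positivity

theorem cl_zero (y : E4) : cl y 0 = y := by simp [cl]

theorem norm_cl_sub {y Y : E4} : ‖cl y Y - y‖ = (‖y‖ + 1) / 4 * ‖Y‖ := by
  rw [cl, add_sub_cancel_left, norm_smul, Real.norm_of_nonneg (by positivity)]

theorem cl_lt {y Y : E4} (hY : Y ∈ ball (0 : E4) 1) : ‖cl y Y - y‖ < (‖y‖ + 1) / 4 := by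
  rw [norm_cl_sub]
  rw [mem_ball_zero_iff] at hY
  exact mul_lt_of_lt_one_right (by positivity) hY

theorem sc_near {y z : E4} (h : ‖z - y‖ < (‖y‖ + 1) / 4) :
    3 / 4 * (‖y‖ + 1) < ‖z‖ + 1 ∧ ‖z‖ + 1 < 5 / 4 * (‖y‖ + 1) := by
  have h1 := abs_norm_sub_norm_le z y
  rw [abs_le] at h1
  constructor <;> linarith [h1.1, h1.2]

theorem sc_cl {y Y : E4} (hY : Y ∈ ball (0 : E4) 1) :
    3 / 4 * (‖y‖ + 1) < ‖cl y Y‖ + 1 ∧ ‖cl y Y‖ + 1 < 5 / 4 * (‖y‖ + 1) := sc_near (cl_lt hY)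

theorem exists_lv (y : E4) : ∃ l : ℕ, (2 : ℝ) ^ l ≤ ‖y‖ + 1 ∧ ‖y‖ + 1 < 2 ^ (l + 1) :=
  exists_nat_pow_near (by linarith [norm_nonneg y]) one_lt_two

theorem pow_lt_imp {i j : ℕ} (h : (2 : ℝ) ^ i < 2 ^ j) : i < j :=
  (pow_lt_pow_iff_right₀ one_lt_two).1 h

/-- neighbouring points have neighbouring levels -/
theorem lv_near {s t : ℝ} {l i : ℕ} (h1 : 2 ^ l ≤ s) (h2 : s ≤ 2 ^ (l + 1)) (h3 : 2 ^ i ≤ t)
    (h4 : t ≤ 2 ^ (i + 1)) (h5 : s < 2 * t) (h6 : t < 2 * s) : i ≤ l + 1 ∧ l ≤ i + 1 := by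
  constructor
  · have : (2 : ℝ) ^ i < 2 ^ (l + 2) := by
      have e : (2 : ℝ) ^ (l + 2) = 2 * 2 ^ (l + 1) := by ring
      linarith
    have := pow_lt_imp this; omega
  · have : (2 : ℝ) ^ l < 2 ^ (i + 2) := by
      have e : (2 : ℝ) ^ (i + 2) = 2 * 2 ^ (i + 1) := by ring
      linarith
    have := pow_lt_imp this; omega

theorem exists_lv_cl {y Y : E4} (hY : Y ∈ ball (0 : E4) 1) {l : ℕ} (h1 : 2 ^ l ≤ ‖y‖ + 1)
    (h2 : ‖y‖ + 1 ≤ 2 ^ (l + 1)) : ∃ i : ℕ, (2 : ℝ) ^ i ≤ ‖cl y Y‖ + 1 ∧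
      ‖cl y Y‖ + 1 ≤ 2 ^ (i + 1) ∧ i ≤ l + 1 ∧ l ≤ i + 1 := by
  obtain ⟨i, hi, hi'⟩ := exists_lv (cl y Y)
  have h := sc_cl (y := y) hY
  have := sc_pos y
  exact ⟨i, hi, hi'.le, lv_near h1 h2 hi hi'.le (by linarith [h.1]) (by linarith [h.2])⟩

theorem exists_pt (l : ℕ) : ∃ y : E4, (2 : ℝ) ^ l ≤ ‖y‖ + 1 ∧ ‖y‖ + 1 ≤ 2 ^ (l + 1) := by
  have h1 : (1 : ℝ) ≤ 2 ^ l := one_le_pow₀ one_le_two
  refine ⟨((2 : ℝ) ^ l - 1) • (ei 0 : E4), ?_⟩
  rw [norm_smul, Ell.norm_ei, Real.norm_of_nonneg (by linarith), pow_succ]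
  constructor <;> linarith

theorem fderiv_cl (f : E4 → F) (y Y : E4) :
    fderiv ℝ (fun Y => f (cl y Y)) Y = ((‖y‖ + 1) / 4) • fderiv ℝ f (cl y Y) := by
  have h := fderiv_comp_smul (𝕜 := ℝ) (f := fun z => f (y + z)) (x := Y) ((‖y‖ + 1) / 4)
  rw [fderiv_comp_add_left] at h
  exact h

theorem iter_smul (f : E4 → F) {r : ℝ} (hr : r ≠ 0) (j : ℕ) (x : E4) :
    iteratedFDeriv ℝ j (fun z => f (r • z)) x = r ^ j • iteratedFDeriv ℝ j f (r • x) := by
  let g : E4 ≃L[ℝ] E4 := ContinuousLinearEquiv.smulLeft (Units.mk0 r hr)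
  have hg : ∀ z, g z = r • z := fun z => rfl
  have h := g.iteratedFDerivWithin_comp_right f uniqueDiffOn_univ (mem_univ (g x)) j
  rw [preimage_univ, iteratedFDerivWithin_univ, iteratedFDerivWithin_univ] at h
  have e : (fun z => f (r • z)) = f ∘ g := rfl
  rw [e, h, hg]
  ext m
  have e2 : (fun i => (g : E4 →L[ℝ] E4) (m i)) = fun i => r • m i := rfl
  rw [ContinuousMultilinearMap.compContinuousLinearMap_apply, e2,
    ContinuousMultilinearMap.map_smul_univ]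
  simp

theorem iter_cl (f : E4 → F) (j : ℕ) (y Y : E4) :
    iteratedFDeriv ℝ j (fun Y => f (cl y Y)) Y =
      ((‖y‖ + 1) / 4) ^ j • iteratedFDeriv ℝ j f (cl y Y) := by
  have h := iter_smul (fun z => f (y + z)) (r := (‖y‖ + 1) / 4) (by positivity) j Y
  rw [iteratedFDeriv_comp_add_left] at h
  exact h

theorem contDiff_cl (y : E4) : ContDiff ℝ ∞ (cl y) :=
  contDiff_const.add (contDiff_id.const_smul _)

/-- the inverse of the cell map -/
theorem cl_inv (y z : E4) : cl y ((4 / (‖y‖ + 1)) • (z - y)) = z := by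
  have := sc_pos y
  rw [cl, smul_smul, show (‖y‖ + 1) / 4 * (4 / (‖y‖ + 1)) = 1 by field_simp, one_smul,
    add_sub_cancel]

theorem contDiffAt_of_cl {f : E4 → F} {y Y : E4} {m : WithTop ℕ∞} (hm : m ≤ ∞)
    (h : ContDiffAt ℝ m (fun Y => f (cl y Y)) Y) : ContDiffAt ℝ m f (cl y Y) := by
  have e : f = (fun Y => f (cl y Y)) ∘ fun z => (4 / (‖y‖ + 1)) • (z - y) :=
    funext fun z => by simp only [Function.comp, cl_inv]
  have h2 : ContDiff ℝ m fun z : E4 => (4 / (‖y‖ + 1)) • (z - y) :=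
    ((contDiff_id.sub contDiff_const).const_smul _ : ContDiff ℝ ∞ _).of_le hm
  have e2 : (4 / (‖y‖ + 1)) • (cl y Y - y) = Y := by
    have := sc_pos y
    rw [cl, add_sub_cancel_left, smul_smul, show 4 / (‖y‖ + 1) * ((‖y‖ + 1) / 4) = 1 by field_simp,
      one_smul]
  rw [e]
  exact ContDiffAt.comp _ (by rw [e2]; exact h) h2.contDiffAt

/-! ### `CK` -/

namespace CK

variable {k : ℕ} {M N : ℝ} {f g : E4 → F} {y : E4}

theorem bdd_cl (h : CK k M f y) {Y : E4} (hY : Y ∈ ball (0 : E4) 1) : ‖f (cl y Y)‖ ≤ M :=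
  CKA.bdd h hY

theorem bdd (h : CK k M f y) : ‖f y‖ ≤ M := by
  simpa [cl_zero] using h.bdd_cl (mem_ball_self one_pos)

theorem nonneg (h : CK k M f y) : 0 ≤ M := (norm_nonneg _).trans h.bdd

theorem mono (h : CK k M f y) (hMN : M ≤ N) : CK k N f y := CKA.mono h hMN

theorem of_le (h : CK k M f y) {j : ℕ} (hj : j ≤ k) : CK j M f y := CKA.of_le h hj

theorem congr (h : CK k M f y) (e : ∀ z, ‖z - y‖ < (‖y‖ + 1) / 4 → g z = f z) : CK k M g y :=
  CKA.congr h isOpen_ball fun _ hY => e _ (cl_lt hY)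

theorem const (c : F) : CK k ‖c‖ (fun _ => c) y := CKA.const c

theorem zero : CK k 0 (fun _ => (0 : F)) y := CKA.zero

theorem of_zero (hM : 0 ≤ M) (e : ∀ z, ‖z - y‖ < (‖y‖ + 1) / 4 → f z = 0) : CK k M f y :=
  (zero.congr e).mono hM

theorem add (hf : CK k M f y) (hg : CK k N g y) : CK k (M + N) (fun x => f x + g x) y :=
  CKA.add isOpen_ball hf hg

theorem sub (hf : CK k M f y) (hg : CK k N g y) : CK k (M + N) (fun x => f x - g x) y :=
  CKA.sub isOpen_ball hf hg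

theorem neg (hf : CK k M f y) : CK k M (fun x => -f x) y := CKA.neg isOpen_ball hf

theorem smul (hf : CK k M f y) (c : ℝ) : CK k (|c| * M) (fun x => c • f x) y :=
  CKA.smul isOpen_ball hf c

theorem const_mul {f : E4 → ℝ} (hf : CK k M f y) (c : ℝ) : CK k (|c| * M) (fun x => c * f x) y :=
  CKA.const_mul isOpen_ball hf c

theorem mul {f g : E4 → ℝ} (hf : CK k M f y) (hg : CK k N g y) :
    CK k (2 ^ (k + 1) * (M * N)) (fun x => f x * g x) y := CKA.mul isOpen_ball hf hg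

theorem smulF {c : E4 → ℝ} (hc : CK k N c y) (hf : CK k M f y) :
    CK k (2 ^ (k + 1) * (N * M)) (fun x => c x • f x) y := CKA.smulF isOpen_ball hc hf

theorem clm (h : CK k M f y) (T : F →L[ℝ] G) {L : ℝ} (hL : ‖T‖ ≤ L) :
    CK k (L * M) (fun x => T (f x)) y := CKA.clm isOpen_ball h T hL

theorem sum {ι : Type*} (s : Finset ι) {f : ι → E4 → F} {M : ι → ℝ}
    (h : ∀ i ∈ s, CK k (M i) (f i) y) : CK k (∑ i ∈ s, M i) (fun x => ∑ i ∈ s, f i x) y :=
  CKA.sum isOpen_ball s (f := fun i Y => f i (cl y Y)) h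

theorem sum_le {ι : Type*} [Fintype ι] {f : ι → E4 → F} (h : ∀ i, CK k M (f i) y) :
    CK k (Fintype.card ι * M) (fun x => ∑ i, f i x) y :=
  CKA.sum_le isOpen_ball (f := fun i Y => f i (cl y Y)) h

theorem contDiffAt_cl (h : CK k M f y) {Y : E4} (hY : Y ∈ ball (0 : E4) 1) :
    ContDiffAt ℝ k f (cl y Y) :=
  contDiffAt_of_cl (by exact_mod_cast le_top)
    ((CKA.contDiffOn isOpen_ball (by norm_num) h).contDiffAt (isOpen_ball.mem_nhds hY))

theorem contDiffAt (h : CK k M f y) : ContDiffAt ℝ k f y := by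
  simpa [cl_zero] using h.contDiffAt_cl (mem_ball_self one_pos)

/-- derivatives -/
theorem pd (h : CK (k + 1) M f y) (i : Fin 4) :
    CK k (4 / (‖y‖ + 1) * M) (fun x => fderiv ℝ f x (ei i)) y := by
  have hs := sc_pos y
  have h1 := CKA.smul isOpen_ball (CKA.pd h i) (4 / (‖y‖ + 1))
  rw [abs_of_pos (by positivity)] at h1
  refine h1.congr isOpen_ball fun Y _ => ?_
  rw [fderiv_cl, ContinuousLinearMap.smul_apply, smul_smul,
    show 4 / (‖y‖ + 1) * ((‖y‖ + 1) / 4) = 1 by field_simp, one_smul]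

theorem pderiv {f : E4 → ℝ} (h : CK (k + 1) M f y) (i : Fin 4) :
    CK k (4 / (‖y‖ + 1) * M) (pderiv i f) y := h.pd i

theorem of_pd (h0 : CK 0 M f y) (hd : ∀ Y ∈ ball (0 : E4) 1, DifferentiableAt ℝ f (cl y Y))
    (h : ∀ i, CK k (4 / (‖y‖ + 1) * M) (fun x => fderiv ℝ f x (ei i)) y) : CK (k + 1) M f y := by
  have hs := sc_pos y
  refine ⟨h0, fun Y hY => ((hd Y hY).comp Y
    ((contDiff_cl y).differentiable (by simp) Y)).differentiableWithinAt, fun i => ?_⟩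
  have h1 := CKA.smul isOpen_ball (h i) ((‖y‖ + 1) / 4)
  rw [abs_of_pos (by positivity), ← mul_assoc,
    show (‖y‖ + 1) / 4 * (4 / (‖y‖ + 1)) = 1 by field_simp, one_mul] at h1
  refine h1.congr isOpen_ball fun Y _ => ?_
  rw [fderiv_cl, ContinuousLinearMap.smul_apply]

/-- components of vector valued maps -/
theorem proj {f : E4 → E4} (h : CK k M f y) (i : Fin 4) : CK k M (fun x => f x i) y := by
  simpa using h.clm (EuclideanSpace.proj (𝕜 := ℝ) i : E4 →L[ℝ] ℝ) (R240.Fr.norm_proj_le i)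

theorem of_proj {f : E4 → E4} (h : ∀ i, CK k M (fun x => f x i) y) : CK k (4 * M) f y := by
  have h1 : ∀ i : Fin 4, CK k M (fun x => (f x i) • (ei i : E4)) y := fun i => by
    have := (h i).clm (ContinuousLinearMap.toSpanSingleton ℝ (ei i : E4)) (L := 1) (by
      rw [ContinuousLinearMap.norm_toSpanSingleton, Ell.norm_ei])
    simpa using this
  have h2 := sum_le h1
  rw [Fintype.card_fin] at h2
  refine h2.congr fun z _ => ?_
  have := (EuclideanSpace.basisFun (Fin 4) ℝ).sum_repr (f z)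
  simpa using this.symm

/-- jets at the points of the cell -/
theorem j1_cl (h : CK k M f y) {j : ℕ} (hj : j ≤ k) {Y : E4} (hY : Y ∈ ball (0 : E4) 1) :
    Sk.J1 j f (cl y Y) (‖y‖ + 1) (16 ^ j * M) := by
  have h1 := (CKA.ho_iter isOpen_ball (CKA.of_le h hj)).bdd Y hY
  rw [iter_cl, norm_smul, Real.norm_of_nonneg (by positivity), div_pow] at h1
  unfold Sk.J1
  have e : (16 : ℝ) ^ j = 4 ^ j * 4 ^ j := by rw [← mul_pow]; norm_num
  have h4 : (0 : ℝ) < 4 ^ j := by positivity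
  rw [div_mul_eq_mul_div, div_le_iff₀ h4] at h1
  push_cast at h1
  rw [e]; nlinarith

theorem j1 (h : CK k M f y) {j : ℕ} (hj : j ≤ k) : Sk.J1 j f y (‖y‖ + 1) (16 ^ j * M) := by
  simpa [cl_zero] using h.j1_cl hj (mem_ball_self one_pos)

/-- jets of order `≤ k + 1` on the cell give `CK k` -/
theorem of_j1 (hf : ∀ z, ‖z - y‖ < (‖y‖ + 1) / 4 → ContDiffAt ℝ (k + 1 : ℕ) f z)
    (h : ∀ z, ‖z - y‖ < (‖y‖ + 1) / 4 → ∀ j ≤ k + 1, Sk.J1 j f z (‖z‖ + 1) M) :
    CK k (2 * M) f y := by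
  refine CKA.of_bounds isOpen_ball (convex_ball _ _) (by norm_num) (by norm_num)
    (fun Y hY => ((hf _ (cl_lt hY)).comp Y
      ((contDiff_cl y).of_le (by exact_mod_cast le_top)).contDiffAt).contDiffWithinAt)
    fun j hj Y hY => ?_
  have h1 := h _ (cl_lt hY) j hj
  unfold Sk.J1 at h1
  rw [iter_cl, norm_smul, Real.norm_of_nonneg (by positivity), mul_comm]
  refine le_trans (mul_le_mul_of_nonneg_left ?_ (norm_nonneg _)) h1
  have := (sc_cl (y := y) hY).1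
  have hs := sc_pos y
  exact pow_le_pow_left₀ (by positivity) (by linarith) _

end CK

theorem exists_ck {f : E4 → F} (hf : ContDiff ℝ ∞ f) (k : ℕ) (y : E4) : ∃ V, CK k V f y := by
  have hc : ContDiff ℝ ∞ fun Y => f (cl y Y) := hf.comp (contDiff_cl y)
  have h1 : ∀ j : ℕ, ∃ C, ∀ Y ∈ closedBall (0 : E4) 1,
      ‖iteratedFDeriv ℝ j (fun Y => f (cl y Y)) Y‖ ≤ C := fun j =>
    (isCompact_closedBall _ _).exists_bound_of_continuousOn
      (hc.continuous_iteratedFDeriv (by exact_mod_cast le_top)).continuousOn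
  choose C hC using h1
  refine ⟨_, CKA.of_bounds (M := ∑ j ∈ Finset.range (k + 2), |C j|) isOpen_ball (convex_ball _ _)
    (by norm_num) (by norm_num) (hc.of_le (by exact_mod_cast le_top)).contDiffOn
    fun j hj Y hY => ?_⟩
  exact ((hC j Y (ball_subset_closedBall hY)).trans (le_abs_self _)).trans
    (Finset.single_le_sum (f := fun j => |C j|) (fun _ _ => abs_nonneg _)
      (Finset.mem_range.2 (by omega)))

/-! ### `WD`, `WS` -/

theorem WD.nonneg {k : ℕ} {a : ℕ → ℝ} {f : E4 → F} (h : WD k a f) (l : ℕ) : 0 ≤ a l := by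
  obtain ⟨y, h1, h2⟩ := exists_pt l
  exact (h l y h1 h2).nonneg

theorem WS.nonneg {a : ℕ → ℝ} {f : E4 → F} (h : WS a f) (l : ℕ) : 0 ≤ a l := by
  obtain ⟨y, h1, h2⟩ := exists_pt l
  exact (norm_nonneg _).trans (h l y h1 h2)

theorem WD.ws {k : ℕ} {a : ℕ → ℝ} {f : E4 → F} (h : WD k a f) : WS a f :=
  fun l y h1 h2 => (h l y h1 h2).bdd

theorem WD.mono {k : ℕ} {a b : ℕ → ℝ} {f : E4 → F} (h : WD k a f) (hab : ∀ l, a l ≤ b l) :
    WD k b f := fun l y h1 h2 => (h l y h1 h2).mono (hab l)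

theorem WD.of_le {k j : ℕ} {a : ℕ → ℝ} {f : E4 → F} (h : WD k a f) (hj : j ≤ k) : WD j a f :=
  fun l y h1 h2 => (h l y h1 h2).of_le hj

theorem WD.contDiff {k : ℕ} {a : ℕ → ℝ} {f : E4 → F} (h : WD k a f) : ContDiff ℝ k f :=
  contDiff_iff_contDiffAt.2 fun y => by
    obtain ⟨l, h1, h2⟩ := exists_lv y
    exact (h l y h1 h2.le).contDiffAt

theorem WD.pd {k : ℕ} {a : ℕ → ℝ} {f : E4 → F} (h : WD (k + 1) a f) (i : Fin 4) :
    WD k (fun l => 4 * a l / 2 ^ l) fun x => fderiv ℝ f x (ei i) := fun l y h1 h2 => by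
  refine ((h l y h1 h2).pd i).mono ?_
  have := h.nonneg l
  rw [div_mul_eq_mul_div]
  exact div_le_div_of_nonneg_left (by positivity) (by positivity) h1

/-- half cells at all the points of the cell of `y` give the cell of `y` -/
theorem rec_pt {k : ℕ} {M : ℝ} {f : E4 → F} {y : E4}
    (h : ∀ Y ∈ ball (0 : E4) 1,
      CKA (1 / 2) (ball (0 : E4) (1 / 2)) k M fun Z => f (cl (cl y Y) Z)) :
    CK k (6 * 2 ^ (k + 1) * M) f y := by
  have hs := sc_pos y
  have key : ∀ Y0 ∈ ball (0 : E4) 1,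
      CKA (1 / 2) (ball Y0 (3 / 8)) k (2 ^ (k + 1) * M) fun Y => f (cl y Y) := by
    intro Y0 hY0
    set z := cl y Y0 with hz
    have hz1 := (sc_cl (y := y) hY0).1
    have hzs := sc_pos z
    set r := (‖y‖ + 1) / (‖z‖ + 1) with hr
    have hr0 : 0 < r := by positivity
    have hr1 : r ≤ 4 / 3 := by rw [hr, div_le_iff₀ hzs]; linarith
    have h1 := (h Y0 hY0).affine isOpen_ball (by norm_num) (by norm_num) (-(r • Y0)) (r := r)
      (L := 2) (by rw [abs_of_pos hr0]; linarith) one_le_two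
    refine (h1.subset fun Y hY => ?_).congr isOpen_ball fun Y _ => ?_
    · rw [mem_preimage, mem_ball_zero_iff, neg_add_eq_sub, ← smul_sub, norm_smul,
        Real.norm_of_nonneg hr0.le]
      rw [mem_ball_iff_norm] at hY
      nlinarith [norm_nonneg (Y - Y0)]
    · congr 1
      rw [neg_add_eq_sub, ← smul_sub]
      conv_rhs => rw [cl, smul_smul, show (‖z‖ + 1) / 4 * r = (‖y‖ + 1) / 4 by rw [hr]; field_simp]
      rw [cl, cl, smul_sub]
      abel
  refine (CKA.of_local (by norm_num) (by norm_num) (by norm_num) (by norm_num) key).mono' fun h0 => ?_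
  have : 0 ≤ 2 ^ (k + 1) * M := by nlinarith
  nlinarith

theorem rec : RECStmt := by
  intro k
  refine ⟨6 * 2 ^ (k + 1), by positivity, fun F _ _ f a b hab h l y h1 h2 => rec_pt fun Y hY => ?_⟩
  obtain ⟨i, h3, h4, h5, h6⟩ := exists_lv_cl hY h1 h2
  exact (h i _ h3 h4).mono (hab l i h5 h6)

end Crest.Agent.N207.Ph

end
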