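import Crest.Agent.N207.Ph.Hc1
import Crest.Agent.N207.Ph.Nw2
import Crest.Agent.N207.Ph.Ad1
import Crest.Agent.N207.Ph.Pb0
import Crest.Agent.R247.Bo4_84

/-!
# Row 207, block PHI (helper11): harmonic coordinates, part 2: the operator `Δ - Δ_G`
-/

set_option autoImplicit false
set_option linter.unusedSectionVars false

open scoped ContDiff Topology
open Set Filter Metric
open Crest.GeometryTopology.CoordMetric Crest.Agent.R202.Tens

noncomputable section

namespace Crest.Agent.N207.Ph.Hc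

open Crest.Agent.NLib.Ell Crest.Agent.N207.G Sk
open Crest.Agent.R240.Fr (lap fderiv_apply_contDiff)
open Crest.Agent.R238 (Ell)

variable {F F' : Type} [NormedAddCommGroup F] [NormedSpace ℝ F] [NormedAddCommGroup F']
  [NormedSpace ℝ F'] {G : MetricField 4} {w w' : E4 → F} {x : E4}

/-- `Δ - Δ_G` -/
def DD (G : MetricField 4) (w : E4 → F) (x : E4) : F :=
  ∑ a, ∑ b, hd G a b x • pv a (pv b w) x + ∑ c, gm G c x • pv c w x

theorem lap_pv (w : E4 → F) (x : E4) : lap w x = ∑ i, pv i (pv i w) x := rfl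

theorem pv_sm (hw : ContDiff ℝ ∞ w) (i : Fin 4) : ContDiff ℝ ∞ (pv i w) :=
  fderiv_apply_contDiff hw _

theorem pv_diff (hw : ContDiff ℝ 2 w) (i : Fin 4) : Differentiable ℝ (pv i w) :=
  ((hw.fderiv_right (m := 1) (by norm_num)).clm_apply contDiff_const).differentiable (by simp)

theorem pv_clm (L : F →L[ℝ] F') (hw : Differentiable ℝ w) (i : Fin 4) :
    pv i (fun x => L (w x)) = fun x => L (pv i w x) := funext fun x => by
  have h : fderiv ℝ (fun x => L (w x)) x = _ := (L.hasFDerivAt.comp x (hw x).hasFDerivAt).fderiv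
  rw [pv, h]; rfl

theorem pv_add (hw : Differentiable ℝ w) (hw' : Differentiable ℝ w') (i : Fin 4) :
    pv i (fun x => w x + w' x) = fun x => pv i w x + pv i w' x := funext fun x => by
  rw [pv, fderiv_fun_add (hw x) (hw' x)]; rfl

theorem pv_congr (h : w =ᶠ[𝓝 x] w') (i : Fin 4) : pv i w =ᶠ[𝓝 x] pv i w' :=
  h.eventuallyEq_nhds.mono fun y hy => by simp only [pv, hy.fderiv_eq]

theorem pv_const (c : F) (i : Fin 4) : pv i (fun _ => c) = fun _ => 0 :=
  funext fun x => by simp [pv]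

theorem pv_id (i : Fin 4) : pv i (fun x : E4 => x) = fun _ => EuclideanSpace.single i 1 :=
  funext fun x => by simp [pv]

theorem d2 (hw : ContDiff ℝ 2 w) : Differentiable ℝ w := hw.differentiable (by simp)

theorem DD_clm (L : F →L[ℝ] F') (hw : ContDiff ℝ 2 w) (x : E4) :
    DD G (fun x => L (w x)) x = L (DD G w x) := by
  simp only [DD, pv_clm L (d2 hw), pv_clm L (pv_diff hw _), map_add, map_sum, map_smul]

theorem lap_clm (L : F →L[ℝ] F') (hw : ContDiff ℝ 2 w) (x : E4) :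
    lap (fun x => L (w x)) x = L (lap w x) := by
  simp only [lap_pv, pv_clm L (d2 hw), pv_clm L (pv_diff hw _), map_sum]

theorem DD_add (hw : ContDiff ℝ 2 w) (hw' : ContDiff ℝ 2 w') (x : E4) :
    DD G (fun x => w x + w' x) x = DD G w x + DD G w' x := by
  simp only [DD, pv_add (d2 hw) (d2 hw'), pv_add (pv_diff hw _) (pv_diff hw' _), smul_add,
    Finset.sum_add_distrib]
  abel

theorem lap_add (hw : ContDiff ℝ 2 w) (hw' : ContDiff ℝ 2 w') (x : E4) :
    lap (fun x => w x + w' x) x = lap w x + lap w' x := by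
  simp only [lap_pv, pv_add (d2 hw) (d2 hw'), pv_add (pv_diff hw _) (pv_diff hw' _),
    Finset.sum_add_distrib]

theorem DD_congr (h : w =ᶠ[𝓝 x] w') : DD G w x = DD G w' x := by
  simp only [DD, (pv_congr h _).eq_of_nhds, (pv_congr (pv_congr h _) _).eq_of_nhds]

theorem lap_congr (h : w =ᶠ[𝓝 x] w') : lap w x = lap w' x := by
  simp only [lap_pv, (pv_congr (pv_congr h _) _).eq_of_nhds]

theorem DD_zero (x : E4) : DD G (fun _ => (0 : F)) x = 0 := by simp [DD, pv_const]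

theorem lap_zero (x : E4) : lap (fun _ => (0 : F)) x = 0 := by simp [lap_pv, pv_const]

theorem lap_id (x : E4) : lap (fun x : E4 => x) x = 0 := by simp [lap_pv, pv_const, pv_id]

theorem DD_id (x : E4) (k : Fin 4) : DD G (fun x : E4 => x) x k = gm G k x := by
  simp [DD, pv_const, pv_id, Pi.single_apply]

theorem DD_far (h : ∀ᶠ z in 𝓝 x, G z = 1) (w : E4 → F) : DD G w x = 0 := by
  have h1 : ∀ a b, hd G a b x = 0 := fun a b => by simp [hd, h.self_of_nhds]
  have h2 : ∀ i a b, pderiv i (fun y => G y a b) x = 0 := fun i a b => by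
    have : (fun y => G y a b) =ᶠ[𝓝 x] fun _ => (1 : Matrix (Fin 4) (Fin 4) ℝ) a b :=
      h.mono fun y hy => by simp only [hy]
    simp [pderiv, this.fderiv_eq]
  simp [DD, h1, gm, christoffel, h2]

theorem far_ev {R : ℝ} (hR : ∀ x : E4, R ≤ ‖x‖ → G x = 1) (hx : R < ‖x‖) : ∀ᶠ z in 𝓝 x, G z = 1 := by
  filter_upwards [(isOpen_lt continuous_const continuous_norm).mem_nhds hx] with z hz
  exact hR z hz.le

theorem DD_cpt (hG : Fl G) (w : E4 → F) : HasCompactSupport (DD G w) := by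
  obtain ⟨R, hR⟩ := hG.flat
  refine HasCompactSupport.intro (isCompact_closedBall 0 R) fun x hx => DD_far (far_ev hR ?_) w
  rwa [mem_closedBall_zero_iff, not_le] at hx

theorem hd_sm (hG : IsRiemannianOn G univ) (a b : Fin 4) : ContDiff ℝ ∞ (hd G a b) :=
  contDiff_const.sub (contDiffOn_univ.1 (N207.sm_inv hG a b))

theorem gm_sm (hG : IsRiemannianOn G univ) (c : Fin 4) : ContDiff ℝ ∞ (gm G c) :=
  ContDiff.sum fun a _ => ContDiff.sum fun b _ =>
    (contDiffOn_univ.1 (N207.sm_inv hG a b)).mul (contDiffOn_univ.1 (sm_chr hG c a b))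

theorem DD_sm (hG : IsRiemannianOn G univ) (hw : ContDiff ℝ ∞ w) : ContDiff ℝ ∞ (DD G w) :=
  (ContDiff.sum fun a _ => ContDiff.sum fun b _ => (hd_sm hG a b).smul (pv_sm (pv_sm hw b) a)).add
    (ContDiff.sum fun c _ => (gm_sm hG c).smul (pv_sm hw c))

/-- the scalar operator in coordinates -/
theorem lap_sub_DD (u : E4 → ℝ) (x : E4) : lap u x - DD G u x =
    ∑ a, ∑ b, (G x)⁻¹ a b * pderiv a (pderiv b u) x + ∑ c, -gm G c x * pderiv c u x := by
  have e : ∀ (i : Fin 4) (u : E4 → ℝ), pv i u = pderiv i u := fun _ _ => rfl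
  simp only [lap_pv, DD, e, hd, smul_eq_mul, sub_mul, Finset.sum_sub_distrib, Matrix.one_apply,
    ite_mul, one_mul, zero_mul, Finset.sum_ite_eq, Finset.mem_univ, if_true, neg_mul,
    Finset.sum_neg_distrib]
  ring

theorem lapB_eq (hG : IsRiemannianOn G univ) {u : E4 → ℝ} (hu : ContDiffAt ℝ 2 u x) :
    laplaceBeltrami G u x = lap u x - DD G u x := by
  rw [lapB_coord hG (mem_univ x) hu, lap_sub_DD]
  simp only [mul_sub, Finset.sum_sub_distrib, gm, neg_mul, Finset.sum_neg_distrib, Finset.mul_sum,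
    Finset.sum_mul, ← sub_eq_add_neg]
  congr 1
  rw [Finset.sum_comm (s := Finset.univ) (t := Finset.univ)
    (f := fun c a => ∑ b, (G x)⁻¹ a b * christoffel G x c a b * pderiv c u x)]
  refine Finset.sum_congr rfl fun a _ => ?_
  rw [Finset.sum_comm]
  exact Finset.sum_congr rfl fun _ _ => Finset.sum_congr rfl fun _ _ => by ring

/-! ### equivariance -/

theorem pull_iso (hG : IsRiemannianOn G univ) (γ : Iso)
    (h : ∀ x, matT G x = pullT γ (matT G) x) : Pull G G γ univ univ :=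
  ⟨isOpen_univ, hG, fun _ _ => mem_univ _, γ.contDiff.contDiffOn, fun y _ i j => by
    rw [← Ad.pbm_apply]; exact congrFun (h y) ![i, j], fun y _ => inj_iso γ y⟩

theorem DD_iso (hG : IsRiemannianOn G univ) (γ : Iso) (h : ∀ x, matT G x = pullT γ (matT G) x)
    {u : E4 → ℝ} (hu : ContDiff ℝ 2 u) (x : E4) : DD G (fun z => u (γ z)) x = DD G u (γ x) := by
  have hu' : ContDiff ℝ 2 fun z => u (γ z) := hu.comp γ.contDiff
  have h1 := R247.Bo84.lap_pull (pull_iso hG γ h) (mem_univ x) hu.contDiffAt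
  have h2 := R247.Bo84.lap_pull (pull_flat γ) (mem_univ x) hu.contDiffAt
  rw [lapB_eq hG hu.contDiffAt, lapB_eq hG hu'.contDiffAt] at h1
  rw [lapB_eq riem_flat hu.contDiffAt, lapB_eq riem_flat hu'.contDiffAt,
    DD_far (G := flat) (Eventually.of_forall fun _ => rfl),
    DD_far (G := flat) (Eventually.of_forall fun _ => rfl)] at h2
  linarith

theorem DD_eqv {Γ : Subgroup Iso} (hG : IsRiemannianOn G univ) (hI : Inv Γ G) {w : E4 → E4}
    (hw : ContDiff ℝ 2 w) (he : Eqv Γ w) : Eqv Γ (DD G w) := fun γ hγ x => by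
  ext k
  set P : E4 →L[ℝ] ℝ := EuclideanSpace.proj k
  have h1 := DD_iso hG γ (hI γ hγ) (u := fun z => P (w z)) (P.contDiff.comp hw) x
  have h2 := DD_clm (G := G) (P.comp (γ.toContinuousLinearEquiv : E4 →L[ℝ] E4)) hw x
  simp only [he γ hγ] at h1
  rw [DD_clm P hw] at h1
  exact h1.symm.trans h2

theorem eqv_zero {Γ : Subgroup Iso} (hΓ : Grp Γ) {w : E4 → E4} (he : Eqv Γ w) : w 0 = 0 := by
  by_contra h
  refine hΓ.ne ((Subgroup.eq_bot_iff_forall _).2 fun γ hγ => hΓ.free γ hγ _ h ?_)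
  rw [← he γ hγ, map_zero]

/-! ### estimates -/

/-- bounds of the coefficients -/
def Cf (k : ℕ) (e : ℕ → ℝ) (G : MetricField 4) : Prop :=
  (∀ a b, WD k e (hd G a b)) ∧ ∀ c, WD k (fun l => e l / 2 ^ l) (gm G c)

theorem Cf.of_le {k j : ℕ} {e : ℕ → ℝ} (h : Cf k e G) (hj : j ≤ k) : Cf j e G :=
  ⟨fun a b => (h.1 a b).of_le hj, fun c => (h.2 c).of_le hj⟩

theorem Cf.mono {k : ℕ} {e e' : ℕ → ℝ} (h : Cf k e G) (he : ∀ l, e l ≤ e' l) : Cf k e' G :=
  ⟨fun a b => (h.1 a b).mono he, fun c => (h.2 c).mono fun l => by have := he l; gcongr⟩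

theorem DD_wd {e c : ℕ → ℝ} (h : Cf 0 e G) (hw : WD 2 (fun l => c l * 2 ^ l) w) :
    WD 0 (fun l => 544 * e l * c l / 2 ^ l) (DD G w) := fun l y h1 h2 => by
  have h3 := CK.sum_le fun a => CK.sum_le fun b =>
    (h.1 a b l y h1 h2).smulF (wd_pv (wd_pv hw b) a l y h1 h2)
  have h4 := CK.sum_le fun a => (h.2 a l y h1 h2).smulF ((wd_pv hw a l y h1 h2).of_le zero_le_one)
  refine (h3.add h4).mono (le_of_eq ?_)
  simp only [Fintype.card_fin]
  field_simp
  ring

theorem cf_of (k : ℕ) (K : ℝ) : ∃ C : ℝ, 0 < C ∧ ∀ (G : MetricField 4) (ε e : ℕ → ℝ),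
    IsRiemannianOn G univ → Sml 0 G (1 / 100) → (∀ l, e l ≤ K) → Nb ε e →
    (∀ (l : ℕ) (y : E4), 2 ^ l ≤ ‖y‖ + 1 → ‖y‖ + 1 ≤ 2 ^ (l + 1) →
      JG (k + 2) G y (‖y‖ + 1) (ε l)) → Cf k (fun l => C * e l) G := by
  obtain ⟨C, hC, h⟩ := coef_ck k K
  refine ⟨C, hC, fun G ε e hG h0 hK hN hJ => ?_⟩
  have h1 := fun (l : ℕ) (y : E4) (h1 : 2 ^ l ≤ ‖y‖ + 1) (h2 : ‖y‖ + 1 ≤ 2 ^ (l + 1)) =>
    h G y (e l) hG h0 (hK l) fun Y hY => by
      obtain ⟨i, h3, h4, h5, h6⟩ := exists_lv_cl hY h1 h2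
      exact Rad.jg_mono (hJ i _ h3 h4) le_rfl (hN l i h5 h6)
  refine ⟨fun a b l y h2 h3 => (h1 l y h2 h3).1 a b, fun c l y h2 h3 =>
    ((h1 l y h2 h3).2 c).mono ?_⟩
  exact div_le_div_of_nonneg_left ((h1 l y h2 h3).1 0 0).nonneg (by positivity) h2

/-- the coefficients of a metric with summable smallness -/
theorem cf_ds : ∃ C : ℝ, 0 < C ∧ ∀ (G : MetricField 4) (δ : ℝ), Fl G → δ ≤ 1 / 100 → DS 3 G δ →
    ∃ (e : ℕ → ℝ) (L : ℕ), Cf 1 e G ∧ (∀ n, ∑ l ∈ Finset.range n, e l ≤ C * δ) ∧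
      ∀ l, L < l → e l = 0 := by
  obtain ⟨C, hC, h⟩ := cf_of 1 1
  refine ⟨3 * C, by positivity, fun G δ hG hδ hD => ?_⟩
  have hS := Ad.sml_mono (Ad.ds_sml hD (Nat.zero_le 3)) hδ
  obtain ⟨ε, h0, h1, h2⟩ := hD
  obtain ⟨R, hR⟩ := hG.flat
  obtain ⟨L, hL⟩ := pow_unbounded_of_one_lt (R + 1) (one_lt_two (α := ℝ))
  set ε' : ℕ → ℝ := fun l => if L ≤ l then 0 else ε l with hε'
  have g0 : ∀ l, 0 ≤ ε' l := fun l => by simp only [hε']; split_ifs; exacts [le_rfl, h0 l]
  have g1 : ∀ l, ε' l ≤ ε l := fun l => by simp only [hε']; split_ifs; exacts [h0 l, le_rfl]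
  have g2 : ∀ n, ∑ l ∈ Finset.range n, ε' l ≤ δ := fun n =>
    (Finset.sum_le_sum fun l _ => g1 l).trans (h1 n)
  have g3 : ∀ l, ε' l ≤ δ := fun l => le_trans
    (Finset.single_le_sum (fun i _ => g0 i) (Finset.self_mem_range_succ l)) (g2 (l + 1))
  set e : ℕ → ℝ := fun l => (if l = 0 then 0 else ε' (l - 1)) + ε' l + ε' (l + 1) with he
  refine ⟨fun l => C * e l, L, h G ε' e hG.riem hS (fun l => ?_) (fun j i h3 h4 => ?_)
    fun l y h3 h4 => ?_, fun n => ?_, fun l hl => ?_⟩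
  · simp only [he]
    split_ifs <;> linarith [g3 l, g3 (l + 1), g3 (l - 1)]
  · have := g0 j
    have := g0 (j + 1)
    have := g0 (j - 1)
    simp only [he]
    rcases (by omega : i = j ∨ i = j + 1 ∨ (j ≠ 0 ∧ i = j - 1)) with rfl | rfl | ⟨h5, rfl⟩
    · split_ifs <;> linarith
    · split_ifs <;> linarith
    · rw [if_neg h5]; linarith
  · simp only [hε']
    split_ifs with h5
    · have h6 : R < ‖y‖ := by
        have : (2 : ℝ) ^ L ≤ 2 ^ l := pow_le_pow_right₀ one_le_two h5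
        linarith
      intro k hk i j
      have h7 : dv G i j =ᶠ[𝓝 y] dv flat i j := (far_ev hR h6).mono fun z hz => by
        simp only [dv, hz, flat]
      have := Ad.jg_flat 3 y (‖y‖ + 1) le_rfl k hk i j
      rwa [J1, ← (h7.iteratedFDeriv ℝ k).eq_of_nhds] at this
    · exact h2 l y h3 h4
  · rw [← Finset.mul_sum, mul_comm 3 C, mul_assoc]
    refine mul_le_mul_of_nonneg_left ?_ hC.le
    simp only [he, Finset.sum_add_distrib]
    have a1 : ∑ l ∈ Finset.range n, (if l = 0 then 0 else ε' (l - 1)) ≤ δ := by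
      rcases n with _ | n
      · simpa using g2 0
      · rw [Finset.sum_range_succ']; simpa using g2 n
    have a2 := g2 (n + 1)
    rw [Finset.sum_range_succ'] at a2
    linarith [g2 n, g0 0]
  · simp only [he, hε']
    rw [if_neg (by omega), if_pos (by omega), if_pos (by omega), if_pos (by omega)]
    simp

/-- the coefficients of a metric with bounded jets -/
theorem cf_all (Cs : ℕ → ℝ) (k : ℕ) : ∃ E : ℝ, ∀ G : MetricField 4, IsRiemannianOn G univ →
    Sml 0 G (1 / 100) → All Cs G → Cf k (fun _ => E) G := by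
  set K := ∑ j ∈ Finset.range (k + 3), |Cs j|
  obtain ⟨C, -, h⟩ := cf_of k K
  refine ⟨C * K, fun G hG h0 hA => h G (fun _ => K) (fun _ => K) hG h0 (fun _ => le_rfl)
    (fun _ _ _ _ => le_rfl) fun l y _ _ j hj a b => le_trans (hA y j a b) ?_⟩
  rw [mul_one]
  exact (le_abs_self _).trans (Finset.single_le_sum (f := fun j => |Cs j|)
    (fun _ _ => abs_nonneg _) (Finset.mem_range.2 (by omega)))

theorem ell_inv (hG : IsRiemannianOn G univ) (h0 : Sml 0 G (1 / 100)) (x : E4) :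
    Ell (1 / 2) 2 (G x)⁻¹ := by
  refine ⟨ginv_symm hG (mem_univ x), fun z => ?_⟩
  have h := abs_le.1 (Rad.quad_le (Rad.jg_inv hG (mem_univ x) (h0 x) le_rfl) (WithLp.toLp 2 z))
  rw [EuclideanSpace.real_norm_sq_eq] at h
  simp only [sub_mul, Finset.sum_sub_distrib, Matrix.one_apply, ite_mul, one_mul, zero_mul,
    Finset.sum_ite_eq, Finset.mem_univ, if_true, ← sq] at h
  have h1 : 0 ≤ ∑ i, z i ^ 2 := by positivity
  constructor <;> linarith [h.1, h.2]

end Crest.Agent.N207.Ph.Hc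

end
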