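import Crest.Agent.N207.Ph.Nw2

/-!
# Row 207, block PHI (helper48): Newton kit, part 3: weighted Schauder estimates, `nsw : NSWStmt`
-/

set_option autoImplicit false
set_option linter.unusedSectionVars false

open scoped ContDiff Topology
open MeasureTheory Set Filter Metric
open Crest.GeometryTopology.CoordMetric Crest.GeometryTopology.ChartCurvature

noncomputable section

namespace Crest.Agent.N207.Ph

open Crest.Agent.NLib.Ell (CKA ei schAll)
open Crest.Agent.NLib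
open Crest.Agent.R238 (Ell)
open Crest.Agent.R240.Fr (lap)

theorem D2_eq_pderiv {u : E4 → ℝ} {x : E4} (hu : ContDiffAt ℝ 2 u x) (i j : Fin 4) :
    fderiv ℝ (fderiv ℝ u) x (ei i) (ei j) = pderiv i (pderiv j u) x := by
  have hd : DifferentiableAt ℝ (fderiv ℝ u) x :=
    (hu.fderiv_right (m := 1) (by norm_num)).differentiableAt (by norm_num)
  have h := ((ContinuousLinearMap.apply ℝ ℝ (ei j : E4)).hasFDerivAt.comp x hd.hasFDerivAt).fderiv
  unfold pderiv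
  have e : (fun y => fderiv ℝ u y (EuclideanSpace.single j 1)) =
      (ContinuousLinearMap.apply ℝ ℝ (ei j : E4)) ∘ fderiv ℝ u := rfl
  rw [e, h]
  rfl

theorem D2_cl (u : E4 → ℝ) (z Y : E4) :
    fderiv ℝ (fderiv ℝ fun Y => u (cl z Y)) Y =
      ((‖z‖ + 1) / 4) ^ 2 • fderiv ℝ (fderiv ℝ u) (cl z Y) := by
  have e : (fderiv ℝ fun Y => u (cl z Y)) =
      ((‖z‖ + 1) / 4) • fun Y => fderiv ℝ u (cl z Y) := funext fun Y => fderiv_cl u z Y
  have h := congrFun (fderiv_const_smul_field (𝕜 := ℝ) (f := fun Y => fderiv ℝ u (cl z Y))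
    ((‖z‖ + 1) / 4)) Y
  rw [e]
  refine h.trans ?_
  rw [Pi.smul_apply, fderiv_cl, smul_smul, sq]

/-- Schauder on the half cell -/
theorem sw_half (k : ℕ) {lo hi : ℝ} (M : ℝ) (hlo : 0 < lo) (hlohi : lo ≤ hi) :
    ∃ C : ℝ, 0 < C ∧ ∀ (τ : E4 → Matrix (Fin 4) (Fin 4) ℝ) (β : Fin 4 → E4 → ℝ)
      (c u f : E4 → ℝ) (z : E4) (N S : ℝ), (∀ Y ∈ ball (0 : E4) 1, Ell lo hi (τ (cl z Y))) →
      (∀ i j, CK k M (fun x => τ x i j) z) → (∀ i, CK k (4 / (‖z‖ + 1) * M) (β i) z) →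
      CK k ((4 / (‖z‖ + 1)) ^ 2 * M) c z → CK k ((4 / (‖z‖ + 1)) ^ 2 * N) f z →
      (∃ V, CK 2 V u z) → (∀ Y ∈ ball (0 : E4) 1, |u (cl z Y)| ≤ S) →
      (∀ Y ∈ ball (0 : E4) 1, ∑ i, ∑ j, τ (cl z Y) i j * pderiv i (pderiv j u) (cl z Y) +
        ∑ i, β i (cl z Y) * pderiv i u (cl z Y) + c (cl z Y) * u (cl z Y) = f (cl z Y)) →
      CKA (1 / 2) (ball (0 : E4) (1 / 2)) (k + 2) (C * (N + S)) fun Y => u (cl z Y) := by
  obtain ⟨C, hC, H⟩ := schAll 4 k (1 / 2) lo hi M 1 (by norm_num) (by norm_num) hlo hlohi one_pos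
    le_rfl
  refine ⟨C, hC, fun τ β c u f z N S hE hτ hβ hc hf hu hS heq => ?_⟩
  have hs := sc_pos z
  set r := (‖z‖ + 1) / 4 with hr
  have hr0 : 0 < r := by positivity
  have e1 : r * (4 / (‖z‖ + 1)) = 1 := by rw [hr]; field_simp
  have e2 : r ^ 2 * (4 / (‖z‖ + 1)) ^ 2 = 1 := by rw [← mul_pow, e1, one_pow]
  refine H 0 (fun Y => τ (cl z Y)) (fun i Y => r * β i (cl z Y)) (fun Y => r ^ 2 * c (cl z Y))
    (fun Y => u (cl z Y)) (fun Y => r ^ 2 * f (cl z Y)) N S hE hτ (fun i => ?_) ?_ ?_ hu hS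
    fun Y hY => ?_
  · have := (hβ i).const_mul r
    rwa [abs_of_pos hr0, ← mul_assoc, e1, one_mul] at this
  · have := hc.const_mul (r ^ 2)
    rwa [abs_of_pos (by positivity), ← mul_assoc, e2, one_mul] at this
  · have := hf.const_mul (r ^ 2)
    rwa [abs_of_pos (by positivity), ← mul_assoc, e2, one_mul] at this
  · obtain ⟨V, hV⟩ := hu
    have hu2 : ContDiffAt ℝ 2 u (cl z Y) := hV.contDiffAt_cl hY
    rw [← heq Y hY]
    unfold R273.SchB_152.P2 R238.Sch.D2 R335.pd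
    rw [D2_cl, fderiv_cl, ← hr]
    simp only [ContinuousLinearMap.smul_apply, smul_eq_mul, mul_add, Finset.mul_sum]
    congr 1
    · congr 1
      · refine Finset.sum_congr rfl fun i _ => Finset.sum_congr rfl fun j _ => ?_
        rw [← D2_eq_pderiv hu2]
        change _ * (_ * fderiv ℝ (fderiv ℝ u) (cl z Y) (ei i) (ei j)) = _
        ring
      · refine Finset.sum_congr rfl fun i _ => ?_
        unfold pderiv
        ring
    · ring

theorem le_sc_mul {s a : ℝ} {l : ℕ} (hs : 0 < s) (h2 : s ≤ 2 ^ (l + 1)) (ha : 0 ≤ a) :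
    a / 2 ^ l ≤ 4 / s * a := by
  rw [div_mul_eq_mul_div, div_le_div_iff₀ (by positivity) hs]
  rw [pow_succ] at h2
  have : (0 : ℝ) < 2 ^ l := by positivity
  nlinarith [mul_le_mul_of_nonneg_left h2 ha]

theorem le_sc_mul2 {s a : ℝ} {l : ℕ} (hs : 0 < s) (h2 : s ≤ 2 ^ (l + 1)) (ha : 0 ≤ a) :
    a / 4 ^ l ≤ (4 / s) ^ 2 * a := by
  have e : a / 4 ^ l = a / 2 ^ l / 2 ^ l := by
    rw [div_div, ← mul_pow]; norm_num
  rw [e, sq, mul_assoc]
  exact (le_sc_mul hs h2 (by positivity)).trans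
    (mul_le_mul_of_nonneg_left (le_sc_mul hs h2 ha) (by positivity))

theorem nsw : NSWStmt := by
  intro k lo hi M hlo hlohi
  obtain ⟨C, hC, H⟩ := sw_half k M hlo hlohi
  refine ⟨6 * 2 ^ (k + 2 + 1) * (C * 2), by positivity,
    fun τ β c u f N S b hE hτ hβ hc hf hu hS heq hb l y h1 h2 => ?_⟩
  have hM : 0 ≤ M := (hτ 0 0).nonneg 0
  have hN : ∀ i, 0 ≤ N i := fun i => by
    have h := hf.nonneg i
    have h4 : (0 : ℝ) < 4 ^ i := by positivity
    by_contra hn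
    exact absurd h (not_le.2 (div_neg_of_neg_of_pos (not_le.1 hn) h4))
  refine (rec_pt (M := C * (b l + b l)) fun Y hY => ?_).mono (le_of_eq (by ring))
  obtain ⟨i, h3, h4, h5, h6⟩ := exists_lv_cl hY h1 h2
  have hs := sc_pos (cl y Y)
  refine H τ β c u f _ _ _ (fun _ _ => hE _) (fun a b => hτ a b i _ h3 h4)
    (fun a => (hβ a i _ h3 h4).mono (le_sc_mul hs h4 hM))
    ((hc i _ h3 h4).mono (le_sc_mul2 hs h4 hM))
    ((hf i _ h3 h4).mono ((le_sc_mul2 hs h4 (hN i)).trans ?_)) (hu _) (fun Z hZ => ?_)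
    fun Z _ => heq _
  · refine mul_le_mul_of_nonneg_left ?_ (by positivity)
    linarith [hb l i (by omega) (by omega), hS.nonneg i]
  · obtain ⟨i', h7, h8, h9, h10⟩ := exists_lv_cl hZ h3 h4
    have := hS i' _ h7 h8
    rw [Real.norm_eq_abs] at this
    linarith [hb l i' (by omega) (by omega), hN i']

theorem ell_one : Ell 1 1 (1 : Matrix (Fin 4) (Fin 4) ℝ) := by
  refine ⟨fun i j => by simp [Matrix.one_apply, eq_comm], fun z => ?_⟩
  have e : ∑ i, ∑ j, (1 : Matrix (Fin 4) (Fin 4) ℝ) i j * z i * z j = ∑ i, z i ^ 2 := by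
    refine Finset.sum_congr rfl fun i _ => ?_
    simp [Matrix.one_apply, sq]
  rw [e]; simp

theorem lap_eq_sum (u : E4 → ℝ) (x : E4) : lap u x = ∑ i, pderiv i (pderiv i u) x := rfl

/-- Schauder for the Laplacian on one cell: `N` bounds `Δ u` on the cells at the points of the cell
of `y`, `S` bounds `u` nearby -/
theorem sw_lap_pt (k : ℕ) : ∃ C : ℝ, 0 < C ∧ ∀ (u : E4 → ℝ) (y : E4) (N S : ℝ), ContDiff ℝ ∞ u →
    (∀ Y ∈ ball (0 : E4) 1, CK k ((4 / (‖cl y Y‖ + 1)) ^ 2 * N) (lap u) (cl y Y)) →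
    (∀ Y ∈ ball (0 : E4) 1, ∀ Z ∈ ball (0 : E4) 1, |u (cl (cl y Y) Z)| ≤ S) →
    CK (k + 2) (C * (N + S)) u y := by
  obtain ⟨C, hC, H⟩ := sw_half k 1 one_pos le_rfl
  refine ⟨6 * 2 ^ (k + 2 + 1) * C, by positivity, fun u y N S hu hN hS => ?_⟩
  refine (rec_pt (M := C * (N + S)) fun Y hY => ?_).mono (le_of_eq (by ring))
  refine H (fun _ => 1) (fun _ _ => 0) (fun _ => 0) u (lap u) _ _ _ (fun _ _ => ell_one)
    (fun a b => (CK.const _).mono ?_) (fun a => CK.zero.mono (by positivity))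
    (CK.zero.mono (by positivity)) (hN Y hY) (exists_ck hu 2 _) (hS Y hY) fun Z _ => ?_
  · rw [Matrix.one_apply]; split_ifs <;> simp
  · rw [lap_eq_sum]
    simp [Matrix.one_apply]

/-- dyadic form: `Δ u` at level `i` is at most `N i / 4 ^ i`, `u` is at most `S i` -/
theorem sw_lap (k : ℕ) : ∃ C : ℝ, 0 < C ∧ ∀ (u : E4 → ℝ) (N S b : ℕ → ℝ), ContDiff ℝ ∞ u →
    WD k (fun l => N l / 4 ^ l) (lap u) → WS S u → Nb N b →
    (∀ j i : ℕ, i ≤ j + 2 → j ≤ i + 2 → S i ≤ b j) → WD (k + 2) (fun l => C * b l) u := by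
  obtain ⟨C, hC, H⟩ := sw_lap_pt k
  refine ⟨C * 2, by positivity, fun u N S b hu hN hS hNb hSb l y h1 h2 => ?_⟩
  have hN0 : ∀ i, 0 ≤ N i := fun i => by
    have h := hN.nonneg i
    have h4 : (0 : ℝ) < 4 ^ i := by positivity
    by_contra hn
    exact absurd h (not_le.2 (div_neg_of_neg_of_pos (not_le.1 hn) h4))
  refine (H u y (b l) (b l) hu (fun Y hY => ?_) fun Y hY Z hZ => ?_).mono (le_of_eq (by ring))
  · obtain ⟨i, h3, h4, h5, h6⟩ := exists_lv_cl hY h1 h2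
    exact (hN i _ h3 h4).mono ((le_sc_mul2 (sc_pos _) h4 (hN0 i)).trans
      (mul_le_mul_of_nonneg_left (hNb l i h5 h6) (by positivity)))
  · obtain ⟨i, h3, h4, h5, h6⟩ := exists_lv_cl hY h1 h2
    obtain ⟨i', h7, h8, h9, h10⟩ := exists_lv_cl hZ h3 h4
    have := hS i' _ h7 h8
    rw [Real.norm_eq_abs] at this
    exact this.trans (hSb l i' (by omega) (by omega))

end Crest.Agent.N207.Ph

end
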