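import Crest.Agent.N207.Ph.St
import Crest.Agent.N207.C.Max

/-!
# Row 207, block PHI (helper85): the leaf `MC` (continuity of the mass in time)
-/

set_option autoImplicit false
set_option linter.unusedSectionVars false

open scoped ContDiff Manifold Topology
open Set MeasureTheory Filter

noncomputable section

namespace Crest.Agent.N207.Ph

open Sk

namespace Mc

variable {X : Type*} [TopologicalSpace X] [MeasurableSpace X] [CompactSpace X]
  [OpensMeasurableSpace X] {H : HC X} {K a b : ℝ} {f : ℝ → X → ℝ}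

/-- set integrals of a nonnegative function at two times -/
theorem set_time (A : H.Alg) (I : H.Intg) (hK : ∀ t ∈ Ioo 0 H.T, ∀ x, |H.R t x| ≤ K) {s t : ℝ}
    (hs : s ∈ Ioo 0 H.T) (ht : t ∈ Ioo 0 H.T) {u : X → ℝ} (hu : H.S0 u) (h0 : ∀ x, 0 ≤ u x)
    (S : Set X) :
    ∫ x in S, u x ∂H.vol t ≤ Real.exp (K * |t - s|) * ∫ x in S, u x ∂H.vol s := by
  have k := integral_mono_measure (Measure.restrict_mono (subset_refl S) (I.vol_le hK s hs t ht))
    (Eventually.of_forall h0)
    ((A.integrable I hs hu).smul_measure ENNReal.ofReal_ne_top).restrict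
  rwa [Measure.restrict_smul, integral_smul_measure, ENNReal.toReal_ofReal (Real.exp_pos _).le,
    smul_eq_mul] at k

/-- smooth functions on a strip are Lipschitz in time -/
theorem lip (A : H.Alg) (hab : a < b) (hf : H.Sm a b f) :
    ∃ L, 0 ≤ L ∧ ∀ s ∈ Icc a b, ∀ t ∈ Icc a b, ∀ x, |f t x - f s x| ≤ L * |t - s| := by
  obtain ⟨f', h1, h2⟩ := A.sm_dt hab hf
  obtain ⟨L, L0, hL⟩ := A.sm_bdd h1
  exact ⟨L, L0, fun s hs t ht x => (convex_Icc a b).norm_image_sub_le_of_norm_hasDerivWithin_le
    (fun τ hτ => h2 τ hτ x) (fun τ hτ => hL τ hτ x) hs ht⟩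

/-- continuity in time of the set integral of a nonnegative smooth function -/
theorem set_cont (A : H.Alg) (I : H.Intg) (hK : ∀ t ∈ Ioo 0 H.T, ∀ x, |H.R t x| ≤ K)
    (st : H.St a b) (hf : H.Sm a b f) (h0 : ∀ t ∈ Icc a b, ∀ x, 0 ≤ f t x) (S : Set X) :
    ContinuousOn (fun s => ∫ x in S, f s x ∂H.vol s) (Icc a b) := by
  obtain ⟨L, L0, hL⟩ := lip A st.2.1 hf
  set m : ℝ → ℝ := fun s => ∫ x in S, f s x ∂H.vol s with hm
  set v : ℝ → ℝ := fun s => ∫ _ in S, (1 : ℝ) ∂H.vol s with hv
  have key : ∀ s ∈ Icc a b, ∀ t ∈ Icc a b,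
      m t ≤ Real.exp (K * |t - s|) * m s + L * |t - s| * v t := fun s hs t ht => by
    have i1 := (A.integrable I (st.mem ht) (A.sm_s0 hf s hs)).restrict (s := S)
    have i2 := (A.integrable I (st.mem ht) (A.sm_s0 hf t ht)).restrict (s := S)
    have i3 := (A.integrable I (st.mem ht) (A.s0_const 1)).restrict (s := S)
    have k1 := set_time A I hK (st.mem hs) (st.mem ht) (A.sm_s0 hf s hs) (h0 s hs) S
    have k2 : m t ≤ ∫ x in S, (f s x + L * |t - s| * 1) ∂H.vol t :=
      integral_mono i2 (i1.add (i3.const_mul _)) fun x => by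
        have := (le_abs_self _).trans (hL s hs t ht x)
        simp only
        linarith
    rw [integral_add i1 (i3.const_mul _), integral_const_mul] at k2
    exact k2.trans (add_le_add_left k1 _)
  intro t ht
  have c1 : Continuous fun s : ℝ => Real.exp (K * |s - t|) * m t +
      L * |s - t| * (Real.exp (K * |s - t|) * v t) := by fun_prop
  have c2 : Continuous fun s : ℝ => Real.exp (-(K * |t - s|)) * (m t - L * |t - s| * v t) := by
    fun_prop
  have t1 := (c1.tendsto t).mono_left (nhdsWithin_le_nhds (s := Icc a b))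
  have t2 := (c2.tendsto t).mono_left (nhdsWithin_le_nhds (s := Icc a b))
  simp only [sub_self, abs_zero, mul_zero, neg_zero, Real.exp_zero, one_mul, zero_mul, add_zero,
    sub_zero] at t1 t2
  refine tendsto_of_tendsto_of_tendsto_of_le_of_le' t2 t1 ?_ ?_
  · filter_upwards [self_mem_nhdsWithin] with s hs
    have k := key s hs t ht
    rw [Real.exp_neg, inv_mul_le_iff₀ (Real.exp_pos _)]
    linarith
  · filter_upwards [self_mem_nhdsWithin] with s hs
    have k := set_time A I hK (st.mem ht) (st.mem hs) (A.s0_const 1) (fun _ => zero_le_one) S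
    exact (key t ht s hs).trans (add_le_add_right (mul_le_mul_of_nonneg_left k
      (mul_nonneg L0 (abs_nonneg _))) _)

end Mc

variable {M : Type*} [TopologicalSpace M] [ChartedSpace E4 M] [IsManifold 𝓘(ℝ, E4) ∞ M]
  [CompactSpace M] [T3Space M] [ConnectedSpace M] [MeasurableSpace M] [BorelSpace M]

/-- the leaf `MC` -/
theorem mc {F : Flow M} (hB : Base F) : MCStmt F := by
  intro S _ t ht
  obtain ⟨K, hK⟩ := hB.ok.evo.R_bd
  have st : F.hc.St (t / 2) ((t + F.T) / 2) :=
    ⟨by linarith [ht.1], by linarith [ht.1, ht.2], by change _ < F.T; linarith [ht.2]⟩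
  have h := Mc.set_cont hB.ok.alg hB.ok.int hK st (hB.ok.alg.sm_Q 0 st)
    (fun s hs x => hB.ok.evo.Q_nonneg 0 s (st.mem hs) x) S
  exact (h.continuousAt (Icc_mem_nhds (by linarith [ht.1]) (by linarith [ht.2]))).continuousWithinAt

end Crest.Agent.N207.Ph

end
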