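import Crest.Agent.N207.Ph.St
import Crest.Agent.N207.V.Area

/-!
# Row 207, block PHI (helper33): the area formula with multiplicity
-/

set_option autoImplicit false
set_option linter.unusedSectionVars false

open scoped ContDiff Manifold Topology
open Set MeasureTheory

noncomputable section

namespace Crest.Agent.N207.Ph

open Sk

variable {M : Type*} [TopologicalSpace M] [ChartedSpace E4 M] [IsManifold 𝓘(ℝ, E4) ∞ M]
  [CompactSpace M] [T3Space M] [ConnectedSpace M] [MeasurableSpace M] [BorelSpace M]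

variable (M) in
theorem mu : MUStmt M := by
  intro g N h D hD hs hi
  have := h.grp.fin
  have := Fintype.ofFinite N.Γ
  have := V.isFinite g
  have hκ := measurableEmbedding_embeddingReal E4
  set κ := embeddingReal E4
  set P : N.Γ → Set E4 := fun γ => D ∩ {x | ∀ δ : N.Γ, κ (δ.1 x) ≤ κ (γ.1 x)} with hP
  have hm : ∀ γ, MeasurableSet (P γ) := fun γ => hD.inter (by
    simp only [ofPred_forall]
    exact MeasurableSet.iInter fun δ => measurableSet_le
      (hκ.measurable.comp δ.1.continuous.measurable) (hκ.measurable.comp γ.1.continuous.measurable))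
  have hsub : ∀ γ, P γ ⊆ shell N.a N.b := fun γ => inter_subset_left.trans hs
  have hfree : ∀ x ∈ D, ∀ γ δ : N.Γ, κ (γ.1 x) = κ (δ.1 x) → γ = δ := fun x hx γ δ e => by
    have h0 : x ≠ 0 := norm_pos_iff.1 (h.a_pos.trans (hs hx).1)
    have := h.grp.free (δ⁻¹ * γ).1 (δ⁻¹ * γ).2 x h0 (by simp [hκ.injective e])
    exact (inv_mul_eq_one.1 (Subtype.ext this)).symm
  have hinj : ∀ γ, InjOn N.Ψ (P γ) := fun γ x hx y hy e => by
    obtain ⟨δ, hδ, rfl⟩ := (h.fib x (hsub γ hx) y (hsub γ hy)).1 e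
    have a1 := hx.2 (γ * ⟨δ, hδ⟩)
    have a2 := hy.2 (γ * ⟨δ, hδ⟩⁻¹)
    simp only [Subgroup.coe_mul, Subgroup.coe_inv, LinearIsometryEquiv.coe_mul,
      Function.comp_apply, LinearIsometryEquiv.coe_inv, LinearIsometryEquiv.symm_apply_apply]
      at a1 a2
    exact γ.1.injective (hκ.injective (le_antisymm a2 a1))
  have him : ∀ γ, N.Ψ '' P γ = N.Ψ '' D := fun γ => by
    refine Subset.antisymm (image_mono inter_subset_left) ?_
    rintro _ ⟨x, hx, rfl⟩
    obtain ⟨δ, hδ⟩ := Finite.exists_max fun δ : N.Γ => κ (δ.1 x)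
    have h1 := hi _ (γ⁻¹ * δ).2 x hx
    refine ⟨(γ⁻¹ * δ).1 x, ⟨h1, fun ε => ?_⟩,
      ((h.fib x (hs hx) _ (hs h1)).2 ⟨_, (γ⁻¹ * δ).2, rfl⟩).symm⟩
    simpa using hδ (ε * (γ⁻¹ * δ))
  have hU : D = ⋃ γ, P γ := by
    refine Subset.antisymm (fun x hx => ?_) (iUnion_subset fun _ => inter_subset_left)
    obtain ⟨δ, hδ⟩ := Finite.exists_max fun δ : N.Γ => κ (δ.1 x)
    exact mem_iUnion.2 ⟨δ, hx, hδ⟩
  refine ⟨him 1 ▸ V.par_measurableSet h.par (hsub 1) (hm 1) (hinj 1), fun f hf => ?_⟩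
  have hfi : Integrable f g.vol := hf.integrable_of_hasCompactSupport (.of_compactSpace f)
  have hI : ∀ γ, IntegrableOn (fun x => √(g.pm N.Ψ x).det * f (N.Ψ x)) (P γ) := fun γ =>
    (V.integrableOn_par_iff h.par g (hsub γ) (hm γ) (hinj γ) f).1 hfi.integrableOn
  have hE : ∀ γ, ∫ x in P γ, √(g.pm N.Ψ x).det * f (N.Ψ x) = ∫ p in N.Ψ '' D, f p ∂g.vol :=
    fun γ => him γ ▸ (V.integral_par h.par g (hsub γ) (hm γ) (hinj γ) f).symm
  refine ⟨hU ▸ integrableOn_finite_iUnion.2 hI, ?_⟩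
  have hc : (Nat.card N.Γ : ℝ) ≠ 0 := Nat.cast_ne_zero.2 Nat.card_pos.ne'
  rw [eq_inv_mul_iff_mul_eq₀ hc]
  conv_rhs => rw [hU]
  rw [integral_iUnion_fintype hm (fun γ δ hne => disjoint_left.2 fun x h1 h2 =>
    hne (hfree x h1.1 γ δ (le_antisymm (h2.2 γ) (h1.2 δ)))) hI]
  simp [hE]

end Crest.Agent.N207.Ph

end
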