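import Crest.Agent.R240.FrOp
import Crest.Agent.N207.Tens

/-!
# Row 207, block PHI (helper48): the Newton potential on `ℝ⁴`, part 1 (algebra)

`Cv k f x = ∫ k η • f (x - η)`, `Nw = Cv NK`; `lap (Nw f) = f`, `Nw (lap u) = u`, linearity,
derivatives, equivariance under isometries, dilations and translations.
-/

set_option autoImplicit false
set_option linter.unusedSectionVars false

open scoped ContDiff Topology
open MeasureTheory Set Filter

noncomputable section

namespace Crest.Agent.N207.Ph

open Crest.Agent.R240 (ee)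
open Crest.Agent.R240.Fr (NK cN lap cN_pos ker_NK newton LocSupp param_contDiff
  param_hasFDerivAt ae_ne_zero fderiv_apply_contDiff)

variable {F : Type*} [NormedAddCommGroup F] [NormedSpace ℝ F]
  {F' : Type*} [NormedAddCommGroup F'] [NormedSpace ℝ F']

/-- convolution with the kernel `k` -/
def Cv (k : E4 → ℝ) (f : E4 → F) (x : E4) : F := ∫ η, k η • f (x - η)

/-- the Newton potential -/
def Nw (f : E4 → F) : E4 → F := Cv NK f

theorem locInt_NK : LocallyIntegrable NK := ker_NK.locInt (by norm_num)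

theorem abs_NK (η : E4) : |NK η| = cN * (‖η‖ ^ 2)⁻¹ := by
  unfold NK
  rw [abs_mul, abs_neg, abs_of_pos cN_pos, abs_of_nonneg (by positivity)]

theorem locSupp_sub {f : E4 → F} (hfs : HasCompactSupport f) :
    LocSupp (fun (x : E4) (η : E4) => f (x - η)) := by
  obtain ⟨ρ, hρ⟩ := hfs.isCompact.isBounded.subset_closedBall 0
  intro x0
  refine ⟨Metric.ball x0 1, Metric.isOpen_ball, Metric.mem_ball_self one_pos,
    Metric.closedBall 0 (‖x0‖ + 1 + ρ), isCompact_closedBall _ _, fun q hq t ht => ?_⟩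
  by_contra hne
  have h1 := hρ (subset_tsupport _ hne)
  rw [mem_closedBall_zero_iff] at h1 ht
  rw [mem_ball_iff_norm] at hq
  have h2 : t = (q - x0) + x0 - (q - t) := by abel
  have h3 : ‖t‖ ≤ ‖q - x0‖ + ‖x0‖ + ‖q - t‖ := by
    conv_lhs => rw [h2]
    exact (norm_sub_le _ _).trans (add_le_add_left (norm_add_le _ _) _)
  exact ht (by linarith)

theorem hcs_sub {f : E4 → F} (hfs : HasCompactSupport f) (x : E4) :
    HasCompactSupport (fun η : E4 => f (x - η)) :=
  hfs.comp_homeomorph (Homeomorph.subLeft x)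

section cv

variable {k : E4 → ℝ}

theorem Cv_integrable (hk : LocallyIntegrable k) {f : E4 → F} (hf : Continuous f)
    (hfs : HasCompactSupport f) (x : E4) : Integrable (fun η => k η • f (x - η)) :=
  hk.integrable_smul_right_of_hasCompactSupport (hf.comp (continuous_const.sub continuous_id))
    (hcs_sub hfs x)

theorem Cv_contDiff (hk : LocallyIntegrable k) {f : E4 → F} (hf : ContDiff ℝ ∞ f)
    (hfs : HasCompactSupport f) : ContDiff ℝ ∞ (Cv k f) :=
  param_contDiff (μ := (volume : Measure E4)) hk (g := fun x η => f (x - η))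
    (hf.comp (contDiff_fst.sub contDiff_snd)) (locSupp_sub hfs)

theorem Cv_hasFDerivAt (hk : LocallyIntegrable k) {f : E4 → F} (hf : ContDiff ℝ ∞ f)
    (hfs : HasCompactSupport f) (x : E4) :
    HasFDerivAt (Cv k f) (Cv k (fderiv ℝ f) x) x := by
  have h := param_hasFDerivAt (μ := (volume : Measure E4)) hk (g := fun x η => f (x - η))
    (hf.comp (contDiff_fst.sub contDiff_snd)) (locSupp_sub hfs) x
  refine h.congr_fderiv ?_
  unfold Cv
  refine integral_congr_ae (Eventually.of_forall fun η => ?_)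
  simp only []
  congr 1
  have h2 := ((hf.differentiable (by simp)) (x - η)).hasFDerivAt.comp x
    ((hasFDerivAt_id x).sub_const η)
  exact h2.fderiv

theorem Cv_clm [CompleteSpace F] [CompleteSpace F'] (hk : LocallyIntegrable k) (L : F →L[ℝ] F')
    {f : E4 → F} (hf : Continuous f) (hfs : HasCompactSupport f) (x : E4) :
    Cv k (fun y => L (f y)) x = L (Cv k f x) := by
  unfold Cv
  rw [← L.integral_comp_comm (Cv_integrable hk hf hfs x)]
  simp only [map_smul]

theorem Cv_fderiv [CompleteSpace F] (hk : LocallyIntegrable k) {f : E4 → F}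
    (hf : ContDiff ℝ ∞ f) (hfs : HasCompactSupport f) (x v : E4) :
    fderiv ℝ (Cv k f) x v = Cv k (fun y => fderiv ℝ f y v) x := by
  rw [(Cv_hasFDerivAt hk hf hfs x).fderiv]
  exact (Cv_clm hk (ContinuousLinearMap.apply ℝ F v) (hf.continuous_fderiv (by simp))
    (hfs.fderiv (𝕜 := ℝ)) x).symm

theorem Cv_add (hk : LocallyIntegrable k) {f g : E4 → F} (hf : Continuous f)
    (hfs : HasCompactSupport f) (hg : Continuous g) (hgs : HasCompactSupport g) (x : E4) :
    Cv k (fun y => f y + g y) x = Cv k f x + Cv k g x := by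
  unfold Cv
  rw [← integral_add (Cv_integrable hk hf hfs x) (Cv_integrable hk hg hgs x)]
  simp only [smul_add]

theorem Cv_sub (hk : LocallyIntegrable k) {f g : E4 → F} (hf : Continuous f)
    (hfs : HasCompactSupport f) (hg : Continuous g) (hgs : HasCompactSupport g) (x : E4) :
    Cv k (fun y => f y - g y) x = Cv k f x - Cv k g x := by
  unfold Cv
  rw [← integral_sub (Cv_integrable hk hf hfs x) (Cv_integrable hk hg hgs x)]
  simp only [smul_sub]

theorem Cv_smul (c : ℝ) (f : E4 → F) (x : E4) : Cv k (fun y => c • f y) x = c • Cv k f x := by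
  unfold Cv
  rw [← integral_smul]
  simp only [smul_comm c]

theorem Cv_neg (f : E4 → F) (x : E4) : Cv k (fun y => -f y) x = -Cv k f x := by
  unfold Cv
  rw [← integral_neg]
  simp only [smul_neg]

theorem Cv_zero (x : E4) : Cv k (fun _ => (0 : F)) x = 0 := by simp [Cv]

theorem Cv_sum (hk : LocallyIntegrable k) {ι : Type*} (t : Finset ι) {f : ι → E4 → F}
    (hf : ∀ i ∈ t, Continuous (f i)) (hfs : ∀ i ∈ t, HasCompactSupport (f i)) (x : E4) :
    Cv k (fun y => ∑ i ∈ t, f i y) x = ∑ i ∈ t, Cv k (f i) x := by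
  unfold Cv
  rw [← integral_finsetSum _ fun i hi => Cv_integrable hk (hf i hi) (hfs i hi) x]
  simp only [Finset.smul_sum]

/-- the other form of the convolution -/
theorem Cv_eq (f : E4 → F) (x : E4) : Cv k f x = ∫ y, k (x - y) • f y := by
  unfold Cv
  rw [← integral_sub_left_eq_self (fun y => k (x - y) • f y) volume x]
  simp only [sub_sub_cancel]

theorem Cv_integrable' (hk : LocallyIntegrable k) {f : E4 → F} (hf : Continuous f)
    (hfs : HasCompactSupport f) (x : E4) : Integrable (fun y => k (x - y) • f y) := by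
  have h := (Cv_integrable hk hf hfs x).comp_sub_left x
  simpa only [sub_sub_cancel] using h

theorem Cv_translate (f : E4 → F) (v x : E4) : Cv k (fun y => f (y + v)) x = Cv k f (x + v) := by
  unfold Cv
  simp only [sub_add_eq_add_sub]

end cv

theorem hcs_fderiv_apply {f : E4 → F} (hfs : HasCompactSupport f) (v : E4) :
    HasCompactSupport (fun y => fderiv ℝ f y v) :=
  (hfs.fderiv (𝕜 := ℝ)).comp_left (g := fun L : E4 →L[ℝ] F => L v) rfl

theorem lap_contDiff {f : E4 → F} (hf : ContDiff ℝ ∞ f) : ContDiff ℝ ∞ (lap f) := by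
  unfold lap
  exact ContDiff.sum fun i _ => fderiv_apply_contDiff (fderiv_apply_contDiff hf (ee i)) _

theorem lap_Cv [CompleteSpace F] {k : E4 → ℝ} (hk : LocallyIntegrable k) {f : E4 → F}
    (hf : ContDiff ℝ ∞ f) (hfs : HasCompactSupport f) (x : E4) :
    lap (Cv k f) x = Cv k (lap f) x := by
  unfold lap
  rw [Cv_sum hk _ (fun i _ => (fderiv_apply_contDiff (fderiv_apply_contDiff hf _) _).continuous)
    (fun i _ => hcs_fderiv_apply (hcs_fderiv_apply hfs _) _)]
  refine Finset.sum_congr rfl fun i _ => ?_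
  have e : (fun z => fderiv ℝ (Cv k f) z (ee i)) = Cv k (fun y => fderiv ℝ f y (ee i)) :=
    funext fun z => Cv_fderiv hk hf hfs z _
  rw [e, Cv_fderiv hk (fderiv_apply_contDiff hf _) (hcs_fderiv_apply hfs _)]

theorem fderiv_sub_left {f : E4 → F} (hf : Differentiable ℝ f) (x η v : E4) :
    fderiv ℝ (fun z => f (x - z)) η v = -fderiv ℝ f (x - η) v := by
  have h2 : HasFDerivAt (fun z => f (x - z)) _ η :=
    (hf (x - η)).hasFDerivAt.comp η ((hasFDerivAt_id η).const_sub x)
  rw [h2.fderiv]
  simp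

theorem lap_sub_left {f : E4 → F} (hf : ContDiff ℝ ∞ f) (x η : E4) :
    lap (fun z => f (x - z)) η = lap f (x - η) := by
  unfold lap
  refine Finset.sum_congr rfl fun i _ => ?_
  have e : (fun z => fderiv ℝ (fun z => f (x - z)) z (ee i)) =
      fun z => (fun y => -fderiv ℝ f y (ee i)) (x - z) :=
    funext fun z => fderiv_sub_left (hf.differentiable (by simp)) x z _
  have hd : Differentiable ℝ fun y => fderiv ℝ f y (ee i) :=
    (fderiv_apply_contDiff hf _).differentiable (by simp)
  rw [e, fderiv_sub_left hd.fun_neg, fderiv_fun_neg]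
  simp

theorem Nw_def (f : E4 → F) (x : E4) : Nw f x = ∫ η, NK η • f (x - η) := rfl

theorem Nw_eq (f : E4 → F) (x : E4) : Nw f x = ∫ y, NK (x - y) • f y := Cv_eq f x

theorem Nw_contDiff {f : E4 → F} (hf : ContDiff ℝ ∞ f) (hfs : HasCompactSupport f) :
    ContDiff ℝ ∞ (Nw f) := Cv_contDiff locInt_NK hf hfs

theorem Nw_fderiv [CompleteSpace F] {f : E4 → F} (hf : ContDiff ℝ ∞ f)
    (hfs : HasCompactSupport f) (x v : E4) :
    fderiv ℝ (Nw f) x v = Nw (fun y => fderiv ℝ f y v) x := Cv_fderiv locInt_NK hf hfs x v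

/-- `N Δ u = u` -/
theorem Nw_lap [CompleteSpace F] {u : E4 → F} (hu : ContDiff ℝ ∞ u) (hus : HasCompactSupport u)
    (x : E4) : Nw (lap u) x = u x := by
  have h := newton (f := fun z => u (x - z)) (hu.comp (contDiff_const.sub contDiff_id))
    (hcs_sub hus x)
  simp only [lap_sub_left hu, sub_zero] at h
  exact h

/-- `Δ N f = f` -/
theorem lap_Nw [CompleteSpace F] {f : E4 → F} (hf : ContDiff ℝ ∞ f) (hfs : HasCompactSupport f)
    (x : E4) : lap (Nw f) x = f x :=
  (lap_Cv locInt_NK hf hfs x).trans (Nw_lap hf hfs x)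

theorem Nw_add {f g : E4 → F} (hf : Continuous f) (hfs : HasCompactSupport f)
    (hg : Continuous g) (hgs : HasCompactSupport g) (x : E4) :
    Nw (fun y => f y + g y) x = Nw f x + Nw g x := Cv_add locInt_NK hf hfs hg hgs x

theorem Nw_sub {f g : E4 → F} (hf : Continuous f) (hfs : HasCompactSupport f)
    (hg : Continuous g) (hgs : HasCompactSupport g) (x : E4) :
    Nw (fun y => f y - g y) x = Nw f x - Nw g x := Cv_sub locInt_NK hf hfs hg hgs x

theorem Nw_smul (c : ℝ) (f : E4 → F) (x : E4) : Nw (fun y => c • f y) x = c • Nw f x :=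
  Cv_smul c f x

theorem Nw_sum {ι : Type*} (t : Finset ι) {f : ι → E4 → F} (hf : ∀ i ∈ t, Continuous (f i))
    (hfs : ∀ i ∈ t, HasCompactSupport (f i)) (x : E4) :
    Nw (fun y => ∑ i ∈ t, f i y) x = ∑ i ∈ t, Nw (f i) x := Cv_sum locInt_NK t hf hfs x

theorem Nw_clm [CompleteSpace F] [CompleteSpace F'] (L : F →L[ℝ] F') {f : E4 → F}
    (hf : Continuous f) (hfs : HasCompactSupport f) (x : E4) :
    Nw (fun y => L (f y)) x = L (Nw f x) := Cv_clm locInt_NK L hf hfs x

theorem Nw_translate (f : E4 → F) (v x : E4) : Nw (fun y => f (y + v)) x = Nw f (x + v) :=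
  Cv_translate f v x

/-- equivariance under linear isometries -/
theorem Nw_isom (A : E4 ≃ₗᵢ[ℝ] E4) (f : E4 → F) (x : E4) :
    Nw (fun y => f (A y)) x = Nw f (A x) := by
  rw [Nw_def, Nw_def]
  have h := A.measurePreserving.integral_comp A.toHomeomorph.measurableEmbedding
    (fun η => NK η • f (A x - η))
  rw [← h]
  refine integral_congr_ae (Eventually.of_forall fun η => ?_)
  simp only [NK, LinearIsometryEquiv.norm_map, map_sub]

/-- dilations -/
theorem Nw_dilate {r : ℝ} (hr : 0 < r) (f : E4 → F) (x : E4) :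
    Nw (fun y => f (r • y)) x = (r ^ 2)⁻¹ • Nw f (r • x) := by
  rw [Nw_def, Nw_def]
  have h := Measure.integral_comp_smul (volume : Measure E4) (fun η => NK η • f (r • x - η)) r
  have hd : Module.finrank ℝ E4 = 4 := by simp
  rw [hd, abs_of_pos (by positivity)] at h
  have e : ∀ η : E4, NK η • f (r • (x - η)) = r ^ 2 • (NK (r • η) • f (r • x - r • η)) := by
    intro η
    rw [smul_smul, smul_sub]
    congr 1
    simp only [NK, norm_smul, Real.norm_eq_abs, abs_of_pos hr]
    rcases eq_or_ne ‖η‖ 0 with h0 | h0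
    · simp [h0]
    · field_simp
  simp only [e]
  rw [integral_smul, h, smul_smul]
  congr 1
  field_simp

end Crest.Agent.N207.Ph

end
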