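import Crest.Agent.N207.Ph.Nw5
import Crest.Agent.N207.Ph.Gl
import Crest.Agent.N207.A.Co1

/-!
# Row 207, block PHI (helper48): Newton kit, part 6: `la : LAStmt`
-/

set_option autoImplicit false
set_option linter.unusedSectionVars false

open scoped ContDiff Topology Pointwise RealInnerProductSpace
open MeasureTheory Set Filter Metric
open Crest.GeometryTopology.CoordMetric Crest.GeometryTopology.ChartCurvature

noncomputable section

namespace Crest.Agent.N207.Ph

open Crest.Agent.R240.Fr (NK NKi cN cN_pos lap ker_NKi contDiff_coord)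
open Crest.Agent.NLib.Ell (ei)

/-! ### isometries in components -/

/-- the matrix of an isometry -/
def om (A : Iso) (i a : Fin 4) : ℝ := A (ei i) a

theorem sum_ei (x : E4) : x = ∑ i, x i • (ei i : E4) := by
  have := (EuclideanSpace.basisFun (Fin 4) ℝ).sum_repr x
  simpa using this.symm

theorem iso_coord (A : Iso) (x : E4) (a : Fin 4) : A x a = ∑ i, x i * om A i a := by
  conv_lhs => rw [sum_ei x]
  simp [om, map_sum]

theorem inner_sum4 (v w : E4) : ⟪v, w⟫ = ∑ i, v i * w i := by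
  rw [PiLp.inner_apply]
  exact Finset.sum_congr rfl fun i _ => by simp [mul_comm]

theorem coord_iso (A : Iso) (y : E4) (c : Fin 4) : y c = ∑ d, om A c d * A y d := by
  have h := A.inner_map_map (ei c) y
  rw [inner_sum4, EuclideanSpace.inner_single_left] at h
  simpa [om] using h.symm

theorem om_orth (A : Iso) (a b : Fin 4) :
    ∑ i, om A i a * om A i b = if a = b then 1 else 0 := by
  have h1 : ∀ i a, om A i a = A.symm (ei a) i := fun i a => by
    rw [coord_iso A (A.symm (ei a)) i]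
    simp
  have h := A.symm.inner_map_map (ei a) (ei b)
  rw [inner_sum4, EuclideanSpace.inner_single_left] at h
  simp only [h1, h]
  simp

theorem fderiv_iso_app (A : Iso) (y v : E4) : fderiv ℝ A y v = A v := by
  have h := (A.toContinuousLinearEquiv : E4 →L[ℝ] E4).fderiv (x := y)
  exact congrArg (fun L : E4 →L[ℝ] E4 => L v) h

theorem pbm_iso (A : Iso) (f : MetricField 4) (y : E4) (i j : Fin 4) :
    pbm A f y i j = ∑ a, ∑ b, om A i a * om A j b * f (A y) a b := by
  simp only [pbm, Matrix.of_apply, pullT, evT, fderiv_iso_app]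
  rw [← (finTwoArrowEquiv (Fin 4)).symm.sum_comp, Fintype.sum_prod_type]
  refine Finset.sum_congr rfl fun a _ => Finset.sum_congr rfl fun b _ => ?_
  simp [Fin.prod_univ_two, finTwoArrowEquiv, matT, om]

theorem pullT_iso1 (A : Iso) (V : Tn 4 1) (y : E4) (I : Fin 1 → Fin 4) :
    pullT A V y I = ∑ a, om A (I 0) a * V (A y) ![a] := by
  simp only [pullT, evT, fderiv_iso_app]
  rw [← (Equiv.funUnique (Fin 1) (Fin 4)).symm.sum_comp]
  refine Finset.sum_congr rfl fun a _ => ?_
  have e : (Equiv.funUnique (Fin 1) (Fin 4)).symm a = ![a] := by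
    funext s; fin_cases s; rfl
  simp [e, om]

theorem pd_iso (A : Iso) (g : E4 → ℝ) (i : Fin 4) (x : E4) :
    pderiv i (fun y => g (A y)) x = ∑ a, om A i a * pderiv a g (A x) := by
  have h := A.toContinuousLinearEquiv.comp_right_fderiv (f := g) (x := x)
  have e : (fun y => g (A y)) = g ∘ A.toContinuousLinearEquiv := rfl
  unfold pderiv
  rw [e, h]
  change fderiv ℝ g (A x) (A (ei i)) = _
  conv_lhs => rw [sum_ei (A (ei i))]
  simp [map_sum, om]

theorem sm_pd' {g : E4 → ℝ} (hg : ContDiff ℝ ∞ g) (i : Fin 4) : ContDiff ℝ ∞ (pderiv i g) :=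
  R240.Fr.fderiv_apply_contDiff hg _

theorem dA {g : E4 → ℝ} (hg : ContDiff ℝ ∞ g) (x : E4) : DifferentiableAt ℝ g x :=
  hg.differentiable (by simp) x

theorem sm_iso (A : Iso) {g : E4 → ℝ} (hg : ContDiff ℝ ∞ g) : ContDiff ℝ ∞ fun y => g (A y) :=
  hg.comp A.toContinuousLinearEquiv.contDiff

theorem lap_iso (A : Iso) {g : E4 → ℝ} (hg : ContDiff ℝ ∞ g) (x : E4) :
    lap (fun y => g (A y)) x = lap g (A x) := by
  rw [lap_eq_sum, lap_eq_sum]
  have e : ∀ i, pderiv i (pderiv i fun y => g (A y)) x =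
      ∑ b, ∑ a, om A i b * om A i a * pderiv a (pderiv b g) (A x) := fun i => by
    rw [funext (pd_iso A g i), pd_sum i _ fun b _ =>
      dA (contDiff_const.mul (sm_iso A (sm_pd' hg b))) x]
    refine Finset.sum_congr rfl fun b _ => ?_
    rw [pd_cmul, pd_iso, Finset.mul_sum]
    exact Finset.sum_congr rfl fun a _ => by ring
  simp only [e]
  rw [Finset.sum_comm]
  refine Finset.sum_congr rfl fun b _ => ?_
  rw [Finset.sum_comm]
  simp only [← Finset.sum_mul, om_orth]
  simp

theorem lap_add {g h : E4 → ℝ} (hg : ContDiff ℝ ∞ g) (hh : ContDiff ℝ ∞ h) (x : E4) :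
    lap (fun y => g y + h y) x = lap g x + lap h x := by
  simp only [lap_eq_sum, ← Finset.sum_add_distrib]
  refine Finset.sum_congr rfl fun i _ => ?_
  rw [show pderiv i (fun y => g y + h y) = fun y => pderiv i g y + pderiv i h y from
    funext fun y => pd_add i (dA hg y) (dA hh y), pd_add i (dA (sm_pd' hg i) x) (dA (sm_pd' hh i) x)]

theorem lap_sub {g h : E4 → ℝ} (hg : ContDiff ℝ ∞ g) (hh : ContDiff ℝ ∞ h) (x : E4) :
    lap (fun y => g y - h y) x = lap g x - lap h x := by
  simp only [lap_eq_sum, ← Finset.sum_sub_distrib]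
  refine Finset.sum_congr rfl fun i _ => ?_
  rw [show pderiv i (fun y => g y - h y) = fun y => pderiv i g y - pderiv i h y from
    funext fun y => pd_sub i (dA hg y) (dA hh y), pd_sub i (dA (sm_pd' hg i) x) (dA (sm_pd' hh i) x)]

theorem lap_cmul (c : ℝ) (g : E4 → ℝ) (x : E4) : lap (fun y => c * g y) x = c * lap g x := by
  simp only [lap_eq_sum, Finset.mul_sum]
  refine Finset.sum_congr rfl fun i _ => ?_
  rw [show pderiv i (fun y => c * g y) = fun y => c * pderiv i g y from
    funext fun y => pd_cmul i c, pd_cmul]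

theorem lap_sum {ι : Type*} (s : Finset ι) {g : ι → E4 → ℝ} (hg : ∀ a ∈ s, ContDiff ℝ ∞ (g a))
    (x : E4) : lap (fun y => ∑ a ∈ s, g a y) x = ∑ a ∈ s, lap (g a) x := by
  simp only [lap_eq_sum]
  rw [Finset.sum_comm]
  refine Finset.sum_congr rfl fun i _ => ?_
  rw [show pderiv i (fun y => ∑ a ∈ s, g a y) = fun y => ∑ a ∈ s, pderiv i (g a) y from
    funext fun y => pd_sum i s fun a ha => dA (hg a ha) y,
    pd_sum i s fun a ha => dA (sm_pd' (hg a ha) i) x]

theorem lap_congr {g h : E4 → ℝ} {x : E4} (e : g =ᶠ[𝓝 x] h) : lap g x = lap h x := by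
  simp only [lap_eq_sum]
  exact Finset.sum_congr rfl fun i _ => pd_congr i (pd_congr_ev i e)

theorem lap_pd {g : E4 → ℝ} (hg : ContDiff ℝ ∞ g) (i : Fin 4) (x : E4) :
    lap (pderiv i g) x = pderiv i (lap g) x := by
  have c2 : ∀ {g : E4 → ℝ}, ContDiff ℝ ∞ g → ∀ y, ContDiffAt ℝ 2 g y := fun h y =>
    h.contDiffAt.of_le R247.Bo84.two_le_infty
  rw [show lap g = fun y => ∑ a, pderiv a (pderiv a g) y from rfl,
    pd_sum i _ fun a _ => dA (sm_pd' (sm_pd' hg a) a) x, lap_eq_sum]
  refine Finset.sum_congr rfl fun a _ => ?_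
  rw [show pderiv a (pderiv i g) = pderiv i (pderiv a g) from
    funext fun y => pd_comm a i (c2 hg y), pd_comm a i (c2 (sm_pd' hg a) x)]

theorem symd_iso (A : Iso) {V : Tn 4 1} (hV : ∀ I, ContDiff ℝ ∞ fun y => V y I) :
    symd (pullT A V) = pbm A (symd V) := by
  funext x
  ext i j
  have e : ∀ i j : Fin 4, pderiv i (fun y => pullT A V y ![j]) x =
      ∑ a, ∑ b, om A i a * om A j b * pderiv a (fun y => V y ![b]) (A x) := fun i j => by
    simp only [pullT_iso1, Matrix.cons_val_zero]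
    rw [pd_sum i _ fun b _ => dA (contDiff_const.mul (sm_iso A (hV _))) x, Finset.sum_comm]
    refine Finset.sum_congr rfl fun b _ => ?_
    rw [pd_cmul, pd_iso A fun y => V y ![b], Finset.mul_sum]
    exact Finset.sum_congr rfl fun a _ => by ring
  rw [pbm_iso]
  simp only [symd, Matrix.of_apply, e, mul_add, Finset.sum_add_distrib]
  congr 1
  rw [Finset.sum_comm]
  exact Finset.sum_congr rfl fun a _ => Finset.sum_congr rfl fun b _ => by ring

/-! ### the gauge fields -/

theorem intOn_Sh_mul {k g : E4 → ℝ} (hk : LocallyIntegrable k) (hg : Continuous g) (l : ℕ) :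
    IntegrableOn (fun y => k y * g y) (Sh l) :=
  ((hk.integrableOn_isCompact (isCompact_closedBall (0 : E4) (2 ^ (l + 1)))).mul_continuousOn
    hg.continuousOn (isCompact_closedBall _ _)).mono_set
    ((Sh_sub l).trans ball_subset_closedBall)

theorem locInt_NKi (c : Fin 4) : LocallyIntegrable (NKi c) := (ker_NKi c).locInt le_rfl

theorem NKi_iso (A : Iso) (c : Fin 4) (y : E4) : NKi c y = ∑ d, om A c d * NKi d (A y) := by
  simp only [NKi, LinearIsometryEquiv.norm_map]
  rw [coord_iso A y c, Finset.mul_sum, Finset.sum_mul]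
  exact Finset.sum_congr rfl fun d _ => by ring

theorem p0_pbm (A : Iso) (l : ℕ) {f : MetricField 4} (hf : ∀ i j, Continuous fun y => f y i j)
    (i j : Fin 4) : p0 l (pbm A f) i j = ∑ a, ∑ b, om A i a * om A j b * p0 l f a b := by
  have hi : ∀ a b, IntegrableOn (fun y => om A i a * om A j b * (NK y * f y a b)) (Sh l) :=
    fun a b => (intOn_Sh_mul locInt_NK (hf a b) l).const_mul _
  simp only [p0, ← integral_const_mul]
  simp_rw [← integral_finsetSum _ fun b _ => hi _ b]
  rw [← integral_finsetSum _ fun a _ => integrable_finsetSum _ fun b _ => hi a b,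
    ← int_Sh_iso A l fun y => ∑ a, ∑ b, om A i a * om A j b * (NK y * f y a b)]
  refine integral_congr_ae (Eventually.of_forall fun y => ?_)
  simp only [pbm_iso, NK_iso, Finset.mul_sum]
  exact Finset.sum_congr rfl fun a _ => Finset.sum_congr rfl fun b _ => by ring

theorem p1_pbm (A : Iso) (l : ℕ) {f : MetricField 4} (hf : ∀ i j, Continuous fun y => f y i j)
    (i j c : Fin 4) :
    p1 l (pbm A f) i j c = ∑ a, ∑ b, ∑ d, om A i a * om A j b * om A c d * p1 l f a b d := by
  have hi : ∀ a b d, IntegrableOn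
      (fun y => om A i a * om A j b * om A c d * (NKi d y * f y a b)) (Sh l) :=
    fun a b d => (intOn_Sh_mul (locInt_NKi d) (hf a b) l).const_mul _
  simp only [p1, mul_neg, Finset.sum_neg_distrib, ← integral_const_mul, neg_inj]
  simp_rw [← integral_finsetSum _ fun d _ => hi _ _ d]
  simp_rw [← integral_finsetSum _ fun b _ => integrable_finsetSum _ fun d _ => hi _ b d]
  rw [← integral_finsetSum _ fun a _ => integrable_finsetSum _ fun b _ =>
      integrable_finsetSum _ fun d _ => hi a b d,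
    ← int_Sh_iso A l fun y => ∑ a, ∑ b, ∑ d, om A i a * om A j b * om A c d * (NKi d y * f y a b)]
  refine integral_congr_ae (Eventually.of_forall fun y => ?_)
  simp only [pbm_iso, NKi_iso A c y, Finset.mul_sum, Finset.sum_mul]
  exact Finset.sum_congr rfl fun a _ => Finset.sum_congr rfl fun b _ =>
    Finset.sum_congr rfl fun d _ => by ring

theorem alg2 (o P : Fin 4 → Fin 4 → ℝ) (x : Fin 4 → ℝ) (m : Fin 4) :
    ∑ a, (∑ c, ∑ d, o m c * o a d * P c d) / 2 * x a =
      ∑ c, o m c * ∑ d, P c d / 2 * ∑ a, x a * o a d := by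
  simp only [Fin.sum_univ_four]; ring

theorem alg3 (o Q : Fin 4 → Fin 4 → ℝ) (x : Fin 4 → ℝ) :
    ∑ a, ∑ b, (∑ d, ∑ e, o a d * o b e * Q d e) * (x a * x b) =
      ∑ d, ∑ e, Q d e * ((∑ a, x a * o a d) * ∑ a, x a * o a e) := by
  simp only [Fin.sum_univ_four]; ring

theorem alg4 (o z : Fin 4 → ℝ) (R : Fin 4 → Fin 4 → Fin 4 → ℝ) :
    ∑ d, ∑ e, (∑ c, o c * R c d e) * (z d * z e) =
      ∑ c, o c * ∑ d, ∑ e, R c d e * (z d * z e) := by
  simp only [Fin.sum_univ_four]; ring

theorem Xg_pbm (A : Iso) (l : ℕ) {f : MetricField 4} (hf : ∀ i j, Continuous fun y => f y i j)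
    (m : Fin 4) (x : E4) : Xg l (pbm A f) m x = ∑ c, om A m c * Xg l f c (A x) := by
  simp only [Xg, p0_pbm A l hf, p1_pbm A l hf, iso_coord, mul_add, Finset.sum_add_distrib]
  rw [alg2]
  congr 1
  have h := alg3 (om A)
    (fun d e => ∑ c, om A m c * (p1 l f c d e / 2 - p1 l f d e c / 4)) x
  refine Eq.trans (Finset.sum_congr rfl fun a _ => Finset.sum_congr rfl fun b _ => ?_)
    (h.trans ?_)
  · congr 1
    simp only [Fin.sum_univ_four]; ring
  · exact alg4 (om A m) (fun d => ∑ a, x a * om A a d)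
      fun c d e => p1 l f c d e / 2 - p1 l f d e c / 4

theorem zt_iso (A : Iso) (l : ℕ) (x : E4) : zt l (A x) = zt l x := by
  simp [zt, up, norm_smul]

theorem zt_smooth (l : ℕ) : ContDiff ℝ ∞ (zt l) :=
  contDiff_const.sub ((up_smooth _ _).comp (contDiff_id.const_smul _))

theorem norm_zt_arg (l : ℕ) (x : E4) : ‖((2 : ℝ) ^ l)⁻¹ • x‖ = ‖x‖ / 2 ^ l := by
  rw [norm_smul, Real.norm_of_nonneg (by positivity), inv_mul_eq_div]

theorem zt_eq_zero {l : ℕ} {x : E4} (h : 2 ^ l / 8 ≤ ‖x‖) : zt l x = 0 := by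
  rw [zt, up_eq_one (by norm_num) (by norm_num), sub_self]
  rw [norm_zt_arg, le_div_iff₀ (by positivity)]; linarith

theorem zt_eq_one {l : ℕ} {x : E4} (h : ‖x‖ ≤ 2 ^ l / 16) : zt l x = 1 := by
  rw [zt, up_eq_zero (by norm_num) (by norm_num), sub_zero]
  rw [norm_zt_arg, div_le_iff₀ (by positivity)]; linarith

theorem Xg_smooth (l : ℕ) (f : MetricField 4) (m : Fin 4) : ContDiff ℝ ∞ (Xg l f m) :=
  (ContDiff.sum fun a _ => contDiff_const.mul (contDiff_coord a)).add
    (ContDiff.sum fun a _ => ContDiff.sum fun b _ =>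
      contDiff_const.mul ((contDiff_coord a).mul (contDiff_coord b)))

theorem Wg_smooth (n : ℕ) (f : MetricField 4) (I : Fin 1 → Fin 4) :
    ContDiff ℝ ∞ fun x => Wg n f x I :=
  ContDiff.sum fun l _ => (zt_smooth l).mul (Xg_smooth l f _)

theorem UU_smooth (n : ℕ) (f : MetricField 4) (I : Fin 1 → Fin 4) :
    ContDiff ℝ ∞ fun x => UU n f x I := lap_contDiff (Wg_smooth n f I)

theorem symd_smooth {V : Tn 4 1} (hV : ∀ I, ContDiff ℝ ∞ fun y => V y I) (i j : Fin 4) :
    ContDiff ℝ ∞ fun y => symd V y i j := (sm_pd' (hV _) i).add (sm_pd' (hV _) j)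

theorem Wg_pbm (A : Iso) (n : ℕ) {f : MetricField 4} (hf : ∀ i j, Continuous fun y => f y i j) :
    Wg n (pbm A f) = pullT A (Wg n f) := by
  funext x I
  rw [pullT_iso1]
  simp only [Wg, Xg_pbm A _ hf, zt_iso, Finset.mul_sum, Matrix.cons_val_zero]
  rw [Finset.sum_comm]
  exact Finset.sum_congr rfl fun a _ => Finset.sum_congr rfl fun l _ => by ring

theorem UU_pbm (A : Iso) (n : ℕ) {f : MetricField 4} (hf : ∀ i j, Continuous fun y => f y i j) :
    UU n (pbm A f) = pullT A (UU n f) := by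
  funext x I
  rw [pullT_iso1]
  simp only [UU, Wg_pbm A n hf, pullT_iso1]
  rw [lap_sum _ fun a _ => contDiff_const.mul (sm_iso A (Wg_smooth n f _))]
  refine Finset.sum_congr rfl fun a _ => ?_
  rw [lap_cmul, lap_iso A (Wg_smooth n f _)]

theorem hcs_entry {f : MetricField 4} {n : ℕ} (h0 : ∀ y : E4, 2 ^ n ≤ ‖y‖ + 1 → f y = 0)
    (i j : Fin 4) : HasCompactSupport fun y => f y i j :=
  hcs_of_lv (n := n) fun y hy => by rw [h0 y hy]; rfl

theorem KK_pbm (A : Iso) {n : ℕ} {f : MetricField 4} (hf : ∀ i j, Continuous fun y => f y i j)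
    (h0 : ∀ y : E4, 2 ^ n ≤ ‖y‖ + 1 → f y = 0) : KK n (pbm A f) = pbm A (KK n f) := by
  funext x
  ext i j
  have hc : ∀ a b, Continuous fun y => (om A i a * om A j b) • f y a b := fun a b =>
    (hf a b).const_smul (om A i a * om A j b)
  have hs : ∀ a b, HasCompactSupport fun y => (om A i a * om A j b) • f y a b := fun a b =>
    hcs_of_lv (n := n) fun y hy => by rw [h0 y hy]; simp
  have e : Nw (fun y => pbm A f y i j) x =
      ∑ a, ∑ b, om A i a * om A j b * Nw (fun y => f y a b) (A x) := by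
    simp only [pbm_iso]
    rw [Nw_isom A fun y => ∑ a, ∑ b, om A i a * om A j b * f y a b]
    refine (Nw_sum _ (f := fun a y => ∑ b, (om A i a * om A j b) • f y a b)
      (fun a _ => continuous_finsetSum _ fun b _ => hc a b)
      (fun a _ => hcs_of_lv (n := n) fun y hy => by rw [h0 y hy]; simp) _).trans ?_
    refine Finset.sum_congr rfl fun a _ => ?_
    rw [Nw_sum _ (fun b _ => hc a b) fun b _ => hs a b]
    exact Finset.sum_congr rfl fun b _ => Nw_smul _ _ _
  rw [pbm_iso, KK, Matrix.of_apply, e]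
  simp only [KK, Matrix.of_apply, Wg_pbm A n hf, symd_iso A (Wg_smooth n f), pbm_iso, mul_sub,
    Finset.sum_sub_distrib]

theorem Wg_sub (n : ℕ) {f g : MetricField 4} (hf : ∀ i j, Continuous fun y => f y i j)
    (hg : ∀ i j, Continuous fun y => g y i j) (x : E4) (I : Fin 1 → Fin 4) :
    Wg n (fun y => f y - g y) x I = Wg n f x I - Wg n g x I := by
  have e0 : ∀ l i j, p0 l (fun y => f y - g y) i j = p0 l f i j - p0 l g i j := fun l i j => by
    simp only [p0, Matrix.sub_apply, mul_sub]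
    exact integral_sub (intOn_Sh_mul locInt_NK (hf i j) l) (intOn_Sh_mul locInt_NK (hg i j) l)
  have e1 : ∀ l i j c, p1 l (fun y => f y - g y) i j c = p1 l f i j c - p1 l g i j c :=
    fun l i j c => by
      simp only [p1, Matrix.sub_apply, mul_sub]
      rw [integral_sub (intOn_Sh_mul (locInt_NKi c) (hf i j) l)
        (intOn_Sh_mul (locInt_NKi c) (hg i j) l)]
      ring
  simp only [Wg, ← Finset.sum_sub_distrib, ← mul_sub]
  refine Finset.sum_congr rfl fun l _ => ?_
  congr 1
  simp only [Xg, e0, e1, Fin.sum_univ_four]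
  ring

theorem KK_smooth {n : ℕ} {f : MetricField 4} (hf : ∀ i j, ContDiff ℝ ∞ fun y => f y i j)
    (h0 : ∀ y : E4, 2 ^ n ≤ ‖y‖ + 1 → f y = 0) (i j : Fin 4) :
    ContDiff ℝ ∞ fun y => KK n f y i j :=
  (Nw_contDiff (hf i j) (hcs_entry h0 i j)).sub (symd_smooth (Wg_smooth n f) i j)

theorem lap_KK {n : ℕ} {f : MetricField 4} (hf : ∀ i j, ContDiff ℝ ∞ fun y => f y i j)
    (h0 : ∀ y : E4, 2 ^ n ≤ ‖y‖ + 1 → f y = 0) (x : E4) (i j : Fin 4) :
    lap (fun y => KK n f y i j) x + symd (UU n f) x i j = f x i j := by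
  have e := lap_sub (Nw_contDiff (hf i j) (hcs_entry h0 i j)) (symd_smooth (Wg_smooth n f) i j) x
  have e2 := lap_add (sm_pd' (Wg_smooth n f ![j]) i) (sm_pd' (Wg_smooth n f ![i]) j) x
  rw [lap_pd (Wg_smooth n f _), lap_pd (Wg_smooth n f _)] at e2
  rw [lap_Nw (hf i j) (hcs_entry h0 i j)] at e
  have e3 : lap (fun y => symd (Wg n f) y i j) x = symd (UU n f) x i j := e2
  rw [← e3]
  exact (congrArg (· + _) e).trans (sub_add_cancel _ _)

theorem UU_out (n : ℕ) (f : MetricField 4) {x : E4} (hx : 2 ^ n ≤ ‖x‖) : UU n f x = 0 := by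
  funext I
  have h : (fun y => Wg n f y I) =ᶠ[𝓝 x] fun _ => 0 := by
    have h2 : (0 : ℝ) < 2 ^ n := by positivity
    have : ∀ᶠ y in 𝓝 x, (2 : ℝ) ^ n / 2 < ‖y‖ :=
      continuous_norm.continuousAt.eventually (lt_mem_nhds (by linarith))
    filter_upwards [this] with y hy
    refine Finset.sum_eq_zero fun l hl => ?_
    have : (2 : ℝ) ^ l ≤ 2 ^ n := pow_le_pow_right₀ one_le_two (Finset.mem_range.1 hl).le
    rw [zt_eq_zero (by linarith), zero_mul]
  rw [UU, lap_congr h]
  simp [lap]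

theorem la : LAStmt := by
  refine ⟨fun n f => ⟨fun I => (UU_smooth n f I).contDiffOn, fun x hx => UU_out n f hx⟩,
    fun n f hf h0 => ⟨KK_smooth hf h0, fun hs y => ?_, lap_KK hf h0,
      fun A => KK_pbm A (fun i j => (hf i j).continuous) h0⟩,
    fun n f g hf hg => ⟨?_, fun h0 h0' => ?_⟩, fun n f A hf => UU_pbm A n hf⟩
  · ext i j
    have e : (fun y => f y j i) = fun y => f y i j := funext fun y => (hs y).apply i j
    simp only [KK, symd, Matrix.transpose_apply, Matrix.of_apply, e, add_comm]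
  · funext x I
    simp only [UU, Wg_sub n hf hg, Pi.sub_apply]
    exact lap_sub (Wg_smooth n f I) (Wg_smooth n g I) x
  · funext x
    ext i j
    simp only [KK, symd, Matrix.of_apply, Matrix.sub_apply, Wg_sub n hf hg]
    rw [Nw_sub (hf i j) (hcs_entry h0 i j) (hg i j) (hcs_entry h0' i j),
      pd_sub i (dA (Wg_smooth n f _) x) (dA (Wg_smooth n g _) x),
      pd_sub j (dA (Wg_smooth n f _) x) (dA (Wg_smooth n g _) x)]
    ring

/-- invariance -/
theorem inv_iff {Γ : Subgroup Iso} {f : MetricField 4} : Inv Γ f ↔ ∀ γ ∈ Γ, pbm γ f = f := by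
  refine forall₂_congr fun γ _ => ⟨fun h => ?_, fun h x => ?_⟩
  · funext x
    ext i j
    exact (congrFun (h x) ![i, j]).symm
  · funext I
    have e : I = ![I 0, I 1] := by funext s; fin_cases s <;> rfl
    have := congrFun (congrFun (congrFun h x) (I 0)) (I 1)
    rw [e]
    exact this.symm

theorem KK_inv {Γ : Subgroup Iso} {n : ℕ} {f : MetricField 4}
    (hf : ∀ i j, Continuous fun y => f y i j) (h0 : ∀ y : E4, 2 ^ n ≤ ‖y‖ + 1 → f y = 0)
    (h : Inv Γ f) : Inv Γ (KK n f) :=
  inv_iff.2 fun γ hγ => by rw [← KK_pbm γ hf h0, inv_iff.1 h γ hγ]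

theorem UU_inv {Γ : Subgroup Iso} (n : ℕ) {f : MetricField 4}
    (hf : ∀ i j, Continuous fun y => f y i j) (h : Inv Γ f) :
    ∀ γ ∈ Γ, ∀ x, UU n f x = pullT γ (UU n f) x := fun γ hγ x => by
  rw [← UU_pbm γ n hf, inv_iff.1 h γ hγ]

end Crest.Agent.N207.Ph

end
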