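import Crest.Agent.N207.Ph.Nw6

/-!
# Row 207, block PHI (helper48): Newton kit, part 7: the gauge fields on cells, `lu : LUStmt`
-/

set_option autoImplicit false
set_option linter.unusedSectionVars false

open scoped ContDiff Topology Pointwise RealInnerProductSpace
open MeasureTheory Set Filter Metric
open Crest.GeometryTopology.CoordMetric Crest.GeometryTopology.ChartCurvature

noncomputable section

namespace Crest.Agent.N207.Ph

open Crest.Agent.R240.Fr (NK NKi cN cN_pos lap ker_NKi contDiff_coord ae_ne_zero)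
open Crest.Agent.NLib.Ell (CKA ei)

theorem exists_cka {F : Type} [NormedAddCommGroup F] [NormedSpace ℝ F] {g : E4 → F}
    (hg : ContDiff ℝ ∞ g) (k : ℕ) (R : ℝ) : ∃ V, 0 < V ∧ CKA (1 / 2) (ball (0 : E4) R) k V g := by
  have h1 : ∀ j : ℕ, ∃ C, ∀ Y ∈ closedBall (0 : E4) R, ‖iteratedFDeriv ℝ j g Y‖ ≤ C := fun j =>
    (isCompact_closedBall _ _).exists_bound_of_continuousOn
      (hg.continuous_iteratedFDeriv (by exact_mod_cast le_top)).continuousOn
  choose C hC using h1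
  have h0 : 0 ≤ ∑ j ∈ Finset.range (k + 2), |C j| := Finset.sum_nonneg fun _ _ => abs_nonneg _
  refine ⟨2 * (∑ j ∈ Finset.range (k + 2), |C j|) + 1, by positivity,
    (CKA.of_bounds (M := ∑ j ∈ Finset.range (k + 2), |C j|) isOpen_ball (convex_ball _ _)
    (by norm_num) (by norm_num) (hg.of_le (by exact_mod_cast le_top)).contDiffOn
    fun j hj Y hY => ?_).mono (by linarith)⟩
  exact ((hC j Y (ball_subset_closedBall hY)).trans (le_abs_self _)).trans
    (Finset.single_le_sum (f := fun j => |C j|) (fun _ _ => abs_nonneg _)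
      (Finset.mem_range.2 (by omega)))

/-- a fixed smooth function read at scale `t` -/
theorem ck_scale {F : Type} [NormedAddCommGroup F] [NormedSpace ℝ F] {g : E4 → F}
    (hg : ContDiff ℝ ∞ g) (k : ℕ) : ∃ V, 0 < V ∧ ∀ (t : ℝ) (y : E4), ‖y‖ + 1 ≤ 4 * t →
      CK k V (fun x => g (t⁻¹ • x)) y := by
  obtain ⟨V, hV, h⟩ := exists_cka hg k 6
  refine ⟨V, hV, fun t y hy => ?_⟩
  have hs := sc_pos y
  have ht : 0 < t := by linarith
  have hr : |t⁻¹ * ((‖y‖ + 1) / 4)| ≤ 1 := by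
    rw [abs_of_pos (by positivity), inv_mul_le_iff₀ ht]; linarith
  refine ((h.dilate isOpen_ball (by norm_num) (by norm_num) (t⁻¹ • y) hr).subset
    fun Y hY => ?_).congr isOpen_ball fun Y _ => ?_
  · rw [mem_preimage, mem_ball_zero_iff]
    rw [mem_ball_zero_iff] at hY
    refine (norm_add_le _ _).trans_lt ?_
    rw [norm_smul, norm_smul, Real.norm_of_nonneg (by positivity), Real.norm_eq_abs]
    have h1 : t⁻¹ * ‖y‖ ≤ 4 := by rw [inv_mul_le_iff₀ ht]; linarith
    nlinarith [norm_nonneg Y, abs_nonneg (t⁻¹ * ((‖y‖ + 1) / 4))]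
  · simp only [cl, smul_add, smul_smul]

/-- the constant of the jets at `0` -/
def Cp : ℝ := 4 * cN * IB 2 + 20 * cN * IB 3

theorem Cp_pos : 0 < Cp := by
  have := cN_pos; have := IB_pos 2; have := IB_pos 3
  unfold Cp; positivity

theorem p0_le {l : ℕ} {f : MetricField 4} {i j : Fin 4} {A : ℝ} (hA : 0 ≤ A)
    (h : ∀ y ∈ Sh l, |f y i j| ≤ A / 4 ^ l) : |p0 l f i j| ≤ Cp * A := by
  have hN := cN_pos
  have h1 := norm_integral_le_of_norm_le (μ := volume.restrict (Sh l))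
    (f := fun y => NK y * f y i j) ((intOn_Sh (a := 2) (by norm_num) 0 l).const_mul
      (cN * (A / 4 ^ l)))
    ((ae_restrict_iff' (meas_Sh l)).2 (Eventually.of_forall fun y hy => by
      rw [norm_mul, Real.norm_eq_abs, Real.norm_eq_abs, abs_NK, zero_sub, norm_neg]
      calc cN * (‖y‖ ^ 2)⁻¹ * |f y i j| ≤ cN * (‖y‖ ^ 2)⁻¹ * (A / 4 ^ l) := by
            gcongr; exact h y hy
        _ = _ := by ring))
  rw [integral_const_mul] at h1
  refine h1.trans ((mul_le_mul_of_nonneg_left (int_Sh (by norm_num) 0 l) (by positivity)).trans ?_)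
  have e : cN * (A / 4 ^ l) * (IB 2 * ((2 ^ (l + 1)) ^ 4 / (2 ^ (l + 1)) ^ 2)) =
      4 * cN * IB 2 * A := by
    rw [show (4 : ℝ) ^ l = 2 ^ l * 2 ^ l by rw [← mul_pow]; norm_num]; field_simp; ring
  rw [e, Cp]
  have := IB_pos 3
  gcongr
  linarith [mul_pos (mul_pos (by norm_num : (0 : ℝ) < 20) hN) this]

theorem p1_le {l : ℕ} {f : MetricField 4} {i j : Fin 4} (c : Fin 4) {A : ℝ} (hA : 0 ≤ A)
    (h : ∀ y ∈ Sh l, |f y i j| ≤ A / 4 ^ l) : |p1 l f i j c| ≤ Cp * A / 2 ^ l := by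
  have hN := cN_pos
  have h1 := norm_integral_le_of_norm_le (μ := volume.restrict (Sh l))
    (f := fun y => NKi c y * f y i j) ((intOn_Sh (a := 3) le_rfl 0 l).const_mul
      (10 * cN * (A / 4 ^ l)))
    ((ae_restrict_iff' (meas_Sh l)).2 (by
      filter_upwards [ae_ne_zero] with y h0 hy
      rw [norm_mul, Real.norm_eq_abs, Real.norm_eq_abs, zero_sub, norm_neg]
      calc |NKi c y| * |f y i j| ≤ 10 * cN * (‖y‖ ^ 3)⁻¹ * (A / 4 ^ l) :=
            mul_le_mul ((ker_NKi c).bd y h0) (h y hy) (abs_nonneg _) (by positivity)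
        _ = _ := by ring))
  rw [integral_const_mul] at h1
  rw [p1, abs_neg]
  refine h1.trans ((mul_le_mul_of_nonneg_left (int_Sh le_rfl 0 l) (by positivity)).trans ?_)
  have e : 10 * cN * (A / 4 ^ l) * (IB 3 * ((2 ^ (l + 1)) ^ 4 / (2 ^ (l + 1)) ^ 3)) =
      20 * cN * IB 3 * A / 2 ^ l := by
    rw [show (4 : ℝ) ^ l = 2 ^ l * 2 ^ l by rw [← mul_pow]; norm_num]; field_simp; ring
  rw [e, Cp]
  have := IB_pos 2
  gcongr
  linarith [mul_pos (mul_pos (by norm_num : (0 : ℝ) < 4) hN) this]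

/-- bounds for the coefficients of the shell `l` -/
structure PB (l : ℕ) (f : MetricField 4) (A : ℝ) : Prop where
  h0 : ∀ i j, |p0 l f i j| ≤ A
  h1 : ∀ i j c, |p1 l f i j c| ≤ A / 2 ^ l

theorem PB.nonneg {l : ℕ} {f : MetricField 4} {A : ℝ} (h : PB l f A) : 0 ≤ A :=
  (abs_nonneg _).trans (h.h0 0 0)

theorem PB.q {l : ℕ} {f : MetricField 4} {A : ℝ} (h : PB l f A) (m a b : Fin 4) :
    |p1 l f m a b / 2 - p1 l f a b m / 4| ≤ A / 2 ^ l := by
  have h1 := abs_le.1 (h.h1 m a b)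
  have h2 := abs_le.1 (h.h1 a b m)
  have h3 : 0 ≤ A / 2 ^ l := (abs_nonneg _).trans (h.h1 m a b)
  rw [abs_le]; constructor <;> linarith [h1.1, h1.2, h2.1, h2.2]

theorem ws_nonneg4 {F : Type} [NormedAddCommGroup F] [NormedSpace ℝ F] {a : ℕ → ℝ} {g : E4 → F}
    (h : WS (fun l => a l / 4 ^ l) g) (l : ℕ) : 0 ≤ a l := by
  have hl : (0 : ℝ) < 4 ^ l := by positivity
  have := mul_nonneg (h.nonneg l) hl.le
  rwa [div_mul_cancel₀ _ hl.ne'] at this

theorem pb_of_ws {f : MetricField 4} {a : ℕ → ℝ}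
    (h : ∀ i j, WS (fun l => a l / 4 ^ l) fun y => f y i j) (l : ℕ) : PB l f (Cp * a l) :=
  ⟨fun i j => p0_le (ws_nonneg4 (h 0 0) l) fun y hy => h i j l y hy.1 hy.2.le,
    fun i j c => p1_le c (ws_nonneg4 (h 0 0) l) fun y hy => h i j l y hy.1 hy.2.le⟩

/-- the gauge field of one shell -/
def Wl (l : ℕ) (f : MetricField 4) (m : Fin 4) (x : E4) : ℝ := zt l x * Xg l f m x

theorem Wl_smooth (l : ℕ) (f : MetricField 4) (m : Fin 4) : ContDiff ℝ ∞ (Wl l f m) :=
  (zt_smooth l).mul (Xg_smooth l f m)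

theorem Wl_far (k l : ℕ) (f : MetricField 4) (m : Fin 4) {y : E4} (hy : 4 * 2 ^ l < ‖y‖ + 1) :
    CK k 0 (Wl l f m) y := CK.of_zero le_rfl fun z hz => by
  have h1 := (sc_near hz).1
  have h2 : (1 : ℝ) ≤ 2 ^ l := one_le_pow₀ one_le_two
  rw [Wl, zt_eq_zero (by linarith), zero_mul]

theorem Wl_ev {l : ℕ} (f : MetricField 4) (m : Fin 4) {x : E4} (hx : ‖x‖ < 2 ^ l / 16) :
    Wl l f m =ᶠ[𝓝 x] Xg l f m := by
  have : ∀ᶠ y in 𝓝 x, ‖y‖ < (2 : ℝ) ^ l / 16 :=
    continuous_norm.continuousAt.eventually (gt_mem_nhds hx)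
  filter_upwards [this] with y hy
  rw [Wl, zt_eq_one hy.le, one_mul]

theorem ck_Wl (k : ℕ) : ∃ C : ℝ, 0 < C ∧ ∀ (l : ℕ) (f : MetricField 4) (A : ℝ), PB l f A →
    ∀ (m : Fin 4) (y : E4), CK k (C * A * 2 ^ l) (Wl l f m) y := by
  obtain ⟨V, hV, H⟩ := ck_scale (g := fun x : E4 => 1 - up (1 / 16) (1 / 8) x)
    (contDiff_const.sub (up_smooth _ _)) k
  obtain ⟨W, hW, H'⟩ := ck_scale (g := fun x : E4 => x) contDiff_id k
  refine ⟨2 ^ (k + 1) * (V * (4 * W + 16 * (2 ^ (k + 1) * (W * W)))), by positivity,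
    fun l f A hA m y => ?_⟩
  have hA0 := hA.nonneg
  have hl : (0 : ℝ) < 2 ^ l := by positivity
  rcases lt_or_ge (4 * 2 ^ l) (‖y‖ + 1) with hy | hy
  · exact (Wl_far k l f m hy).mono (by positivity)
  have hx : ∀ a, CK k (2 ^ l * W) (fun x : E4 => x a) y := fun a => by
    have := ((H' (2 ^ l) y hy).proj a).const_mul (2 ^ l)
    rw [abs_of_pos hl] at this
    exact this.congr fun z _ => by simp
  have h1 : ∀ a, CK k (A * (2 ^ l * W)) (fun x : E4 => p0 l f m a / 2 * x a) y := fun a =>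
    ((hx a).const_mul _).mono (mul_le_mul_of_nonneg_right (by
      rw [abs_div, abs_two]; linarith [hA.h0 m a]) (by positivity))
  have h2 : ∀ a b, CK k (A / 2 ^ l * (2 ^ (k + 1) * (2 ^ l * W * (2 ^ l * W))))
      (fun x : E4 => (p1 l f m a b / 2 - p1 l f a b m / 4) * (x a * x b)) y := fun a b =>
    (((hx a).mul (hx b)).const_mul _).mono (mul_le_mul_of_nonneg_right (hA.q m a b)
      (by positivity))
  have h3 := (CK.sum_le h1).add (CK.sum_le fun a => CK.sum_le (h2 a))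
  refine ((H (2 ^ l) y hy).mul h3).mono (le_of_eq ?_)
  simp only [Fintype.card_fin]
  push_cast
  field_simp
  ring

theorem pd_coord (i a : Fin 4) (x : E4) :
    pderiv i (fun y : E4 => y a) x = if a = i then 1 else 0 := by
  have h := (EuclideanSpace.proj (𝕜 := ℝ) a : E4 →L[ℝ] ℝ).fderiv (x := x)
  have e : (fun y : E4 => y a) = (EuclideanSpace.proj (𝕜 := ℝ) a : E4 →L[ℝ] ℝ) := rfl
  rw [pderiv, e, h]
  simp

theorem pd_Xg (l : ℕ) (f : MetricField 4) (m i : Fin 4) (x : E4) :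
    pderiv i (Xg l f m) x = p0 l f m i / 2 + ∑ b, ((p1 l f m i b / 2 - p1 l f i b m / 4) +
      (p1 l f m b i / 2 - p1 l f b i m / 4)) * x b := by
  have dc : ∀ a, DifferentiableAt ℝ (fun y : E4 => y a) x := fun a => dA (contDiff_coord a) x
  unfold Xg
  rw [pd_add i (by fun_prop) (by fun_prop), pd_sum i _ fun a _ => by fun_prop,
    pd_sum i _ fun a _ => by fun_prop]
  simp only [pd_cmul, pd_coord]
  have e : ∀ a, pderiv i (fun z : E4 => ∑ b, (p1 l f m a b / 2 - p1 l f a b m / 4) * (z a * z b)) x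
      = ∑ b, (p1 l f m a b / 2 - p1 l f a b m / 4) *
        ((if a = i then 1 else 0) * x b + x a * if b = i then 1 else 0) := fun a => by
    rw [pd_sum i _ fun b _ => by fun_prop]
    refine Finset.sum_congr rfl fun b _ => ?_
    rw [pd_cmul, pd_mul i (dc a) (dc b), pd_coord, pd_coord]
  simp only [e]
  fin_cases i <;> simp [Fin.sum_univ_four] <;> ring

theorem lap_Xg (l : ℕ) (f : MetricField 4) (m : Fin 4) (x : E4) :
    lap (Xg l f m) x = ∑ i, 2 * (p1 l f m i i / 2 - p1 l f i i m / 4) := by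
  rw [lap_eq_sum]
  refine Finset.sum_congr rfl fun i _ => ?_
  rw [funext (pd_Xg l f m i), pd_add i (by fun_prop) (by fun_prop), pd_const,
    pd_sum i _ fun a _ => by fun_prop]
  simp only [pd_cmul, pd_coord]
  simp
  ring

theorem CK.lap {k : ℕ} {M : ℝ} {g : E4 → ℝ} {y : E4} (h : CK (k + 2) M g y) :
    CK k (4 * (4 / (‖y‖ + 1) * (4 / (‖y‖ + 1) * M))) (lap g) y := by
  have := CK.sum_le fun i => (h.pderiv i).pderiv i
  rw [Fintype.card_fin] at this
  exact this

theorem lap_Wl_in {l : ℕ} (f : MetricField 4) (m : Fin 4) {y z : E4} (hy : ‖y‖ + 1 ≤ 2 ^ l / 32)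
    (hz : ‖z - y‖ < (‖y‖ + 1) / 4) :
    lap (Wl l f m) =ᶠ[𝓝 z] fun _ => ∑ i, 2 * (p1 l f m i i / 2 - p1 l f i i m / 4) := by
  have h1 := (sc_near hz).2
  have h2 : (0 : ℝ) < 2 ^ l := by positivity
  filter_upwards [(Wl_ev (l := l) f m (x := z) (by linarith)).eventuallyEq_nhds] with w hw
  rw [lap_congr hw, lap_Xg]

theorem ck_LW (k : ℕ) : ∃ C : ℝ, 0 < C ∧ ∀ (l : ℕ) (f : MetricField 4) (A : ℝ), PB l f A →
    ∀ (m : Fin 4) (j : ℕ) (y : E4), 2 ^ j ≤ ‖y‖ + 1 → ‖y‖ + 1 ≤ 2 ^ (j + 1) →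
      CK k (if j ≤ l + 2 then C * A / 2 ^ l else 0) (lap (Wl l f m)) y ∧
      ∀ i, CK k (C * (wE j l * A) / 4 ^ j) (pderiv i (lap (Wl l f m))) y := by
  obtain ⟨C, hC, H⟩ := ck_Wl (k + 1 + 2)
  refine ⟨2 ^ 31 * C + 8, by positivity, fun l f A hA m j y h1 h2 => ?_⟩
  have hA0 := hA.nonneg
  have hl : (0 : ℝ) < 2 ^ l := by positivity
  have hj : (0 : ℝ) < 2 ^ j := by positivity
  have hs := sc_pos y
  have hw : 0 ≤ wE j l := le_min (by positivity) (by positivity)
  rcases lt_or_ge (4 * 2 ^ l) (‖y‖ + 1) with hy | hy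
  · have h0 := (Wl_far (k + 1 + 2) l f m hy).lap
    refine ⟨(h0.of_le (by omega)).mono ?_, fun i => (h0.pderiv i).mono ?_⟩
    · split_ifs <;> simp only [mul_zero] <;> positivity
    · simp only [mul_zero]; positivity
  have hjl : j ≤ l + 2 := by
    have : (2 : ℝ) ^ j < 2 ^ (l + 3) := by
      rw [pow_add]; linarith
    have := pow_lt_imp this; omega
  rw [if_pos hjl]
  rcases le_or_gt (‖y‖ + 1) (2 ^ l / 32) with hy' | hy'
  · refine ⟨((CK.const _).congr fun z hz => (lap_Wl_in f m hy' hz).eq_of_nhds).mono ?_,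
      fun i => CK.of_zero (by positivity) fun z hz => ?_⟩
    · refine (norm_sum_le_of_le _ (n := fun _ => 2 * (A / 2 ^ l)) fun i _ => ?_).trans ?_
      · rw [norm_mul, Real.norm_eq_abs, Real.norm_eq_abs, abs_two]
        linarith [hA.q m i i]
      · simp only [Finset.sum_const, Finset.card_univ, Fintype.card_fin, nsmul_eq_mul]
        rw [mul_div_assoc]
        have : 0 ≤ A / 2 ^ l := by positivity
        have : 0 ≤ 2 ^ 31 * C * (A / 2 ^ l) := by positivity
        push_cast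
        linarith
    · rw [pd_congr i (lap_Wl_in f m hy' hz), pd_const]
  · have h0 := (H l f A hA m y).lap
    have h3 : 4 / (‖y‖ + 1) ≤ 128 / 2 ^ l := by
      rw [div_le_div_iff₀ hs hl]; linarith
    have h4 : 4 * (4 / (‖y‖ + 1) * (4 / (‖y‖ + 1) * (C * A * 2 ^ l))) ≤
        2 ^ 16 * C * A / 2 ^ l := by
      calc _ ≤ 4 * (128 / 2 ^ l * (128 / 2 ^ l * (C * A * 2 ^ l))) := by gcongr
        _ = _ := by field_simp; ring
    refine ⟨(h0.of_le (by omega)).mono (h4.trans ?_), fun i => (h0.pderiv i).mono ?_⟩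
    · gcongr
      nlinarith
    · have e4 : ∀ m : ℕ, (4 : ℝ) ^ m = 2 ^ m * 2 ^ m := fun m => by rw [← mul_pow]; norm_num
      have h5 : 1 / 4 ^ l ≤ 256 * wE j l / (4 : ℝ) ^ j := by
        have h6 : (4 : ℝ) ^ j ≤ 4 ^ (l + 2) := pow_le_pow_right₀ (by norm_num) hjl
        have h7 : (0 : ℝ) < 4 ^ l := by positivity
        have h8 : (0 : ℝ) < 4 ^ j := by positivity
        rw [pow_add] at h6
        rw [le_div_iff₀ h8, wE, mul_min_of_nonneg _ _ (by norm_num : (0 : ℝ) ≤ 256), le_min_iff,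
          div_mul_eq_mul_div, one_mul, ← mul_div_assoc, div_le_div_iff₀ h7 h8]
        refine ⟨by nlinarith, ?_⟩
        have : 0 ≤ (4 : ℝ) ^ j / 4 ^ l := by positivity
        linarith
      calc _ ≤ 128 / 2 ^ l * (2 ^ 16 * C * A / 2 ^ l) := by gcongr
        _ = 2 ^ 23 * C * A * (1 / 4 ^ l) := by rw [e4]; field_simp; ring
        _ ≤ 2 ^ 23 * C * A * (256 * wE j l / 4 ^ j) := by gcongr
        _ = 2 ^ 31 * C * (wE j l * A) / 4 ^ j := by ring
        _ ≤ _ := by gcongr; linarith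

theorem UU_eq (n : ℕ) (f : MetricField 4) (I : Fin 1 → Fin 4) :
    (fun x => UU n f x I) = fun x => ∑ l ∈ Finset.range n, lap (Wl l f (I 0)) x :=
  funext fun x => lap_sum _ (fun l _ => Wl_smooth l f _) x

theorem symd_UU_eq (n : ℕ) (f : MetricField 4) (i j : Fin 4) (x : E4) :
    symd (UU n f) x i j = ∑ l ∈ Finset.range n,
      (pderiv i (lap (Wl l f j)) x + pderiv j (lap (Wl l f i)) x) := by
  simp only [symd, Matrix.of_apply, UU_eq, Matrix.cons_val_zero]
  rw [pd_sum i _ fun l _ => dA (lap_contDiff (Wl_smooth l f _)) x,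
    pd_sum j _ fun l _ => dA (lap_contDiff (Wl_smooth l f _)) x, Finset.sum_add_distrib]

theorem lu_symd (k : ℕ) : ∃ C : ℝ, 0 < C ∧ ∀ (n : ℕ) (f : MetricField 4) (a : ℕ → ℝ),
    (∀ i j, WS (fun l => a l / 4 ^ l) fun y => f y i j) → ∀ i j,
    WD k (fun l => C * (∑ m ∈ Finset.range n, wE l m * a m) / 4 ^ l)
      fun y => symd (UU n f) y i j := by
  obtain ⟨C, hC, H⟩ := ck_LW k
  have := Cp_pos
  refine ⟨2 * C * Cp, by positivity, fun n f a ha i j l y h1 h2 => ?_⟩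
  have h := CK.sum (Finset.range n) fun m _ =>
    ((H m f _ (pb_of_ws ha m) j l y h1 h2).2 i).add ((H m f _ (pb_of_ws ha m) i l y h1 h2).2 j)
  refine (h.congr fun z _ => symd_UU_eq n f i j z).mono (le_of_eq ?_)
  simp only [Finset.mul_sum, Finset.sum_div]
  exact Finset.sum_congr rfl fun m _ => by ring

theorem sum_tail (n j : ℕ) :
    ∑ l ∈ Finset.range n, (if j ≤ l + 2 then (1 : ℝ) / 2 ^ l else 0) ≤ 8 / 2 ^ j := by
  rw [← Finset.sum_filter]
  have h := geom_sum_Ico_le_of_lt_one (x := (1 : ℝ) / 2) (m := j - 2) (n := n) (by norm_num)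
    (by norm_num)
  have e : (Finset.range n).filter (fun l => j ≤ l + 2) = Finset.Ico (j - 2) n := by
    ext l; simp only [Finset.mem_filter, Finset.mem_range, Finset.mem_Ico]; omega
  rw [e]
  simp only [one_div, inv_pow] at h ⊢
  refine h.trans ?_
  have h1 : (2 : ℝ) ^ j ≤ 2 ^ (j - 2 + 2) := pow_le_pow_right₀ one_le_two (by omega)
  have h2 : (0 : ℝ) < 2 ^ (j - 2) := by positivity
  rw [pow_add] at h1
  rw [div_le_div_iff₀ (by norm_num) (by positivity), inv_mul_le_iff₀ h2]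
  linarith

theorem lu : LUStmt := by
  intro k
  obtain ⟨C, hC, H⟩ := ck_LW k
  obtain ⟨D, hD, H'⟩ := lu_symd k
  have hp := Cp_pos
  refine ⟨D + 8 * C * Cp, by positivity, fun n f a ha => ⟨fun b hb i j => ?_, fun B hB I => ?_⟩⟩
  · refine (H' n f a ha i j).mono fun l => ?_
    have h0 : 0 ≤ b l := by simpa using hb l 0
    have h1 := mul_le_mul_of_nonneg_left (hb l n) hD.le
    have h2 : 0 ≤ 8 * C * Cp * b l := by positivity
    exact div_le_div_of_nonneg_right (by linarith) (by positivity)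
  · intro l y h1 h2
    have hB0 : 0 ≤ B := (ws_nonneg4 (ha 0 0) 0).trans (hB 0)
    have h := CK.sum (Finset.range n) fun m _ => (H m f _ (pb_of_ws ha m) (I 0) l y h1 h2).1
    rw [UU_eq]
    refine h.mono ?_
    calc _ ≤ ∑ m ∈ Finset.range n, C * Cp * B * (if l ≤ m + 2 then (1 : ℝ) / 2 ^ m else 0) := by
          refine Finset.sum_le_sum fun m _ => ?_
          split_ifs
          · rw [mul_one_div, ← mul_assoc]
            gcongr
            exact hB m
          · simp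
      _ ≤ C * Cp * B * (8 / 2 ^ l) := by
          rw [← Finset.mul_sum]
          exact mul_le_mul_of_nonneg_left (sum_tail n l) (by positivity)
      _ = 8 * C * Cp * B / 2 ^ l := by ring
      _ ≤ _ := by
          beta_reduce
          gcongr
          linarith

end Crest.Agent.N207.Ph

end
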