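import Crest.Agent.N207.Ph.Nw7

/-!
# Row 207, block PHI (helper48): Newton kit, part 8: `le : LEStmt`
-/

set_option autoImplicit false
set_option linter.unusedSectionVars false

open scoped ContDiff Topology Pointwise RealInnerProductSpace
open MeasureTheory Set Filter Metric
open Crest.GeometryTopology.CoordMetric Crest.GeometryTopology.ChartCurvature

noncomputable section

namespace Crest.Agent.N207.Ph

open Crest.Agent.R240.Fr (NK NKi cN cN_pos lap ker_NKi contDiff_coord ae_ne_zero)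
open Crest.Agent.NLib.Ell (CKA ei)

theorem NK_taylor {x y : E4} (hy : 0 < ‖y‖) (h : 2 * ‖x‖ ≤ ‖y‖) :
    |NK (x - y) - (NK y - ∑ c, NKi c y * x c)| ≤ 24 * cN * ‖x‖ ^ 2 / ‖y‖ ^ 4 := by
  have hN := cN_pos
  have e1 : ∑ c, NKi c y * x c = 2 * cN * ⟪x, y⟫ * ((‖y‖ ^ 2) ^ 2)⁻¹ := by
    rw [inner_sum4, Finset.mul_sum, Finset.sum_mul]
    exact Finset.sum_congr rfl fun c _ => by unfold NKi; ring
  have e2 : ‖x - y‖ ^ 2 = ‖x‖ ^ 2 - 2 * ⟪x, y⟫ + ‖y‖ ^ 2 := norm_sub_sq_real x y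
  have hd : ‖y‖ / 2 ≤ ‖x - y‖ := by
    have := norm_sub_norm_le y x
    rw [norm_sub_rev] at this
    linarith
  have hp := abs_le.1 (abs_real_inner_le_norm x y)
  have hx := norm_nonneg x
  have hd2 : ‖y‖ ^ 2 / 4 ≤ ‖x - y‖ ^ 2 := by nlinarith
  unfold NK
  rw [e1]
  set p := ⟪x, y⟫
  set d := ‖x - y‖ ^ 2
  set u := ‖x‖
  set v := ‖y‖
  have hd0 : 0 < d := lt_of_lt_of_le (by positivity) hd2
  have e3 : -cN * d⁻¹ - (-cN * (v ^ 2)⁻¹ - 2 * cN * p * ((v ^ 2) ^ 2)⁻¹) =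
      cN * (v ^ 2 * u ^ 2 - 4 * p ^ 2 + 2 * p * u ^ 2) / (d * v ^ 4) := by
    field_simp
    rw [e2]; ring
  rw [e3, abs_div, abs_mul, abs_of_pos hN, abs_of_pos (by positivity : 0 < d * v ^ 4),
    div_le_div_iff₀ (by positivity) (by positivity)]
  have h1 : p ^ 2 ≤ u ^ 2 * v ^ 2 := by nlinarith [hp.1, hp.2]
  have h2 : u * v ≤ v ^ 2 / 2 := by nlinarith
  have h3 : |v ^ 2 * u ^ 2 - 4 * p ^ 2 + 2 * p * u ^ 2| ≤ 6 * (u ^ 2 * v ^ 2) := by
    have hu2 : 0 ≤ u ^ 2 := sq_nonneg u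
    have h4 := mul_le_mul_of_nonneg_right (hp.2.trans h2) hu2
    have h5 := mul_le_mul_of_nonneg_right ((neg_le_neg h2).trans hp.1) hu2
    have h6 : 0 ≤ u ^ 2 * v ^ 2 := by positivity
    rw [abs_le]; constructor <;> nlinarith [sq_nonneg p]
  have h7 : 6 * (u ^ 2 * v ^ 2) ≤ 24 * u ^ 2 * d := by nlinarith [sq_nonneg u]
  calc cN * |v ^ 2 * u ^ 2 - 4 * p ^ 2 + 2 * p * u ^ 2| * v ^ 4
      ≤ cN * (24 * u ^ 2 * d) * v ^ 4 := by gcongr; exact h3.trans h7
    _ = _ := by ring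

theorem symd_Wg_eq (n : ℕ) (f : MetricField 4) (i j : Fin 4) (x : E4) :
    symd (Wg n f) x i j = ∑ l ∈ Finset.range n,
      (pderiv i (Wl l f j) x + pderiv j (Wl l f i) x) := by
  have e : ∀ m : Fin 4, (fun y => Wg n f y ![m]) = fun y => ∑ l ∈ Finset.range n, Wl l f m y :=
    fun m => rfl
  simp only [symd, Matrix.of_apply, e]
  rw [pd_sum i _ fun l _ => dA (Wl_smooth l f _) x, pd_sum j _ fun l _ => dA (Wl_smooth l f _) x,
    Finset.sum_add_distrib]

theorem symd_Xg {l : ℕ} {f : MetricField 4} (hs : ∀ y, (f y).IsSymm) (i j : Fin 4) (x : E4) :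
    pderiv i (Xg l f j) x + pderiv j (Xg l f i) x = p0 l f i j + ∑ c, p1 l f i j c * x c := by
  have e : ∀ a b y, f y a b = f y b a := fun a b y => (hs y).apply b a
  have e0 : p0 l f j i = p0 l f i j := by simp only [p0, e j i]
  have e1 : ∀ a b c, p1 l f a b c = p1 l f b a c := fun a b c => by simp only [p1, e a b]
  rw [pd_Xg, pd_Xg, e0, add_add_add_comm, add_halves, ← Finset.sum_add_distrib]
  congr 1
  refine Finset.sum_congr rfl fun c _ => ?_
  rw [e1 j i c, e1 c i j, e1 c j i]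
  ring

theorem one_shell : ∃ C : ℝ, 0 < C ∧ ∀ (l j : ℕ) (f : MetricField 4) (A : ℝ) (x : E4), 0 ≤ A →
    (∀ a b, Continuous fun y => f y a b) → (∀ y, (f y).IsSymm) →
    (∀ a b, ∀ y ∈ Sh l, |f y a b| ≤ A / 4 ^ l) → 2 ^ j ≤ ‖x‖ + 1 → ‖x‖ + 1 ≤ 2 ^ (j + 1) →
    ∀ a b, |NS l (fun y => f y a b) x - (pderiv a (Wl l f b) x + pderiv b (Wl l f a) x)| ≤
      C * (wE j l * A) := by
  obtain ⟨C, hC, H⟩ := ck_Wl (0 + 1)
  have hN := cN_pos
  have hp := Cp_pos
  have hI := IB_pos 2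
  have hV := VB_nonneg
  refine ⟨2 ^ 15 * cN * VB + 256 * (64 * IB 2 * cN) + 2 ^ 15 * (C * Cp), by positivity,
    fun l j f A x hA hf hs hb h1 h2 a b => ?_⟩
  have hl : (0 : ℝ) < 2 ^ l := by positivity
  have hj : (0 : ℝ) < 2 ^ j := by positivity
  have e4 : ∀ m : ℕ, (4 : ℝ) ^ m = 2 ^ m * 2 ^ m := fun m => by rw [← mul_pow]; norm_num
  have hw : 0 ≤ wE j l := le_min (by positivity) (by positivity)
  rcases le_or_gt (j + 5) l with h | h
  · have h3 : (2 : ℝ) ^ (j + 5) ≤ 2 ^ l := pow_le_pow_right₀ one_le_two h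
    have hj1 : (1 : ℝ) ≤ 2 ^ j := one_le_pow₀ one_le_two
    rw [pow_add] at h3
    rw [pow_succ] at h2
    have hx : ‖x‖ < 2 ^ l / 16 := by linarith
    rw [pd_congr a (Wl_ev f b hx), pd_congr b (Wl_ev f a hx), symd_Xg hs]
    have i0 := intOn_Sh_mul locInt_NK (hf a b) l
    have i1 : ∀ c, IntegrableOn (fun y => NKi c y * f y a b * x c) (Sh l) := fun c =>
      (intOn_Sh_mul (locInt_NKi c) (hf a b) l).mul_const _
    have e : NS l (fun y => f y a b) x - (p0 l f a b + ∑ c, p1 l f a b c * x c) =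
        ∫ y in Sh l, (NK (x - y) - (NK y - ∑ c, NKi c y * x c)) * f y a b := by
      simp only [NS, p0, p1, neg_mul, Finset.sum_neg_distrib, ← integral_mul_const, ← sub_eq_add_neg]
      have i2 : IntegrableOn (fun y => ∑ c, NKi c y * f y a b * x c) (Sh l) :=
        integrable_finsetSum _ fun c _ => i1 c
      have i3 : IntegrableOn (fun y => NK y * f y a b - ∑ c, NKi c y * f y a b * x c) (Sh l) :=
        i0.sub i2
      rw [← integral_finsetSum _ fun c _ => i1 c, ← integral_sub i0 i2,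
        ← integral_sub (intOn_NS (hf a b) l x) i3]
      refine integral_congr_ae (Eventually.of_forall fun y => ?_)
      simp only [smul_eq_mul, Fin.sum_univ_four]
      ring
    rw [e]
    have h5 := norm_setIntegral_le_of_norm_le_const (vol_Sh_ne l).lt_top
      (f := fun y => (NK (x - y) - (NK y - ∑ c, NKi c y * x c)) * f y a b)
      (C := 24 * cN * (2 ^ j * 2) ^ 2 / (2 ^ l / 2) ^ 4 * (A / 4 ^ l)) fun y hy => by
        have h6 : 2 ^ l / 2 ≤ ‖y‖ := by linarith [hy.1]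
        rw [norm_mul, Real.norm_eq_abs, Real.norm_eq_abs]
        refine mul_le_mul ((NK_taylor (by linarith) (by linarith)).trans ?_) (hb a b y hy)
          (abs_nonneg _) (by positivity)
        gcongr
        linarith
    have h7 : wE j l = 4 ^ j / 4 ^ l := min_eq_right (by
      have : (4 : ℝ) ^ j ≤ 4 ^ l := pow_le_pow_right₀ (by norm_num) (by omega)
      gcongr)
    refine h5.trans ((mul_le_mul_of_nonneg_left (vol_Sh l) (by positivity)).trans ?_)
    calc _ = 24576 * cN * VB * (wE j l * A) := by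
          rw [h7, e4 l, e4 j]; field_simp; ring
      _ ≤ _ := by
          gcongr
          nlinarith [mul_nonneg hN.le hV, mul_pos hI hN, mul_pos hC hp]
  · have h3 : (2 : ℝ) ^ l ≤ 2 ^ (j + 4) := pow_le_pow_right₀ one_le_two (by omega)
    have h4 : (4 : ℝ) ^ l ≤ 4 ^ (j + 4) := pow_le_pow_right₀ (by norm_num) (by omega)
    have hl4 : (0 : ℝ) < 4 ^ l := by positivity
    have hj4 : (0 : ℝ) < 4 ^ j := by positivity
    rw [pow_add] at h3 h4
    have h5 : (1 : ℝ) ≤ 256 * (4 ^ j / 4 ^ l) := by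
      rw [← mul_div_assoc, le_div_iff₀ hl4]; linarith
    have h6 : min 1 ((4 : ℝ) ^ l / 4 ^ j) ≤ 256 * wE j l := by
      rw [wE, mul_min_of_nonneg _ _ (by norm_num : (0 : ℝ) ≤ 256), le_min_iff]
      have : 0 ≤ (4 : ℝ) ^ l / 4 ^ j := by positivity
      exact ⟨(min_le_right _ _).trans (by linarith), (min_le_left _ _).trans h5⟩
    have h7 := NS_le (f := fun y => f y a b) (c := A / 4 ^ l) (by positivity) (hb a b) h1
    have h8 : ∀ a b, |pderiv a (Wl l f b) x| ≤ 2 ^ 14 * (C * Cp) * (wE j l * A) := fun a b => by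
      rcases lt_or_ge (4 * 2 ^ l) (‖x‖ + 1) with hy | hy
      · have := ((Wl_far (0 + 1) l f b hy).pderiv a).bdd
        rw [mul_zero] at this
        exact this.trans (by positivity)
      · have hP : PB l f (Cp * A) :=
          ⟨fun i j => p0_le hA (hb i j), fun i j c => p1_le c hA (hb i j)⟩
        refine ((H l f _ hP b x).pderiv a).bdd.trans ?_
        have h9 : 4 / (‖x‖ + 1) ≤ 64 / 2 ^ l := by
          rw [div_le_div_iff₀ (sc_pos x) hl]; linarith
        have h10 : (1 : ℝ) ≤ 256 * wE j l := by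
          rw [wE, mul_min_of_nonneg _ _ (by norm_num : (0 : ℝ) ≤ 256), le_min_iff]
          refine ⟨?_, h5⟩
          rw [← mul_div_assoc, le_div_iff₀ hj4, e4 j, e4 l]
          have : (2 : ℝ) ^ j ≤ 4 * 2 ^ l := h1.trans hy
          nlinarith
        calc 4 / (‖x‖ + 1) * (C * (Cp * A) * 2 ^ l) ≤ 64 / 2 ^ l * (C * (Cp * A) * 2 ^ l) := by
              gcongr
          _ = 64 * (C * Cp) * A * 1 := by field_simp
          _ ≤ 64 * (C * Cp) * A * (256 * wE j l) := by gcongr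
          _ = _ := by ring
    have h11 : |NS l (fun y => f y a b) x| ≤ 256 * (64 * IB 2 * cN) * (wE j l * A) := by
      refine h7.trans ?_
      calc _ = 64 * IB 2 * cN * A * min 1 (4 ^ l / 4 ^ j) := by field_simp
        _ ≤ 64 * IB 2 * cN * A * (256 * wE j l) := by gcongr
        _ = _ := by ring
    have h12 : 0 ≤ 2 ^ 15 * cN * VB * (wE j l * A) := by positivity
    refine (abs_sub _ _).trans ((add_le_add h11 ((abs_add_le _ _).trans
      (add_le_add (h8 a b) (h8 b a)))).trans ?_)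
    linarith

/-- the sup bound of `KK` -/
theorem KK_sup : ∃ C : ℝ, 0 < C ∧ ∀ (n : ℕ) (f : MetricField 4) (a : ℕ → ℝ),
    (∀ i j, Continuous fun y => f y i j) → (∀ y, (f y).IsSymm) →
    (∀ y : E4, 2 ^ n ≤ ‖y‖ + 1 → f y = 0) → (∀ i j, WS (fun l => a l / 4 ^ l) fun y => f y i j) →
    ∀ i j, WS (fun l => C * ∑ m ∈ Finset.range n, wE l m * a m) fun y => KK n f y i j := by
  obtain ⟨C, hC, H⟩ := one_shell
  refine ⟨C, hC, fun n f a hf hs h0 ha i j l x h1 h2 => ?_⟩
  simp only [KK, Matrix.of_apply]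
  rw [Nw_eq_sum (hf i j) (n := n) (fun y hy => by rw [h0 y hy]; rfl), symd_Wg_eq,
    ← Finset.sum_sub_distrib, Finset.mul_sum]
  exact norm_sum_le_of_le _ fun m _ => H m l f (a m) x (ws_nonneg4 (ha 0 0) m) hf hs
    (fun a' b' y hy => ha a' b' m y hy.1 hy.2.le) h1 h2 i j

theorem wE_nonneg (j l : ℕ) : 0 ≤ wE j l := le_min (by positivity) (by positivity)

theorem wE_near {i j : ℕ} (h : i ≤ j + 2) (h' : j ≤ i + 2) (l : ℕ) : wE i l ≤ 16 * wE j l := by
  unfold wE
  rw [mul_min_of_nonneg _ _ (by norm_num : (0 : ℝ) ≤ 16)]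
  have h1 : (4 : ℝ) ^ j ≤ 4 ^ (i + 2) := pow_le_pow_right₀ (by norm_num) h'
  have h2 : (4 : ℝ) ^ i ≤ 4 ^ (j + 2) := pow_le_pow_right₀ (by norm_num) h
  have h3 : (0 : ℝ) < 4 ^ l := by positivity
  rw [pow_add] at h1 h2
  refine min_le_min ?_ ?_
  · rw [← mul_div_assoc, div_le_div_iff₀ (by positivity) (by positivity)]
    nlinarith
  · rw [← mul_div_assoc]
    exact div_le_div_of_nonneg_right (by linarith) h3.le

theorem le : LEStmt := by
  intro k
  obtain ⟨C, hC, H⟩ := KK_sup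
  obtain ⟨D, hD, HD⟩ := sw_lap k
  obtain ⟨E, hE, HE⟩ := lu_symd k
  refine ⟨D * (1 + 16 * E + 16 * C), by positivity,
    fun n f a a' b hf hs h0 ha ha' hb hab i j => ?_⟩
  have hb0 : ∀ j, 0 ≤ b j := fun j => by simpa using hb j 0
  have ha0 := ws_nonneg4 (ha 0 0)
  have hn : ∀ j i : ℕ, i ≤ j + 2 → j ≤ i + 2 →
      ∑ m ∈ Finset.range n, wE i m * a m ≤ 16 * b j := fun j i h h' => by
    refine le_trans (Finset.sum_le_sum fun l _ =>
      mul_le_mul_of_nonneg_right (wE_near h h' l) (ha0 l)) ?_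
    simp only [mul_assoc, ← Finset.mul_sum]
    linarith [hb j n]
  refine (HD (fun y => KK n f y i j) (fun l => a' l + E * ∑ m ∈ Finset.range n, wE l m * a m) _
    (fun l => (1 + 16 * E + 16 * C) * b l) (KK_smooth hf h0 i j) (fun l y h1 h2 => ?_)
    (H n f a (fun i j => (hf i j).continuous) hs h0 ha i j) (fun l m h1 h2 => ?_)
    fun l m h1 h2 => ?_).mono fun l => le_of_eq (by ring)
  · refine (((ha' i j l y h1 h2).sub (HE n f a ha i j l y h1 h2)).congr fun z _ =>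
      eq_sub_of_add_eq (lap_KK hf h0 z i j)).mono (le_of_eq ?_)
    beta_reduce
    ring
  · have h3 := mul_le_mul_of_nonneg_left (hn l m (by omega) (by omega)) hE.le
    have h4 := hab l m h1 h2
    have h5 := mul_nonneg hC.le (hb0 l)
    beta_reduce
    linarith
  · have h3 := mul_le_mul_of_nonneg_left (hn l m h1 h2) hC.le
    have h5 := mul_nonneg hE.le (hb0 l)
    linarith [hb0 l]

end Crest.Agent.N207.Ph

end
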