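import Crest.Agent.N207.Ph.Nw1
import Crest.Agent.N207.Ph.Defs
import Crest.Agent.NLib.Ell.SchAll

/-!
# Row 207, block PHI (helper48): Newton kit, definitions and statements (FROZEN)
-/

set_option autoImplicit false
set_option linter.unusedSectionVars false

open scoped ContDiff Topology
open MeasureTheory Set Filter Metric
open Crest.GeometryTopology.CoordMetric Crest.GeometryTopology.ChartCurvature

noncomputable section

namespace Crest.Agent.N207.Ph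

open Crest.Agent.R240.Fr (NK NKi lap)
open Crest.Agent.NLib.Ell (CKA)
open Crest.Agent.R238 (Ell)

section
variable {F : Type} [NormedAddCommGroup F] [NormedSpace ℝ F]

/-- the cell at `y` -/
def cl (y Y : E4) : E4 := y + ((‖y‖ + 1) / 4) • Y

/-- `C^{k,1/2}` bound on the rescaled cell at `y` -/
def CK (k : ℕ) (M : ℝ) (f : E4 → F) (y : E4) : Prop :=
  CKA (1 / 2) (ball (0 : E4) 1) k M fun Y => f (cl y Y)

/-- dyadic `C^{k,1/2}` bounds -/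
def WD (k : ℕ) (a : ℕ → ℝ) (f : E4 → F) : Prop :=
  ∀ (l : ℕ) (y : E4), 2 ^ l ≤ ‖y‖ + 1 → ‖y‖ + 1 ≤ 2 ^ (l + 1) → CK k (a l) f y

/-- dyadic sup bounds -/
def WS (a : ℕ → ℝ) (f : E4 → F) : Prop :=
  ∀ (l : ℕ) (y : E4), 2 ^ l ≤ ‖y‖ + 1 → ‖y‖ + 1 ≤ 2 ^ (l + 1) → ‖f y‖ ≤ a l

end

/-- `b j` dominates the neighbours `a (j-1), a j, a (j+1)` -/
def Nb (a b : ℕ → ℝ) : Prop := ∀ j i : ℕ, i ≤ j + 1 → j ≤ i + 1 → a i ≤ b j

/-- `1` for `j ≤ l`, `8 ^ (l - j)` for `l < j` -/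
def wH (j l : ℕ) : ℝ := min 1 (8 ^ l / 8 ^ j)

/-- `4 ^ (-|j - l|)` -/
def wE (j l : ℕ) : ℝ := min (4 ^ l / 4 ^ j) (4 ^ j / 4 ^ l)

/-- the dyadic shells (a partition of `ℝ⁴`) -/
def Sh (l : ℕ) : Set E4 := {y | 2 ^ l ≤ ‖y‖ + 1 ∧ ‖y‖ + 1 < 2 ^ (l + 1)}

/-- value at `0` of the potential of `f 1_{Sh l}` -/
def p0 (l : ℕ) (f : MetricField 4) (i j : Fin 4) : ℝ := ∫ y in Sh l, NK y * f y i j

/-- first derivatives at `0` of the potential of `f 1_{Sh l}` -/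
def p1 (l : ℕ) (f : MetricField 4) (i j c : Fin 4) : ℝ := -∫ y in Sh l, NKi c y * f y i j

/-- the linear plus quadratic field with `L_X δ = p0 + p1 x` -/
def Xg (l : ℕ) (f : MetricField 4) (m : Fin 4) (x : E4) : ℝ :=
  ∑ a, p0 l f m a / 2 * x a + ∑ a, ∑ b, (p1 l f m a b / 2 - p1 l f a b m / 4) * (x a * x b)

/-- `1` on `|x| ≤ 2 ^ l / 16`, `0` on `2 ^ l / 8 ≤ |x|` -/
def zt (l : ℕ) (x : E4) : ℝ := 1 - up (1 / 16) (1 / 8) (((2 : ℝ) ^ l)⁻¹ • x)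

/-- the gauge field -/
def Wg (n : ℕ) (f : MetricField 4) : Tn 4 1 :=
  fun x I => ∑ l ∈ Finset.range n, zt l x * Xg l f (I 0) x

/-- `∂ᵢ Vⱼ + ∂ⱼ Vᵢ` -/
def symd (V : Tn 4 1) : MetricField 4 := fun x => Matrix.of fun i j =>
  pderiv i (fun y => V y ![j]) x + pderiv j (fun y => V y ![i]) x

/-- the Newton potential with the dyadic gauge cut -/
def KK (n : ℕ) (f : MetricField 4) : MetricField 4 := fun x => Matrix.of fun i j =>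
  Nw (fun y => f y i j) x - symd (Wg n f) x i j

/-- the gauge term: `Δ (KK n f) + symd (UU n f) = f` -/
def UU (n : ℕ) (f : MetricField 4) : Tn 4 1 := fun x I => lap (fun y => Wg n f y I) x

/-- (REC) half cells give cells -/
def RECStmt : Prop :=
  ∀ k : ℕ, ∃ C : ℝ, 0 < C ∧ ∀ (F : Type) [NormedAddCommGroup F] [NormedSpace ℝ F] (f : E4 → F)
    (a b : ℕ → ℝ), Nb a b → (∀ (l : ℕ) (y : E4), 2 ^ l ≤ ‖y‖ + 1 → ‖y‖ + 1 ≤ 2 ^ (l + 1) →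
      CKA (1 / 2) (ball (0 : E4) (1 / 2)) k (a l) fun Y => f (cl y Y)) → WD k (fun l => C * b l) f

/-- (SW) weighted Schauder estimate: `τ^{ij} ∂ᵢ∂ⱼ u + βⁱ ∂ᵢ u + c u = f` -/
def NSWStmt : Prop :=
  ∀ (k : ℕ) (lo hi M : ℝ), 0 < lo → lo ≤ hi → ∃ C : ℝ, 0 < C ∧
    ∀ (τ : E4 → Matrix (Fin 4) (Fin 4) ℝ) (β : Fin 4 → E4 → ℝ) (c u f : E4 → ℝ) (N S b : ℕ → ℝ),
    (∀ x, Ell lo hi (τ x)) → (∀ i j, WD k (fun _ => M) fun x => τ x i j) →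
    (∀ i, WD k (fun l => M / 2 ^ l) (β i)) → WD k (fun l => M / 4 ^ l) c →
    WD k (fun l => N l / 4 ^ l) f → (∀ y, ∃ V, CK 2 V u y) → WS S u →
    (∀ x, ∑ i, ∑ j, τ x i j * pderiv i (pderiv j u) x + ∑ i, β i x * pderiv i u x + c x * u x =
      f x) → (∀ j i : ℕ, i ≤ j + 2 → j ≤ i + 2 → N i + S i ≤ b j) →
    WD (k + 2) (fun l => C * b l) u

/-- (LH) potentials of equivariant vector fields; `a` sup bounds, `a'` Hölder bounds -/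
def LHStmt : Prop :=
  ∀ k : ℕ, ∃ C : ℝ, 0 < C ∧ ∀ (Γ : Subgroup Iso) (f : E4 → E4) (a a' b : ℕ → ℝ), Sk.Grp Γ →
    ContDiff ℝ ∞ f → HasCompactSupport f → Eqv Γ f → WS (fun l => a l / 2 ^ l) f →
    WD k (fun l => a' l / 2 ^ l) f → (∀ j n, ∑ l ∈ Finset.range n, wH j l * a l ≤ b j) →
    Nb a' b → WD (k + 2) (fun j => C * 2 ^ j * b j) (Nw f)

/-- (LE) the estimate of `KK`; `a` sup bounds, `a'` Hölder bounds -/
def LEStmt : Prop :=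
  ∀ k : ℕ, ∃ C : ℝ, 0 < C ∧ ∀ (n : ℕ) (f : MetricField 4) (a a' b : ℕ → ℝ),
    (∀ i j, ContDiff ℝ ∞ fun y => f y i j) → (∀ y, (f y).IsSymm) →
    (∀ y : E4, 2 ^ n ≤ ‖y‖ + 1 → f y = 0) → (∀ i j, WS (fun l => a l / 4 ^ l) fun y => f y i j) →
    (∀ i j, WD k (fun l => a' l / 4 ^ l) fun y => f y i j) →
    (∀ j m, ∑ l ∈ Finset.range m, wE j l * a l ≤ b j) → Nb a' b →
    ∀ i j, WD (k + 2) (fun l => C * b l) fun y => KK n f y i j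

/-- (LU) the estimates of the gauge term (sup bounds of `f` only) -/
def LUStmt : Prop :=
  ∀ k : ℕ, ∃ C : ℝ, 0 < C ∧ ∀ (n : ℕ) (f : MetricField 4) (a : ℕ → ℝ),
    (∀ i j, WS (fun l => a l / 4 ^ l) fun y => f y i j) →
    (∀ b : ℕ → ℝ, (∀ j m, ∑ l ∈ Finset.range m, wE j l * a l ≤ b j) →
      ∀ i j, WD k (fun l => C * b l / 4 ^ l) fun y => symd (UU n f) y i j) ∧
    ∀ B : ℝ, (∀ l, a l ≤ B) → ∀ I, WD k (fun l => C * B / 2 ^ l) fun y => UU n f y I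

/-- (LA) the algebra of `KK` and `UU` -/
def LAStmt : Prop :=
  (∀ (n : ℕ) (f : MetricField 4), SmT (UU n f) univ ∧ ∀ x : E4, 2 ^ n ≤ ‖x‖ → UU n f x = 0) ∧
  (∀ (n : ℕ) (f : MetricField 4), (∀ i j, ContDiff ℝ ∞ fun y => f y i j) →
    (∀ y : E4, 2 ^ n ≤ ‖y‖ + 1 → f y = 0) →
    (∀ i j, ContDiff ℝ ∞ fun y => KK n f y i j) ∧
    ((∀ y, (f y).IsSymm) → ∀ y, (KK n f y).IsSymm) ∧
    (∀ x i j, lap (fun y => KK n f y i j) x + symd (UU n f) x i j = f x i j) ∧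
    ∀ A : Iso, KK n (pbm A f) = pbm A (KK n f)) ∧
  (∀ (n : ℕ) (f g : MetricField 4), (∀ i j, Continuous fun y => f y i j) →
    (∀ i j, Continuous fun y => g y i j) →
    UU n (fun y => f y - g y) = (fun y => UU n f y - UU n g y) ∧
    ((∀ y : E4, 2 ^ n ≤ ‖y‖ + 1 → f y = 0) → (∀ y : E4, 2 ^ n ≤ ‖y‖ + 1 → g y = 0) →
      KK n (fun y => f y - g y) = fun y => KK n f y - KK n g y)) ∧
  ∀ (n : ℕ) (f : MetricField 4) (A : Iso), (∀ i j, Continuous fun y => f y i j) →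
    UU n (pbm A f) = pullT A (UU n f)

end Crest.Agent.N207.Ph

end
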