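import Crest.Agent.N207.Ph.RgD
import Crest.Agent.N207.U.JG
import Crest.Agent.N207.AI.Nat

/-!
# Row 207, block PHI, leaf RG (helper55): differences of pull-backs, family calculus
-/

set_option autoImplicit false
set_option linter.unusedSectionVars false

open scoped ContDiff Topology
open Set MeasureTheory Filter Metric
open Crest.GeometryTopology.CoordMetric Crest.GeometryTopology.ChartCurvature

noncomputable section

namespace Crest.Agent.N207.Ph.Rg

open Sk U

/-- the entries of the derivative -/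
def dP (P : E4 → E4) (j a : Fin 4) : E4 → ℝ := pderiv j fun z => P z a

/-- pull-back of a `2`-tensor, in components -/
def pl (P : E4 → E4) (T : Fin 4 → Fin 4 → E4 → ℝ) (i j : Fin 4) (y : E4) : ℝ :=
  ∑ a, ∑ b, T a b (P y) * dP P i a y * dP P j b y

/-- Kronecker -/
abbrev kr (a b : Fin 4) : ℝ := (1 : Matrix (Fin 4) (Fin 4) ℝ) a b

theorem cd_comp {P : E4 → E4} (h : ContDiff ℝ ∞ P) (a : Fin 4) : ContDiff ℝ ∞ fun z => P z a :=
  (EuclideanSpace.proj a : E4 →L[ℝ] ℝ).contDiff.comp h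

theorem cd_pd {f : E4 → ℝ} (h : ContDiff ℝ ∞ f) (j : Fin 4) : ContDiff ℝ ∞ (pderiv j f) :=
  contDiff_iff_contDiffAt.2 fun _ => cda_pd h.contDiffAt j

theorem dif {Y : Type*} [NormedAddCommGroup Y] [NormedSpace ℝ Y] {f : E4 → Y}
    (h : ContDiff ℝ ∞ f) : Differentiable ℝ f := h.differentiable (by simp)

theorem dP_eq {P : E4 → E4} {y : E4} (h : DifferentiableAt ℝ P y) (j a : Fin 4) :
    fderiv ℝ P y (EuclideanSpace.single j 1) a = dP P j a y := by
  have := ((EuclideanSpace.proj a : E4 →L[ℝ] ℝ).hasFDerivAt.comp y h.hasFDerivAt).fderiv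
  simp only [dP, pderiv]
  rw [show (fun z => P z a) = (EuclideanSpace.proj a : E4 →L[ℝ] ℝ) ∘ P from rfl, this]
  rfl

theorem pd_comp {T : E4 → ℝ} {P : E4 → E4} {y : E4} (hT : DifferentiableAt ℝ T (P y))
    (hP : DifferentiableAt ℝ P y) (j : Fin 4) :
    pderiv j (fun z => T (P z)) y = ∑ a, pderiv a T (P y) * dP P j a y := by
  have h : fderiv ℝ (fun z => T (P z)) y = (fderiv ℝ T (P y)).comp (fderiv ℝ P y) :=
    fderiv_comp y hT hP
  rw [pderiv, h, ContinuousLinearMap.comp_apply, fderiv_eq_sum]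
  exact Finset.sum_congr rfl fun a _ => by rw [dP_eq hP, mul_comm]

theorem pd_sub {f g : E4 → ℝ} {y : E4} (hf : DifferentiableAt ℝ f y) (hg : DifferentiableAt ℝ g y)
    (j : Fin 4) : pderiv j (fun z => f z - g z) y = pderiv j f y - pderiv j g y := by
  simp only [pderiv, fderiv_fun_sub hf hg, sub_apply]

theorem pd_coord (j a : Fin 4) (y : E4) : pderiv j (fun z : E4 => z a) y = kr j a := by
  have : fderiv ℝ (fun z : E4 => z a) y = (EuclideanSpace.proj a : E4 →L[ℝ] ℝ) :=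
    (EuclideanSpace.proj a : E4 →L[ℝ] ℝ).hasFDerivAt.fderiv
  simp [pderiv, this, Matrix.one_apply, eq_comm]

theorem pbm_fd (P : E4 → E4) (G : MetricField 4) (y : E4) (i j : Fin 4) :
    pbm P G y i j = ∑ a, ∑ b, G (P y) a b * (fderiv ℝ P y (EuclideanSpace.single i 1)) a *
      (fderiv ℝ P y (EuclideanSpace.single j 1)) b := by
  simp only [pbm, Matrix.of_apply, pullT, AI.evT_two, matT, Matrix.cons_val_zero,
    Matrix.cons_val_one]
  exact Finset.sum_congr rfl fun a _ => Finset.sum_congr rfl fun b _ => by ring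

theorem pbm_eq {P : E4 → E4} (h : ContDiff ℝ ∞ P) (G : MetricField 4) (y : E4) (i j : Fin 4) :
    pbm P G y i j = pl P (fun a b z => G z a b) i j y := by
  simp only [pbm_fd, pl, dP_eq (dif h y)]

theorem ric_pbm {P : E4 → E4} (h : ContDiff ℝ ∞ P)
    (hi : ∀ y, Function.Injective (fderiv ℝ P y)) {G : MetricField 4}
    (hG : IsRiemannianOn G univ) (y : E4) (i j : Fin 4) :
    ricci (pbm P G) y i j = pl P (fun a b z => ricci G z a b) i j y := by
  have p : R202.Tens.Pull (pbm P G) G P univ univ :=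
    ⟨isOpen_univ, hG, fun _ _ => mem_univ _, h.contDiffOn, fun y _ i j => pbm_fd P G y i j,
      fun y _ => hi y⟩
  have := p.ricci_pull (mem_univ y) (EuclideanSpace.single i 1) (EuclideanSpace.single j 1)
  simpa [pl, dP_eq (dif h y), Pi.single_apply] using this

variable {ι : Type*} {x : ι → E4} {w N δ : ι → ℝ} {m : ℕ} {T : ι → E4 → ℝ} {P Q : ι → E4 → E4}

/-- unit scale -/
abbrev PU (x : ι → E4) (m : ℕ) (φ : ι → ℝ) (f : ι → E4 → ℝ) : Prop := PB x (fun _ => 1) m φ f

theorem PU.pd {φ : ι → ℝ} {f : ι → E4 → ℝ} (h : PU x (m + 1) φ f) (j : Fin 4) :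
    PU x m φ fun i => pderiv j (f i) :=
  (PB.pd (fun _ => one_pos) h j).wte fun _ => div_one _

theorem PU.of_pd {φ : ι → ℝ} {f : ι → E4 → ℝ} (h0 : PU x 0 φ f)
    (h : ∀ j, PU x m φ fun i => pderiv j (f i)) : PU x (m + 1) φ f :=
  PB.of_pd (fun _ => one_pos) h0 fun j => (h j).wte fun _ => (div_one _).symm

/-- bounds on the closed ball of radius `2` -/
structure BT (m : ℕ) (w : ι → ℝ) (T : ι → E4 → ℝ) : Prop where
  sm : ∀ i, ContDiff ℝ ∞ (T i)
  bd : ∃ C, 0 ≤ C ∧ ∀ i, ∀ k ≤ m, ∀ z : E4, ‖z‖ ≤ 2 → ‖iteratedFDeriv ℝ k (T i) z‖ ≤ C * w i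

theorem BT.pred (h : BT (m + 1) w T) : BT m w T :=
  ⟨h.sm, h.bd.imp fun _ hC => ⟨hC.1, fun i k hk => hC.2 i k (hk.trans (Nat.le_succ m))⟩⟩

theorem BT.pd (h : BT (m + 1) w T) (a : Fin 4) : BT m w fun i => pderiv a (T i) :=
  ⟨fun i => cd_pd (h.sm i) a, h.bd.imp fun _ hC => ⟨hC.1, fun i k hk z hz =>
    (norm_itd_pd_le (h.sm i).contDiffAt a k).trans (hC.2 i (k + 1) (by omega) z hz)⟩⟩

/-- maps with bounded derivatives -/
structure Mp (x : ι → E4) (m : ℕ) (P : ι → E4 → E4) : Prop where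
  sm : ∀ i, ContDiff ℝ ∞ (P i)
  mem : ∀ i, ‖P i (x i)‖ ≤ 2
  d : ∀ j a, PU x m (fun _ => 1) fun i => dP (P i) j a

theorem Mp.pred (h : Mp x (m + 1) P) : Mp x m P := ⟨h.sm, h.mem, fun j a => (h.d j a).pred⟩

theorem BT.comp (h : BT m w T) (hP : Mp x m P) : PU x m w fun i y => T i (P i y) := by
  have h0 : ∀ {m : ℕ} {T : ι → E4 → ℝ}, BT m w T → PU x 0 w fun i y => T i (P i y) := fun h =>
    ⟨fun i => ((h.sm i).comp (hP.sm i)).contDiffAt, h.bd.imp fun _ hC => ⟨hC.1, fun i => by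
      simpa [norm_iteratedFDeriv_zero] using hC.2 i 0 (Nat.zero_le _) _ (hP.mem i)⟩⟩
  induction m generalizing T with
  | zero => exact h0 h
  | succ m ih =>
    refine PU.of_pd (h0 h) fun j => (PB.sum Finset.univ fun a _ =>
      (ih (h.pd a) hP.pred).mulb (hP.pred.d j a)).congr' fun i y => ?_
    exact pd_comp (dif (h.sm i) _) (dif (hP.sm i) _) j

theorem norm_le_sum (v : E4) : ‖v‖ ≤ ∑ a, |v a| := by
  conv_lhs => rw [show v = ∑ j, v j • EuclideanSpace.single j (1 : ℝ) from by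
    ext k; simp [Pi.single_apply]]
  exact (norm_sum_le _ _).trans_eq (Finset.sum_congr rfl fun a _ => by simp [norm_smul])

theorem dP_sub (hP : Mp x m P) (hQ : Mp x m Q) (j a : Fin 4) (i : ι) (y : E4) :
    dP (P i) j a y - dP (Q i) j a y = pderiv j (fun z => P i z a - Q i z a) y :=
  (pd_sub (dif (cd_comp (hP.sm i) a) y) (dif (cd_comp (hQ.sm i) a) y) j).symm

theorem BT.diff (h : BT (m + 1) w T) (hP : Mp x m P) (hQ : Mp x m Q)
    (hD : ∀ a, PU x m N fun i y => P i y a - Q i y a) :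
    PU x m (fun i => w i * N i) fun i y => T i (P i y) - T i (Q i y) := by
  have h0 : ∀ {m : ℕ} {T : ι → E4 → ℝ}, BT (m + 1) w T →
      PU x 0 (fun i => w i * N i) fun i y => T i (P i y) - T i (Q i y) := fun {m T} h => by
    refine ⟨fun i => (((h.sm i).comp (hP.sm i)).sub ((h.sm i).comp (hQ.sm i))).contDiffAt, ?_⟩
    obtain ⟨C, hC, h1⟩ := h.bd
    choose D hD0 hD1 using fun a => (hD a).val
    refine ⟨C * ∑ a, D a, mul_nonneg hC (Finset.sum_nonneg fun a _ => hD0 a), fun i => ?_⟩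
    have h2 := (convex_closedBall (0 : E4) 2).norm_image_sub_le_of_norm_fderiv_le (𝕜 := ℝ)
      (f := T i) (C := C * w i) (fun z _ => dif (h.sm i) z) (fun z hz => by
        simpa [norm_iteratedFDeriv_one] using h1 i 1 (by omega) z (mem_closedBall_zero_iff.1 hz))
      (mem_closedBall_zero_iff.2 (hQ.mem i)) (mem_closedBall_zero_iff.2 (hP.mem i))
    have h3 : ‖P i (x i) - Q i (x i)‖ ≤ (∑ a, D a) * N i := by
      rw [Finset.sum_mul]
      exact (norm_le_sum _).trans (Finset.sum_le_sum fun a _ => hD1 a i)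
    have h4 : 0 ≤ C * w i := (norm_nonneg _).trans (h1 i 0 (Nat.zero_le _) 0 (by simp))
    exact (h2.trans (mul_le_mul_of_nonneg_left h3 h4)).trans_eq (by ring)
  induction m generalizing T with
  | zero => exact h0 h
  | succ m ih =>
    refine PU.of_pd (h0 h) fun j => (PB.sum Finset.univ fun a _ =>
      ((ih (h.pd a) hP.pred hQ.pred (fun a => (hD a).pred)).mulb (hP.pred.d j a)).add
        (((h.pd a).pred.comp hQ.pred).mul ((hD a).pd j))).congr' fun i y => ?_
    rw [pd_sub (f := fun z => T i (P i z)) (g := fun z => T i (Q i z))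
      (dif ((h.sm i).comp (hP.sm i)) y) (dif ((h.sm i).comp (hQ.sm i)) y),
      pd_comp (dif (h.sm i) _) (dif (hP.sm i) _), pd_comp (dif (h.sm i) _) (dif (hQ.sm i) _),
      ← Finset.sum_sub_distrib]
    refine Finset.sum_congr rfl fun a _ => ?_
    rw [← dP_sub hP hQ]
    ring

theorem pl_diff {S : ι → Fin 4 → Fin 4 → E4 → ℝ} (h : ∀ a b, BT (m + 1) w fun i => S i a b)
    (hP : Mp x m P) (hQ : Mp x m Q) (hD : ∀ a, PU x (m + 1) N fun i y => P i y a - Q i y a)
    (j l : Fin 4) :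
    PU x m (fun i => w i * N i) fun i y => pl (P i) (S i) j l y - pl (Q i) (S i) j l y := by
  refine (PB.sum Finset.univ fun a _ => PB.sum Finset.univ fun b _ =>
    ((((h a b).diff hP hQ (fun a => (hD a).pred)).mulb (hP.d j a)).mulb (hP.d l b)).add
      (((h a b).pred.comp hQ).mul ((((hD a).pd j).mulb (hP.d l b)).add
        ((hQ.d j a).bmul ((hD b).pd l))))).congr' fun i y => ?_
  simp only [pl, ← Finset.sum_sub_distrib, ← dP_sub hP hQ]
  exact Finset.sum_congr rfl fun a _ => Finset.sum_congr rfl fun b _ => by ring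

theorem sum_kr (f : Fin 4 → ℝ) (a : Fin 4) : ∑ b, kr a b * f b = f a := by
  simp [Matrix.one_apply]

theorem rem_pu {G : ι → MetricField 4} (h : ∀ a b, BT (m + 1) δ fun i => dv (G i) a b)
    (hP : Mp x m P) (hQ : Mp x m Q) (hp : ∀ j a, PU x m δ fun i y => dP (P i) j a y - kr j a)
    (hq : ∀ j a, PU x m δ fun i y => dP (Q i) j a y - kr j a)
    (hD : ∀ a, PU x (m + 1) N fun i y => P i y a - Q i y a) (j l : Fin 4) :
    PU x m (fun i => δ i * N i) fun i => rem (fun a z => P i z a - Q i z a)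
      (fun a b z => pbm (P i) (G i) z a b - pbm (Q i) (G i) z a b) j l := by
  refine ((pl_diff h hP hQ hD j l).add (PB.sum Finset.univ fun a _ =>
    ((hp l a).mul ((hD a).pd j)).add ((hq j a).mul ((hD a).pd l)))).congr' fun i y => ?_
  have e : ∀ R : E4 → E4, pl R (fun a b z => G i z a b) j l y =
      pl R (dv (G i)) j l y + ∑ a, dP R j a y * dP R l a y := fun R => by
    simp only [pl, Sk.dv, ← Finset.sum_add_distrib]
    refine Finset.sum_congr rfl fun a _ => ?_
    rw [← sum_kr (fun b => dP R j a y * dP R l b y) a, ← Finset.sum_add_distrib]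
    exact Finset.sum_congr rfl fun b _ => by simp only [kr]; ring
  simp only [rem, pbm_eq (hP.sm i), pbm_eq (hQ.sm i), e, ← dP_sub hP hQ]
  rw [← sum_kr (fun a => dP (P i) j a y - dP (Q i) j a y) l,
    ← sum_kr (fun a => dP (P i) l a y - dP (Q i) l a y) j]
  simp only [Fin.sum_univ_four]
  ring

end Crest.Agent.N207.Ph.Rg

end
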