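import Crest.Agent.N207.Ph.Rg1
import Crest.Agent.N207.Ph.Pb2

/-!
# Row 207, block PHI, leaf RG (helper55): the pointwise estimates
-/

set_option autoImplicit false
set_option linter.unusedSectionVars false

open scoped ContDiff Topology
open Set MeasureTheory Filter Metric
open Crest.GeometryTopology.CoordMetric Crest.GeometryTopology.ChartCurvature

noncomputable section

namespace Crest.Agent.N207.Ph.Rg

open Sk U G

/-- `P` inside, `Q` outside -/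
def gm (P Q : E4 → E4) (z : E4) : E4 := P z + up (6 / 5) (7 / 5) z • (Q z - P z)

/-- components of `P - Q` -/
def du (P Q : E4 → E4) : Fin 4 → E4 → ℝ := fun a z => P z a - Q z a

/-- components of `G₁ - G₂` -/
def dk (G1 G2 : MetricField 4) : Fin 4 → Fin 4 → E4 → ℝ := fun a b z => G1 z a b - G2 z a b

theorem ric_jg : ∃ C : ℝ, 0 < C ∧ ∀ (G : MetricField 4) (x : E4) (s ε : ℝ),
    IsRiemannianOn G univ → 0 < s → ε ≤ 1 / 8 → JG 3 G x s ε →
    ∀ k ≤ 1, ∀ a b, J1 k (fun y => ricci G y a b) x s (C * (ε / s ^ 2)) := by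
  have h := Dat.mw 3 (fun _ => 1) (1 / 8)
  have hψ : ∀ d : Dat 3 (fun _ => 1) (1 / 8), 0 ≤ d.w / d.s ^ 2 := fun d =>
    div_nonneg d.nn (sq_nonneg _)
  obtain ⟨C, hC, h1⟩ := unif (κ := Fin 4 × Fin 4) (ι := Dat 3 (fun _ => 1) (1 / 8))
    (P := fun p d C => ∀ k ≤ 1, J1 k (fun y => ricci d.G y p.1 p.2) d.x d.s (C * (d.w / d.s ^ 2)))
    (fun p d C D hCD hP k hk => le_trans (hP k hk) (mul_le_mul_of_nonneg_right hCD (hψ d)))
    fun p => by
      obtain ⟨C, -, h2⟩ := (MW.ricci (m := 1) h p.1 p.2).itd h.pos hψ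
      exact ⟨C, fun d k hk => h2 k hk d⟩
  exact ⟨C, hC, fun G x s ε hG hs hε hJ k hk a b => h1 (a, b) ⟨G, univ, x, s, ε, hG, mem_univ _, hs,
    jg_nonneg hJ, hε, U.jg_mono hJ (Nat.zero_le _) hε, fun k hk i j => by
      simpa using hJ k hk i j⟩ k hk⟩

variable {P Q : E4 → E4} {δ : ℝ}

theorem Nr.jb (h : Nr P δ) (y : E4) : JB 3 (fun z => P z - z) y (‖y‖ + 1) (δ * (‖y‖ + 1)) :=
  ⟨(h.sm.sub contDiff_id).contDiffAt, h.jet y⟩

theorem Nr.val (h : Nr P δ) (y : E4) : ‖P y - y‖ ≤ δ * (‖y‖ + 1) := (h.jb y).val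

theorem Nr.nonneg (h : Nr P δ) : 0 ≤ δ := by simpa using (h.jb 0).nonneg

theorem Nr.mono (h : Nr P δ) {δ' : ℝ} (hδ : δ ≤ δ') : Nr P δ' :=
  ⟨h.sm, fun y => ((h.jb y).mono (by gcongr)).bd⟩

theorem Nr.of_nid {ψ : E4 ≃ₜ E4} (h : Nid 3 ψ δ) : Nr ψ δ := ⟨h.sm, h.jet⟩

theorem Nr.norm_le (h : Nr P δ) (hδ : δ ≤ 1 / 8) {y : E4} (hy : ‖y‖ ≤ 3 / 2) : ‖P y‖ < 2 := by
  have h1 := h.val y
  have h2 := norm_sub_norm_le (P y) y
  nlinarith [norm_nonneg y]

theorem Nr.inj (h : Nr P δ) (hδ : δ ≤ 1 / 2) (y : E4) : Function.Injective (fderiv ℝ P y) := by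
  have h1 : ‖fderiv ℝ (fun z => P z - z) y‖ ≤ δ := ((h.jb y).fderiv (by positivity)).val
  rw [injective_iff_map_eq_zero]
  intro v hv
  rw [fderiv_eq_add h.sm] at hv
  have h2 : v = -fderiv ℝ (fun z => P z - z) y v := eq_neg_of_add_eq_zero_left hv
  have h3 := (fderiv ℝ (fun z => P z - z) y).le_opNorm v
  rw [← norm_neg, ← h2] at h3
  have : ‖v‖ ≤ 0 := by nlinarith [norm_nonneg v]
  exact norm_le_zero_iff.1 this

theorem Nr.itd (h : Nr P δ) {y : E4} (hy : ‖y‖ ≤ 3 / 2) (a : Fin 4) :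
    JB 3 (fun z => P z a - z a) y 1 (5 / 2 * δ) := by
  have h1 := (h.jb y).clm (EuclideanSpace.proj a : E4 →L[ℝ] ℝ) (by positivity) (l := 1)
    (ContinuousLinearMap.opNorm_le_bound _ zero_le_one fun v => by
      simpa using PiLp.norm_apply_le v a)
  have h2 := h1.scale (s' := 1) (l := 1) (by positivity) zero_le_one le_rfl
    (by linarith [norm_nonneg y])
  refine h2.mono ?_
  nlinarith [h.nonneg]

theorem nr_gm : ∃ C : ℝ, 1 ≤ C ∧ ∀ (P Q : E4 → E4) (δ : ℝ), Nr P δ → Nr Q δ → Nr (gm P Q) (C * δ) := by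
  obtain ⟨C, hC, h⟩ := jb_up 3 7
  have hu : ∀ y : E4, JB 3 (up (6 / 5) (7 / 5)) y (‖y‖ + 1) (2 ^ 3 * C) := fun y => by
    by_cases hy : ‖y‖ ≤ 7 / 5
    · exact (h _ _ (by norm_num) (by norm_num) (by norm_num) y hy).scale (by norm_num)
        (by positivity) one_le_two (by linarith)
    · refine (JB.const (1 : ℝ) (by simp; linarith)).congr ?_
      filter_upwards [(isOpen_lt continuous_const continuous_norm).mem_nhds (not_le.1 hy)] with z hz
      exact up_eq_one (by norm_num) (by norm_num) (le_of_lt hz)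
  refine ⟨1 + 128 * C, by linarith, fun P Q δ hP hQ => ⟨hP.sm.add ((up_smooth _ _).smul
    (hQ.sm.sub hP.sm)), fun y => ?_⟩⟩
  have hs : 0 ≤ ‖y‖ + 1 := by positivity
  have h1 := (hP.jb y).clm (-ContinuousLinearMap.id ℝ E4) hs (l := 1)
    (by rw [norm_neg]; exact ContinuousLinearMap.norm_id_le)
  have h2 := (hP.jb y).add hs ((hu y).smul hs ((hQ.jb y).add hs h1))
  refine ((h2.congr (Eventually.of_forall fun z => ?_)).mono (le_of_eq (by ring))).bd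
  simp only [gm, neg_apply, ContinuousLinearMap.id_apply]
  module

section fam

variable {ι : Type*} {x : ι → E4} {δ : ι → ℝ} {P Q : ι → E4 → E4} {G : ι → MetricField 4}

theorem nr_pu (h : ∀ i, Nr (P i) (δ i)) (hx : ∀ i, ‖x i‖ ≤ 3 / 2) (j a : Fin 4) :
    PU x 2 δ fun i y => dP (P i) j a y - kr j a := by
  have h1 : PU x 3 δ fun i z => P i z a - z a :=
    PB.of_itd (fun _ => one_pos) (fun i => ((h i).itd (hx i) a).sm) fun k hk =>
      ⟨5 / 2, by norm_num, fun i => ((h i).itd (hx i) a).bd k hk⟩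
  refine (h1.pd j).congr' fun i y => ?_
  rw [pd_sub (g := fun z : E4 => z a) (dif (cd_comp (h i).sm a) y)
    (dif (cd_comp contDiff_id a) y), pd_coord]
  rfl

theorem nr_mp (h : ∀ i, Nr (P i) (δ i)) (hx : ∀ i, ‖x i‖ ≤ 3 / 2) (hδ : ∀ i, δ i ≤ 1 / 8) :
    Mp x 2 P :=
  ⟨fun i => (h i).sm, fun i => ((h i).norm_le (hδ i) (hx i)).le, fun j a =>
    (((nr_pu h hx j a).wt' fun i => (hδ i).trans (by norm_num)).add (PB.const (kr j a))).congr'
      fun _ _ => by ring⟩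

theorem le_of_j1 {Y : Type*} [NormedAddCommGroup Y] [NormedSpace ℝ Y] {k : ℕ} {f : E4 → Y} {z : E4}
    {c : ℝ} (h : J1 k f z (‖z‖ + 1) c) : ‖iteratedFDeriv ℝ k f z‖ ≤ c :=
  (le_mul_of_one_le_right (norm_nonneg _) (one_le_pow₀ (by linarith [norm_nonneg z]))).trans h

theorem bt_dv (hG : ∀ i, IsRiemannianOn (G i) univ) (h : ∀ i, Sml 3 (G i) (δ i)) (a b : Fin 4) :
    BT 3 δ fun i => dv (G i) a b :=
  ⟨fun i => (contDiffOn_univ.1 ((hG i).contDiffOn a b)).sub contDiff_const, 1, zero_le_one,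
    fun i k hk z _ => by simpa using le_of_j1 (h i z k hk a b)⟩

theorem bt_ric (hG : ∀ i, IsRiemannianOn (G i) univ) (h : ∀ i, Sml 3 (G i) (δ i))
    (hδ : ∀ i, δ i ≤ 1 / 8) (a b : Fin 4) : BT 1 δ fun i y => ricci (G i) y a b := by
  obtain ⟨C, hC, h1⟩ := ric_jg
  refine ⟨fun i => contDiffOn_univ.1 (AI.smT_ricT (hG i) ![a, b]), C, hC.le, fun i k hk z _ =>
    (le_of_j1 (h1 _ z _ _ (hG i) (by positivity) (hδ i) (h i z) k hk a b)).trans ?_⟩
  exact mul_le_mul_of_nonneg_left (div_le_self (jg_nonneg (h i z))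
    (one_le_pow₀ (by linarith [norm_nonneg z]))) hC.le

variable {u : ι → Fin 4 → E4 → ℝ}

theorem q0_nn (u : Fin 4 → E4 → ℝ) (y : E4) : 0 ≤ q0 u y := by unfold q0; positivity
theorem q1_nn (u : Fin 4 → E4 → ℝ) (y : E4) : 0 ≤ q1 u y := by unfold q1; positivity
theorem q2_nn (u : Fin 4 → E4 → ℝ) (y : E4) : 0 ≤ q2 u y := by unfold q2; positivity

theorem le_q0 (u : Fin 4 → E4 → ℝ) (y : E4) (a : Fin 4) : u a y ^ 2 ≤ q0 u y :=
  Finset.single_le_sum (f := fun j => u j y ^ 2) (fun _ _ => sq_nonneg _) (Finset.mem_univ a)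

theorem le_q1 (u : Fin 4 → E4 → ℝ) (y : E4) (j a : Fin 4) : pderiv j (u a) y ^ 2 ≤ q1 u y :=
  (Finset.single_le_sum (f := fun a => pderiv j (u a) y ^ 2) (fun _ _ => sq_nonneg _)
    (Finset.mem_univ a)).trans (Finset.single_le_sum (f := fun j => ∑ a, pderiv j (u a) y ^ 2)
      (fun _ _ => by positivity) (Finset.mem_univ j))

theorem le_q2 (u : Fin 4 → E4 → ℝ) (y : E4) (c j a : Fin 4) :
    pderiv c (pderiv j (u a)) y ^ 2 ≤ q2 u y :=
  (le_q1 (fun a => pderiv j (u a)) y c a).trans' le_rfl |>.trans' le_rfl |>.trans (by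
    unfold q1 q2
    exact Finset.sum_le_sum fun c _ => Finset.single_le_sum
      (f := fun j => ∑ a, pderiv c (pderiv j (u a)) y ^ 2) (fun _ _ => by positivity)
      (Finset.mem_univ j))

theorem pu_zero {f : ι → E4 → ℝ} {S : ι → ℝ} (hf : ∀ i, ContDiff ℝ ∞ (f i))
    (h : ∀ i, f i (x i) ^ 2 ≤ S i) : PU x 0 (fun i => √(S i)) f :=
  ⟨fun i => (hf i).contDiffAt, 1, zero_le_one, fun i => by
    simpa using Real.abs_le_sqrt (h i)⟩

theorem pu_one (hu : ∀ i a, ContDiff ℝ ∞ (u i a)) (a : Fin 4) :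
    PU x 1 (fun i => √(q0 (u i) (x i) + q1 (u i) (x i))) fun i => u i a :=
  PU.of_pd (pu_zero (fun i => hu i a) fun i => by linarith [le_q0 (u i) (x i) a, q1_nn (u i) (x i)])
    fun j => pu_zero (fun i => cd_pd (hu i a) j) fun i => by
      linarith [le_q1 (u i) (x i) j a, q0_nn (u i) (x i)]

theorem pu_two (hu : ∀ i a, ContDiff ℝ ∞ (u i a)) (a : Fin 4) :
    PU x 2 (fun i => √(q0 (u i) (x i) + q1 (u i) (x i) + q2 (u i) (x i))) fun i => u i a :=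
  PU.of_pd (pu_zero (fun i => hu i a) fun i => by
      linarith [le_q0 (u i) (x i) a, q1_nn (u i) (x i), q2_nn (u i) (x i)])
    fun j => PU.of_pd (pu_zero (fun i => cd_pd (hu i a) j) fun i => by
      linarith [le_q1 (u i) (x i) j a, q0_nn (u i) (x i), q2_nn (u i) (x i)])
    fun c => pu_zero (fun i => cd_pd (cd_pd (hu i a) j) c) fun i => by
      linarith [le_q2 (u i) (x i) c j a, q0_nn (u i) (x i), q1_nn (u i) (x i)]

theorem sq_unif {κ : Type*} [Finite κ] {f : κ → ι → E4 → ℝ} {S : ι → ℝ} (hS : ∀ i, 0 ≤ S i)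
    (h : ∀ a, PU x 0 (fun i => δ i * √(S i)) (f a)) :
    ∃ C, 0 < C ∧ ∀ a i, f a i (x i) ^ 2 ≤ C * (δ i ^ 2 * S i) := by
  refine unif (P := fun a i C => f a i (x i) ^ 2 ≤ C * (δ i ^ 2 * S i)) (fun a i C D hCD hP =>
    hP.trans (mul_le_mul_of_nonneg_right hCD (mul_nonneg (sq_nonneg _) (hS i)))) fun a => ?_
  obtain ⟨C, -, h1⟩ := (h a).val
  refine ⟨C ^ 2, fun i => ?_⟩
  rw [← sq_abs]
  refine (pow_le_pow_left₀ (abs_nonneg _) (h1 i) 2).trans_eq ?_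
  rw [mul_pow, mul_pow, Real.sq_sqrt (hS i)]

end fam

/-- the data of the pointwise estimates -/
structure Dt where
  G : MetricField 4
  P : E4 → E4
  Q : E4 → E4
  δ : ℝ
  y : E4
  riem : IsRiemannianOn G univ
  sml : Sml 3 G δ
  nP : Nr P δ
  nQ : Nr Q δ
  nG : Nr (gm P Q) δ
  le : δ ≤ 1 / 8
  mem : ‖y‖ ≤ 3 / 2

theorem du_sm (hP : ContDiff ℝ ∞ P) (hQ : ContDiff ℝ ∞ Q) (a : Fin 4) : ContDiff ℝ ∞ (du P Q a) :=
  (cd_comp hP a).sub (cd_comp hQ a)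

theorem pw : ∃ C : ℝ, 0 < C ∧ ∀ d : Dt,
    (∀ i j, rem (du d.P d.Q) (dk (pbm d.P d.G) (pbm d.Q d.G)) i j d.y ^ 2 ≤
      C * (d.δ ^ 2 * (q0 (du d.P d.Q) d.y + q1 (du d.P d.Q) d.y))) ∧
    (∀ c i j, pderiv c (rem (du d.P d.Q) (dk (pbm d.P d.G) (pbm d.Q d.G)) i j) d.y ^ 2 ≤
      C * (d.δ ^ 2 * (q0 (du d.P d.Q) d.y + q1 (du d.P d.Q) d.y + q2 (du d.P d.Q) d.y))) ∧
    (∀ i j, (ricci (pbm d.P d.G) d.y i j - ricci (pbm d.Q d.G) d.y i j) ^ 2 ≤
      C * (d.δ ^ 2 * (q0 (du d.P d.Q) d.y + q1 (du d.P d.Q) d.y))) ∧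
    ∀ c i j, pderiv c (dk (pbm (gm d.P d.Q) d.G) (pbm d.Q d.G) i j) d.y ^ 2 ≤
      C * (q0 (du d.P d.Q) d.y + q1 (du d.P d.Q) d.y + q2 (du d.P d.Q) d.y) := by
  have hP := nr_mp (ι := Dt) (fun d => d.nP) (fun d => d.mem) fun d => d.le
  have hQ := nr_mp (ι := Dt) (fun d => d.nQ) (fun d => d.mem) fun d => d.le
  have hR := nr_mp (ι := Dt) (fun d => d.nG) (fun d => d.mem) fun d => d.le
  have hp := nr_pu (ι := Dt) (fun d => d.nP) fun d => d.mem
  have hq := nr_pu (ι := Dt) (fun d => d.nQ) fun d => d.mem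
  have hr := nr_pu (ι := Dt) (fun d => d.nG) fun d => d.mem
  have hg := bt_dv (ι := Dt) (fun d => d.riem) fun d => d.sml
  have hc := bt_ric (ι := Dt) (fun d => d.riem) (fun d => d.sml) fun d => d.le
  have hu : ∀ (d : Dt) a, ContDiff ℝ ∞ (du d.P d.Q a) := fun d => du_sm d.nP.sm d.nQ.sm
  have u1 := pu_one (x := fun d : Dt => d.y) hu
  have u2 := pu_two (x := fun d : Dt => d.y) hu
  have s1 : ∀ d : Dt, 0 ≤ q0 (du d.P d.Q) d.y + q1 (du d.P d.Q) d.y := fun d =>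
    add_nonneg (q0_nn _ _) (q1_nn _ _)
  have s2 : ∀ d : Dt, 0 ≤ q0 (du d.P d.Q) d.y + q1 (du d.P d.Q) d.y + q2 (du d.P d.Q) d.y :=
    fun d => add_nonneg (s1 d) (q2_nn _ _)
  obtain ⟨C1, p1, h1⟩ := sq_unif (κ := Fin 4 × Fin 4) s1 fun p => rem_pu
    (fun a b => (hg a b).pred.pred) hP.pred.pred hQ.pred.pred (fun j a => (hp j a).pred.pred)
    (fun j a => (hq j a).pred.pred) u1 p.1 p.2
  obtain ⟨C2, p2, h2⟩ := sq_unif (κ := Fin 4 × Fin 4 × Fin 4) s2 fun p => (rem_pu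
    (fun a b => (hg a b).pred) hP.pred hQ.pred (fun j a => (hp j a).pred)
    (fun j a => (hq j a).pred) u2 p.2.1 p.2.2).pd p.1
  obtain ⟨C3, p3, h3⟩ := sq_unif (κ := Fin 4 × Fin 4) s1 fun p =>
    pl_diff (S := fun (d : Dt) a b y => ricci d.G y a b) hc hP.pred.pred hQ.pred.pred u1 p.1 p.2
  obtain ⟨Cu, hCu, hup⟩ := exists_jb_fixed (up_smooth (6 / 5) (7 / 5)) 2 (3 / 2)
  have w1 : PU (fun d : Dt => d.y) 2 (fun _ => 1) fun _ => up (6 / 5) (7 / 5) :=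
    PB.of_itd (fun _ => one_pos) (fun _ => (up_smooth _ _).contDiffAt) fun k hk =>
      ⟨Cu, by linarith, fun d => by simpa using (hup 1 one_pos d.y (by simpa using d.mem)).bd k hk⟩
  have u3 : ∀ a, PU (fun d : Dt => d.y) 2 _ fun d y => gm d.P d.Q y a - d.Q y a := fun a =>
    (((PB.const 1).sub w1).bmul (u2 a)).congr' fun d y => by
      simp only [gm, du, PiLp.add_apply, PiLp.smul_apply, PiLp.sub_apply, smul_eq_mul]; ring
  obtain ⟨C4, p4, h4⟩ := sq_unif (κ := Fin 4 × Fin 4 × Fin 4) (δ := fun _ => 1) (x := Dt.y) s2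
    (f := fun p d => pderiv p.1 (dk (pbm (gm d.P d.Q) d.G) (pbm d.Q d.G) p.2.1 p.2.2)) fun p => by
    refine PU.pd (PB.wte ?_ fun _ => (one_mul _).symm) p.1
    refine ((((rem_pu (fun a b => (hg a b).pred) hR.pred hQ.pred (fun j a => (hr j a).pred)
      (fun j a => (hq j a).pred) u3 p.2.1 p.2.2).wt' fun d => ?_).add
      ((u3 p.2.2).pd p.2.1)).add ((u3 p.2.1).pd p.2.2)).congr' fun d y => ?_
    · exact mul_le_of_le_one_left (Real.sqrt_nonneg _) (d.le.trans (by norm_num))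
    · simp only [rem, dk]; ring
  refine ⟨C1 + C2 + C3 + C4, by positivity, fun d => ⟨fun i j => ?_, fun c i j => ?_, fun i j => ?_,
    fun c i j => ?_⟩⟩
  · exact (h1 (i, j) d).trans (mul_le_mul_of_nonneg_right (by linarith)
      (mul_nonneg (sq_nonneg _) (s1 d)))
  · exact (h2 (c, i, j) d).trans (mul_le_mul_of_nonneg_right (by linarith)
      (mul_nonneg (sq_nonneg _) (s2 d)))
  · rw [ric_pbm d.nP.sm (d.nP.inj (d.le.trans (by norm_num))) d.riem,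
      ric_pbm d.nQ.sm (d.nQ.inj (d.le.trans (by norm_num))) d.riem]
    exact (h3 (i, j) d).trans (mul_le_mul_of_nonneg_right (by linarith)
      (mul_nonneg (sq_nonneg _) (s1 d)))
  · have := h4 (c, i, j) d
    rw [one_pow, one_mul] at this
    exact this.trans (mul_le_mul_of_nonneg_right (by linarith) (s2 d))

end Crest.Agent.N207.Ph.Rg

end
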