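import Crest.Agent.N207.Ph.Rg2
import Crest.Agent.N207.Ph.Kit

/-!
# Row 207, block PHI, leaf RG (helper55): the integrated estimates
-/

set_option autoImplicit false
set_option linter.unusedSectionVars false

open scoped ContDiff Topology
open Set MeasureTheory Filter Metric
open Crest.GeometryTopology.CoordMetric Crest.GeometryTopology.ChartCurvature

noncomputable section

namespace Crest.Agent.N207.Ph.Rg

open Sk U G

variable {G G1 G2 G3 : MetricField 4} {P Q : E4 → E4} {δ : ℝ}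

theorem sml_mono {m l : ℕ} {δ' : ℝ} (h : Sml m G δ) (hl : l ≤ m) (hδ : δ ≤ δ') : Sml l G δ' :=
  fun y => U.jg_mono (h y) hl hδ

theorem ent_sm (h : Fl G) (i j : Fin 4) : ContDiff ℝ ∞ fun z => G z i j :=
  contDiffOn_univ.1 (h.riem.contDiffOn i j)

theorem dk_sm (h1 : Fl G1) (h2 : Fl G2) (i j : Fin 4) : ContDiff ℝ ∞ (dk G1 G2 i j) :=
  (ent_sm h1 i j).sub (ent_sm h2 i j)

theorem dk_out (h1 : Fl G1) (h2 : Fl G2) :
    ∃ R : ℝ, ∀ i j, ∀ x : E4, R < ‖x‖ → dk G1 G2 i j x = 0 := by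
  obtain ⟨R1, a⟩ := h1.flat
  obtain ⟨R2, b⟩ := h2.flat
  exact ⟨max R1 R2, fun i j x hx => by
    simp [dk, a x ((le_max_left _ _).trans hx.le), b x ((le_max_right _ _).trans hx.le)]⟩

/-- the integrand of `H1 G₂ G₁` -/
def hh (G1 G2 : MetricField 4) (x : E4) : ℝ := ∑ c, ∑ i, ∑ j, pderiv c (dk G1 G2 i j) x ^ 2

theorem H1_eq (G1 G2 : MetricField 4) : H1 G2 G1 = ∫ x, hh G1 G2 x := rfl

theorem hh_nn (G1 G2 : MetricField 4) (x : E4) : 0 ≤ hh G1 G2 x := by unfold hh; positivity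

theorem hh_int (h1 : Fl G1) (h2 : Fl G2) : Integrable (hh G1 G2) := by
  obtain ⟨R, hR⟩ := dk_out h1 h2
  refine integrable_of_ball R (continuous_finsetSum _ fun c _ => continuous_finsetSum _ fun i _ =>
    continuous_finsetSum _ fun j _ => (cd_pd (dk_sm h1 h2 i j) c).continuous.pow 2) fun x hx => ?_
  simp [hh, pderiv_zero_out (hR _ _) _ x hx]

theorem H1_tri (h1 : Fl G1) (h2 : Fl G2) (h3 : Fl G3) : H1 G1 G3 ≤ 2 * H1 G2 G1 + 2 * H1 G2 G3 := by
  rw [H1_eq, H1_eq, H1_eq, ← integral_const_mul, ← integral_const_mul,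
    ← integral_add ((hh_int h1 h2).const_mul 2) ((hh_int h3 h2).const_mul 2)]
  refine integral_mono (hh_int h3 h1) (((hh_int h1 h2).const_mul 2).add
    ((hh_int h3 h2).const_mul 2)) fun x => ?_
  simp only [hh, Finset.mul_sum, ← Finset.sum_add_distrib]
  refine Finset.sum_le_sum fun c _ => Finset.sum_le_sum fun i _ => Finset.sum_le_sum fun j _ => ?_
  have e : dk G3 G1 i j = fun z => dk G3 G2 i j z - dk G1 G2 i j z := by
    funext z; simp only [dk]; ring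
  rw [e, pd_sub (dif (dk_sm h3 h2 i j) x) (dif (dk_sm h1 h2 i j) x)]
  nlinarith [sq_nonneg (pderiv c (dk G3 G2 i j) x + pderiv c (dk G1 G2 i j) x)]

/-- `|u|² + |∂u|² + |∂²u|²` -/
def qq (u : Fin 4 → E4 → ℝ) (y : E4) : ℝ := q0 u y + q1 u y + q2 u y

theorem qq_nn (u : Fin 4 → E4 → ℝ) (y : E4) : 0 ≤ qq u y :=
  add_nonneg (add_nonneg (q0_nn _ _) (q1_nn _ _)) (q2_nn _ _)

theorem int_B {f : E4 → ℝ} (h : Continuous f) : IntegrableOn f B :=
  (h.continuousOn.integrableOn_compact (isCompact_closedBall 0 (3 / 2))).mono_set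
    ball_subset_closedBall

theorem qq_int {u : Fin 4 → E4 → ℝ} (hu : ∀ a, ContDiff ℝ ∞ (u a)) : IntegrableOn (qq u) B :=
  int_B (((continuous_finsetSum _ fun j _ => (hu j).continuous.pow 2).add
    (continuous_finsetSum _ fun i _ => continuous_finsetSum _ fun j _ =>
      (cd_pd (hu j) i).continuous.pow 2)).add
    (continuous_finsetSum _ fun c _ => continuous_finsetSum _ fun i _ =>
      continuous_finsetSum _ fun j _ => (cd_pd (cd_pd (hu j) i) c).continuous.pow 2))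

theorem mB : MeasurableSet B := measurableSet_ball

theorem mem_B {y : E4} : y ∈ B ↔ ‖y‖ < 3 / 2 := mem_ball_zero_iff

theorem sum2_le {f : Fin 4 → Fin 4 → ℝ} {c : ℝ} (h : ∀ i j, f i j ≤ c) :
    ∑ i, ∑ j, f i j ≤ 16 * c :=
  (Finset.sum_le_sum fun i _ => Finset.sum_le_sum fun j _ => h i j).trans_eq (by simp; ring)

theorem rd_le (h1 : Fl G1) (h2 : Fl G2) {q : E4 → ℝ} (hq : IntegrableOn q B) (h0 : ∀ y, 0 ≤ q y)
    (h : ∀ y ∈ B, ∀ i j, (ricci G1 y i j - ricci G2 y i j) ^ 2 ≤ q y) :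
    RD G2 G1 ≤ 2 * RL G1 (6 / 5) + 2 * RL G2 (6 / 5) + 36 * ∫ y in B, q y := by
  have mS : MeasurableSet {x : E4 | 6 / 5 ≤ ‖x‖} :=
    (isClosed_le continuous_const continuous_norm).measurableSet
  have i1 := (h1.ric_int.indicator mS).const_mul 2
  have i2 := (h2.ric_int.indicator mS).const_mul 2
  have i3 := ((integrable_indicator_iff mB).2 hq).const_mul 36
  rw [RL, RL, ← integral_indicator mS, ← integral_indicator mS, ← integral_indicator mB,
    ← integral_const_mul, ← integral_const_mul, ← integral_const_mul, ← integral_add' i1 i2,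
    ← integral_add' (i1.add i2) i3]
  refine integral_mono_of_nonneg (Eventually.of_forall fun x => by positivity)
    ((i1.add i2).add i3) (Eventually.of_forall fun x => ?_)
  have n3 : 0 ≤ B.indicator q x := indicator_nonneg (fun y _ => h0 y) x
  by_cases hx : 6 / 5 ≤ ‖x‖
  · have hx' : x ∈ {x : E4 | 6 / 5 ≤ ‖x‖} := hx
    have : ∑ i, ∑ j, (ricci G1 x i j - ricci G2 x i j) ^ 2 ≤
        2 * ∑ i, ∑ j, ricci G1 x i j ^ 2 + 2 * ∑ i, ∑ j, ricci G2 x i j ^ 2 := by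
      simp only [Finset.mul_sum, ← Finset.sum_add_distrib]
      exact Finset.sum_le_sum fun i _ => Finset.sum_le_sum fun j _ => by
        nlinarith [sq_nonneg (ricci G1 x i j + ricci G2 x i j)]
    have := mul_le_mul_of_nonneg_left this (sq_nonneg ‖x‖)
    simp only [Pi.add_apply, indicator_of_mem hx']
    linarith
  · have hx' : x ∉ {x : E4 | 6 / 5 ≤ ‖x‖} := hx
    have hB : x ∈ B := mem_B.2 (by linarith [not_le.1 hx])
    have h3 := sum2_le (h x hB)
    have h4 : ‖x‖ ^ 2 ≤ 9 / 4 := by nlinarith [mem_B.1 hB, norm_nonneg x]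
    have h5 := mul_le_mul h4 h3 (by positivity) (by norm_num)
    simp only [Pi.add_apply, indicator_of_notMem hx', indicator_of_mem hB]
    linarith

theorem pbm_ev {P' : E4 → E4} {y : E4} (h : P =ᶠ[𝓝 y] P') : pbm P G =ᶠ[𝓝 y] pbm P' G :=
  h.eventuallyEq_nhds.mono fun z hz => by
    ext i j
    simp only [pbm_fd, hz.fderiv_eq, hz.eq_of_nhds]

theorem gm_in {y : E4} (hy : ‖y‖ < 6 / 5) : gm P Q =ᶠ[𝓝 y] P := by
  filter_upwards [(isOpen_lt continuous_norm continuous_const).mem_nhds hy] with z hz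
  simp [gm, up_eq_zero (a := 6 / 5) (b := 7 / 5) (by norm_num) (by norm_num) (le_of_lt hz)]

theorem gm_eq {z : E4} (hz : 7 / 5 ≤ ‖z‖) : gm P Q z = Q z := by
  simp [gm, up_eq_one (a := 6 / 5) (b := 7 / 5) (by norm_num) (by norm_num) hz]

theorem gm_out {y : E4} (hy : 7 / 5 < ‖y‖) : gm P Q =ᶠ[𝓝 y] Q := by
  filter_upwards [(isOpen_lt continuous_const continuous_norm).mem_nhds hy] with z hz
  exact gm_eq (le_of_lt hz)

theorem h1_le {q : E4 → ℝ} (hq : IntegrableOn q B)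
    (h : ∀ y ∈ B, ∀ c i j, pderiv c (dk (pbm (gm P Q) G) (pbm Q G) i j) y ^ 2 ≤ q y) :
    H1 (pbm Q G) (pbm (gm P Q) G) ≤ 64 * ∫ y in B, q y := by
  rw [H1_eq, ← integral_indicator mB, ← integral_const_mul]
  refine integral_mono_of_nonneg (Eventually.of_forall (hh_nn _ _))
    (((integrable_indicator_iff mB).2 hq).const_mul 64) (Eventually.of_forall fun x => ?_)
  by_cases hx : x ∈ B
  · simp only [indicator_of_mem hx]
    exact (Finset.sum_le_sum fun c _ => sum2_le (h x hx c)).trans_eq (by simp; ring)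
  · have h1 : 7 / 5 < ‖x‖ := by linarith [not_lt.1 (mt mem_B.2 hx)]
    have e : ∀ i j, dk (pbm (gm P Q) G) (pbm Q G) i j =ᶠ[𝓝 x] fun _ => 0 := fun i j =>
      (pbm_ev (G := G) (gm_out (P := P) (Q := Q) h1)).mono fun z hz => by simp [dk, hz]
    simp [hh, indicator_of_notMem hx, pderiv, (e _ _).fderiv_eq]

theorem ev_lt (a : ℝ) {b : ℝ} (hb : 0 < b) : ∀ᶠ δ in 𝓝[>] (0 : ℝ), a * δ ≤ b := by
  have : ∀ᶠ δ in 𝓝 (0 : ℝ), a * δ < b :=
    (continuous_const.mul continuous_id).continuousAt.eventually_lt continuousAt_const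
      (by simpa using hb)
  exact (this.mono fun _ h => h.le).filter_mono nhdsWithin_le_nhds

theorem rl_nn (G : MetricField 4) (c : ℝ) : 0 ≤ RL G c := integral_nonneg fun x => by positivity

theorem bl_nn (G : MetricField 4) : 0 ≤ BL G := integral_nonneg fun x => by positivity

theorem core (hEN : ENStmt) (hQU : QUStmt) (hK : KornStmt) : ∃ δ C : ℝ, 0 < δ ∧ 0 < C ∧
    ∀ (G G1 : MetricField 4) (P Q : E4 → E4), IsRiemannianOn G univ → Sml 3 G δ → Nr P δ → Nr Q δ →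
      Nr (gm P Q) δ → Fl G1 → Fl (pbm Q G) → Fl (pbm (gm P Q) G) → Sml 2 G1 δ → Sml 2 (pbm Q G) δ →
      Sml 2 (pbm (gm P Q) G) δ → EqOn G1 (pbm P G) B → (∀ j, ∫ y in B, du P Q j y = 0) →
      (∀ i j, ∫ y in B, pderiv i (du P Q j) y = ∫ y in B, pderiv j (du P Q i) y) →
      |EH (pbm (gm P Q) G) - EH G1| ≤
        C * (RL G1 (6 / 5) + RL (pbm Q G) (6 / 5) + BL G1 + BL (pbm Q G)) := by
  obtain ⟨δE, CE, dE, cE, hE⟩ := hEN
  obtain ⟨δQ, CQ, dQ, cQ, hQ⟩ := hQU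
  obtain ⟨ε, CK, dK, cK, hK⟩ := hK
  obtain ⟨C, c, hp⟩ := pw
  obtain ⟨δ, ⟨⟨⟨⟨⟨a1, a2⟩, a3⟩, a4⟩, a5⟩, d0⟩⟩ := ((((((ev_lt 1 dE).and (ev_lt 1 dQ)).and
    (ev_lt C dK)).and (ev_lt 1 (by norm_num : (0 : ℝ) < 1 / 8))).and
    (ev_lt (36 * CE * CK * C) (by norm_num : (0 : ℝ) < 1 / 2))).and self_mem_nhdsWithin).exists
  have d0 : 0 < δ := d0
  rw [one_mul] at a1 a2 a4
  refine ⟨δ, CQ * (4 * CE * (2 + 128 * C * CK) + 1), d0, by positivity,
    fun G G1 P Q hG sG nP nQ nG f1 f2 f3 s1 s2 s3 he m0 m1 => ?_⟩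
  have hd := fun y (hy : y ∈ B) => hp ⟨G, P, Q, δ, y, hG, sG, nP, nQ, nG, a4, (mem_B.1 hy).le⟩
  simp only at hd
  have ev : ∀ y ∈ B, G1 =ᶠ[𝓝 y] pbm P G := fun y hy =>
    he.eventuallyEq_of_mem (isOpen_ball.mem_nhds hy)
  have er : ∀ y ∈ B, ∀ i j, rem (du P Q) (dk G1 (pbm Q G)) i j =ᶠ[𝓝 y]
      rem (du P Q) (dk (pbm P G) (pbm Q G)) i j := fun y hy i j =>
    (ev y hy).mono fun z hz => by simp only [rem, dk, hz]
  have hu := du_sm nP.sm nQ.sm
  have d2 : δ ^ 2 ≤ δ := by nlinarith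
  have key : ∀ {a s : ℝ}, 0 ≤ s → a ≤ C * (δ ^ 2 * s) → a ≤ C * δ * s := fun {a s} hs h =>
    h.trans (by rw [mul_assoc]; gcongr)
  have n1 : ∀ y, 0 ≤ q0 (du P Q) y + q1 (du P Q) y := fun y => add_nonneg (q0_nn _ _) (q1_nn _ _)
  obtain ⟨R, hR⟩ := dk_out f1 f2
  have k1 : ∫ y in B, qq (du P Q) y ≤ CK * H1 (pbm Q G) G1 :=
    hK (du P Q) (dk G1 (pbm Q G)) hu (dk_sm f1 f2) (fun i j => hcs_of_ball R (hR i j)) m0 m1
      (fun y hy i j => by
        rw [(er y hy i j).eq_of_nhds]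
        exact (key (n1 y) ((hd y hy).1 i j)).trans (mul_le_mul_of_nonneg_right a3 (n1 y)))
      fun y hy c i j => by
        rw [(ev_pd (er y hy i j) c).eq_of_nhds]
        exact (key (qq_nn _ y) ((hd y hy).2.1 c i j)).trans
          (mul_le_mul_of_nonneg_right a3 (qq_nn _ y))
  have k2 := rd_le f1 f2 ((qq_int hu).const_mul (C * δ))
    (fun y => mul_nonneg (by positivity) (qq_nn _ y)) fun y hy i j => by
      rw [(AI.ricci_congr (ev y hy)).eq_of_nhds]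
      exact (key (n1 y) ((hd y hy).2.2.1 i j)).trans (mul_le_mul_of_nonneg_left
        (le_add_of_nonneg_right (q2_nn _ _)) (by positivity))
  have k3 := h1_le (G := G) ((qq_int hu).const_mul C) fun y hy => (hd y hy).2.2.2
  rw [integral_const_mul] at k2 k3
  have k4 := hE _ _ f2 f1 (sml_mono s2 le_rfl a1) (sml_mono s1 le_rfl a1)
  have k5 := H1_tri f1 f2 f3
  have k6 := hQ _ _ (6 / 5) f1 f3 (sml_mono s1 le_rfl a2) (sml_mono s3 le_rfl a2) fun y hy => by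
    have hy' := mem_ball_zero_iff.1 hy
    rw [he (mem_B.2 (by linarith)), (pbm_ev (G := G) (gm_in (P := P) (Q := Q) hy')).eq_of_nhds]
  have r1 := rl_nn G1 (6 / 5)
  have r2 := rl_nn (pbm Q G) (6 / 5)
  have b1 := bl_nn G1
  have b2 := bl_nn (pbm Q G)
  have x0 : 0 ≤ H1 (pbm Q G) G1 := integral_nonneg (hh_nn _ _)
  generalize H1 (pbm Q G) G1 = X at *
  generalize (∫ y in B, qq (du P Q) y) = A at *
  set S := RL G1 (6 / 5) + RL (pbm Q G) (6 / 5) + BL G1 + BL (pbm Q G) with hS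
  have k7 : X ≤ 4 * CE * S := by
    have e1 : CE * (36 * (C * δ * A)) ≤ 1 / 2 * X :=
      calc CE * (36 * (C * δ * A)) ≤ CE * (36 * (C * δ * (CK * X))) := by gcongr
        _ = 36 * CE * CK * C * δ * X := by ring
        _ ≤ _ := by gcongr
    have e2 : RD (pbm Q G) G1 + BL (pbm Q G) + BL G1 ≤ 2 * S + 36 * (C * δ * A) := by linarith
    nlinarith [mul_le_mul_of_nonneg_left e2 cE.le]
  have k8 : H1 G1 (pbm (gm P Q) G) ≤ (2 + 128 * C * CK) * X := by
    have : C * A ≤ C * (CK * X) := by gcongr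
    linarith
  refine k6.trans ?_
  rw [mul_assoc]
  refine mul_le_mul_of_nonneg_left ?_ cQ.le
  have : (2 + 128 * C * CK) * X ≤ (2 + 128 * C * CK) * (4 * CE * S) := by gcongr
  linarith

end Crest.Agent.N207.Ph.Rg

end
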