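import Crest.Agent.N207.Ph.Rg3

/-!
# Row 207, block PHI, leaf RG (helper55): assembly
-/

set_option autoImplicit false
set_option linter.unusedSectionVars false

open scoped ContDiff Topology
open Set MeasureTheory Filter Metric
open Crest.GeometryTopology.CoordMetric Crest.GeometryTopology.ChartCurvature

noncomputable section

namespace Crest.Agent.N207.Ph.Rg

open Sk U G

variable {G : MetricField 4} {δ : ℝ}

theorem all_of_fl (h : Fl G) : ∃ Cs : ℕ → ℝ, All Cs G := by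
  obtain ⟨R, hR⟩ := h.flat
  have key : ∀ (k : ℕ) (p : Fin 4 × Fin 4), ∃ C : ℝ, ∀ y : E4,
      J1 k (dv G p.1 p.2) y (‖y‖ + 1) C := fun k p => by
    have hs : ContDiff ℝ ∞ (dv G p.1 p.2) := (ent_sm h _ _).sub contDiff_const
    have hc : Continuous fun y : E4 => ‖iteratedFDeriv ℝ k (dv G p.1 p.2) y‖ * (‖y‖ + 1) ^ k :=
      (hs.continuous_iteratedFDeriv (U.kle k)).norm.mul (by fun_prop)
    obtain ⟨C, hC⟩ := hc.bounded_above_of_compact_support (hcs_of_ball R fun x hx => by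
      have e : dv G p.1 p.2 =ᶠ[𝓝 x] fun _ => 0 := by
        filter_upwards [(isOpen_lt continuous_const continuous_norm).mem_nhds hx] with z hz
        simp [Sk.dv, hR z (le_of_lt hz)]
      rw [(e.iteratedFDeriv ℝ k).eq_of_nhds]
      simp)
    exact ⟨C, fun y => (le_abs_self _).trans (hC y)⟩
  choose Cs _ hCs using fun k => unif (P := fun (p : Fin 4 × Fin 4) (y : E4) C =>
    J1 k (dv G p.1 p.2) y (‖y‖ + 1) C) (fun _ _ _ _ hCD hP => le_trans hP hCD) (key k)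
  exact ⟨Cs, fun y k i j => by simpa using hCs k (i, j) y⟩

theorem sml_of_ds {m : ℕ} (h : DS m G δ) : Sml m G δ := fun y => by
  obtain ⟨ε, h0, h1, h2⟩ := h
  obtain ⟨l, a, b⟩ := exists_nat_pow_near (x := ‖y‖ + 1) (y := 2)
    (by linarith [norm_nonneg y]) one_lt_two
  exact U.jg_mono (h2 l y a b.le) le_rfl ((Finset.single_le_sum (fun i _ => h0 i)
    (Finset.self_mem_range_succ l)).trans (h1 _))

theorem nid_mono {m : ℕ} {ψ : E4 ≃ₜ E4} {δ' : ℝ} (h : Nid m ψ δ) (hδ : δ ≤ δ') : Nid m ψ δ' :=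
  ⟨h.sm, h.sm', h.out, fun y k hk => le_trans (h.jet y k hk) (by gcongr), h.zero⟩

theorem pbm_rot {ψ : E4 → E4} (h : ContDiff ℝ ∞ ψ) (R : Iso) (G : MetricField 4) :
    pbm (fun z => ψ (R z)) G = pbm R (pbm ψ G) := by
  funext y
  ext i j
  simp only [pbm, Matrix.of_apply]
  rw [← AI.pullT_comp _ (R.differentiable y) (dif h _), ← matT_pbm]

theorem rot : ∃ δ0 C : ℝ, 0 < δ0 ∧ 0 < C ∧ ∀ (ψ : E4 ≃ₜ E4) (R : Iso) (G : MetricField 4) (δ : ℝ),
    0 ≤ δ → δ ≤ δ0 → Nid 3 ψ δ → Fl G → Sml 2 G δ →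
    Fl (pbm (fun z => ψ (R z)) G) ∧ Sml 2 (pbm (fun z => ψ (R z)) G) (C * δ) ∧
      EH (pbm (fun z => ψ (R z)) G) = EH G ∧
      RL (pbm (fun z => ψ (R z)) G) (6 / 5) ≤ C * RL G 1 ∧
      BL (pbm (fun z => ψ (R z)) G) = BL (pbm ψ G) := by
  obtain ⟨δ0, C, d0, c0, h⟩ := pb
  obtain ⟨D, c1, h'⟩ := pbiso 2
  refine ⟨min δ0 (1 / 20), (D + 4) * C, by positivity, by positivity,
    fun ψ R G δ p0 p1 hψ hG hS => ?_⟩
  obtain ⟨a1, a2, a3, a4, -⟩ := h ψ G δ p0 (p1.trans (min_le_left _ _)) hψ hG hS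
  obtain ⟨b1, b2, b3, b4, b5, -⟩ := h' R _ a1
  rw [pbm_rot hψ.sm]
  refine ⟨b1, fun y => U.jg_mono (b5 y _ _ (by positivity) (by
    simpa only [R.norm_map] using a2 (R y))) le_rfl ?_, b2.trans a3, ?_, b4⟩
  · have := mul_nonneg c0.le p0
    nlinarith
  · have h1 := a4 (6 / 5) 1 one_pos fun x hx => by
      have h2 := hψ.val x
      have h3 := norm_sub_norm_le x (ψ x)
      rw [norm_sub_rev] at h3
      have h4 := p1.trans (min_le_right _ _)
      nlinarith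
    have := mul_nonneg (mul_nonneg c1.le c0.le) (rl_nn G 1)
    rw [b3]
    nlinarith

theorem int_sub {f g : E4 → ℝ} (hf : Continuous f) (hg : Continuous g) :
    ∫ y in B, (f y - g y) = (∫ y in B, f y) - ∫ y in B, g y := integral_sub (int_B hf) (int_B hg)

theorem rg_of (hEN : ENStmt) (hQU : QUStmt) (hHC : HCStmt) (hK : KornStmt) (hN : NidStmt)
    (hP : PolStmt) : RGStmt := by
  obtain ⟨δ, C, d0, c0, hc⟩ := core hEN hQU hK
  obtain ⟨δH, CH, dH, cH, hH⟩ := hHC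
  obtain ⟨δR, CR, dR, cR, hR⟩ := rot
  obtain ⟨Cg, cg, hg⟩ := nr_gm
  obtain ⟨pol, nro, mean⟩ := hP
  obtain ⟨δ0, ⟨⟨⟨⟨⟨a1, a2⟩, a3⟩, a4⟩, a5⟩, p0⟩⟩ := ((((((ev_lt 1 dH).and
    (ev_lt (61 * Cg * (CH + 1)) d0)).and (ev_lt (61 * Cg * (CH + 1)) dR)).and
    (ev_lt (CR * (61 * Cg * (CH + 1))) d0)).and
    (ev_lt (61 * Cg * (CH + 1)) (by norm_num : (0 : ℝ) < 1 / 100))).and self_mem_nhdsWithin).exists
  have p0 : 0 < δ0 := p0
  rw [one_mul] at a1
  rw [mul_assoc] at a2 a3 a4 a5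
  rw [mul_assoc (61 * Cg)] at a4
  have b1 : δ0 ≤ (CH + 1) * δ0 := by nlinarith
  have b2 : CH * δ0 ≤ (CH + 1) * δ0 := by nlinarith
  generalize (CH + 1) * δ0 = δ1 at *
  have p1 : 0 < δ1 := p0.trans_le b1
  have b3 : δ1 ≤ Cg * δ1 := le_mul_of_one_le_left p1.le cg
  have b4 : Cg * (δ1 + 30 * δ1) + 30 * δ1 ≤ 61 * Cg * δ1 := by nlinarith
  have b5 : δ1 + 30 * δ1 ≤ 61 * Cg * δ1 := by nlinarith
  have b6 : Cg * (δ1 + 30 * δ1) ≤ 61 * Cg * δ1 := by nlinarith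
  generalize 61 * Cg * δ1 = δ2 at *
  refine ⟨δ0, C * CR, p0, by positivity, fun Γ G1 G2 hΓ f1 f2 i1 i2 s1 s2 he => ?_⟩
  obtain ⟨γ, hγ, fr⟩ := Hd.exists_free hΓ.ne hΓ.free
  have key : ∀ τ : ℝ, 0 < τ → |EH G1 - EH G2| ≤ C * CR * (RL G1 1 + RL G2 1) + 2 * C * τ ^ 2 := by
    intro τ hτ
    have hψ : ∀ G : MetricField 4, Fl G → Inv Γ G → DS 3 G δ0 → ∃ (ψ : E4 ≃ₜ E4) (R : Iso),
        Nid 3 ψ δ1 ∧ BL (pbm ψ G) ≤ τ ^ 2 ∧ (∀ x, ‖R x - x‖ ≤ 30 * δ1 * ‖x‖) ∧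
        (∀ j, ∫ y in B, ψ (R y) j = 0) ∧ ∀ i j, ∫ y in B, pderiv i (fun z => ψ (R z) j) y =
          ∫ y in B, pderiv j (fun z => ψ (R z) i) y := fun G f i s => by
      obtain ⟨Cs, hCs⟩ := all_of_fl f
      obtain ⟨Cp, h⟩ := hH Cs
      obtain ⟨ψ, n, e, b, -⟩ := h Γ G δ0 τ hΓ f i a1 s hCs hτ
      obtain ⟨R, r1, r2⟩ := pol ψ δ1 (by linarith) (Nr.of_nid (nid_mono n b2))
      exact ⟨ψ, R, nid_mono n b2, b, r1, mean ψ γ R ψ.continuous fr (e γ hγ), r2⟩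
    obtain ⟨ψ1, R1, n1, l1, r1, m1, y1⟩ := hψ G1 f1 i1 s1
    obtain ⟨ψ2, R2, n2, l2, r2, m2, y2⟩ := hψ G2 f2 i2 s2
    have t1 := sml_of_ds s1
    have t2 := sml_of_ds s2
    have nP := nro ψ1 δ1 _ R1 (Nr.of_nid n1) (by positivity) r1
    have nQ := nro ψ2 δ1 _ R2 (Nr.of_nid n2) (by positivity) r2
    set P : E4 → E4 := fun z => ψ1 (R1 z) with hPd
    set Q : E4 → E4 := fun z => ψ2 (R2 z) with hQd
    have nG := hg P Q _ nP nQ
    have nS := nro (gm P Q) _ (30 * δ1) R2.symm nG (by positivity) fun x => by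
      have := r2 (R2.symm x)
      rwa [R2.apply_symm_apply, norm_sub_rev, R2.symm.norm_map] at this
    obtain ⟨ψ3, e3, n3⟩ := hN _ δ2 (by linarith) (nS.mono b4) (by
      obtain ⟨R, hR⟩ := n2.out
      refine ⟨max R (7 / 5), fun x hx => ?_⟩
      rw [gm_eq (by rw [R2.symm.norm_map]; exact (le_max_right _ _).trans hx), hQd]
      simp only [R2.apply_symm_apply]
      exact hR x ((le_max_left _ _).trans hx)) (by
      rw [map_zero, (gm_in (by norm_num)).eq_of_nhds, hPd]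
      simp only [map_zero, n1.zero])
    have e4 : (fun z => ψ3 (R2 z)) = gm P Q := by
      funext z; simp only [e3, R2.symm_apply_apply]
    have q2 : δ1 ≤ δ2 := by linarith
    obtain ⟨u1, u2, u3, u4, u5⟩ := hR ψ1 R1 G1 δ2 (by linarith) a3 (nid_mono n1 q2) f1
      (sml_mono t1 (by norm_num) (by linarith))
    obtain ⟨v1, v2, -, v4, v5⟩ := hR ψ2 R2 G2 δ2 (by linarith) a3 (nid_mono n2 q2) f2
      (sml_mono t2 (by norm_num) (by linarith))
    obtain ⟨w1, w2, w3, -⟩ := hR ψ3 R2 G2 δ2 (by linarith) a3 n3 f2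
      (sml_mono t2 (by norm_num) (by linarith))
    rw [e4] at w1 w2 w3
    have cP := fun a => cd_comp nP.sm a
    have cQ := fun a => cd_comp nQ.sm a
    have k := hc G2 (pbm P G1) P Q f2.riem (sml_mono t2 le_rfl (by linarith))
      (nP.mono (by linarith)) (nQ.mono (by linarith)) (nG.mono (by linarith)) u1 v1 w1
      (sml_mono u2 le_rfl a4) (sml_mono v2 le_rfl a4) (sml_mono w2 le_rfl a4)
      (fun y hy => by
        ext i j
        simp only [pbm_fd, he (mem_ball_zero_iff.2 (nP.norm_le (by linarith) (mem_B.1 hy).le))])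
      (fun j => by
        simp only [du]
        rw [int_sub (cP j).continuous (cQ j).continuous, m1, m2, sub_zero])
      fun i j => by
        have e : ∀ i j y, pderiv i (du P Q j) y =
            pderiv i (fun z => P z j) y - pderiv i (fun z => Q z j) y := fun i j y =>
          pd_sub (dif (cP j) y) (dif (cQ j) y) i
        simp only [e]
        rw [int_sub (cd_pd (cP j) i).continuous (cd_pd (cQ j) i).continuous,
          int_sub (cd_pd (cP i) j).continuous (cd_pd (cQ i) j).continuous, y1, y2]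
    rw [w3, u3, u5, v5, abs_sub_comm] at k
    refine k.trans ?_
    have : C * (RL (pbm P G1) (6 / 5) + RL (pbm Q G2) (6 / 5) + BL (pbm ψ1 G1) + BL (pbm ψ2 G2)) ≤
        C * (CR * RL G1 1 + CR * RL G2 1 + τ ^ 2 + τ ^ 2) := by gcongr
    linarith
  refine le_of_forall_pos_le_add fun ε hε => (key √(ε / (2 * C)) (by positivity)).trans_eq ?_
  rw [Real.sq_sqrt (by positivity), mul_div_cancel₀ _ (by positivity)]

end Crest.Agent.N207.Ph.Rg

end
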