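import Crest.Agent.N207.Ph.Defs

/-!
# Row 207, block PHI, leaf RG (helper55): definitions and sub-leaves
-/

set_option autoImplicit false
set_option linter.unusedSectionVars false

open scoped ContDiff Topology
open Set MeasureTheory Filter Metric
open Crest.GeometryTopology.CoordMetric

noncomputable section

namespace Crest.Agent.N207.Ph.Rg

open Sk

/-- smooth and `δ`-close to the identity in `C³` -/
structure Nr (P : E4 → E4) (δ : ℝ) : Prop where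
  sm : ContDiff ℝ ∞ P
  jet : ∀ y : E4, ∀ k ≤ 3, J1 k (fun z => P z - z) y (‖y‖ + 1) (δ * (‖y‖ + 1))

/-- the ball of radius `3/2` -/
def B : Set E4 := ball 0 (3 / 2)

/-- `|u|²` -/
def q0 (u : Fin 4 → E4 → ℝ) (y : E4) : ℝ := ∑ j, u j y ^ 2

/-- `|∂u|²` -/
def q1 (u : Fin 4 → E4 → ℝ) (y : E4) : ℝ := ∑ i, ∑ j, pderiv i (u j) y ^ 2

/-- `|∂²u|²` -/
def q2 (u : Fin 4 → E4 → ℝ) (y : E4) : ℝ := ∑ c, ∑ i, ∑ j, pderiv c (pderiv i (u j)) y ^ 2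

/-- `k - 2 sym ∂u` -/
def rem (u : Fin 4 → E4 → ℝ) (k : Fin 4 → Fin 4 → E4 → ℝ) (i j : Fin 4) (y : E4) : ℝ :=
  k i j y - pderiv i (u j) y - pderiv j (u i) y

/-- (KORN) a vector field with mean zero and with symmetric mean derivative is controlled by its
symmetrised derivative -/
def KornStmt : Prop :=
  ∃ ε0 C : ℝ, 0 < ε0 ∧ 0 < C ∧ ∀ (u : Fin 4 → E4 → ℝ) (k : Fin 4 → Fin 4 → E4 → ℝ),
    (∀ j, ContDiff ℝ ∞ (u j)) → (∀ i j, ContDiff ℝ ∞ (k i j)) →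
    (∀ i j, HasCompactSupport (k i j)) → (∀ j, ∫ y in B, u j y = 0) →
    (∀ i j, ∫ y in B, pderiv i (u j) y = ∫ y in B, pderiv j (u i) y) →
    (∀ y ∈ B, ∀ i j, rem u k i j y ^ 2 ≤ ε0 * (q0 u y + q1 u y)) →
    (∀ y ∈ B, ∀ c i j, pderiv c (rem u k i j) y ^ 2 ≤ ε0 * (q0 u y + q1 u y + q2 u y)) →
    ∫ y in B, (q0 u y + q1 u y + q2 u y) ≤ C * ∫ y, ∑ c, ∑ i, ∑ j, pderiv c (k i j) y ^ 2

/-- (NID) maps close to the identity are diffeomorphisms -/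
def NidStmt : Prop :=
  ∀ (P : E4 → E4) (δ : ℝ), δ ≤ 1 / 2 → Nr P δ → (∃ R : ℝ, ∀ x : E4, R ≤ ‖x‖ → P x = x) →
    P 0 = 0 → ∃ ψ : E4 ≃ₜ E4, (ψ : E4 → E4) = P ∧ Nid 3 ψ δ

/-- (POL) the polar factor of the mean derivative; rotations -/
def PolStmt : Prop :=
  (∀ (P : E4 → E4) (δ : ℝ), δ ≤ 1 / 100 → Nr P δ → ∃ R : Iso, (∀ x, ‖R x - x‖ ≤ 30 * δ * ‖x‖) ∧
    ∀ i j, ∫ y in B, pderiv i (fun z => P (R z) j) y = ∫ y in B, pderiv j (fun z => P (R z) i) y) ∧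
  (∀ (P : E4 → E4) (δ ε : ℝ) (R : Iso), Nr P δ → 0 ≤ ε → (∀ x, ‖R x - x‖ ≤ ε * ‖x‖) →
    Nr (fun z => P (R z)) (δ + ε)) ∧
  ∀ (P : E4 → E4) (γ R : Iso), Continuous P → (∀ x, γ x = x → x = 0) → (∀ x, P (γ x) = γ (P x)) →
    ∀ j, ∫ y in B, P (R y) j = 0

end Crest.Agent.N207.Ph.Rg

end
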