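import Crest.Agent.N207.Ph.RgD

/-!
# Row 207, block PHI, leaf RG: maps close to the identity are diffeomorphisms (helper42)
-/

set_option autoImplicit false
set_option linter.unusedSectionVars false

open scoped ContDiff Topology NNReal
open Set MeasureTheory Filter Metric
open Crest.GeometryTopology.CoordMetric

noncomputable section

namespace Crest.Agent.N207.Ph.Rg

open Sk

theorem Nr.sm0 {P : E4 → E4} {δ : ℝ} (h : Nr P δ) : ContDiff ℝ ∞ fun z => P z - z :=
  h.sm.sub contDiff_id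

/-- the derivative of `P - id` is at most `δ` -/
theorem Nr.d1 {P : E4 → E4} {δ : ℝ} (h : Nr P δ) (y : E4) :
    ‖fderiv ℝ (fun z => P z - z) y‖ ≤ δ := by
  have h1 := h.jet y 1 (by norm_num)
  rw [J1, pow_one, norm_iteratedFDeriv_one] at h1
  exact le_of_mul_le_mul_right h1 (by positivity)

theorem Nr.nn {P : E4 → E4} {δ : ℝ} (h : Nr P δ) : 0 ≤ δ := (norm_nonneg _).trans (h.d1 0)

theorem Nr.fd {P : E4 → E4} {δ : ℝ} (h : Nr P δ) (y : E4) :
    fderiv ℝ (fun z => P z - z) y = fderiv ℝ P y - 1 := by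
  have h1 : HasFDerivAt P (fderiv ℝ P y) y := (h.sm.differentiable (by simp) y).hasFDerivAt
  exact (h1.sub (hasFDerivAt_id y)).fderiv

/-- `‖DP - 1‖ ≤ δ` -/
theorem Nr.d1' {P : E4 → E4} {δ : ℝ} (h : Nr P δ) (y : E4) : ‖fderiv ℝ P y - 1‖ ≤ δ := by
  rw [← h.fd]; exact h.d1 y

theorem nid : NidStmt := by
  intro P δ hδ h hout h0
  have hl : LipschitzWith (1 / 2 : ℝ≥0) fun z => P z - z := by
    refine lipschitzWith_of_nnnorm_fderiv_le (𝕜 := ℝ) (h.sm0.differentiable (by simp)) fun y => ?_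
    have := (h.d1 y).trans hδ
    rw [← NNReal.coe_le_coe]
    simpa using this
  have ha : ApproximatesLinearOn P
      ((ContinuousLinearEquiv.refl ℝ E4 : E4 ≃L[ℝ] E4) : E4 →L[ℝ] E4) univ (1 / 2 : ℝ≥0) := by
    intro x _ y _
    have := hl.dist_le_mul x y
    rw [dist_eq_norm, dist_eq_norm] at this
    have e : P x - P y - ((ContinuousLinearEquiv.refl ℝ E4 : E4 ≃L[ℝ] E4) : E4 →L[ℝ] E4) (x - y)
        = P x - x - (P y - y) := by
      show P x - P y - (x - y) = _
      abel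
    rw [e]; exact this
  have hc : (1 / 2 : ℝ≥0) <
      ‖((ContinuousLinearEquiv.refl ℝ E4).symm : E4 →L[ℝ] E4)‖₊⁻¹ := by
    have : ‖((ContinuousLinearEquiv.refl ℝ E4).symm : E4 →L[ℝ] E4)‖₊ = 1 := by
      rw [ContinuousLinearEquiv.refl_symm, ContinuousLinearEquiv.coe_refl]
      exact ContinuousLinearMap.nnnorm_id
    rw [this]; norm_num
  let ψ : E4 ≃ₜ E4 := ha.toHomeomorph P (Or.inr hc)
  have hψ : (ψ : E4 → E4) = P := rfl
  refine ⟨ψ, hψ, ?_, ?_, ?_, ?_, ?_⟩
  · rw [hψ]; exact h.sm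
  · have hu : ∀ a : E4, ‖(1 : E4 →L[ℝ] E4) - fderiv ℝ P a‖ < 1 := fun a => by
      rw [norm_sub_rev]; linarith [h.d1' a]
    refine ψ.contDiff_symm
      (f₀' := fun a => ContinuousLinearEquiv.ofUnit (Units.oneSub _ (hu a))) (fun a => ?_) ?_
    · have h1 : HasFDerivAt P (fderiv ℝ P a) a := (h.sm.differentiable (by simp) a).hasFDerivAt
      have e : ((ContinuousLinearEquiv.ofUnit (Units.oneSub _ (hu a)) : E4 ≃L[ℝ] E4) : E4 →L[ℝ] E4)
          = fderiv ℝ P a := by
        ext1 v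
        show ((1 : E4 →L[ℝ] E4) - (1 - fderiv ℝ P a)) v = _
        rw [sub_sub_cancel]
      rw [hψ, e]
      exact h1
    · rw [hψ]; exact h.sm
  · simpa only [hψ] using hout
  · simpa only [hψ] using h.jet
  · rw [hψ]; exact h0

end Crest.Agent.N207.Ph.Rg

end
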