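import Crest.Agent.N207.Ph.Defs

/-!
# Row 207, block PHI (helper6): the leaf statements on `M` (FROZEN)

Units `u = ρ / 64`.
-/

set_option autoImplicit false
set_option linter.unusedSectionVars false

open scoped ContDiff Manifold Topology
open Set MeasureTheory Filter Metric
open Crest.GeometryTopology.CoordMetric Crest.GeometryTopology.ChartCurvature
  Crest.GeometryTopology.MetricFamily

noncomputable section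

namespace Crest.Agent.N207.Ph

open Sk

variable {M : Type*} [TopologicalSpace M] [ChartedSpace E4 M] [IsManifold 𝓘(ℝ, E4) ∞ M]
  [CompactSpace M] [T3Space M] [ConnectedSpace M] [MeasurableSpace M] [BorelSpace M]

/-- the chart metric of the neck in the units `u`, filled inside and cut outside -/
def cm (g : Met 4 M) (N : Nk M) (u : ℝ) : MetricField 4 :=
  glu (N.b / (16 * u)) (N.b / (8 * u)) (glu (1 / 4) (1 / 2) flat (rs (g.pm N.Ψ) u)) flat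

/-- a pre-extension, in the units `u` -/
structure PE (g : Met 4 M) (N : Nk M) (u : ℝ) (G : MetricField 4) (δ : ℝ) : Prop where
  fl : Fl G
  inv : Inv N.Γ G
  ds : DS 3 G δ
  eq : EqOn G (cm g N u) (ball 0 16)

/-- the action -/
def Sv (g : Met 4 M) (N : Nk M) (u : ℝ) (G : MetricField 4) : ℝ :=
  (∫ p in N.Om u, g.scal p ∂g.vol) +
    (Nat.card N.Γ : ℝ)⁻¹ * u ^ 2 * ∫ y in {y : E4 | 1 ≤ ‖y‖}, √(G y).det * scalarCurv G y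

/-- the range of the radii -/
structure Rng (N : Nk M) (ρ : ℝ) : Prop where
  top : N.Top
  a_le : 1024 * N.a ≤ ρ
  le_b : 1024 * ρ ≤ N.b
  b_le : N.b ≤ 1

/-- the relation `W` of `PHI'` -/
structure WW (F : Flow M) (m1 : ℕ) (η : ℝ) (Cs : ℕ → ℝ) (V R A δ : ℝ) (Cs1 : ℕ → ℝ) (C1 : ℝ)
    (s : ℝ) (N : Nk M) (ρ φ : ℝ) : Prop where
  late : s ∈ late F
  top : N.Top
  b_eq : N.b = R
  a_le : A * N.a ≤ ρ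
  le_b : A * ρ ≤ R
  good : Good (F.m s) N m1 η Cs V
  ex : ∃ G, PE (F.m s) N (ρ / 64) G δ ∧ All Cs1 G ∧ EqOn G (cm (F.m s) N (ρ / 64)) (ball 0 32) ∧
    φ = Sv (F.m s) N (ρ / 64) G ∧
    ∀ e, ρ ^ 2 ≤ e → RicB (cm (F.m s) N (ρ / 64)) e → RL G 1 ≤ (C1 * e) ^ 2

variable (M) in
/-- (MU) the area formula with multiplicity -/
def MUStmt : Prop :=
  ∀ (g : Met 4 M) (N : Nk M), N.Top → ∀ D : Set E4, MeasurableSet D → D ⊆ shell N.a N.b →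
    (∀ γ ∈ N.Γ, ∀ x ∈ D, γ x ∈ D) → MeasurableSet (N.Ψ '' D) ∧ ∀ f : M → ℝ, Continuous f →
      IntegrableOn (fun x => √(g.pm N.Ψ x).det * f (N.Ψ x)) D ∧
      ∫ p in N.Ψ '' D, f p ∂g.vol =
        (Nat.card N.Γ : ℝ)⁻¹ * ∫ x in D, √(g.pm N.Ψ x).det * f (N.Ψ x)

variable (M) in
/-- (CM) the filled chart metric -/
def CMStmt : Prop :=
  ∃ η0 C : ℝ, 0 < η0 ∧ 0 < C ∧ ∀ Cs : ℕ → ℝ, ∃ Cs' : ℕ → ℝ, ∀ (g : Met 4 M) (N : Nk M) (m1 : ℕ)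
    (η V ρ : ℝ), 4 ≤ m1 → η ≤ η0 → Rng N ρ → Good g N m1 η Cs V →
    Fl (cm g N (ρ / 64)) ∧ Inv N.Γ (cm g N (ρ / 64)) ∧ DS 4 (cm g N (ρ / 64)) (C * η) ∧
    All Cs' (cm g N (ρ / 64)) ∧ RicB (cm g N (ρ / 64)) (C * η * (√(N.a / ρ) + √(ρ / N.b))) ∧
    ∀ y : E4, ‖y‖ ≤ 64 → JG 4 (cm g N (ρ / 64)) y (‖y‖ + 1) (C * η * (√(N.a / ρ) + √(ρ / N.b)))

variable (M) in
/-- (CV) from the covariant bounds to coordinate bounds -/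
def CVStmt : Prop :=
  ∃ η0 C : ℝ, 0 < η0 ∧ 0 < C ∧ ∀ (g : Met 4 M) (N : Nk M) (m1 : ℕ) (η V ρ e : ℝ) (Cs : ℕ → ℝ),
    4 ≤ m1 → η ≤ η0 → Rng N ρ → Good g N m1 η Cs V → Ebd g N 2 ρ e →
    ρ ^ 2 ≤ e ∧ RicB (cm g N (ρ / 64)) (C / N.b ^ 2 * e) ∧
    ∀ x : E4, ρ / 64 ≤ ‖x‖ → ‖x‖ ≤ ρ → g.rc 0 (N.Ψ x) ≤ (e / ρ ^ 2) ^ 2 ∧
      ∀ k ≤ 2, ∀ i j, J1 k (fun z => ricci (g.pm N.Ψ) z i j) x ‖x‖ (C * e / ρ ^ 2)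

/-- (WS) one time step, with the exterior metric frozen -/
def WSStmt (F : Flow M) : Prop :=
  ∃ η0 δ0 C0 : ℝ, 0 < η0 ∧ 0 < δ0 ∧ 0 < C0 ∧ ∀ V : ℝ, ∃ C : ℝ, 0 < C ∧ ∀ (N : Nk M) (m1 : ℕ)
    (η δ t t' ρ e0 e1 : ℝ) (Cs : ℕ → ℝ) (e : ℝ → ℝ) (G : MetricField 4), 4 ≤ m1 → η ≤ η0 →
    δ ≤ δ0 → Rng N ρ → F.T / 2 ≤ t → t < t' → t' < F.T → t' - t ≤ ρ ^ 2 →
    (∀ s ∈ Icc t t', Good (F.m s) N m1 η Cs V) → IntervalIntegrable e volume t t' →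
    IntervalIntegrable (fun s => e s ^ 2) volume t t' →
    (∀ s ∈ Ioo t t', Ebd (F.m s) N 2 ρ (e s)) → Ebd (F.m t) N 2 ρ e0 → Ebd (F.m t') N 2 ρ e1 →
    PE (F.m t) N (ρ / 64) G δ → EqOn G (cm (F.m t) N (ρ / 64)) (ball 0 32) →
    ∃ G2 : MetricField 4, PE (F.m t') N (ρ / 64) G2 (C0 * (δ + η)) ∧
      RL G2 1 ≤ C * (RL G 1 + e0 ^ 2 + e1 ^ 2 + (∫ s in t..t', e s ^ 2) / ρ ^ 2) ∧
      |Sv (F.m t') N (ρ / 64) G2 - Sv (F.m t) N (ρ / 64) G -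
          2 * ∫ s in t..t', mass (F.m s) (N.Om (ρ / 16))| ≤
        C * (∫ s in t..t', e s ^ 2) + C * ρ ^ 2 * (e0 ^ 2 + e1 ^ 2)

/-- (MC) continuity of the mass in time -/
def MCStmt (F : Flow M) : Prop :=
  ∀ A : Set M, MeasurableSet A → ContinuousOn (fun s => mass (F.m s) A) (Ioo 0 F.T)

variable (M) in
/-- (SW) the change of the chart and of the radius -/
def SWStmt : Prop :=
  ∃ η0 δ0 : ℝ, 0 < η0 ∧ 0 < δ0 ∧ ∀ L : ℝ, 1 ≤ L → ∃ C : ℝ, 0 < C ∧ ∀ (g : Met 4 M) (N N' : Nk M)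
    (m1 : ℕ) (η V ρ ρ' e e' : ℝ) (Cs : ℕ → ℝ) (G G' : MetricField 4), 4 ≤ m1 → η ≤ η0 →
    Rng N ρ → Rng N' ρ' → N'.b = N.b → Good g N m1 η Cs V → Good g N' m1 η Cs V → ρ ≤ L * ρ' →
    ρ' ≤ L * ρ → Cmp N N' (min ρ ρ' / 64) N.b → Ebd g N 2 ρ e → Ebd g N' 2 ρ' e' →
    PE g N (ρ / 64) G δ0 → PE g N' (ρ' / 64) G' δ0 →
    |Sv g N (ρ / 64) G - Sv g N' (ρ' / 64) G'| ≤ C * ρ ^ 2 * (e ^ 2 + e' ^ 2 + RL G 1 + RL G' 1)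

/-- (AD) the admissible extension in almost harmonic coordinates -/
def ADStmt (F : Flow M) : Prop :=
  ∃ η0 δ0 : ℝ, 0 < η0 ∧ 0 < δ0 ∧ ∀ (m1 : ℕ) (η : ℝ) (Cs : ℕ → ℝ) (V R ηa δ : ℝ) (Cs1 : ℕ → ℝ)
    (C1 : ℝ), 4 ≤ m1 → η ≤ η0 → δ ≤ δ0 → 0 < R → R ≤ 1 → 0 < ηa → 0 < C1 →
    ∃ (C A0 V' : ℝ) (Cs' : ℕ → ℝ), 0 < C ∧ 1024 ≤ A0 ∧ ∀ (s : ℝ) (N : Nk M) (ρ φ : ℝ),
      WW F m1 η Cs V R A0 δ Cs1 C1 s N ρ φ → |φ| ≤ C * ρ ^ 2 ∧ ∀ e, Ebd (F.m s) N 2 ρ e →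
        Adm' (F.m s) ρ (C * e) √(mass (F.m s) (N.Om ρ)) ηa Cs' V' φ

end Crest.Agent.N207.Ph

end
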