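import Crest.Agent.N207.Ph.Pb2
import Crest.Agent.N207.Ph.Ad3

/-!
# Row 207, block PHI (helper2): Euclidean tools for `SW`
-/

set_option autoImplicit false
set_option linter.unusedSectionVars false

open scoped ContDiff Manifold Topology NNReal Nat
open Set MeasureTheory Filter Metric
open Crest.GeometryTopology.CoordMetric Crest.GeometryTopology.ChartCurvature
  Crest.GeometryTopology.MetricFamily
open Crest.Agent.R202.Tens

noncomputable section

namespace Crest.Agent.N207.Ph.Sw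

open Sk G

variable {G G1 K H : MetricField 4} {T : E4 → E4} {y : E4} {d δ : ℝ} {m : ℕ}

theorem ev_lt {c : ℝ} (h : ‖y‖ < c) : ∀ᶠ z in 𝓝 y, ‖z‖ < c :=
  (isOpen_lt continuous_norm continuous_const).mem_nhds h

theorem ev_gt {c : ℝ} (h : c < ‖y‖) : ∀ᶠ z in 𝓝 y, c < ‖z‖ :=
  (isOpen_lt continuous_const continuous_norm).mem_nhds h

/-! ### the interpolating map -/

/-- `1` on `6 ≤ |y| ≤ 11`, `0` outside `5 < |y| < 12` -/
def chi (y : E4) : ℝ := up 5 6 y * (1 - up 11 12 y)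

theorem chi_sm : ContDiff ℝ ∞ chi := (up_smooth 5 6).mul (contDiff_const.sub (up_smooth 11 12))

theorem chi_one (h1 : 6 ≤ ‖y‖) (h2 : ‖y‖ ≤ 11) : chi y = 1 := by
  rw [chi, up_eq_one (by norm_num) (by norm_num) h1, up_eq_zero (by norm_num) (by norm_num) h2]
  norm_num

theorem chi_zero (h : ‖y‖ ≤ 5 ∨ 12 ≤ ‖y‖) : chi y = 0 := by
  rcases h with h | h
  · rw [chi, up_eq_zero (by norm_num) (by norm_num) h, zero_mul]
  · rw [chi, up_eq_one (a := 11) (by norm_num) (by norm_num) h, sub_self, mul_zero]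

theorem chi_iso (γ : Iso) (y : E4) : chi (γ y) = chi y := by simp only [chi, up, γ.norm_map]

/-- a compactly supported perturbation of the identity -/
structure Mp (T : E4 → E4) (d : ℝ) : Prop where
  jb : ∀ y, JB 4 (fun z => T z - z) y 1 d
  out : ∀ y, 12 ≤ ‖y‖ → T y = y

theorem exists_mp : ∃ C : ℝ, 1 ≤ C ∧ ∀ (W : E4 → E4) (δ : ℝ), 0 ≤ δ →
    (∀ y ∈ shell 4 16, JB 4 W y 1 δ) → Mp (fun y => y + chi y • W y) (C * δ) := by
  obtain ⟨C, hC, h⟩ := exists_jb_fixed chi_sm 4 16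
  refine ⟨2 ^ 4 * C, by linarith, fun W δ hδ hW => ⟨fun y => ?_, fun y hy => ?_⟩⟩
  · simp only [add_sub_cancel_left]
    by_cases hy : y ∈ shell 4 16
    · have h1 := h 1 one_pos y (by linarith [hy.2])
      simp only [inv_one, one_smul] at h1
      exact (h1.smul zero_le_one (hW y hy)).mono (le_of_eq (by ring))
    · refine (JB.const (0 : E4) (by rw [norm_zero]; positivity)).congr ?_
      rw [shell, mem_ofPred_eq, not_and_or, not_lt, not_lt] at hy
      rcases hy with hy | hy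
      · filter_upwards [ev_lt (c := 5) (y := y) (by linarith)] with z hz
        rw [chi_zero (Or.inl hz.le), zero_smul]
      · filter_upwards [ev_gt (c := 12) (y := y) (by linarith)] with z hz
        rw [chi_zero (Or.inr hz.le), zero_smul]
  · simp only [chi_zero (Or.inr hy), zero_smul, add_zero]

namespace Mp

variable (h : Mp T d)
include h

theorem sm : ContDiff ℝ ∞ T := contDiff_iff_contDiffAt.2 fun y => by
  simpa using (h.jb y).sm.add contDiffAt_id

theorem val (y : E4) : ‖T y - y‖ ≤ d := (h.jb y).val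

theorem abs_le (y : E4) : ‖y‖ - d ≤ ‖T y‖ ∧ ‖T y‖ ≤ ‖y‖ + d := by
  have := _root_.abs_le.1 ((abs_norm_sub_norm_le (T y) y).trans (h.val y))
  constructor <;> linarith [this.1, this.2]

theorem der (y : E4) : ‖fderiv ℝ (fun z => T z - z) y‖ ≤ d :=
  (JB.fderiv (m := 0) one_pos (((h.jb y).of_le (by norm_num)).mono (mul_one d).ge)).val

theorem two (hd : d ≤ 1) (y : E4) : ‖fderiv ℝ T y‖ ≤ 2 := by
  rw [fderiv_eq_add h.sm]
  exact (norm_add_le _ _).trans
    (by linarith [h.der y, ContinuousLinearMap.norm_id_le (𝕜 := ℝ) (E := E4)])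

theorem inj (hd : d ≤ 1 / 2) (y : E4) : Function.Injective (fderiv ℝ T y) := by
  rw [injective_iff_map_eq_zero]
  intro v hv
  rw [fderiv_eq_add h.sm] at hv
  have h1 : fderiv ℝ (fun z => T z - z) y v = -v := eq_neg_of_add_eq_zero_right hv
  have h2 := (fderiv ℝ (fun z => T z - z) y).le_of_opNorm_le (h.der y) v
  rw [h1, norm_neg] at h2
  exact norm_eq_zero.1 (by nlinarith [norm_nonneg v])

theorem bij (hd : d ≤ 1 / 2) : Function.Bijective T := by
  have hD : Differentiable ℝ fun z => T z - z := fun z =>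
    (h.jb z).sm.differentiableAt (by simp)
  have h1 : ApproximatesLinearOn T
      ((ContinuousLinearEquiv.refl ℝ E4 : E4 ≃L[ℝ] E4) : E4 →L[ℝ] E4) univ (1 / 2) := by
    intro x _ z _
    have := convex_univ.norm_image_sub_le_of_norm_fderiv_le (𝕜 := ℝ) (fun w _ => hD w)
      (fun w _ => (h.der w).trans hd) (mem_univ z) (mem_univ x)
    have e : T x - T z - (x - z) = T x - x - (T z - z) := by abel
    simpa [e] using this
  have h2 : Subsingleton E4 ∨ (1 / 2 : ℝ≥0) <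
      ‖((ContinuousLinearEquiv.refl ℝ E4 : E4 ≃L[ℝ] E4).symm : E4 →L[ℝ] E4)‖₊⁻¹ := by
    right
    simp only [ContinuousLinearEquiv.refl_symm, ContinuousLinearEquiv.coe_refl,
      ContinuousLinearMap.nnnorm_id, inv_one]
    norm_num
  exact ⟨injOn_univ.1 (h1.injOn h2), h1.surjective h2⟩

theorem fl (hd : d ≤ 1 / 2) (hG : Fl G) : Fl (pbm T G) :=
  fl_pbm h.sm (h.inj hd) ⟨12, h.out⟩ hG

theorem pull (hd : d ≤ 1 / 2) (hG : Fl G) : Pull (pbm T G) G T univ univ :=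
  pull_pbm h.sm (h.inj hd) hG.riem

theorem ev (hy : 12 < ‖y‖) : pbm T G =ᶠ[𝓝 y] G := by
  filter_upwards [(ev_gt hy).eventually_nhds] with z hz
  have e : T =ᶠ[𝓝 z] fun w => w := hz.mono fun w hw => h.out w hw.le
  ext i j
  rw [pbm, Matrix.of_apply, AI.pullT_congr (T := matT G) (T' := matT G) e rfl, AI.pullT_id]
  rfl

theorem rl (hd : d ≤ 1 / 2) (hG : Fl G) (hdet : ∀ x, 1 / 2 ≤ |(fderiv ℝ T x).det|) :
    RL (pbm T G) 8 ≤ 2048 * RL G 1 := by
  have p := h.pull hd hG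
  have hS := Ad.meas_ge 8
  have hD : ∀ x ∈ {x : E4 | 8 ≤ ‖x‖}, HasFDerivWithinAt T (fderiv ℝ T x) {x : E4 | 8 ≤ ‖x‖} x :=
    fun x _ => (h.sm.differentiable (by simp) x).hasFDerivAt.hasFDerivWithinAt
  have hI := hG.ric_int
  have e := integral_image_eq_integral_abs_det_fderiv_smul (volume : Measure E4) hS hD
    (h.bij hd).1.injOn fun x => ‖x‖ ^ 2 * ∑ i, ∑ j, ricci G x i j ^ 2
  have i1 := (integrableOn_image_iff_integrableOn_abs_det_fderiv_smul (volume : Measure E4) hS hD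
    (h.bij hd).1.injOn fun x => ‖x‖ ^ 2 * ∑ i, ∑ j, ricci G x i j ^ 2).1 hI.integrableOn
  have h3 : ∫ x in T '' {x : E4 | 8 ≤ ‖x‖}, ‖x‖ ^ 2 * ∑ i, ∑ j, ricci G x i j ^ 2 ≤ RL G 1 :=
    setIntegral_mono_set hI.integrableOn (Eventually.of_forall fun x => by positivity)
      (LE.le.eventuallyLE (by
        rintro _ ⟨x, hx, rfl⟩
        have h8 : 8 ≤ ‖x‖ := hx
        show 1 ≤ ‖T x‖
        linarith [(h.abs_le x).1]))
  refine le_trans ?_ (mul_le_mul_of_nonneg_left h3 (by positivity))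
  rw [e, ← integral_const_mul, RL]
  refine integral_mono_of_nonneg (Eventually.of_forall fun x => by positivity)
    (i1.const_mul _) ((ae_restrict_mem hS).mono fun x hx => ?_)
  have k1 := ric_pbm p x (h.two (by linarith) x)
  have h8 : 8 ≤ ‖x‖ := hx
  have k2 : ‖x‖ ≤ 2 * ‖T x‖ := by linarith [(h.abs_le x).1]
  simp only [smul_eq_mul]
  calc _ ≤ (2 * ‖T x‖) ^ 2 * (256 * ∑ a, ∑ b, ricci G (T x) a b ^ 2) := by gcongr
    _ = 2048 * (1 / 2 * (‖T x‖ ^ 2 * ∑ a, ∑ b, ricci G (T x) a b ^ 2)) := by ring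
    _ ≤ _ := by gcongr; exact hdet x

theorem jg (hd : 65536 * d ≤ 1) (hG : Fl G) (hS : Sml 3 G δ) (hy : ‖y‖ ≤ 15) :
    JG 3 (pbm T G) y (‖y‖ + 1) (3000000 * (δ + d)) := jg_of_jb fun i j => by
  have hs : 0 < ‖y‖ + 1 := by positivity
  have hd0 := (h.jb y).nonneg
  have hδ : 0 ≤ δ := Rad.jg_nonneg (hS y)
  have h1 : JB 4 (fun z => T z - z) y (‖y‖ + 1) (65536 * d * (‖y‖ + 1)) :=
    ((h.jb y).scale zero_le_one hs.le (l := 16) (by norm_num) (by linarith)).mono
      (by nlinarith [norm_nonneg y])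
  refine (jb_pbm (m := 2) hs h.sm (fun a b => (jb_of_jg (hG.sm _) (hS (T y)) a b).scale
    (by positivity) hs.le one_le_two (by linarith [(h.abs_le y).1, norm_nonneg (T y)])) h1 i j).mono ?_
  have k1 : (1 + 65536 * d) ^ 5 ≤ 2 ^ 5 := by gcongr; linarith
  have k2 : 65536 * d * (65536 * d) ≤ 65536 * d := mul_le_of_le_one_right (by positivity) hd
  have k3 := mul_le_mul_of_nonneg_left k1 hδ
  have k4 : Kp 2 (65536 * d) (2 ^ (2 + 1) * δ) = 49152 * (δ * (1 + 65536 * d) ^ 5) +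
      2 * (65536 * d) + 32 * (65536 * d * (65536 * d)) := by
    simp only [Kp, Nat.reduceAdd, Nat.factorial, Nat.succ_eq_add_one, Nat.cast_ofNat,
      Nat.reduceMul]
    ring
  rw [k4]
  linarith

end Mp

/-! ### dyadic sums -/

theorem ds_mono {δ' : ℝ} (h : DS m G δ) (hδ : δ ≤ δ') : DS m G δ' := by
  obtain ⟨ε, h0, h1, h2⟩ := h
  exact ⟨ε, h0, fun n => (h1 n).trans hδ, h2⟩

theorem ds_le {m' : ℕ} (h : DS m G δ) (hm : m' ≤ m) : DS m' G δ := by
  obtain ⟨ε, h0, h1, h2⟩ := h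
  exact ⟨ε, h0, h1, fun l y a b => jg_of_le (h2 l y a b) hm⟩

theorem ds_glue {c : ℝ} (h : DS m G1 δ) (hc : 0 ≤ c)
    (h1 : ∀ y : E4, ‖y‖ ≤ 15 → JG m G y (‖y‖ + 1) c) (h2 : ∀ y : E4, 15 ≤ ‖y‖ → G =ᶠ[𝓝 y] G1) :
    DS m G (δ + 4 * c) := by
  obtain ⟨ε, k0, k1, k2⟩ := h
  refine ⟨fun l => ε l + if l ∈ Finset.range 4 then c else 0,
    fun l => add_nonneg (k0 l) (by split_ifs <;> simp [hc]), fun n => ?_, fun l y a b => ?_⟩
  · rw [Finset.sum_add_distrib, Finset.sum_ite_mem, Finset.sum_const, nsmul_eq_mul]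
    have : ((Finset.range n ∩ Finset.range 4).card : ℝ) ≤ 4 := by
      exact_mod_cast (Finset.card_le_card Finset.inter_subset_right).trans (by simp)
    exact add_le_add (k1 n) (mul_le_mul_of_nonneg_right this hc)
  · by_cases hl : l ∈ Finset.range 4
    · have : (2 : ℝ) ^ (l + 1) ≤ 2 ^ 4 :=
        pow_le_pow_right₀ one_le_two (Finset.mem_range.1 hl)
      exact jg_mono (h1 y (by linarith)) (by simp only [if_pos hl]; linarith [k0 l])
    · have : (2 : ℝ) ^ 4 ≤ 2 ^ l :=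
        pow_le_pow_right₀ one_le_two (not_lt.1 fun h => hl (Finset.mem_range.2 h))
      exact jg_mono (jg_congr (k2 l y a b) (h2 y (by linarith))) (by simp only [if_neg hl]; linarith)

theorem sum_shift {ε : ℕ → ℝ} (h0 : ∀ l, 0 ≤ ε l) (h1 : ∀ n, ∑ l ∈ Finset.range n, ε l ≤ δ)
    (i j n : ℕ) : ∑ l ∈ Finset.range n, (if j ≤ l then ε (l - j + i) else 0) ≤ δ := by
  rw [← Finset.sum_filter, ← Finset.sum_image (g := fun l => l - j + i) (f := ε) fun a ha b hb e => by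
    have h1 := (Finset.mem_filter.1 ha).2
    have h2 := (Finset.mem_filter.1 hb).2
    simp only at e
    omega]
  refine le_trans (Finset.sum_le_sum_of_subset_of_nonneg (fun k hk => ?_) fun k _ _ => h0 k)
    (h1 (n + i))
  obtain ⟨l, hl, rfl⟩ := Finset.mem_image.1 hk
  have := Finset.mem_range.1 (Finset.mem_filter.1 hl).1
  exact Finset.mem_range.2 (by omega)

theorem jg_rs {κ c : ℝ} (hκ : 1 ≤ κ) (h : JG m K (κ⁻¹ • y) (‖κ⁻¹ • y‖ + 1) c) :
    JG m (rs K κ⁻¹) y (‖y‖ + 1) c := fun k hk i j => by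
  have h0 : 0 < κ := by linarith
  refine le_trans ?_ (h k hk i j)
  have h1 := norm_comp_smul (dv K i j) (inv_pos.2 h0) y k
  have h2 : κ⁻¹ * (‖y‖ + 1) ≤ ‖κ⁻¹ • y‖ + 1 := by
    rw [Ad.norm_smul' (inv_pos.2 h0), mul_add, mul_one]
    linarith [inv_le_one_of_one_le₀ hκ]
  calc _ ≤ ‖iteratedFDeriv ℝ k (dv K i j) (κ⁻¹ • y)‖ * κ⁻¹ ^ k * (‖y‖ + 1) ^ k :=
        mul_le_mul_of_nonneg_right h1 (by positivity)
    _ ≤ _ := by
        rw [mul_assoc, ← mul_pow]
        exact mul_le_mul_of_nonneg_left (pow_le_pow_left₀ (by positivity) h2 k) (norm_nonneg _)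

theorem ds_glue2 {δ' κ : ℝ} (h : DS m G1 δ) (h' : DS m K δ') (hκ : 1 ≤ κ)
    (h1 : ∀ y : E4, ‖y‖ < 8 * κ → H =ᶠ[𝓝 y] G1)
    (h2 : ∀ y : E4, 8 * κ ≤ ‖y‖ → H =ᶠ[𝓝 y] rs K κ⁻¹) : DS m H (δ + 3 * δ') := by
  obtain ⟨ε, k0, k1, k2⟩ := h
  obtain ⟨ε', l0, l1, l2⟩ := h'
  obtain ⟨j, hj, hj'⟩ := exists_nat_pow_near hκ one_lt_two
  have h0 : 0 < κ := by linarith
  set f : ℕ → ℕ → ℝ := fun i l => if j + 1 ≤ l then ε' (l - (j + 1) + i) else 0 with hf
  have f0 : ∀ i l, 0 ≤ f i l := fun i l => by simp only [hf]; split_ifs <;> simp [l0]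
  refine ⟨fun l => ε l + (f 0 l + f 1 l + f 2 l),
    fun l => add_nonneg (k0 l) (add_nonneg (add_nonneg (f0 _ _) (f0 _ _)) (f0 _ _)),
    fun n => ?_, fun l y a b => ?_⟩
  · simp only [Finset.sum_add_distrib]
    linarith [k1 n, sum_shift l0 l1 0 (j + 1) n, sum_shift l0 l1 1 (j + 1) n,
      sum_shift l0 l1 2 (j + 1) n]
  · rcases lt_or_ge ‖y‖ (8 * κ) with hy | hy
    · exact jg_mono (jg_congr (k2 l y a b) (h1 y hy)) (by linarith [f0 0 l, f0 1 l, f0 2 l])
    · have e := Ad.norm_inv_smul h0 y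
      set z := κ⁻¹ • y
      have hz : 8 ≤ ‖z‖ := by nlinarith
      obtain ⟨l', a', b'⟩ := exists_nat_pow_near (x := ‖z‖ + 1) (y := 2) (by linarith) one_lt_two
      refine jg_mono (jg_congr (jg_rs hκ (l2 l' z a' b'.le)) (h2 y hy)) ?_
      have p : ∀ {a b : ℕ}, (2 : ℝ) ^ a < 2 ^ b → a < b := fun h =>
        (pow_lt_pow_iff_right₀ one_lt_two).1 h
      have hp : (0 : ℝ) < 2 ^ j := by positivity
      have q1 : j + 3 < l + 1 := p (by rw [pow_add]; nlinarith)
      have q2 : l < j + 1 + (l' + 1) := p (by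
        rw [pow_add]
        calc (2 : ℝ) ^ l ≤ κ * (‖z‖ + 1) := by nlinarith
          _ < _ := by gcongr)
      have q3 : j + l' < l + 1 + 1 := p (by
        rw [pow_add, pow_succ _ (l + 1)]
        calc (2 : ℝ) ^ j * 2 ^ l' ≤ κ * (‖z‖ + 1) := by gcongr
          _ < _ := by nlinarith)
      have q4 : j + 1 ≤ l := by omega
      have q5 : l' = l - (j + 1) + 0 ∨ l' = l - (j + 1) + 1 ∨ l' = l - (j + 1) + 2 := by omega
      have e0 := f0 0 l
      have e1 := f0 1 l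
      have e2 := f0 2 l
      simp only [hf, if_pos q4] at e0 e1 e2 ⊢
      rcases q5 with rfl | rfl | rfl <;> linarith [k0 l]

/-! ### integrals -/

theorem int_scale {w : ℝ} (hw : 0 < w) {D : Set E4} (hD : MeasurableSet D) (f : E4 → ℝ) :
    ∫ x in D, f x = w ^ 4 * ∫ y in (fun y => w • y) ⁻¹' D, f (w • y) := by
  have h := Ad.int_rs hw fun y => D.indicator f (w • y)
  simp only [smul_inv_smul₀ hw.ne'] at h
  rw [← integral_indicator hD, h,
    ← integral_indicator (hD.preimage (measurable_const_smul w))]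
  rfl

/-- change of variables -/
theorem cov (hT : ContDiff ℝ ∞ T) (hb : Function.Injective T)
    (hi : ∀ y, Function.Injective (fderiv ℝ T y)) (hG : Fl G) {S : Set E4} (hS : MeasurableSet S) :
    ∫ x in T '' S, √(G x).det * scalarCurv G x =
      ∫ x in S, √(pbm T G x).det * scalarCurv (pbm T G) x := by
  have p := pull_pbm hT hi hG.riem
  rw [integral_image_eq_integral_abs_det_fderiv_smul volume hS (f' := fderiv ℝ T)
    (fun x _ => (hT.differentiable (by simp) x).hasFDerivAt.hasFDerivWithinAt) hb.injOn]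
  refine integral_congr_ae (Eventually.of_forall fun x => ?_)
  simp only [V.sqrt_det_pull p (mem_univ x), AI.scalarCurv_pull p (mem_univ x), smul_eq_mul]
  ring

theorem eh_ev (h : G =ᶠ[𝓝 y] G1) :
    √(G y).det * scalarCurv G y = √(G1 y).det * scalarCurv G1 y := by
  rw [h.eq_of_nhds, (AI.scalarCurv_congr h).eq_of_nhds]

theorem eh_rs {w : ℝ} (hw : 0 < w) {U : Set E4} (hG : IsRiemannianOn G U) (hy : w • y ∈ U) :
    √(rs G w y).det * scalarCurv (rs G w) y =
      w ^ 2 * (√(G (w • y)).det * scalarCurv G (w • y)) := by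
  rw [Ad.scal_rs hw hG hy, rs]; ring

theorem eh_sub (hG : Fl G) (hH : Fl H) (e : EqOn G H (ball 0 2)) :
    (∫ y in {y : E4 | 1 ≤ ‖y‖}, √(G y).det * scalarCurv G y) -
      ∫ y in {y : E4 | 1 ≤ ‖y‖}, √(H y).det * scalarCurv H y = EH G - EH H := by
  rw [EH, EH, ← integral_add_compl (Ad.meas_ge 1) (Ad.int_eh' hG),
    ← integral_add_compl (Ad.meas_ge 1) (Ad.int_eh' hH),
    setIntegral_congr_fun (Ad.meas_ge 1).compl fun y hy => eh_ev (G1 := H)
      ((ev_lt (c := 2) (by linarith [not_le.1 (show ¬1 ≤ ‖y‖ from hy)])).mono fun z hz => e (mem_ball_zero_iff.2 hz))]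
  ring

end Crest.Agent.N207.Ph.Sw

end
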