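import Crest.Agent.N207.Ph.Sw1
import Crest.Agent.N207.Ph.Mu
import Crest.Agent.N207.TR.Core
import Crest.Agent.N207.TR.Top

/-!
# Row 207, block PHI (helper2): the change of the chart
-/

set_option autoImplicit false
set_option linter.unusedSectionVars false

open scoped ContDiff Manifold Topology Nat
open Set MeasureTheory Filter Metric
open Crest.GeometryTopology.CoordMetric Crest.GeometryTopology.ChartCurvature
  Crest.GeometryTopology.MetricFamily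
open Crest.Agent.R202.Tens

noncomputable section

namespace Crest.Agent.N207.Ph.Sw

open Sk G

variable {M : Type*} [TopologicalSpace M] [ChartedSpace E4 M] [IsManifold 𝓘(ℝ, E4) ∞ M]
  [CompactSpace M] [T3Space M] [ConnectedSpace M] [MeasurableSpace M] [BorelSpace M]
  {g : Met 4 M} {N N' : Nk M} {G : MetricField 4} {u v η V : ℝ} {m1 : ℕ} {Cs : ℕ → ℝ} {x y : E4}

/-- the area formula in the units `u` -/
theorem sh (hN : N.Top) (hu : 0 < u) {r : ℝ} (hr : r ∈ Ioc N.a N.b) {D : Set E4}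
    (hD : MeasurableSet D) (hs : D ⊆ shell N.a N.b) (hi : ∀ γ ∈ N.Γ, ∀ x ∈ D, γ x ∈ D)
    (hrD : ∀ x ∈ D, r ≤ ‖x‖) (hG : ∀ y, u • y ∈ D → G =ᶠ[𝓝 y] rs (g.pm N.Ψ) u) :
    ∫ p in N.Om r ∪ N.Ψ '' D, g.scal p ∂g.vol = (∫ p in N.Om r, g.scal p ∂g.vol) +
      (Nat.card N.Γ : ℝ)⁻¹ * u ^ 2 *
        ∫ y in (fun y => u • y) ⁻¹' D, √(G y).det * scalarCurv G y := by
  obtain ⟨hm, hf⟩ := mu M g N hN D hD hs hi
  have := V.isFinite g
  have hc : Continuous g.scal := g.sm_scal.continuous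
  have hI : Integrable g.scal g.vol := hc.integrable_of_hasCompactSupport (.of_compactSpace _)
  have hd : Disjoint (N.Om r) (N.Ψ '' D) := disjoint_left.2 (by
    rintro _ h1 ⟨x, hx, rfl⟩
    have h2 := (hN.mem_Om hr).1 h1
    rw [hN.rad_Ψ (hs hx)] at h2
    linarith [hrD x hx])
  rw [setIntegral_union hd hm hI.integrableOn hI.integrableOn, (hf _ hc).2, int_scale hu hD,
    setIntegral_congr_fun (hD.preimage (measurable_const_smul u))
      (f := fun y => √(G y).det * scalarCurv G y)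
      (g := fun y => u ^ 2 * (√(g.pm N.Ψ (u • y)).det * g.scal (N.Ψ (u • y)))) fun y hy => by
        simp only
        rw [eh_ev (hG y hy), eh_rs hu (hN.par.riem g) (hs hy), hN.par.par_scal g (hs hy)],
    integral_const_mul]
  ring

theorem cm_ev (hu : 0 < u) (h1 : 1 / 2 < ‖y‖) (h2 : 16 * u * ‖y‖ < N.b) :
    cm g N u =ᶠ[𝓝 y] rs (g.pm N.Ψ) u := by
  have hb : 0 < N.b := lt_of_le_of_lt (by positivity) h2
  refine (glu_ev_in (by positivity) ?_ _ _ ?_).trans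
    (glu_ev_out (by norm_num) (by norm_num) _ _ h1)
  · exact div_lt_div_of_pos_left hb (by positivity) (by linarith)
  · rw [lt_div_iff₀ (by positivity)]; linarith

theorem good_jg (hN : N.Top) (h : Good g N m1 η Cs V) (hx : x ∈ shell N.a N.b) :
    0 ≤ η ∧ JG m1 (g.pm N.Ψ) x ‖x‖ (2 * η) := by
  have h0 : 0 < ‖x‖ := hN.a_pos.trans hx.1
  have hb : 0 < N.b := h0.trans hx.2
  have h1 : √(N.a / ‖x‖) ≤ 1 := Real.sqrt_le_one.2 ((div_le_one h0).2 hx.1.le)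
  have h2 : √(‖x‖ / N.b) ≤ 1 := Real.sqrt_le_one.2 ((div_le_one hb).2 hx.2.le)
  have h3 : 0 < wt N.a N.b x :=
    add_pos_of_nonneg_of_pos (Real.sqrt_nonneg _) (Real.sqrt_pos.2 (by positivity))
  have h4 : 0 ≤ η := nonneg_of_mul_nonneg_left (Rad.jg_nonneg (h.jet x hx)) h3
  refine ⟨h4, jg_mono (h.jet x hx) ?_⟩
  rw [wt, mul_comm 2]
  exact mul_le_mul_of_nonneg_left (by linarith) h4

theorem ric_ebd (hN : N.Top) (h : Good g N m1 η Cs V) (hη : η ≤ 1 / 200) {ρ e : ℝ} (hρ : 0 < ρ)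
    (he : Ebd g N 2 ρ e) (hx : x ∈ shell N.a N.b) (h1 : ρ / 64 ≤ ‖x‖) (h2 : ‖x‖ ≤ N.b / 4)
    (i j : Fin 4) : ricci (g.pm N.Ψ) x i j ^ 2 ≤ 4 * (e / ρ ^ 2) ^ 2 := by
  obtain ⟨J, j0, j1, j2⟩ := he
  have hu : 0 < ρ / 64 := by positivity
  obtain ⟨l, a, b⟩ := exists_nat_pow_near ((one_le_div hu).2 h1) one_lt_two
  have h3 := j1 l x ((le_div_iff₀ hu).1 a) ((div_le_iff₀ hu).1 b.le) h2 0 (Nat.zero_le _)
  rw [pow_zero, one_mul, hN.par.par_rc g 0 hx] at h3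
  have h4 : J l ≤ e / ρ ^ 2 := by
    rw [le_div_iff₀ (by positivity), mul_comm]
    refine le_trans (mul_le_mul_of_nonneg_left ?_ (by positivity)) (j2 (l + 1))
    linarith [Finset.single_le_sum (fun i _ => j0 i) (Finset.self_mem_range_succ l)]
  have hR := hN.par.riem g
  have h5 : ricci (g.pm N.Ψ) x i j ^ 2 ≤ 2 ^ 2 * nsq (g.pm N.Ψ) (ricT (g.pm N.Ψ)) x :=
    Ar.comp_sq_le (hR.posDef x hx) (Rad.jg_up (good_jg hN h hx).2 (by linarith))
      (ricT (g.pm N.Ψ) x) ![i, j]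
  have h6 : nsq (g.pm N.Ψ) (ricT (g.pm N.Ψ)) x ≤ (e / ρ ^ 2) ^ 2 :=
    (Real.sqrt_le_left ((j0 l).trans h4)).1 (h3.trans h4)
  linarith

theorem pbm_comp {S T : E4 → E4} (hS : Differentiable ℝ S) (hT : Differentiable ℝ T)
    (G : MetricField 4) : pbm T (pbm S G) = pbm (fun z => S (T z)) G := by
  funext y
  ext i j
  rw [pbm, Matrix.of_apply, matT_pbm, AI.pullT_comp _ (hT y) (hS _)]
  rfl

theorem inv_iso {Γ Γ' : Subgroup Iso} (A : Iso) (h : ∀ γ ∈ Γ, ∃ γ' ∈ Γ', ∀ x, A (γ x) = γ' (A x))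
    (hG : Inv Γ' G) : Inv Γ (pbm A G) := by
  intro γ hγ x
  obtain ⟨γ', hγ', e⟩ := h γ hγ
  rw [matT_pbm, AI.pullT_comp _ (γ.differentiable x) (A.differentiable _),
    show (fun z => A (γ z)) = fun z => γ' (A z) from funext e,
    ← AI.pullT_comp _ (A.differentiable x) (γ'.differentiable _),
    show pullT γ' (matT G) = matT G from funext fun z => (hG γ' hγ' z).symm]

/-- two necks with close radial functions -/
structure Cl (N N' : Nk M) (v : ℝ) : Prop where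
  top : N.Top
  top' : N'.Top
  a : 2 * N.a ≤ v
  a' : 2 * N'.a ≤ v
  b : 256 * v ≤ N.b
  b' : 256 * v ≤ N'.b
  cmp : Cmp N N' v (16 * v)
  near : ∀ p, 4 * v < N.rad p → N.rad p < 16 * v → |N'.rad p - N.rad p| ≤ v / 4

namespace Cl

variable (h : Cl N N' v)
include h

theorem pos : 0 < v := by linarith [h.a, h.top.a_pos]

theorem om {s : ℝ} (h1 : 1 ≤ s) (h2 : s ≤ 16) {p : M} : p ∈ N.Om (s * v) ↔ N.rad p < s * v :=
  h.top.mem_Om ⟨by nlinarith [h.a, h.pos], by nlinarith [h.b, h.pos]⟩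

theorem om' {s : ℝ} (h1 : 1 ≤ s) (h2 : s ≤ 16) {p : M} : p ∈ N'.Om (s * v) ↔ N'.rad p < s * v :=
  h.top'.mem_Om ⟨by nlinarith [h.a', h.pos], by nlinarith [h.b', h.pos]⟩

theorem up {p : M} (hp : N.rad p < 8 * v) : N'.rad p < 9 * v := by
  have h0 := h.pos
  rcases lt_or_ge (N.rad p) (9 / 2 * v) with h1 | h1
  · refine (h.om' (by norm_num) (by norm_num)).1 ((h.cmp (9 * v) ⟨by linarith, by linarith⟩).1 ?_)
    rw [show 9 * v / 2 = 9 / 2 * v by ring]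
    exact (h.om (by norm_num) (by norm_num)).2 h1
  · linarith [(abs_le.1 (h.near p (by linarith) (by linarith))).2]

theorem down {p : M} (hp : N'.rad p < 13 / 2 * v) : N.rad p < 8 * v := by
  have h0 := h.pos
  have h1 : N.rad p < 13 * v := by
    refine (h.om (by norm_num) (by norm_num)).1 ((h.cmp (13 * v) ⟨by linarith, by linarith⟩).2 ?_)
    rw [show 13 * v / 2 = 13 / 2 * v by ring]
    exact (h.om' (by norm_num) (by norm_num)).2 hp
  by_contra h2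
  linarith [(abs_le.1 (h.near p (by linarith [not_lt.1 h2]) (by linarith))).1, not_lt.1 h2]

end Cl

/-- the part of the second neck which is inside radius `8 v` of the first one -/
def Dv (N N' : Nk M) (v : ℝ) : Set E4 :=
  {x | v ≤ ‖x‖} ∩ (shell N'.a (16 * v) ∩ N'.Ψ ⁻¹' N.Om (8 * v))

theorem Cl.sub (h : Cl N N' v) : shell N'.a (16 * v) ⊆ shell N'.a N'.b :=
  fun _ hx => ⟨hx.1, by linarith [hx.2, h.b', h.pos]⟩

theorem Cl.union (h : Cl N N' v) : N'.Om v ∪ N'.Ψ '' Dv N N' v = N.Om (8 * v) := by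
  have h0 := h.pos
  have e : ∀ p, p ∈ N'.Om v ↔ N'.rad p < v := fun p => by
    simpa using h.om' (p := p) le_rfl (by norm_num)
  refine Subset.antisymm ?_ fun p hp => ?_
  · rintro p (hp | ⟨x, hx, rfl⟩)
    · exact (h.om (by norm_num) (by norm_num)).2 (h.down (by linarith [(e p).1 hp]))
    · exact hx.2.2
  · have h1 := h.up ((h.om (by norm_num) (by norm_num)).1 hp)
    rcases lt_or_ge (N'.rad p) v with h2 | h2
    · exact Or.inl ((e p).2 h2)
    · obtain ⟨x, hx, rfl, e'⟩ := h.top'.exists_of_rad (p := p) (by linarith [h.a'])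
        (by linarith [h.b'])
      exact Or.inr ⟨x, ⟨h2.trans e'.ge, ⟨hx.1, by linarith⟩, hp⟩, rfl⟩

/-- the action of the second neck, cut along a sphere of the first one -/
theorem Cl.sv (h : Cl N N' v) {δ : ℝ} (hG : PE g N' v G δ) {S : E4 → E4}
    (hs : Function.Bijective S) (h1 : ∀ y, ‖y‖ - 1 / 4 ≤ ‖S y‖ ∧ ‖S y‖ ≤ ‖y‖ + 1 / 4)
    (h2 : ∀ y, 6 ≤ ‖y‖ → ‖y‖ ≤ 11 → N'.Ψ (v • S y) = N.Ψ (v • y)) :
    Sv g N' v G = (∫ p in N.Om (8 * v), g.scal p ∂g.vol) + (Nat.card N'.Γ : ℝ)⁻¹ * v ^ 2 *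
      ∫ y in S '' {y : E4 | 8 ≤ ‖y‖}, √(G y).det * scalarCurv G y := by
  have h0 := h.pos
  have hn := Ad.norm_smul' h0
  have hm : MeasurableSet (Dv N N' v) := (Ad.meas_ge v).inter
    ((h.top'.par.continuousOn.mono h.sub).isOpen_inter_preimage (Sk.isOpen_shell _ _)
      (h.top.opn _ ⟨by linarith [h.a], by linarith [h.b]⟩)).measurableSet
  have r1 : ∀ y, 6 ≤ ‖y‖ → ‖y‖ ≤ 11 → N.rad (N'.Ψ (v • S y)) = v * ‖y‖ := fun y a b => by
    rw [h2 y a b, h.top.rad_Ψ ⟨by rw [hn]; nlinarith [h.a], by rw [hn]; nlinarith [h.b]⟩, hn]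
  have key : ∀ y, 1 ≤ ‖S y‖ → (v • S y ∈ Dv N N' v ↔ ‖y‖ < 8) := fun y hy => by
    obtain ⟨a, b⟩ := h1 y
    refine ⟨fun hD => ?_, fun h8 => ?_⟩
    · have h3 := (h.om (by norm_num) (by norm_num)).1 hD.2.2
      by_contra h8
      rcases le_or_gt ‖y‖ 11 with h4 | h4
      · rw [r1 y (by linarith [not_lt.1 h8]) h4] at h3
        nlinarith [not_lt.1 h8]
      · have h5 := h.up h3
        rw [h.top'.rad_Ψ (h.sub hD.2.1), hn] at h5
        nlinarith
    · have h3 : v • S y ∈ shell N'.a (16 * v) :=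
        ⟨by rw [hn]; nlinarith [h.a'], by rw [hn]; nlinarith⟩
      refine ⟨show v ≤ _ by rw [hn]; nlinarith, h3, (h.om (by norm_num) (by norm_num)).2 ?_⟩
      rcases le_or_gt 6 ‖y‖ with h4 | h4
      · rw [r1 y h4 (by linarith)]; nlinarith
      · refine h.down ?_
        rw [h.top'.rad_Ψ (h.sub h3), hn]
        nlinarith
  have e : {y : E4 | 1 ≤ ‖y‖} = S '' {y : E4 | 8 ≤ ‖y‖} ∪ (fun y => v • y) ⁻¹' Dv N N' v := by
    refine Subset.antisymm (fun z hz => ?_) ?_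
    · obtain ⟨y, rfl⟩ := hs.2 z
      rcases le_or_gt 8 ‖y‖ with h8 | h8
      exacts [Or.inl ⟨y, h8, rfl⟩, Or.inr ((key y hz).2 h8)]
    · rintro z (⟨y, hy, rfl⟩ | hz)
      · exact le_trans (by linarith [show 8 ≤ ‖y‖ from hy]) (h1 y).1
      · have h3 : v ≤ ‖v • z‖ := hz.1
        rw [hn] at h3
        show 1 ≤ ‖z‖
        nlinarith
  have hd : Disjoint (S '' {y : E4 | 8 ≤ ‖y‖}) ((fun y => v • y) ⁻¹' Dv N N' v) :=
    disjoint_left.2 (by
      rintro _ ⟨y, hy, rfl⟩ hz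
      have h8 : 8 ≤ ‖y‖ := hy
      exact not_lt.2 h8 ((key y (by linarith [(h1 y).1])).1 hz))
  have hI := Ad.int_eh' hG.fl
  rw [Sv, e, setIntegral_union hd (hm.preimage (measurable_const_smul v)) hI.integrableOn
    hI.integrableOn, ← h.union, sh (G := G) h.top' h0 ⟨by linarith [h.a'], by linarith [h.b']⟩ hm
    (fun x hx => h.sub hx.2.1) (fun γ hγ x hx => ⟨?_, ?_, ?_⟩) (fun x hx => hx.1) fun y hy => ?_]
  · ring
  · exact le_trans hx.1 (γ.norm_map x).ge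
  · exact (shell_iso γ).2 hx.2.1
  · have := (h.top'.fib x (h.sub hx.2.1) _ (h.sub ((shell_iso γ).2 hx.2.1))).2 ⟨γ, hγ, rfl⟩
    rw [mem_preimage, ← this]
    exact hx.2.2
  · have a : v ≤ ‖v • y‖ := hy.1
    have b := hy.2.1.2
    rw [hn] at a b
    refine EventuallyEq.trans ((ev_lt (c := 16) (by nlinarith)).mono fun z hz =>
      hG.eq (mem_ball_zero_iff.2 hz)) (cm_ev h0 (by nlinarith) (by nlinarith [h.b']))

/-- **change of the chart** -/
theorem ch (hT : TRANS M) : ∃ η0 C : ℝ, 0 < η0 ∧ 0 < C ∧ ∀ (g : Met 4 M) (N N' : Nk M) (m1 : ℕ)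
    (η V v δ : ℝ) (Cs : ℕ → ℝ) (G : MetricField 4), 4 ≤ m1 → η ≤ η0 → N.Top → N'.Top →
    N'.b = N.b → 2 * N.a ≤ v → 2 * N'.a ≤ v → 256 * v ≤ N.b → Good g N m1 η Cs V →
    Good g N' m1 η Cs V → Cmp N N' v N.b → PE g N' v G δ →
    ∃ K : MetricField 4, Fl K ∧ Inv N.Γ K ∧ DS 3 K (C * (δ + η)) ∧
      (∀ y : E4, 6 < ‖y‖ → ‖y‖ < 11 → K y = g.pm N.Ψ (v • y)) ∧ RL K 8 ≤ 2048 * RL G 1 ∧
      Sv g N' v G = (∫ p in N.Om (8 * v), g.scal p ∂g.vol) + (Nat.card N.Γ : ℝ)⁻¹ * v ^ 2 *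
        ∫ y in {y : E4 | 8 ≤ ‖y‖}, √(K y).det * scalarCurv K y := by
  obtain ⟨η1, hη1, hT⟩ := hT
  obtain ⟨C1, hC1, hT⟩ := hT 2
  obtain ⟨C2, hC2, hM⟩ := exists_mp
  obtain ⟨C3, hC3, hP⟩ := pbiso 3
  obtain ⟨d0, hd0, -, hdet⟩ := exists_det
  have hC : 0 < C2 * (16 * C1) := by positivity
  refine ⟨min (η1 / 2) (min d0 (1 / 65536) / (C2 * (16 * C1))),
    C3 + 4 * (3000000 * (C3 + C2 * (16 * C1))), by positivity, by positivity,
    fun g N N' m1 η V v δ Cs G hm hη hN hN' hb ha ha' hv hg hg' hc hG => ?_⟩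
  have h0 : 0 < v := by linarith [hN.a_pos]
  have hn := Ad.norm_smul' h0
  have hη2 : 2 * η ≤ η1 := by linarith [hη.trans (min_le_left _ _)]
  have hd : C2 * (16 * C1 * η) ≤ min d0 (1 / 65536) := by
    have := (le_div_iff₀ hC).1 (hη.trans (min_le_right _ _))
    linarith
  have hd1 := hd.trans (min_le_left _ _)
  have hd2 := hd.trans (min_le_right _ _)
  obtain ⟨x0, hx0⟩ := TR.shell_nonempty hN.a_pos.le hN.a_lt
  have hη0 := (good_jg hN hg hx0).1
  obtain ⟨Θ, ι, t1, t2, t3⟩ := hT g N N' V v N.b hN hN'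
    ⟨fun x hx => Rad.jg_mono (good_jg hN hg hx).2 (by omega) hη2, hg.vol⟩
    ⟨fun x hx => Rad.jg_mono (good_jg hN' hg' hx).2 (by omega) hη2, hg'.vol⟩ ha ha' le_rfl hb.ge
    (by linarith) hc
  obtain ⟨A, a1, a2⟩ := t3 (8 * v) (2 * η) (by linarith) (by linarith) (by linarith) hη2
    (fun x hx => jg_of_le (good_jg hN hg ⟨by linarith [hx.1], by linarith [hx.2]⟩).2 (by omega))
    (fun x hx => jg_of_le (good_jg hN' hg' ⟨by linarith [hx.1], by linarith [hx.2]⟩).2 (by omega))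
  have s1 : ∀ y ∈ shell 4 16, v • y ∈ shell v (N.b / 2) := fun y hy =>
    ⟨by rw [hn]; nlinarith [hy.1], by rw [hn]; nlinarith [hy.2]⟩
  have jb : ∀ x ∈ shell (4 * v) (16 * v), JB 4 (fun y => Θ y - A y) x (8 * v) (16 * C1 * η * v) :=
    fun x hx => ⟨(t1.contDiffAt ((Sk.isOpen_shell _ _).mem_nhds
      ⟨by linarith [hx.1], by linarith [hx.2]⟩)).sub A.contDiff.contDiffAt, fun k hk =>
      (a2 x ⟨by linarith [hx.1], by linarith [hx.2]⟩ k hk).trans (le_of_eq (by ring))⟩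
  set W : E4 → E4 := fun y => v⁻¹ • A.symm (Θ (v • y) - A (v • y)) with hW
  have mp := hM W (16 * C1 * η) (by positivity) fun y hy => by
    have j1 := JB.unit h0 ((jb (v • y) ⟨by rw [hn]; nlinarith [hy.1],
      by rw [hn]; nlinarith [hy.2]⟩).scale (by positivity) h0.le le_rfl (by linarith))
    refine (j1.clm (v⁻¹ • (A.symm.toContinuousLinearEquiv : E4 →L[ℝ] E4)) zero_le_one (l := v⁻¹)
      ?_).mono (le_of_eq (by field_simp))
    rw [norm_smul, norm_inv, Real.norm_of_nonneg h0.le]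
    exact mul_le_of_le_one_right (by positivity)
      A.symm.toLinearIsometry.norm_toContinuousLinearMap_le
  set T : E4 → E4 := fun y => y + chi y • W y with hTd
  have hd3 : C2 * (16 * C1 * η) ≤ 1 / 2 := by linarith
  have e1 : ∀ y : E4, 6 ≤ ‖y‖ → ‖y‖ ≤ 11 → A (T y) = v⁻¹ • Θ (v • y) := fun y a b => by
    simp only [hTd, hW, chi_one a b, one_smul, map_add, map_smul, A.apply_symm_apply, smul_sub,
      inv_smul_smul₀ h0.ne']
    abel
  have e2 : ∀ y : E4, 6 ≤ ‖y‖ → ‖y‖ ≤ 11 → N'.Ψ (v • A (T y)) = N.Ψ (v • y) := fun y a b => by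
    rw [e1 y a b, smul_inv_smul₀ h0.ne']
    exact (t2 _ (s1 y ⟨by linarith, by linarith⟩)).2.1
  have hA : ∀ y, ‖y‖ - 1 / 4 ≤ ‖A (T y)‖ ∧ ‖A (T y)‖ ≤ ‖y‖ + 1 / 4 := fun y => by
    rw [A.norm_map]
    constructor <;> linarith [(mp.abs_le y).1, (mp.abs_le y).2]
  have cl : Cl N N' v := ⟨hN, hN', ha, ha', hv, hb ▸ hv,
    fun r hr => hc r ⟨hr.1, by linarith [hr.2]⟩, fun p p1 p2 => by
      obtain ⟨x, hx, rfl, e⟩ := hN.exists_of_rad (p := p) (by linarith) (by linarith)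
      rw [← e] at p1 p2 ⊢
      obtain ⟨q1, q2, -⟩ := t2 x ⟨by linarith, by linarith⟩
      rw [← q2, hN'.rad_Ψ q1, ← A.norm_map x]
      refine (abs_norm_sub_norm_le _ _).trans ((jb x ⟨p1, p2⟩).val.trans ?_)
      have : 16 * C1 * η ≤ C2 * (16 * C1 * η) := le_mul_of_one_le_left (by positivity) hC2
      nlinarith⟩
  obtain ⟨p1, -, p3, -, -, p6⟩ := hP A G hG.fl
  have hTd' := mp.sm.differentiable (by simp)
  have eK := pbm_comp A.differentiable hTd' G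
  have hδ := Ad.ds_nonneg hG.ds
  refine ⟨pbm T (pbm A G), mp.fl hd3 p1, inv_pbm mp.sm (fun γ hγ y => ?_)
    (inv_iso A (fun γ hγ => ⟨_, (ι ⟨γ, hγ⟩).2, a1 ⟨γ, hγ⟩⟩) hG.inv), ?_, fun y a b => ?_, ?_, ?_⟩
  · simp only [hTd, chi_iso, map_add, map_smul]
    by_cases hy : y ∈ shell 4 16
    · congr 2
      apply A.injective
      have k1 := (t2 _ (s1 y hy)).2.2 ⟨γ, hγ⟩
      have k2 := a1 ⟨γ, hγ⟩
      simp only [map_smul] at k1 k2
      simp only [hW, map_smul, k2, k1, A.apply_symm_apply, map_sub]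
    · rw [shell, mem_ofPred_eq, not_and_or, not_lt, not_lt] at hy
      rw [chi_zero (hy.imp (fun h => by linarith) fun h => by linarith), zero_smul, zero_smul]
  · refine ds_mono (ds_glue (p6 δ hG.ds) (by positivity) (fun y hy => mp.jg (by linarith) p1
      (Ad.ds_sml (p6 δ hG.ds) le_rfl) hy) fun y hy => mp.ev (by linarith)) ?_
    have k1 : 0 ≤ C3 * η := by positivity
    have k2 : 0 ≤ C2 * (16 * C1) * δ := by positivity
    nlinarith
  · have p := TR.pull_scale (Gs.pull_of' g hN.par hN'.par (Sk.isOpen_shell v (N.b / 2))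
      (fun x hx => ⟨by linarith [hx.1], by linarith [hx.2]⟩) t1 fun x hx =>
        ⟨(t2 x hx).1, (t2 x hx).2.1⟩) h0
    have k1 := AI.matT_pull p (s1 y ⟨by linarith, by linarith⟩)
    have k2 : (fun z => A (T z)) =ᶠ[𝓝 y] fun z => v⁻¹ • Θ (v • z) := by
      filter_upwards [ev_gt a, ev_lt b] with z z1 z2 using e1 z z1.le z2.le
    have k3 : G (A (T y)) = g.pm N'.Ψ (v • A (T y)) :=
      (hG.eq (mem_ball_zero_iff.2 (by linarith [(hA y).2]))).trans
        (cm_ev h0 (by linarith [(hA y).1]) (by nlinarith [(hA y).2])).eq_of_nhds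
    ext i j
    rw [eK, pbm, Matrix.of_apply, AI.pullT_congr (T' := matT fun z => g.pm N'.Ψ (v • z)) k2
      (by funext I; simp only [matT, k3]), ← k1]
    rfl
  · rw [← p3]
    refine mp.rl hd3 p1 fun x => ?_
    rw [fderiv_eq_add mp.sm]
    exact hdet _ ((mp.der x).trans hd1)
  · rw [cl.sv hG (A.bijective.comp (mp.bij hd3)) hA e2, Nat.card_congr ι.toEquiv, eK,
      cov (A.contDiff.comp mp.sm) (A.injective.comp (mp.bij hd3).1) ?_ hG.fl (Ad.meas_ge 8)]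
    · rfl
    · intro y
      rw [fderiv_comp y (A.differentiable _) (hTd' y)]
      exact (inj_iso A _).comp (mp.inj hd3 y)

end Crest.Agent.N207.Ph.Sw

end
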