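import Crest.Agent.N207.Ph.Kit
import Crest.Agent.N207.A.Tg3
import Crest.Agent.N207.Rad.Crd

/-!
# Row 207, block PHI (helper66): the weak form of the contracted Bianchi identity
-/

set_option autoImplicit false
set_option linter.unusedSectionVars false

open scoped ContDiff Topology
open Set MeasureTheory Filter Metric
open Crest.GeometryTopology.CoordMetric Crest.GeometryTopology.ChartCurvature
  Crest.GeometryTopology.MetricFamily

noncomputable section

namespace Crest.Agent.N207.Ph.Ve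

open Hd Sk

/-- matrices as functions -/
abbrev M2 : Type := Fin 4 → Fin 4 → ℝ
/-- matrices -/
abbrev Mx : Type := Matrix (Fin 4) (Fin 4) ℝ
/-- Christoffel arrays -/
abbrev M3 : Type := Fin 4 → Fin 4 → Fin 4 → ℝ

/-- the adjoint of the Bianchi operator -/
def Lop (H : Mx) (Γ : M3) (p : M2) (w : Fin 4 → ℝ) (i j : Fin 4) : ℝ :=
  ∑ a, H a i * p a j - (∑ a, ∑ d, Γ a a d * H d i) * w j + ∑ a, ∑ m, H a i * Γ j a m * w m -
    (1 / 2) * (∑ m, p m m) * H i j

theorem bian_alg (H : Mx) (R p : M2) (Γ dR : M3) (w : Fin 4 → ℝ) :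
    ∑ a, (∑ b, ∑ m, (((-(∑ c, Γ a a c * H c b) - ∑ c, Γ b a c * H a c) * R b m +
      H a b * dR a b m) * w m + H a b * R b m * p a m) -
      1 / 2 * ((2 * ∑ c, ∑ b, H c b * (dR c b a - (∑ d, Γ d c b * R d a + ∑ d, Γ d c a * R b d))) *
        w a + (∑ i, ∑ j, H i j * R i j) * p a a)) = ∑ i, ∑ j, R i j * Lop H Γ p w i j := by
  simp only [Lop, Fin.sum_univ_four]
  ring

variable {G : MetricField 4} {W : Fin 4 → E4 → ℝ}

/-- the density of the weak Bianchi identity -/
def BW (G : MetricField 4) (W : Fin 4 → E4 → ℝ) (x : E4) : ℝ :=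
  ∑ i, ∑ j, ricci G x i j *
    Lop (G x)⁻¹ (christoffel G x) (fun a b => pderiv a (W b) x) (fun m => W m x) i j

/-- the flux of the weak Bianchi identity -/
def BX (G : MetricField 4) (W : Fin 4 → E4 → ℝ) (a : Fin 4) (y : E4) : ℝ :=
  ∑ b, ∑ m, (G y)⁻¹ a b * ricci G y b m * W m y - 1 / 2 * (scalarCurv G y * W a y)

theorem pd_scal (hG : IsRiemannianOn G univ) (x : E4) (a : Fin 4) : pderiv a (scalarCurv G) x =
    2 * ∑ c, ∑ b, (G x)⁻¹ c b * (pderiv c (fun y => ricci G y b a) x -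
      (∑ d, christoffel G x d c b * ricci G x d a + ∑ d, christoffel G x d c a * ricci G x b d)) := by
  rw [← A.two_div_ric hG (mem_univ x) a]
  unfold divT trT
  refine congrArg (2 * ·) (Finset.sum_congr rfl fun c _ => Finset.sum_congr rfl fun b _ => ?_)
  refine congrArg ((G x)⁻¹ c b * ·) ?_
  show pderiv c (fun y => ricci G y b a) x - ∑ s : Fin 2, ∑ m,
    christoffel G x m c (A.v2 b a s) * ricT G x (Function.update (A.v2 b a) s m) = _
  rw [Fin.sum_univ_two]
  rfl

theorem BW_eq (hG : IsRiemannianOn G univ) (hW : ∀ m, ContDiff ℝ ∞ (W m)) (x : E4) :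
    BW G W x = ∑ a, pderiv a (BX G W a) x := by
  have hx := mem_univ x
  have d1 : ∀ a b, DifferentiableAt ℝ (fun y => (G y)⁻¹ a b) x := fun a b =>
    dAt (sm_inv hG a b) isOpen_univ hx
  have d2 : ∀ a b, DifferentiableAt ℝ (fun y => ricci G y a b) x := fun a b =>
    dAt (sm_ricci hG a b) isOpen_univ hx
  have d3 : ∀ m, DifferentiableAt ℝ (W m) x := fun m => (hW m).differentiable (by simp) x
  have d4 : DifferentiableAt ℝ (scalarCurv G) x := dAt (sm_scal hG) isOpen_univ hx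
  rw [BW, ← bian_alg (G x)⁻¹ (ricci G x) _ (christoffel G x)
    (fun c a b => pderiv c (fun y => ricci G y a b) x)]
  refine Finset.sum_congr rfl fun a _ => ?_
  unfold BX
  have d5 : ∀ b m, DifferentiableAt ℝ (fun y => (G y)⁻¹ a b * ricci G y b m * W m y) x :=
    fun b m => ((d1 a b).mul (d2 b m)).mul (d3 m)
  have d6 : ∀ b, DifferentiableAt ℝ (fun y => ∑ m, (G y)⁻¹ a b * ricci G y b m * W m y) x :=
    fun b => DifferentiableAt.fun_sum fun m _ => d5 b m
  have d7 : DifferentiableAt ℝ (fun y => 1 / 2 * (scalarCurv G y * W a y)) x :=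
    (d4.mul (d3 a)).const_mul _
  rw [pd_sub a (DifferentiableAt.fun_sum fun b _ => d6 b) d7, pd_cmul,
    pd_mul a d4 (d3 a), pd_scal hG, pd_sum a _ fun b _ => d6 b]
  congr 1
  refine Finset.sum_congr rfl fun b _ => ?_
  rw [pd_sum a _ fun m _ => d5 b m]
  refine Finset.sum_congr rfl fun m _ => ?_
  have d8 : DifferentiableAt ℝ (fun y => (G y)⁻¹ a b * ricci G y b m) x := (d1 a b).mul (d2 b m)
  rw [pd_mul a d8 (d3 m), pd_mul a (d1 a b) (d2 b m), pd_ginv hG hx]

theorem sm_univ {f : E4 → ℝ} (h : ContDiffOn ℝ ∞ f univ) : ContDiff ℝ ∞ f := contDiffOn_univ.1 h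

theorem one_le : (1 : WithTop ℕ∞) ≤ ∞ := by exact_mod_cast le_top

/-- a divergence has integral zero -/
theorem int_div {X : Fin 4 → E4 → ℝ} (R : ℝ) (hX : ∀ a, ContDiff ℝ ∞ (X a))
    (h0 : ∀ a (x : E4), R < ‖x‖ → X a x = 0) :
    Integrable (fun x => ∑ a, pderiv a (X a) x) ∧ ∫ x, ∑ a, pderiv a (X a) x = 0 := by
  have i1 : ∀ a, Integrable (pderiv a (X a)) := fun a => integrable_of_ball R
    (cont_pderiv ((hX a).of_le one_le) a) (pderiv_zero_out (h0 a) a)
  refine ⟨integrable_finsetSum _ fun a _ => i1 a, ?_⟩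
  rw [integral_finsetSum _ fun a _ => i1 a]
  exact Finset.sum_eq_zero fun a _ => int_pderiv_glob ((hX a).of_le one_le) (hcs_of_ball R (h0 a)) a

theorem bianchi_weak (hG : IsRiemannianOn G univ) (hW : ∀ m, ContDiff ℝ ∞ (W m)) (R : ℝ)
    (h0 : ∀ m (x : E4), R < ‖x‖ → W m x = 0) : Integrable (BW G W) ∧ ∫ x, BW G W x = 0 := by
  have e : BW G W = fun x => ∑ a, pderiv a (BX G W a) x := funext (BW_eq hG hW)
  rw [e]
  refine int_div R (fun a => ?_) fun a x hx => by simp [BX, h0 _ x hx]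
  exact (ContDiff.sum fun b _ => ContDiff.sum fun m _ => ((sm_univ (sm_inv hG a b)).mul
    (sm_univ (sm_ricci hG b m))).mul (hW m)).sub
      (contDiff_const.mul ((sm_univ (sm_scal hG)).mul (hW a)))

end Crest.Agent.N207.Ph.Ve

end
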