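import Crest.Agent.N207.Ph.Ve1

/-!
# Row 207, block PHI (helper66): `VE`, the pointwise algebra
-/

set_option autoImplicit false
set_option linter.unusedSectionVars false

noncomputable section

namespace Crest.Agent.N207.Ph.Ve

open Rad

theorem abs4 {a b c d A B C D : ℝ} (h1 : |a| ≤ A) (h2 : |b| ≤ B) (h3 : |c| ≤ C) (h4 : |d| ≤ D) :
    |a - b + c - d| ≤ A + B + C + D := by
  rw [abs_le] at *
  constructor <;> linarith [h1.1, h1.2, h2.1, h2.2, h3.1, h3.2, h4.1, h4.2]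

theorem sum16_le {f : Fin 4 → Fin 4 → ℝ} {c : ℝ} (h : ∀ i j, |f i j| ≤ c) :
    |∑ i, ∑ j, f i j| ≤ 16 * c :=
  (sum4_le fun i => sum4_le (h i)).trans (le_of_eq (by ring))

theorem Lop_sub {H H' : Mx} {Γ Γ' : M3} {p : M2} {w : Fin 4 → ℝ} {h g γ P w0 : ℝ}
    (h1 : ∀ a b, |H' a b| ≤ 2) (h2 : ∀ a b, |H' a b - H a b| ≤ h) (h3 : ∀ a b c, |Γ a b c| ≤ g)
    (h4 : ∀ a b c, |Γ' a b c - Γ a b c| ≤ γ) (h5 : ∀ a b, |p a b| ≤ P) (h6 : ∀ a, |w a| ≤ w0)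
    (i j : Fin 4) :
    |Lop H' Γ' p w i j - Lop H Γ p w i j| ≤ 6 * h * P + 32 * (2 * γ + g * h) * w0 := by
  have k : ∀ a b c d e, |(Γ' a b c - Γ a b c) * H' d e + Γ a b c * (H' d e - H d e)| ≤
      γ * 2 + g * h := fun a b c d e =>
    (abs_add_le _ _).trans (add_le_add (abs_mul_le (h4 a b c) (h1 d e)) (abs_mul_le (h3 a b c) (h2 d e)))
  have e : Lop H' Γ' p w i j - Lop H Γ p w i j = ∑ a, (H' a i - H a i) * p a j -
      (∑ a, ∑ d, ((Γ' a a d - Γ a a d) * H' d i + Γ a a d * (H' d i - H d i))) * w j +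
      ∑ a, ∑ m, ((Γ' j a m - Γ j a m) * H' a i + Γ j a m * (H' a i - H a i)) * w m -
      1 / 2 * ((∑ m, p m m) * (H' i j - H i j)) := by
    simp only [Lop, Fin.sum_univ_four]; ring
  rw [e]
  refine (abs4 (sum4_le fun a => abs_mul_le (h2 a i) (h5 a j))
    (abs_mul_le (sum16_le fun a d => k a a d d i) (h6 j))
    (sum16_le fun a m => abs_mul_le (k j a m a i) (h6 m))
    (abs_mul_le (le_of_eq (abs_of_pos one_half_pos))
      (abs_mul_le (sum4_le fun m => h5 m m) (h2 i j)))).trans (le_of_eq (by ring))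

theorem Lop_zero (p : M2) (w : Fin 4 → ℝ) (i j : Fin 4) : Lop 0 0 p w i j = 0 := by simp [Lop]

theorem Lop_le {H : Mx} {Γ : M3} {p : M2} {w : Fin 4 → ℝ} {γ P w0 : ℝ}
    (h1 : ∀ a b, |H a b| ≤ 2) (h4 : ∀ a b c, |Γ a b c| ≤ γ) (h5 : ∀ a b, |p a b| ≤ P)
    (h6 : ∀ a, |w a| ≤ w0) (i j : Fin 4) : |Lop H Γ p w i j| ≤ 12 * P + 64 * γ * w0 := by
  have := Lop_sub (H := 0) (Γ := 0) (g := 0) (h := 2) h1 (by simpa using h1) (by simp)
    (by simpa using h4) h5 h6 i j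
  rw [Lop_zero, sub_zero] at this
  exact this.trans (le_of_eq (by ring))

/-- the splitting of the two Bianchi densities -/
theorem split_alg (H H' : Mx) (Γ Γ' : M3) (R Z q p : M2) (w c : Fin 4 → ℝ) (χ : ℝ) :
    ∑ i, ∑ j, (1 / 2 * (q i j + q j i) + χ * R i j + Z i j) * Lop H' Γ' p w i j -
      ∑ i, ∑ j, R i j * Lop H Γ (fun a b => c a * w b + χ * p a b) (fun m => χ * w m) i j =
    (1 / 2 * ∑ i, ∑ j, q i j * p i j +
        1 / 2 * (∑ i, ∑ j, q j i * p i j - (∑ i, q i i) * ∑ i, p i i)) +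
      ∑ i, ∑ j, 1 / 2 * (q i j + q j i) * (Lop H' Γ' p w i j - Lop 1 0 p w i j) +
      ∑ i, ∑ j, χ * R i j * (Lop H' Γ' p w i j - Lop H Γ p w i j) -
      ∑ i, ∑ j, R i j * Lop H Γ (fun a b => c a * w b) 0 i j +
      ∑ i, ∑ j, Z i j * Lop H' Γ' p w i j := by
  have e1 : ∀ i j, Lop H Γ (fun a b => c a * w b + χ * p a b) (fun m => χ * w m) i j =
      Lop H Γ (fun a b => c a * w b) 0 i j + χ * Lop H Γ p w i j := fun i j => by
    simp only [Lop, Fin.sum_univ_four, Pi.zero_apply]; ring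
  have e2 : ∀ i j, Lop 1 0 p w i j = p i j - 1 / 2 * (∑ m, p m m) * if i = j then 1 else 0 :=
    fun i j => by simp [Lop, Matrix.one_apply]
  simp only [e1, e2]
  generalize Lop H' Γ' p w = L'
  generalize Lop H Γ p w = L
  generalize Lop H Γ (fun a b => c a * w b) 0 = L1
  simp [Fin.sum_univ_four]
  ring

theorem le_sqrt_en {q : M2} {v : Fin 4 → ℝ} {n a : ℝ} (ha : 0 ≤ a)
    (h : a ^ 2 = n ^ 2 * ∑ i, ∑ j, q i j ^ 2 + ∑ j, v j ^ 2) :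
    (∀ i j, n * |q i j| ≤ a) ∧ ∀ j, |v j| ≤ a := by
  have h1 : 0 ≤ ∑ j, v j ^ 2 := Finset.sum_nonneg fun _ _ => sq_nonneg _
  have h2 : 0 ≤ ∑ i, ∑ j, q i j ^ 2 :=
    Finset.sum_nonneg fun _ _ => Finset.sum_nonneg fun _ _ => sq_nonneg _
  refine ⟨fun i j => ?_, fun j => ?_⟩
  · have h3 : q i j ^ 2 ≤ ∑ i, ∑ j, q i j ^ 2 :=
      (Finset.single_le_sum (f := fun j => q i j ^ 2) (fun _ _ => sq_nonneg _)
        (Finset.mem_univ j)).trans (Finset.single_le_sum (f := fun i => ∑ j, q i j ^ 2)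
          (fun _ _ => Finset.sum_nonneg fun _ _ => sq_nonneg _) (Finset.mem_univ i))
    refine abs_le_of_sq_le_sq' ?_ ha |>.2
    rw [mul_pow, sq_abs, h]
    nlinarith [mul_le_mul_of_nonneg_left h3 (sq_nonneg n)]
  · have h3 : v j ^ 2 ≤ ∑ j, v j ^ 2 :=
      Finset.single_le_sum (f := fun j => v j ^ 2) (fun _ _ => sq_nonneg _) (Finset.mem_univ j)
    refine abs_le_of_sq_le_sq' ?_ ha |> abs_le.2
    rw [h]
    nlinarith [mul_nonneg (sq_nonneg n) h2]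

/-- the four error terms -/
theorem err_alg {H H' : Mx} {Γ Γ' : M3} {R Z q : M2} {v x c : Fin 4 → ℝ} {n a χ η κ c0 ι : ℝ}
    (hn : 0 ≤ n) (ha : 0 ≤ a) (hκ : 0 ≤ κ) (hc0 : 0 ≤ c0) (hη : η ≤ 1 / 10 ^ 6) (hι : 0 ≤ ι)
    (hι2 : ι ^ 2 = ι)
    (he : a ^ 2 = n ^ 2 * ∑ i, ∑ j, q i j ^ 2 + ∑ j, v j ^ 2) (hx : ∀ i, |x i| ≤ n)
    (H1 : ∀ a b, |H a b| ≤ 2) (H2 : ∀ a b, |H' a b| ≤ 2) (H3 : ∀ a b, |H' a b - (1 : Mx) a b| ≤ 8 * η)
    (G1 : ∀ a b c, |Γ a b c| ≤ 12 * (η / (n + 1))) (G2 : ∀ a b c, |Γ' a b c| ≤ 12 * (η / (n + 1)))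
    (R1 : ∀ i j, |R i j| ≤ 1) (hχ : |χ| ≤ 1)
    (B1 : χ = 0 ∨ (n ≤ 2 ∧ ι = 1 ∧ (∀ a b, |H' a b - H a b| ≤ 64 * κ) ∧
      ∀ a b c, |Γ' a b c - Γ a b c| ≤ 140 * κ))
    (B2 : c = 0 ∨ (n ≤ 2 ∧ ι = 1 ∧ (∀ a, |c a| ≤ c0) ∧ ∀ i j, |R i j| ≤ κ))
    {p : M2} (hp : ∀ a b, p a b = 2 * x a * v b + n ^ 2 * q a b) {w : Fin 4 → ℝ}
    (hw : ∀ m, w m = n ^ 2 * v m) :
    -(∑ i, ∑ j, 1 / 2 * (q i j + q j i) * (Lop H' Γ' p w i j - Lop 1 0 p w i j) +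
      ∑ i, ∑ j, χ * R i j * (Lop H' Γ' p w i j - Lop H Γ p w i j) -
      ∑ i, ∑ j, R i j * Lop H Γ (fun a b => c a * w b) 0 i j +
      ∑ i, ∑ j, Z i j * Lop H' Γ' p w i j) ≤ 1 / 16 * a ^ 2 +
      (10 ^ 7 * (n ^ 2 * ∑ i, ∑ j, Z i j ^ 2) + 16 * (10 ^ 12 + (768 * c0) ^ 2) * κ ^ 2 * ι) := by
  obtain ⟨hq, hv⟩ := le_sqrt_en ha he
  have η0 : 0 ≤ η := by linarith [(abs_nonneg _).trans (H3 0 0)]
  have hP : ∀ i j, |p i j| ≤ 3 * (n * a) := fun i j => by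
    rw [hp]
    refine (abs_add_le _ _).trans ?_
    have h1 := abs_mul_le (abs_mul_le (le_of_eq (abs_two (α := ℝ))) (hx i)) (hv j)
    have h2 : |n ^ 2 * q i j| ≤ n * a := by
      rw [abs_mul, abs_of_nonneg (sq_nonneg n), sq, mul_assoc]
      exact mul_le_mul_of_nonneg_left (hq i j) hn
    linarith
  have hW : ∀ m, |w m| ≤ n ^ 2 * a := fun m => by
    rw [hw]; exact abs_mul_le (le_of_eq (abs_of_nonneg (sq_nonneg n))) (hv m)
  have na : 0 ≤ n * a := mul_nonneg hn ha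
  have hs : η / (n + 1) * (n ^ 2 * a) ≤ η * (n * a) := by
    rw [div_mul_eq_mul_div, div_le_iff₀ (by positivity)]
    nlinarith [mul_nonneg η0 na]
  have hs1 : η / (n + 1) ≤ η := div_le_self η0 (by linarith)
  -- T1
  have t1 : |∑ i, ∑ j, 1 / 2 * (q i j + q j i) * (Lop H' Γ' p w i j - Lop 1 0 p w i j)| ≤
      16 * (912 * η * a ^ 2) := sum16_le fun i j => by
    have h1 := Lop_sub (H := 1) (Γ := 0) (g := 0) H2 H3 (by simp) (by simpa using G2) hP hW i j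
    have h2 : |Lop H' Γ' p w i j - Lop 1 0 p w i j| ≤ n * (912 * η * a) := by nlinarith
    have h3 : n * |1 / 2 * (q i j + q j i)| ≤ a := by
      have := mul_le_mul_of_nonneg_left (abs_add_le (q i j) (q j i)) hn
      rw [abs_mul, abs_of_pos one_half_pos]
      nlinarith [hq i j, hq j i]
    rw [abs_mul]
    calc _ ≤ |1 / 2 * (q i j + q j i)| * (n * (912 * η * a)) := by gcongr
      _ = n * |1 / 2 * (q i j + q j i)| * (912 * η * a) := by ring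
      _ ≤ a * (912 * η * a) := by gcongr
      _ = _ := by ring
  -- T2
  have t2 : |∑ i, ∑ j, χ * R i j * (Lop H' Γ' p w i j - Lop H Γ p w i j)| ≤
      10 ^ 6 * κ * ι * a := by
    rcases B1 with h | ⟨h1, h2, h3, h4⟩
    · simp only [h, zero_mul, Finset.sum_const_zero, abs_zero]; positivity
    · have g1 : ∀ a b c, |Γ a b c| ≤ 1 := fun a b c => (G1 a b c).trans (by linarith)
      have p1 : ∀ i j, |p i j| ≤ 6 * a := fun i j => (hP i j).trans (by nlinarith)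
      have w1 : ∀ m, |w m| ≤ 4 * a := fun m =>
        (hW m).trans (mul_le_mul_of_nonneg_right (by nlinarith) ha)
      refine (sum16_le fun i j => abs_mul_le (abs_mul_le hχ (R1 i j))
        (Lop_sub H2 h3 g1 h4 p1 w1 i j)).trans ?_
      rw [h2]; nlinarith [mul_nonneg hκ ha]
  -- T3
  have t3 : |∑ i, ∑ j, R i j * Lop H Γ (fun a b => c a * w b) 0 i j| ≤ 768 * c0 * κ * ι * a := by
    rcases B2 with h | ⟨h1, h2, h3, h4⟩
    · simp only [h, Lop, Pi.zero_apply, zero_mul, mul_zero, Finset.sum_const_zero, sub_zero,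
        add_zero, abs_zero]
      positivity
    · have w1 : ∀ m, |w m| ≤ 4 * a := fun m =>
        (hW m).trans (mul_le_mul_of_nonneg_right (by nlinarith) ha)
      refine (sum16_le fun i j => abs_mul_le (h4 i j) (Lop_le (w0 := 0) H1 G1
        (fun a b => abs_mul_le (h3 a) (w1 b)) (by simp) i j)).trans (le_of_eq ?_)
      rw [h2]; ring
  -- T4
  have t4 : -∑ i, ∑ j, Z i j * Lop H' Γ' p w i j ≤
      ∑ i, ∑ j, (1 / 1024 * a ^ 2 + 10 ^ 7 * (n ^ 2 * Z i j ^ 2)) := by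
    simp only [← Finset.sum_neg_distrib]
    refine Finset.sum_le_sum fun i _ => Finset.sum_le_sum fun j _ => ?_
    have h1 := Lop_le H2 G2 hP hW i j
    have h2 : |Lop H' Γ' p w i j| ≤ 40 * (n * a) := by nlinarith
    have h3 := (neg_le_abs _).trans (abs_mul_le (le_refl |Z i j|) h2)
    nlinarith [sq_nonneg (a / 32 - 640 * (n * |Z i j|)), sq_abs (Z i j), sq_nonneg (n * Z i j),
      mul_pow n |Z i j| 2]
  simp only [Finset.sum_add_distrib, Finset.sum_const, Finset.card_univ, Fintype.card_fin,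
    nsmul_eq_mul, ← Finset.mul_sum] at t4
  have u2 : 10 ^ 6 * κ * ι * a ≤ 1 / 64 * a ^ 2 + 16 * 10 ^ 12 * κ ^ 2 * ι ^ 2 := by
    nlinarith [sq_nonneg (a / 8 - 4 * 10 ^ 6 * κ * ι)]
  have u3 : 768 * c0 * κ * ι * a ≤ 1 / 64 * a ^ 2 + 16 * (768 * c0) ^ 2 * κ ^ 2 * ι ^ 2 := by
    nlinarith [sq_nonneg (a / 8 - 4 * (768 * c0) * κ * ι)]
  rw [hι2] at u2 u3
  have u1 : 16 * (912 * η * a ^ 2) ≤ 1 / 64 * a ^ 2 := by nlinarith [sq_nonneg a]
  have v1 := (abs_le.1 t1).1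
  have v2 := (abs_le.1 t2).1
  have v3 := (abs_le.1 t3).2
  push_cast at t4
  linarith

end Crest.Agent.N207.Ph.Ve

end
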