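import Crest.Agent.N207.Ph.Ve2

/-!
# Row 207, block PHI (helper66): `VE`, the pointwise inequality
-/

set_option autoImplicit false
set_option linter.unusedSectionVars false

open scoped ContDiff Topology
open Set MeasureTheory Filter Metric
open Crest.GeometryTopology.CoordMetric Crest.GeometryTopology.ChartCurvature
  Crest.GeometryTopology.MetricFamily

noncomputable section

namespace Crest.Agent.N207.Ph.Ve

open Hd Sk Rad

/-! ### the cutoff -/

theorem sm_up (a b : ℝ) : ContDiff ℝ ∞ (up a b) :=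
  Real.smoothTransition.contDiff.comp ((sm_nsq.sub contDiff_const).div_const _)

/-- the cutoff -/
def chi (y : E4) : ℝ := 1 - up 1 2 y

theorem sm_chi : ContDiff ℝ ∞ chi := contDiff_const.sub (sm_up 1 2)

theorem abs_chi (y : E4) : |chi y| ≤ 1 := by
  have h1 := Real.smoothTransition.nonneg ((‖y‖ ^ 2 - 1 ^ 2) / (2 ^ 2 - 1 ^ 2))
  have h2 := Real.smoothTransition.le_one ((‖y‖ ^ 2 - 1 ^ 2) / (2 ^ 2 - 1 ^ 2))
  exact abs_le.2 ⟨by unfold chi up; linarith, by unfold chi up; linarith⟩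

theorem chi_zero {y : E4} (h : 2 ≤ ‖y‖) : chi y = 0 := by
  rw [chi, up, Real.smoothTransition.one_of_one_le, sub_self]
  rw [le_div_iff₀ (by norm_num)]; nlinarith

theorem chi_one {y : E4} (h : ‖y‖ ≤ 1) : chi y = 1 := by
  rw [chi, up, Real.smoothTransition.zero_of_nonpos, sub_zero]
  exact div_nonpos_of_nonpos_of_nonneg (by nlinarith [norm_nonneg y]) (by norm_num)

theorem pd_chi_in {y : E4} (h : ‖y‖ < 1) (a : Fin 4) : pderiv a chi y = 0 := by
  have : chi =ᶠ[𝓝 y] fun _ => 1 := by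
    filter_upwards [(isOpen_lt continuous_norm continuous_const).mem_nhds h] with z hz
      using chi_one (le_of_lt hz)
  rw [pd_congr a this, pd_const]

theorem pd_chi_out {y : E4} (h : 2 < ‖y‖) (a : Fin 4) : pderiv a chi y = 0 :=
  pderiv_zero_out (fun _ hx => chi_zero hx.le) a y h

theorem exists_c0 : ∃ c0 : ℝ, 0 ≤ c0 ∧ ∀ y : E4, ‖y‖ ≤ 2 → ∀ a, |pderiv a chi y| ≤ c0 := by
  obtain ⟨C, hC⟩ := (isCompact_closedBall (0 : E4) 2).exists_bound_of_continuousOn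
    (sm_chi.continuous_fderiv (by simp)).continuousOn
  refine ⟨C, (norm_nonneg _).trans (hC 0 (by simp)), fun y hy a => ?_⟩
  refine le_trans ?_ (hC y (by simpa using hy))
  simpa [pderiv] using (fderiv ℝ chi y).le_opNorm (EuclideanSpace.single a 1)

/-! ### differences of two metrics -/

variable {G G' : MetricField 4} {x : E4} {s η κ : ℝ}

theorem inv_sub (hG : IsRiemannianOn G univ) (hG' : IsRiemannianOn G' univ) (h : JG 2 G x s η)
    (h' : JG 2 G' x s η) (hη : η ≤ 1 / 100) (h0 : ∀ i j, |G' x i j - G x i j| ≤ κ) (a b : Fin 4) :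
    |(G' x)⁻¹ a b - (G x)⁻¹ a b| ≤ 64 * κ := by
  have hx := mem_univ x
  have e : (G' x)⁻¹ a b - (G x)⁻¹ a b =
      -∑ c, ∑ d, (G' x)⁻¹ a c * (G' x c d - G x c d) * (G x)⁻¹ d b := by
    have e1 := ginv_g_sum hG' hx a fun d => (G x)⁻¹ d b
    have e2 : ∑ c, (G' x)⁻¹ a c * ∑ d, G x c d * (G x)⁻¹ d b = (G' x)⁻¹ a b := by
      simp [g_ginv hG hx]
    have e3 : ∑ c, ∑ d, (G' x)⁻¹ a c * (G' x c d - G x c d) * (G x)⁻¹ d b =
        ∑ l, (G' x)⁻¹ a l * ∑ m, G' x l m * (G x)⁻¹ m b -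
          ∑ c, (G' x)⁻¹ a c * ∑ d, G x c d * (G x)⁻¹ d b := by
      simp only [Fin.sum_univ_four]; ring
    rw [e3, e1, e2]; ring
  rw [e, abs_neg]
  exact (sum16_le fun c d => abs_mul_le (abs_mul_le (jg_inv_le hG' hx h' hη a c) (h0 c d))
    (jg_inv_le hG hx h hη d b)).trans (le_of_eq (by ring))

theorem chr_sub (hG : IsRiemannianOn G univ) (hG' : IsRiemannianOn G' univ) (h : JG 2 G x s η)
    (h' : JG 2 G' x s η) (hη : η ≤ 1 / 100) (hs : 1 ≤ s) (h0 : ∀ i j, |G' x i j - G x i j| ≤ κ)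
    (h1 : ∀ k i j, |pderiv k (fun y => G' y i j) x - pderiv k (fun y => G y i j) x| ≤ κ)
    (k i j : Fin 4) : |christoffel G' x k i j - christoffel G x k i j| ≤ 140 * κ := by
  have hx := mem_univ x
  have s0 : 0 < s := by linarith
  have η0 := jg_nonneg h
  have hd : η / s ≤ 1 / 100 := (div_le_self η0 hs).trans hη
  have b : ∀ l, |pderiv i (fun y => G y j l) x + pderiv j (fun y => G y i l) x -
      pderiv l (fun y => G y i j) x| ≤ 1 := fun l => by
    obtain ⟨a1, a2⟩ := abs_le.1 (jg_pd h one_le_two s0 i j l)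
    obtain ⟨a3, a4⟩ := abs_le.1 (jg_pd h one_le_two s0 j i l)
    obtain ⟨a5, a6⟩ := abs_le.1 (jg_pd h one_le_two s0 l i j)
    exact abs_le.2 ⟨by linarith, by linarith⟩
  have b' : ∀ l, |(pderiv i (fun y => G' y j l) x + pderiv j (fun y => G' y i l) x -
      pderiv l (fun y => G' y i j) x) - (pderiv i (fun y => G y j l) x +
      pderiv j (fun y => G y i l) x - pderiv l (fun y => G y i j) x)| ≤ 3 * κ := fun l => by
    obtain ⟨a1, a2⟩ := abs_le.1 (h1 i j l)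
    obtain ⟨a3, a4⟩ := abs_le.1 (h1 j i l)
    obtain ⟨a5, a6⟩ := abs_le.1 (h1 l i j)
    exact abs_le.2 ⟨by linarith, by linarith⟩
  have key := abs_mul_le (le_of_eq (abs_of_pos one_half_pos)) (sum4_le fun l =>
    (abs_add_le _ _).trans (add_le_add (abs_mul_le (inv_sub hG hG' h h' hη h0 k l) (b l))
      (abs_mul_le (jg_inv_le hG' hx h' hη k l) (b' l))))
  refine le_of_eq_of_le (congrArg _ ?_) (key.trans (le_of_eq (by ring)))
  simp only [christoffel, inverseField, ← mul_sub, ← Finset.sum_sub_distrib]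
  exact congrArg _ (Finset.sum_congr rfl fun l _ => by ring)

theorem ric_le (hG : IsRiemannianOn G univ) (h : JG 2 G x s η) (hη : η ≤ 1 / 10 ^ 6) (hs : 1 ≤ s)
    (i j : Fin 4) : |ricci G x i j| ≤ 1 := by
  have hx := mem_univ x
  rw [R202.Tens.ricci_eq_sum_riemann hG hx]
  refine (sum4_le fun k => jg_riemann hG hx h (by linarith) le_rfl (by linarith) k i k j).trans ?_
  have : η / s ^ 2 ≤ η := div_le_self (jg_nonneg h) (one_le_pow₀ hs)
  linarith

theorem j1_zero {f : E4 → ℝ} (h : J1 0 f x 1 κ) : |f x| ≤ κ := by simpa [J1] using h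

theorem j1_one {f : E4 → ℝ} (h : J1 1 f x 1 κ) (k : Fin 4) : |pderiv k f x| ≤ κ := by
  rw [J1, norm_iteratedFDeriv_one, one_pow, mul_one] at h
  refine le_trans ?_ h
  simpa [pderiv] using (fderiv ℝ f x).le_opNorm (EuclideanSpace.single k 1)

/-! ### the flat identity -/

variable {v W : Fin 4 → E4 → ℝ}

/-- the flux of the flat identity -/
def FX (v W : Fin 4 → E4 → ℝ) (a : Fin 4) (y : E4) : ℝ :=
  1 / 2 * ((∑ i, v i y * pderiv i (W a) y - v a y * ∑ j, pderiv j (W j) y) + y a * ∑ j, v j y * v j y)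

theorem sm_FX (hv : ∀ j, ContDiff ℝ ∞ (v j)) (hW : ∀ j, ContDiff ℝ ∞ (W j)) (a : Fin 4) :
    ContDiff ℝ ∞ (FX v W a) :=
  contDiff_const.mul (((ContDiff.sum fun i _ => (hv i).mul (sm_pderiv (hW a) i)).sub
    ((hv a).mul (ContDiff.sum fun j _ => sm_pderiv (hW j) j))).add
      ((contDiff_coord a).mul (ContDiff.sum fun j _ => (hv j).mul (hv j))))

theorem flat_div (hv : ∀ j, ContDiff ℝ ∞ (v j)) (hW : ∀ j, ContDiff ℝ ∞ (W j)) (x : E4) :
    ∑ a, pderiv a (FX v W a) x = 1 / 2 * (∑ i, ∑ j, pderiv j (v i) x * pderiv i (W j) x -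
      (∑ i, pderiv i (v i) x) * ∑ i, pderiv i (W i) x) +
      (2 * ∑ j, v j x ^ 2 + ∑ a, ∑ j, x a * v j x * pderiv a (v j) x) := by
  have d : ∀ {f : E4 → ℝ}, ContDiff ℝ ∞ f → DifferentiableAt ℝ f x := fun hf =>
    hf.differentiable (by simp) x
  have e : ∀ a, pderiv a (FX v W a) x = 1 / 2 * ((∑ i, (pderiv a (v i) x * pderiv i (W a) x +
      v i x * pderiv i (pderiv a (W a)) x) - (pderiv a (v a) x * ∑ j, pderiv j (W j) x +
        v a x * ∑ j, pderiv a (pderiv j (W j)) x)) + (∑ j, v j x * v j x +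
          x a * ∑ j, (pderiv a (v j) x * v j x + v j x * pderiv a (v j) x))) := fun a => by
    have s1 : ∀ i, ContDiff ℝ ∞ fun y => v i y * pderiv i (W a) y := fun i =>
      (hv i).mul (sm_pderiv (hW a) i)
    have s2 : ContDiff ℝ ∞ fun y => ∑ i, v i y * pderiv i (W a) y := ContDiff.sum fun i _ => s1 i
    have s3 : ContDiff ℝ ∞ fun y => ∑ j, pderiv j (W j) y :=
      ContDiff.sum fun j _ => sm_pderiv (hW j) j
    have s4 : ContDiff ℝ ∞ fun y => v a y * ∑ j, pderiv j (W j) y := (hv a).mul s3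
    have s5 : ∀ j, ContDiff ℝ ∞ fun y => v j y * v j y := fun j => (hv j).mul (hv j)
    have s6 : ContDiff ℝ ∞ fun y => ∑ j, v j y * v j y := ContDiff.sum fun j _ => s5 j
    have s7 : ContDiff ℝ ∞ fun y : E4 => y a * ∑ j, v j y * v j y := (contDiff_coord a).mul s6
    have s8 : ContDiff ℝ ∞ fun y => ∑ i, v i y * pderiv i (W a) y -
        v a y * ∑ j, pderiv j (W j) y := s2.sub s4
    unfold FX
    rw [pd_cmul, pd_add a (d s8) (d s7), pd_sub a (d s2) (d s4), pd_sum a _ fun i _ => d (s1 i),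
      pd_mul a (d (hv a)) (d s3), pd_sum a _ fun j _ => d (sm_pderiv (hW j) j),
      pderiv_coord_mul (d s6), if_pos rfl, pd_sum a _ fun j _ => d (s5 j)]
    simp only [fun i => pd_mul a (d (hv i)) (d (sm_pderiv (hW a) i)),
      fun j => pd_mul a (d (hv j)) (d (hv j)),
      fun i => pd_comm a i ((hW a).contDiffAt.of_le R247.Bo84.two_le_infty (x := x))]
  simp only [e, Fin.sum_univ_four]
  ring

theorem pd_W (hv : ∀ j, ContDiff ℝ ∞ (v j)) (x : E4) (a b : Fin 4) :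
    pderiv a (fun y => ‖y‖ ^ 2 * v b y) x = 2 * x a * v b x + ‖x‖ ^ 2 * pderiv a (v b) x := by
  rw [pd_mul a (hasFDerivAt_nsq x).differentiableAt ((hv b).differentiable (by simp) x)]
  congr 2
  rw [pderiv, (hasFDerivAt_nsq x).fderiv]
  simp [EuclideanSpace.inner_single_right]

theorem abs_coord (x : E4) (i : Fin 4) : |x i| ≤ ‖x‖ := by
  simpa using PiLp.norm_apply_le x i

/-- the pointwise inequality -/
theorem pt_ineq {Z : MetricField 4} {c0 : ℝ} (hc0 : 0 ≤ c0)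
    (hc : ∀ y : E4, ‖y‖ ≤ 2 → ∀ a, |pderiv a chi y| ≤ c0) (hG : IsRiemannianOn G univ)
    (hG' : IsRiemannianOn G' univ) (h : JG 2 G x (‖x‖ + 1) (1 / 10 ^ 6))
    (h' : JG 2 G' x (‖x‖ + 1) (1 / 10 ^ 6)) (hv : ∀ j, ContDiff ℝ ∞ (v j)) (hκ : 0 ≤ κ)
    (he : ∀ i j, ricci G' x i j = (1 / 2) * (pderiv i (v j) x + pderiv j (v i) x) +
      chi x * ricci G x i j + Z x i j)
    (h1 : ‖x‖ ≤ 2 → ∀ k ≤ 1, ∀ i j, J1 k (fun y => G' y i j - G y i j) x 1 κ)
    (h2 : 1 ≤ ‖x‖ → ‖x‖ ≤ 2 → ∀ i j, |ricci G x i j| ≤ κ) :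
    7 / 16 * (‖x‖ ^ 2 * ∑ i, ∑ j, pderiv i (v j) x ^ 2) ≤
      (33 / 16 * ∑ j, v j x ^ 2 + (10 ^ 7 * (‖x‖ ^ 2 * ∑ i, ∑ j, Z x i j ^ 2) +
        16 * (10 ^ 12 + (768 * c0) ^ 2) * κ ^ 2 * (closedBall (0 : E4) 2).indicator 1 x)) +
      (BW G' (fun j y => ‖y‖ ^ 2 * v j y) x - BW G (fun j y => chi y * (‖y‖ ^ 2 * v j y)) x -
        ∑ a, pderiv a (FX v (fun j y => ‖y‖ ^ 2 * v j y) a) x) := by
  have hx := mem_univ x
  have hW : ∀ j, ContDiff ℝ ∞ fun y : E4 => ‖y‖ ^ 2 * v j y := fun j => sm_nsq.mul (hv j)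
  have s0 : 0 < ‖x‖ + 1 := by positivity
  have s1 : 1 ≤ ‖x‖ + 1 := by linarith [norm_nonneg x]
  have hη : (1 / 10 ^ 6 : ℝ) ≤ 1 / 100 := by norm_num
  have hι : ‖x‖ ≤ 2 → (closedBall (0 : E4) 2).indicator (1 : E4 → ℝ) x = 1 := fun h =>
    indicator_of_mem (by simpa using h) _
  have e0 : 0 ≤ ‖x‖ ^ 2 * ∑ i, ∑ j, pderiv i (v j) x ^ 2 + ∑ j, v j x ^ 2 := by positivity
  have key := err_alg (H := (G x)⁻¹) (H' := (G' x)⁻¹) (Γ := christoffel G x)
    (Γ' := christoffel G' x) (R := ricci G x) (Z := Z x) (q := fun a b => pderiv a (v b) x)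
    (v := fun j => v j x) (x := fun i => x i) (c := fun a => pderiv a chi x) (χ := chi x)
    (ι := (closedBall (0 : E4) 2).indicator 1 x) (norm_nonneg x) (Real.sqrt_nonneg _) hκ hc0 le_rfl
    (indicator_nonneg (fun _ _ => zero_le_one) x)
    (by by_cases hb : x ∈ closedBall (0 : E4) 2 <;> simp [hb])
    (Real.sq_sqrt e0) (abs_coord x) (jg_inv_le hG hx h hη) (jg_inv_le hG' hx h' hη)
    (jg_inv hG' hx h' hη) (jg_chr hG hx h hη one_le_two s0) (jg_chr hG' hx h' hη one_le_two s0)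
    (ric_le hG h le_rfl s1) (abs_chi x)
    (by
      rcases le_total ‖x‖ 2 with hb | hb
      · have h0 := fun i j => j1_zero (h1 hb 0 zero_le_one i j)
        refine Or.inr ⟨hb, hι hb, inv_sub hG hG' h h' hη h0, chr_sub hG hG' h h' hη s1 h0
          fun k i j => ?_⟩
        rw [← pd_sub k (dAt (hG'.contDiffOn i j) isOpen_univ hx)
          (dAt (hG.contDiffOn i j) isOpen_univ hx)]
        exact j1_one (h1 hb 1 le_rfl i j) k
      · exact Or.inl (chi_zero hb))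
    (by
      rcases lt_or_ge ‖x‖ 1 with ha | ha
      · exact Or.inl (funext (pd_chi_in ha))
      rcases le_or_gt ‖x‖ 2 with hb | hb
      · exact Or.inr ⟨hb, hι hb, hc x hb, h2 ha hb⟩
      · exact Or.inl (funext (pd_chi_out hb)))
    (p := fun a b => pderiv a (fun y => ‖y‖ ^ 2 * v b y) x) (pd_W hv x)
    (w := fun m => ‖x‖ ^ 2 * v m x) (fun _ => rfl)
  have sp := split_alg (G x)⁻¹ (G' x)⁻¹ (christoffel G x) (christoffel G' x) (ricci G x) (Z x)
    (fun a b => pderiv a (v b) x) (fun a b => pderiv a (fun y => ‖y‖ ^ 2 * v b y) x)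
    (fun m => ‖x‖ ^ 2 * v m x) (fun a => pderiv a chi x) (chi x)
  have e1 : BW G' (fun j y => ‖y‖ ^ 2 * v j y) x = ∑ i, ∑ j, (1 / 2 * (pderiv i (v j) x +
      pderiv j (v i) x) + chi x * ricci G x i j + Z x i j) * Lop (G' x)⁻¹ (christoffel G' x)
      (fun a b => pderiv a (fun y => ‖y‖ ^ 2 * v b y) x) (fun m => ‖x‖ ^ 2 * v m x) i j := by
    simp only [BW, he]
  have e2 : BW G (fun j y => chi y * (‖y‖ ^ 2 * v j y)) x = ∑ i, ∑ j, ricci G x i j *
      Lop (G x)⁻¹ (christoffel G x) (fun a b => pderiv a chi x * (‖x‖ ^ 2 * v b x) +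
        chi x * pderiv a (fun y => ‖y‖ ^ 2 * v b y) x) (fun m => chi x * (‖x‖ ^ 2 * v m x)) i j := by
    simp only [BW, fun a b => pd_mul a (sm_chi.differentiable (by simp) x)
      ((hW b).differentiable (by simp) x)]
  have e3 : ∑ i, ∑ j, pderiv i (v j) x * pderiv i (fun y => ‖y‖ ^ 2 * v j y) x =
      ‖x‖ ^ 2 * ∑ i, ∑ j, pderiv i (v j) x ^ 2 + 2 * ∑ a, ∑ j, x a * v j x * pderiv a (v j) x := by
    simp only [pd_W hv, Fin.sum_univ_four]; ring
  rw [Real.sq_sqrt e0] at key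
  rw [e1, e2, sp, flat_div hv hW, e3]
  linarith

end Crest.Agent.N207.Ph.Ve

end
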