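import Crest.Agent.N207.Ph.Ws1
import Crest.Agent.N207.A.Tg3
import Crest.Agent.N207.V.Div
import Crest.Agent.N207.V.Dt

/-!
# Row 207, block PHI (helper89): the time step `WS`, file 2: the glued family in the chart
-/

set_option autoImplicit false
set_option linter.unusedSectionVars false

open scoped ContDiff Manifold Topology
open Set MeasureTheory Filter Metric
open Crest.GeometryTopology.CoordMetric Crest.GeometryTopology.ChartCurvature
  Crest.GeometryTopology.MetricFamily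
open Crest.Agent.R247

noncomputable section

namespace Crest.Agent.N207.Ph.Ws

open Sk U

theorem ftc_abs {g g' φ b : ℝ → ℝ} {a c : ℝ} (hac : a ≤ c) (hc : ContinuousOn g (Icc a c))
    (hd : ∀ s ∈ Ioo a c, HasDerivAt g (g' s) s) (hφ : IntervalIntegrable φ volume a c)
    (hb : IntervalIntegrable b volume a c) (h : ∀ s ∈ Ioo a c, |g' s - φ s| ≤ b s) :
    |g c - g a - ∫ s in a..c, φ s| ≤ ∫ s in a..c, b s := by
  have h1 := intervalIntegral.sub_le_integral_of_hasDeriv_right_of_le hac hc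
    (fun s hs => (hd s hs).hasDerivWithinAt) (φ := fun s => φ s + b s)
    ((intervalIntegrable_iff_integrableOn_Icc_of_le hac).1 (hφ.add hb))
    fun s hs => by linarith [(abs_le.1 (h s hs)).2]
  have h2 := intervalIntegral.integral_le_sub_of_hasDeriv_right_of_le hac hc
    (fun s hs => (hd s hs).hasDerivWithinAt) (φ := fun s => φ s - b s)
    ((intervalIntegrable_iff_integrableOn_Icc_of_le hac).1 (hφ.sub hb))
    fun s hs => by linarith [(abs_le.1 (h s hs)).1]
  rw [intervalIntegral.integral_add hφ hb] at h1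
  rw [intervalIntegral.integral_sub hφ hb] at h2
  exact abs_le.2 ⟨by linarith, by linarith⟩

theorem sq_int_le {e : ℝ → ℝ} {a c : ℝ} (hac : a < c) (h1 : IntervalIntegrable e volume a c)
    (h2 : IntervalIntegrable (fun s => e s ^ 2) volume a c) :
    (∫ s in a..c, e s) ^ 2 ≤ (c - a) * ∫ s in a..c, e s ^ 2 := by
  set m := (∫ s in a..c, e s) / (c - a) with hm
  have h0 : 0 < c - a := sub_pos.2 hac
  have h3 : 0 ≤ ∫ s in a..c, (e s ^ 2 - 2 * m * e s + m ^ 2) :=
    intervalIntegral.integral_nonneg hac.le fun s _ => by nlinarith [sq_nonneg (e s - m)]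
  rw [intervalIntegral.integral_add (h2.sub (h1.const_mul _)) intervalIntegrable_const,
    intervalIntegral.integral_sub h2 (h1.const_mul _), intervalIntegral.integral_const_mul,
    intervalIntegral.integral_const, smul_eq_mul] at h3
  have h4 : (∫ s in a..c, e s) = m * (c - a) := by rw [hm]; field_simp
  rw [h4] at h3 ⊢
  nlinarith

/-- the weight of the chart part of the action -/
def ph (y : E4) : ℝ := up 4 8 y - up 26 28 y

/-- it vanishes outside this set -/
def KK : Set E4 := {y | 4 ≤ ‖y‖ ∧ ‖y‖ ≤ 28}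

theorem ph_cd : ContDiff ℝ ∞ ph := (up_cd _ _).sub (up_cd _ _)

theorem ph_zero {y : E4} (h : y ∉ KK) : ph y = 0 := by
  rcases not_and_or.1 h with h | h
  · rw [ph, up_zero (by norm_num) (by norm_num) (not_le.1 h).le,
      up_zero (by norm_num) (by norm_num) (by linarith), sub_self]
  · rw [ph, up_one (by norm_num) (by norm_num) (by linarith),
      up_one (by norm_num) (by norm_num) (not_le.1 h).le, sub_self]

theorem ph_abs (y : E4) : |ph y| ≤ 1 := abs_le.2
  ⟨by linarith [up_nonneg 4 8 y, up_le_one 26 28 y, show ph y = _ - _ from rfl],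
    by linarith [up_nonneg 26 28 y, up_le_one 4 8 y, show ph y = _ - _ from rfl]⟩

theorem KK_cpt : IsCompact KK := (isCompact_closedBall (0 : E4) 28).of_isClosed_subset
  ((isClosed_le continuous_const continuous_norm).inter
    (isClosed_le continuous_norm continuous_const)) fun y hy => by simpa using hy.2

theorem KK_sub : KK ⊆ shell (1 / 2) 32 := fun _ hy => ⟨by linarith [hy.1], by linarith [hy.2]⟩

theorem int_ph {f : E4 → ℝ} (hf : ContinuousOn f (shell (1 / 2) 32)) :
    Integrable fun y => ph y * f y :=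
  ((ph_cd.continuous.continuousOn.mul (hf.mono KK_sub)).integrableOn_compact
    KK_cpt).integrable_of_forall_notMem_eq_zero fun y hy => by
      rw [Pi.mul_apply, ph_zero hy, zero_mul]

theorem set_ph (f : E4 → ℝ) : ∫ y in KK, ph y * f y = ∫ y, ph y * f y :=
  setIntegral_eq_integral_of_forall_compl_eq_zero fun y hy => by rw [ph_zero hy, zero_mul]

/-- a rescaled Ricci flow on the shell, and a fixed exterior metric -/
structure Fam (J : Set ℝ) (κ : ℝ) (r : ℝ → MetricField 4) (G : MetricField 4) : Prop where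
  op : IsOpen J
  fam : CFam r J (shell (1 / 2) 32)
  rf : ∀ t ∈ J, ∀ y ∈ shell (1 / 2) 32, ∀ i j,
    HasDerivAt (fun s => r s y i j) (-2 * κ * ricci (r t) y i j) t
  riem : IsRiemannianOn G univ

/-- the velocity -/
def hv (κ : ℝ) (g : MetricField 4) : Tn 4 2 := vel ((-2 * κ) • ricT g)

/-- the quadratic error term -/
def er (P : MetricField 4) (h : Tn 4 2) (y : E4) : ℝ :=
  √(P y).det * (-ip P (ricT P) h y + 1 / 2 * trF P h y * scalarCurv P y)

/-- the flux 1-form -/
def fx (P : MetricField 4) (h : Tn 4 2) : Tn 4 1 := divT P h - dT (trF P h)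

namespace Fam

variable {J : Set ℝ} {κ : ℝ} {r : ℝ → MetricField 4} {G : MetricField 4} (F : Fam J κ r G)
  {t : ℝ} {y : E4}
include F

theorem cfam : CFam (fun s => glu 16 24 (r s) G) J (shell (1 / 2) 32) :=
  ⟨F.fam.isOpen, fun i j => (F.fam.sm i j).add ((st_const (up_cd 16 24).contDiffOn).mul
    ((st_const ((F.riem.contDiffOn i j).mono (subset_univ _))).sub (F.fam.sm i j))),
    fun t ht y hy => glu_pos (F.fam.pos t ht y hy) (F.riem.posDef y (mem_univ y))⟩

theorem var (ht : t ∈ J) (m : ℕ) :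
    Var univ t (shell (1 / 2) 32) m (fun s => glu 16 24 (r s) G) (hv κ (r t)) := by
  have v := F.cfam.var F.op ht univ m
  have e : ∀ z ∈ shell (1 / 2) 32, ∀ i j, hv κ (r t) z ![i, j] =
      dtT (fun s => matT (glu 16 24 (r s) G)) t z ![i, j] := fun z hz i j => by
    have h1 := F.rf t ht z hz i j
    have h2 := (h1.add ((h1.const_sub (G z i j)).const_mul (up 16 24 z))).deriv
    refine Eq.trans ?_ h2.symm
    simp only [hv, vel, smT, ricT, Pi.smul_apply, smul_eq_mul, Matrix.cons_val_zero,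
      Matrix.cons_val_one]
    ring
  exact ⟨v.riem, v.ev, fun i j => (v.jd i j).congr' fun z hz => e z hz i j,
    fun z hz i j => by rw [e z hz, e z hz, v.symm z hz]⟩

theorem smT_fx (ht : t ∈ J) :
    SmT (fx (glu 16 24 (r t) G) (hv κ (r t))) (shell (1 / 2) 32) :=
  ((F.var ht 0).smT.divT (F.cfam.riem ht)).sub
    (SmT.dT F.fam.isOpen (sm_trF (F.cfam.riem ht) (F.var ht 0).smT))

theorem d_lg (ht : t ∈ J) (hy : y ∈ shell (1 / 2) 32) :
    HasDerivAt (fun s => lg (glu 16 24 (r s) G) y)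
      (√(glu 16 24 (r t) G y).det * divT (glu 16 24 (r t) G)
        (fx (glu 16 24 (r t) G) (hv κ (r t))) y ![] + er (glu 16 24 (r t) G) (hv κ (r t)) y) t := by
  have v := F.var ht 2
  have hU := F.fam.isOpen
  have hs := sm_trF v.riem v.smT
  refine (hasDerivWithinAt_univ.1 ((v.sqrt_det hy).mul (v.scal.d hy))).congr_deriv ?_
  rw [fx, divT_sub ((v.smT.divT v.riem).dAt hU hy) ((SmT.dT hU hs).dAt hU hy), Pi.sub_apply,
    ← lapB_eq_divT v.riem hy (c2At hs hU hy), er, dScal]
  ring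

theorem d_int {a b : ℝ} (hJ : Icc a b ⊆ J) (ht : t ∈ Icc a b) :
    HasDerivWithinAt (fun s => ∫ y, ph y * lg (glu 16 24 (r s) G) y)
      (∫ y, ph y * deriv (fun s => lg (glu 16 24 (r s) G) y) t) (Icc a b) t := by
  have h1 : St (fun s => lg (glu 16 24 (r s) G)) J (shell (1 / 2) 32) :=
    F.cfam.st_sqrt_det.mul F.cfam.st_scal
  obtain ⟨C, hC⟩ := (isCompact_Icc.prod KK_cpt).exists_bound_of_continuousOn
    ((st_deriv F.op h1).continuousOn.mono (prod_mono hJ KK_sub))
  have : IsFiniteMeasure (volume.restrict KK) := ⟨by simpa using KK_cpt.measure_lt_top⟩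
  simp only [← set_ph]
  refine V.hasDerivWithinAt_integral (C := |C|) (F' := fun t y =>
    ph y * deriv (fun s => lg (glu 16 24 (r s) G) y) t) (convex_Icc a b) ht
    (fun s hs => (int_ph (st_slice h1 (hJ hs)).continuousOn).integrableOn) (fun s hs x => ?_)
    fun s hs x => ?_
  · by_cases hx : x ∈ KK
    · exact ((F.d_lg (hJ hs) (KK_sub hx)).differentiableAt.hasDerivAt.const_mul
        _).hasDerivWithinAt
    · simpa [ph_zero hx] using hasDerivWithinAt_const s (Icc a b) (0 : ℝ)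
  · by_cases hx : x ∈ KK
    · rw [abs_mul]
      exact (mul_le_of_le_one_left (abs_nonneg _) (ph_abs x)).trans
        ((hC (s, x) ⟨hs, hx⟩).trans (le_abs_self C))
    · simp [ph_zero hx]

/-- the flux through the inner transition region -/
theorem flux (ht : t ∈ J) (y : E4) :
    √(glu 16 24 (r t) G y).det *
        ip (glu 16 24 (r t) G) (dT ph) (fx (glu 16 24 (r t) G) (hv κ (r t))) y =
      κ * (√(r t y).det * Bo84.gam (r t) (up 4 8) (scalarCurv (r t)) y) := by
  have z1 : ∀ {f : E4 → ℝ} {c : ℝ}, (f =ᶠ[𝓝 y] fun _ => c) → ∀ i, pderiv i f y = 0 :=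
    fun h i => by rw [pd_congr i h, pd_const]
  have hi : 8 < ‖y‖ → Bo84.gam (r t) (up 4 8) (scalarCurv (r t)) y = 0 := fun h => by
    simp [Bo84.gam, z1 ((ev_gt h).mono fun z hz => up_one (a := 4) (by norm_num) (by norm_num)
      hz.le)]
  rcases lt_or_ge ‖y‖ 4 with c | c
  · have e1 := z1 ((ev_lt c).mono fun z hz => ph_zero fun h => absurd h.1 (not_le.2 hz))
    have e2 := z1 ((ev_lt c).mono fun z hz => up_zero (b := 8) (by norm_num) (by norm_num) hz.le)
    simp [ip, ipA_one, dT, Bo84.gam, e1, e2]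
  rcases lt_or_ge ‖y‖ 16 with c1 | c1
  · have hy : y ∈ shell (1 / 2) 32 := ⟨by linarith, by linarith⟩
    have hr := F.fam.riem ht
    have e1 : glu 16 24 (r t) G =ᶠ[𝓝 y] r t := glu_lo_ev (by norm_num) (by norm_num) c1
    have e2 : hv κ (r t) =ᶠ[𝓝 y] (-2 * κ) • ricT (r t) := (ev_lt c1).mono fun z hz => by
      funext I
      simp [hv, vel, smT, up_zero (a := 16) (b := 24) (by norm_num) (by norm_num) hz.le]
    have e3 : ph =ᶠ[𝓝 y] up 4 8 := (ev_lt c1).mono fun z hz => by
      rw [ph, up_zero (a := 26) (by norm_num) (by norm_num) (by linarith), sub_zero]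
    have e4 : trF (glu 16 24 (r t) G) (hv κ (r t)) =ᶠ[𝓝 y]
        fun z => -2 * κ * scalarCurv (r t) z := (trT_congr e1 e2).mono fun z hz => by
      rw [trF, hz]
      simp only [trT, scalarCurv, Finset.mul_sum, Pi.smul_apply, smul_eq_mul, ricT]
      exact Finset.sum_congr rfl fun _ _ => Finset.sum_congr rfl fun _ _ => by
        simp only [Fin.cons_zero, Fin.cons_one]; ring
    have e5 : ∀ b, fx (glu 16 24 (r t) G) (hv κ (r t)) y ![b] =
        κ * pderiv b (scalarCurv (r t)) y := fun b => by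
      have h1 : 2 * divT (r t) (ricT (r t)) y ![b] = _ := A.two_div_ric hr hy b
      have h2 : dT (trF (glu 16 24 (r t) G) (hv κ (r t))) y ![b] =
          -2 * κ * pderiv b (scalarCurv (r t)) y := by
        rw [(dT_congr e4).eq_of_nhds]; exact pd_cmul b _
      rw [fx, Pi.sub_apply, Pi.sub_apply, (divT_congr e1 e2).eq_of_nhds, divT_smul, h2, ← h1]
      simp only [Pi.smul_apply, smul_eq_mul]
      ring
    rw [ip, ipA_one, e1.eq_of_nhds, (dT_congr e3).eq_of_nhds]
    simp only [e5, Bo84.gam, inverseField, Finset.mul_sum, dT, Matrix.cons_val_zero]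
    exact Finset.sum_congr rfl fun _ _ => Finset.sum_congr rfl fun _ _ => by ring
  rw [hi (by linarith)]
  rcases lt_or_ge ‖y‖ 26 with c2 | c2
  · have e1 := z1 (f := ph) (c := 1) (((ev_lt c2).and
      (ev_gt (show 8 < ‖y‖ by linarith))).mono fun z hz => by
      rw [ph, up_zero (a := 26) (by norm_num) (by norm_num) hz.1.le,
        up_one (by norm_num) (by norm_num) hz.2.le, sub_zero])
    simp [ip, ipA_one, dT, e1]
  · have e2 : hv κ (r t) =ᶠ[𝓝 y] 0 := (ev_gt (show 24 < ‖y‖ by linarith)).mono fun z hz => by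
      funext I
      simp [hv, vel, smT, up_one (a := 16) (b := 24) (by norm_num) (by norm_num) hz.le]
    have e4 : trF (glu 16 24 (r t) G) (hv κ (r t)) =ᶠ[𝓝 y] fun _ => 0 :=
      e2.mono fun z hz => by simp [trF, trT, hz]
    have e5 : ∀ b, fx (glu 16 24 (r t) G) (hv κ (r t)) y ![b] = 0 := fun b => by
      rw [fx, Pi.sub_apply, Pi.sub_apply, (divT_congr EventuallyEq.rfl e2).eq_of_nhds, divT,
        cov_zero]
      simp [trT, dT, z1 e4]
    simp [ip, ipA_one, e5]

theorem d_int' {a b : ℝ} (hJ : Icc a b ⊆ J) (ht : t ∈ Icc a b) :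
    HasDerivWithinAt (fun s => ∫ y, ph y * lg (glu 16 24 (r s) G) y)
      (-(κ * ∫ y, √(r t y).det * Bo84.gam (r t) (up 4 8) (scalarCurv (r t)) y) +
        ∫ y, ph y * er (glu 16 24 (r t) G) (hv κ (r t)) y) (Icc a b) t := by
  have hr := F.cfam.riem (hJ ht)
  have hs := (F.var (hJ ht) 0).smT
  have hK : tsupport ph ⊆ KK := closure_minimal
    (fun y hy => by_contra fun h => hy (ph_zero h)) KK_cpt.isClosed
  have h1 := V.ibp_coord hr (F.smT_fx (hJ ht)) (ph_cd.of_le (kle 1)).locallyLipschitz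
    (KK_cpt.of_isClosed_subset (isClosed_tsupport _) hK) (hK.trans KK_sub)
  simp only [F.flux (hJ ht), integral_const_mul, mul_left_comm _ (ph _)] at h1
  refine (F.d_int hJ ht).congr_deriv ?_
  have h2 : ContinuousOn (er (glu 16 24 (r t) G) (hv κ (r t))) (shell (1 / 2) 32) :=
    ((sm_sqrt_det hr).mul (((SmT.ricT hr).ip hr hs).neg.add ((contDiffOn_const.mul
      (sm_trF hr hs)).mul (sm_scal hr)))).continuousOn
  rw [← h1, ← integral_add (int_ph ((sm_sqrt_det hr).mul
    ((F.smT_fx (hJ ht)).divT hr ![])).continuousOn) (int_ph h2)]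
  refine integral_congr_ae (Eventually.of_forall fun y => ?_)
  by_cases hy : y ∈ KK
  · simp only [(F.d_lg (hJ ht) (KK_sub hy)).deriv, mul_add]
  · simp [ph_zero hy]

end Fam

theorem core : ∃ C : ℝ, 0 < C ∧ ∀ {J : Set ℝ} {κ : ℝ} {r : ℝ → MetricField 4} {G : MetricField 4},
    Fam J κ r G → ∀ {a b D e0 : ℝ} {e : ℝ → ℝ}, 0 < κ → a < b → Icc a b ⊆ J → 0 ≤ D →
    IntervalIntegrable e volume a b → (∀ s ∈ Ioo a b, 0 ≤ e s) →
    (∀ s ∈ Icc a b, IsRiemannianOn (glu 16 24 (r s) G) univ ∧ Sml 2 (glu 16 24 (r s) G) (1 / 8)) →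
    (∀ s ∈ Ioo a b, ∀ y : E4, 1 ≤ ‖y‖ → ‖y‖ ≤ 28 → ∀ k ≤ 2, ∀ i j,
      J1 k (fun z => ricci (r s) z i j) y 1 (D * e s)) →
    (∀ y : E4, 1 ≤ ‖y‖ → ‖y‖ ≤ 28 → ∀ i j, |ricci (glu 16 24 (r a) G) y i j| ≤ e0) →
    (∀ s ∈ Icc a b, ∀ y : E4, 1 ≤ ‖y‖ → ‖y‖ ≤ 28 → ∀ i j,
      |ricci (glu 16 24 (r s) G) y i j| ≤ e0 + C * D * (κ * ∫ s in a..b, e s)) ∧
    ∀ s ∈ Ioo a b, |∫ y, ph y * er (glu 16 24 (r s) G) (hv κ (r s)) y| ≤
      κ * (C * D * (e s * (e0 + C * D * (κ * ∫ s in a..b, e s)))) := by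
  obtain ⟨C, hC, h⟩ := est
  have hv0 : 0 ≤ volume.real KK := measureReal_nonneg
  refine ⟨2 * C * (1 + volume.real KK), by positivity, fun {J κ r G} F {a b D e0 e} hκ hab hJ hD
    hi he hP hj h0 => ?_⟩
  have key : ∀ s ∈ Ioo a b, ∀ y : E4, 1 ≤ ‖y‖ → ‖y‖ ≤ 28 → ∀ Y,
      (∀ i j, |ricci (glu 16 24 (r s) G) y i j| ≤ Y) →
      (∀ i j, |dRic (glu 16 24 (r s) G) (hv κ (r s)) y ![i, j]| ≤ C * (2 * κ * (D * e s))) ∧
      |er (glu 16 24 (r s) G) (hv κ (r s)) y| ≤ C * (2 * κ * (D * e s) * Y) := by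
    intro s hs y y1 y2 Y hY
    have hs' := Ioo_subset_Icc_self hs
    have hc : ∀ i j, ContDiffAt ℝ ∞ (fun z => ricci (r s) z i j) y := fun i j =>
      (sm_ricci (F.fam.riem (hJ hs')) i j).contDiffAt
        (F.fam.isOpen.mem_nhds ⟨by linarith, by linarith⟩)
    have := he s hs
    refine h ⟨_, y, (-2 * κ) • ricT (r s), 2 * κ * (D * e s), Y, (hP s hs').1, by linarith,
      Sml.one (hP s hs').2 y, fun I => contDiffAt_const.mul (hc _ _), by positivity,
      fun k hk I => ?_, hY⟩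
    have h1 := norm_itd_cmul (hc (I 0) (I 1)) (-2 * κ) k
    rw [show |-2 * κ| = 2 * κ by rw [abs_of_neg (by linarith)]; ring] at h1
    refine le_trans (le_of_eq ?_) (mul_le_mul_of_nonneg_left (hj s hs y y1 y2 k hk (I 0) (I 1))
      (by positivity : 0 ≤ 2 * κ))
    rw [← mul_assoc, ← h1]; rfl
  have hae : 0 ≤ᵐ[volume.restrict (Ioc a b)] e := by
    rw [← restrict_Ioo_eq_restrict_Ioc]
    exact (ae_restrict_mem measurableSet_Ioo).mono he
  have hI : 0 ≤ ∫ s in a..b, e s := by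
    rw [intervalIntegral.integral_of_le hab.le]; exact integral_nonneg_of_ae hae
  have h1 : ∀ s ∈ Icc a b, ∀ y : E4, 1 ≤ ‖y‖ → ‖y‖ ≤ 28 → ∀ i j,
      |ricci (glu 16 24 (r s) G) y i j| ≤
        e0 + 2 * C * (1 + volume.real KK) * D * (κ * ∫ s in a..b, e s) := by
    intro s hs y y1 y2 i j
    have hy : y ∈ shell (1 / 2) 32 := ⟨by linarith, by linarith⟩
    have hd : ∀ σ ∈ Icc a s, HasDerivAt (fun σ => ricci (glu 16 24 (r σ) G) y i j)
        (dRic (glu 16 24 (r σ) G) (hv κ (r σ)) y ![i, j]) σ := fun σ hσ =>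
      hasDerivWithinAt_univ.1 (((F.var (hJ ⟨hσ.1, hσ.2.trans hs.2⟩) 2).ricci i j).d hy)
    have hi' : IntervalIntegrable e volume a s := hi.mono_set (by
      rw [uIcc_of_le hs.1, uIcc_of_le hab.le]; exact Icc_subset_Icc_right hs.2)
    have hb : ∀ σ ∈ Ioo a s, |dRic (glu 16 24 (r σ) G) (hv κ (r σ)) y ![i, j] - 0| ≤
        2 * C * D * κ * e σ := fun σ hσ => by
      obtain ⟨Y, hY⟩ := (Set.finite_range fun p : Fin 4 × Fin 4 =>
        |ricci (glu 16 24 (r σ) G) y p.1 p.2|).bddAbove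
      have := (key σ ⟨hσ.1, hσ.2.trans_le hs.2⟩ y y1 y2 Y fun i j => hY ⟨(i, j), rfl⟩).1 i j
      rw [sub_zero]; linarith
    have h2 := ftc_abs (φ := fun _ => 0) (b := fun σ => 2 * C * D * κ * e σ) hs.1
      (fun σ hσ => (hd σ hσ).continuousAt.continuousWithinAt)
      (fun σ hσ => hd σ (Ioo_subset_Icc_self hσ)) intervalIntegrable_const (hi'.const_mul _) hb
    have h3 : ∫ σ in a..s, e σ ≤ ∫ σ in a..b, e σ :=
      intervalIntegral.integral_mono_interval le_rfl hs.1 hs.2 hae hi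
    rw [intervalIntegral.integral_zero, sub_zero, intervalIntegral.integral_const_mul] at h2
    have h4 := mul_le_mul_of_nonneg_left h3 (by positivity : 0 ≤ 2 * C * D * κ)
    have h5 : 0 ≤ 2 * C * volume.real KK * D * (κ * ∫ s in a..b, e s) := by positivity
    have h6 := h0 y y1 y2 i j
    have h7 := abs_sub_abs_le_abs_sub (ricci (glu 16 24 (r s) G) y i j)
      (ricci (glu 16 24 (r a) G) y i j)
    nlinarith
  refine ⟨h1, fun s hs => ?_⟩
  generalize e0 + 2 * C * (1 + volume.real KK) * D * (κ * ∫ s in a..b, e s) = Y at h1 ⊢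
  have hY : 0 ≤ Y := (abs_nonneg _).trans (h1 a ⟨le_rfl, hab.le⟩ (EuclideanSpace.single 0 1)
    (by simp) (by simp) 0 0)
  have := he s hs
  rw [← set_ph]
  refine (norm_setIntegral_le_of_norm_le_const (μ := volume) (C := C * (2 * κ * (D * e s) * Y))
    (f := fun y => ph y * er (glu 16 24 (r s) G) (hv κ (r s)) y)
    KK_cpt.measure_lt_top fun y hy => ?_).trans ?_
  · rw [Real.norm_eq_abs, abs_mul]
    exact (mul_le_of_le_one_left (abs_nonneg _) (ph_abs y)).trans (key s hs y (by linarith [hy.1])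
      hy.2 Y (h1 s (Ioo_subset_Icc_self hs) y (by linarith [hy.1]) hy.2)).2
  · have : 0 ≤ κ * (2 * C * D * (e s * Y)) := by positivity
    nlinarith

end Crest.Agent.N207.Ph.Ws

end
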