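import Crest.Agent.N207.Ph.Ws2
import Crest.Agent.N207.Ph.Ad4
import Crest.Agent.N207.Ph.Cv
import Crest.Agent.N207.Ph.Mu
import Crest.Agent.N207.A.Sta

/-!
# Row 207, block PHI (helper89): the time step `WS`, file 3: the part on `M`; `MC`
-/

set_option autoImplicit false
set_option linter.unusedSectionVars false

open scoped ContDiff Manifold Topology
open Set MeasureTheory Filter Metric
open Crest.GeometryTopology.CoordMetric Crest.GeometryTopology.ChartCurvature
  Crest.GeometryTopology.MetricFamily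
open Crest.Agent.R247

noncomputable section

namespace Crest.Agent.N207.Ph

open Sk U

variable {M : Type*} [TopologicalSpace M] [ChartedSpace E4 M] [IsManifold 𝓘(ℝ, E4) ∞ M]
  [CompactSpace M] [T3Space M] [ConnectedSpace M] [MeasurableSpace M] [BorelSpace M]

theorem mcW {F : Flow M} (hB : Base F) : MCStmt F := by
  intro A hA t ht
  have hT := ht.2
  have h0 := ht.1
  have st : F.hc.St (t / 2) ((t + F.T) / 2) :=
    ⟨by linarith, by linarith, show _ < F.T by linarith⟩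
  have hF : SmST 4 (fun s x => V.rho (F.m t) (F.m s) x * (F.m s).rc 0 x)
      (Icc (t / 2) ((t + F.T) / 2)) := V.SmST.mul (V.smST_rho (F.sm.mono' fun s hs =>
        ⟨by linarith [hs.1], by linarith [hs.2]⟩) (F.m t)) (hB.ok.alg.sm_Q 0 st)
  obtain ⟨C, hC⟩ := V.SmST.bdd hF isCompact_Icc
  have := V.isFinite (F.m t)
  have e : (fun s => mass (F.m s) A) = fun s =>
      ∫ x in A, V.rho (F.m t) (F.m s) x * (F.m s).rc 0 x ∂(F.m t).vol := by
    funext s
    rw [mass, ← integral_indicator hA, V.integral_rho (F.m t), ← integral_indicator hA]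
    refine integral_congr_ae (Eventually.of_forall fun x => ?_)
    by_cases hx : x ∈ A <;> simp [hx]
  rw [e]
  refine ((continuousOn_of_dominated (bound := fun _ => C) (fun s hs =>
    (V.integrable_cont (F.m t) (V.SmST.sm hF hs).continuous).integrableOn.aestronglyMeasurable)
    (fun s hs => Eventually.of_forall (hC s hs)) (integrable_const C)
    (Eventually.of_forall fun x s hs =>
      (V.SmST.hasDerivWithinAt hF hs x).continuousWithinAt)).continuousAt
    (Icc_mem_nhds (by linarith) (by linarith))).continuousWithinAt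

namespace Ws

/-- the neck in the units `u` -/
def nu (N : Nk M) (u : ℝ) : Nk M := N.rs u 1 N.Γ

/-- the cutoff on `M` -/
def chi (N : Nk M) (p : M) : ℝ :=
  1 - Real.smoothTransition ((N.rad p ^ 2 - 4 ^ 2) / (8 ^ 2 - 4 ^ 2))

variable {N : Nk M} {ρ : ℝ} {g : Met 4 M} {G : MetricField 4} {y : E4} {p : M}

theorem chi_Ψ (h : N.Top) (hy : y ∈ shell N.a N.b) : chi N (N.Ψ y) = 1 - up 4 8 y := by
  rw [chi, h.rad_Ψ hy]; rfl

theorem chi_one (h : N.Top) (hp : N.rad p ≤ 4) : chi N p = 1 := by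
  have := h.a_pos.trans_le (h.rad_mem p).1
  rw [chi, Real.smoothTransition.zero_of_nonpos (div_nonpos_of_nonpos_of_nonneg
    (by nlinarith) (by norm_num)), sub_zero]

theorem chi_zero (hp : 8 ≤ N.rad p) : chi N p = 0 := by
  rw [chi, Real.smoothTransition.one_of_one_le (by rw [le_div_iff₀ (by norm_num)]; nlinarith),
    sub_self]

theorem chi_abs (p : M) : |chi N p| ≤ 1 := by
  have := Real.smoothTransition.le_one ((N.rad p ^ 2 - 4 ^ 2) / (8 ^ 2 - 4 ^ 2))
  rw [chi]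
  exact abs_le.2 ⟨by linarith, sub_le_self _ (Real.smoothTransition.nonneg _)⟩

theorem chi_ev (h : N.Top) (hp : N.rad p < 4 ∨ 8 < N.rad p) : ∃ c, ∀ᶠ q in 𝓝 p, chi N q = c := by
  rcases hp with hp | hp
  · exact ⟨1, (h.continuous_rad.continuousAt.eventually (gt_mem_nhds hp)).mono
      fun q hq => chi_one h hq.le⟩
  · exact ⟨0, (h.continuous_rad.continuousAt.eventually (lt_mem_nhds hp)).mono
      fun q hq => chi_zero hq.le⟩

theorem chi_sm (h : N.Top) (ha : N.a < 4) (hb : 8 < N.b) : Sm 4 (chi N) := by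
  intro p
  have c : (N.rad p < 4 ∨ 8 < N.rad p) → ContMDiffAt 𝓘(ℝ, E4) 𝓘(ℝ, ℝ) ∞ (chi N) p := fun hp =>
    (chi_ev h hp).elim fun _ hc => contMDiffAt_const.congr_of_eventuallyEq hc
  rcases h.rad_cases p with ⟨-, e⟩ | ⟨x, hx, rfl, -⟩ | ⟨-, e⟩
  · exact c (Or.inl (e ▸ ha))
  · refine contMDiffAt_of_par h.par hx (((contDiff_const (c := (1 : ℝ))).sub
      (up_cd 4 8)).contDiffAt.congr_of_eventuallyEq ?_)
    filter_upwards [(isOpen_shell _ _).mem_nhds hx] with z hz using chi_Ψ h hz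
  · exact c (Or.inr (e ▸ hb))

variable (h : Rng N ρ)
include h

theorem nu_top : (nu N (ρ / 64)).Top := I.top_rs h.top (Cm.u_pos h) fun γ => by simp

theorem nu_a : (nu N (ρ / 64)).a ≤ 1 / 16 := by
  change N.a / (ρ / 64) ≤ _
  rw [div_le_iff₀ (Cm.u_pos h)]; linarith [h.a_le]

theorem nu_b : 128 ≤ (nu N (ρ / 64)).b := by
  change _ ≤ N.b / (ρ / 64)
  rw [le_div_iff₀ (Cm.u_pos h)]; linarith [h.le_b, Cm.rho_pos h]

theorem nu_sub : shell (1 / 2) 32 ⊆ shell (nu N (ρ / 64)).a (nu N (ρ / 64)).b :=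
  shell_mono (by linarith [nu_a h]) (by linarith [nu_b h])

theorem nu_chi : Sm 4 (chi (nu N (ρ / 64))) :=
  chi_sm (nu_top h) (by linarith [nu_a h]) (by linarith [nu_b h])

theorem nu_Om {r : ℝ} (h1 : 1 ≤ r) (h2 : r ≤ 64) :
    p ∈ N.Om (ρ / 64 * r) ↔ (nu N (ρ / 64)).rad p < r := by
  rw [← I.rs_Om N (Cm.u_pos h) 1 N.Γ]
  exact (nu_top h).mem_Om ⟨by linarith [nu_a h], by linarith [nu_b h]⟩

theorem om_meas {r : ℝ} (h1 : 1 ≤ r) (h2 : r ≤ 64) : MeasurableSet (N.Om (ρ / 64 * r)) := by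
  have : N.Om (ρ / 64 * r) = {p | (nu N (ρ / 64)).rad p < r} := Set.ext fun _ => nu_Om h h1 h2
  rw [this]
  exact (isOpen_lt (nu_top h).continuous_rad continuous_const).measurableSet

theorem cm_rs (g : Met 4 M) (hy : y ∈ shell (1 / 2) 32) :
    cm g N (ρ / 64) =ᶠ[𝓝 y] rs (g.pm N.Ψ) (ρ / 64) := by
  filter_upwards [(isOpen_shell _ _).mem_nhds hy] with z hz
  exact Ad.g_mid h (fun _ _ => rfl) hz.1.le hz.2

theorem cm_ev (g : Met 4 M) (hy : y ∈ shell (1 / 2) 32) :
    cm g N (ρ / 64) =ᶠ[𝓝 y] fun z => ((ρ / 64) ^ 2)⁻¹ • g.pm (nu N (ρ / 64)).Ψ z := by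
  refine (cm_rs h g hy).trans ?_
  rw [Ad.rs_eq]
  exact (I.pm_rs_ev g h.top (Cm.u_pos h) 1 N.Γ (nu_sub h hy)).symm

theorem fam (F : Flow M) (hG : IsRiemannianOn G univ) :
    Fam (Ioo 0 F.T) ((ρ / 64) ^ 2)⁻¹ (fun s => cm (F.m s) N (ρ / 64)) G := by
  have c := ((nu_top h).par.mono (isOpen_shell _ _) (nu_sub h)).cflow F
  have hu : ((ρ / 64) ^ 2)⁻¹ ≠ 0 := by have := Cm.u_pos h; positivity
  refine ⟨isOpen_Ioo, ⟨isOpen_shell _ _, fun i j => (contDiffOn_const.mul (c.sm i j)).congr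
    fun q hq => by rw [(cm_ev h _ hq.2).eq_of_nhds]; rfl,
    fun t _ y _ => (Cm.cm_fl _ h).riem.posDef y (mem_univ y)⟩, fun t ht y hy i j => ?_, hG⟩
  have e : (fun s => cm (F.m s) N (ρ / 64) y i j) =
      fun s => ((ρ / 64) ^ 2)⁻¹ * (F.m s).pm (nu N (ρ / 64)).Ψ y i j :=
    funext fun s => by rw [(cm_ev h _ hy).eq_of_nhds]; rfl
  rw [e, ricci_congr (cm_ev h _ hy), I.ricci_csmul hu]
  exact ((c.rf t ht y hy i j).const_mul _).congr_deriv (by ring)

/-- integrals over radial sets -/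
theorem int_rad (g : Met 4 M) {P : ℝ → Prop} (hP : MeasurableSet {y : E4 | P ‖y‖})
    (h1 : ∀ r, P r → 1 / 2 < r ∧ r < 32) {f : M → ℝ} (hf : Continuous f) :
    ∫ p in {p | P ((nu N (ρ / 64)).rad p)}, f p ∂g.vol = (Nat.card N.Γ : ℝ)⁻¹ *
      ∫ y in {y : E4 | P ‖y‖}, √(g.pm (nu N (ρ / 64)).Ψ y).det * f ((nu N (ρ / 64)).Ψ y) := by
  have hT := nu_top h
  have hs : {y : E4 | P ‖y‖} ⊆ shell (nu N (ρ / 64)).a (nu N (ρ / 64)).b :=
    fun y hy => nu_sub h (h1 _ hy)
  have e : {p | P ((nu N (ρ / 64)).rad p)} = (nu N (ρ / 64)).Ψ '' {y : E4 | P ‖y‖} := by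
    ext p
    constructor
    · intro hp
      obtain ⟨x, -, rfl, e⟩ := hT.exists_of_rad (p := p) (by linarith [nu_a h, (h1 _ hp).1])
        (by linarith [nu_b h, (h1 _ hp).2])
      exact ⟨x, by rw [mem_ofPred_eq, e]; exact hp, rfl⟩
    · rintro ⟨x, hx, rfl⟩
      rw [mem_ofPred_eq, hT.rad_Ψ (hs hx)]; exact hx
  rw [e]
  exact ((mu M g _ hT _ hP hs fun γ _ x hx => by
    rw [mem_ofPred_eq, γ.norm_map]; exact hx).2 f hf).2

/-- the flux, seen from `M` -/
theorem flux_M (g : Met 4 M) : ∫ p, g.gam (chi (nu N (ρ / 64))) g.scal p ∂g.vol =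
    -((Nat.card N.Γ : ℝ)⁻¹ * ∫ y, √(cm g N (ρ / 64) y).det *
      Bo84.gam (cm g N (ρ / 64)) (up 4 8) (scalarCurv (cm g N (ρ / 64))) y) := by
  have hT := nu_top h
  have hu : ((ρ / 64) ^ 2)⁻¹ ≠ 0 := by have := Cm.u_pos h; positivity
  have h1 := int_rad h g (P := fun r => 2 < r ∧ r < 16) (isOpen_shell 2 16).measurableSet
    (fun r hr => ⟨by linarith [hr.1], by linarith [hr.2]⟩)
    (g.sm_gam (nu_chi h) g.sm_scal).continuous
  rw [setIntegral_eq_integral_of_forall_compl_eq_zero fun p hp => ?_] at h1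
  swap
  · obtain ⟨c, hc⟩ := chi_ev hT (p := p) (by
      by_contra e
      exact hp ⟨by linarith [not_lt.1 (not_or.1 e).1], by linarith [not_lt.1 (not_or.1 e).2]⟩)
    have := Sta.gam_sq_le g (chi (nu N (ρ / 64))) g.scal p
    rw [gam_of_const g hc, zero_mul] at this
    exact pow_eq_zero_iff two_ne_zero |>.1 (le_antisymm this (sq_nonneg _))
  rw [h1, ← mul_neg, ← integral_neg]
  refine congrArg _ (Eq.trans ?_ (setIntegral_eq_integral_of_forall_compl_eq_zero
    (s := shell 2 16) fun y hy => ?_))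
  · refine setIntegral_congr_fun (isOpen_shell 2 16).measurableSet fun y hy => ?_
    have hy' : y ∈ shell (1 / 2) 32 := ⟨by linarith [hy.1], by linarith [hy.2]⟩
    have e1 := cm_ev h g hy'
    have e2 : scalarCurv (cm g N (ρ / 64)) =ᶠ[𝓝 y]
        fun z => (ρ / 64) ^ 2 * g.scal ((nu N (ρ / 64)).Ψ z) := by
      filter_upwards [(isOpen_shell _ _).mem_nhds hy'] with z hz
      rw [scal_congr (cm_ev h g hz), scal_csmul hu, inv_inv, hT.par.par_scal g (nu_sub h hz)]
    have e3 : (fun z => chi (nu N (ρ / 64)) ((nu N (ρ / 64)).Ψ z)) =ᶠ[𝓝 y]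
        fun z => 1 - up 4 8 z := by
      filter_upwards [(isOpen_shell _ _).mem_nhds hy'] with z hz using chi_Ψ hT (nu_sub h hz)
    have e4 : ∀ i, pderiv i (fun z => 1 - up 4 8 z) y = -pderiv i (up 4 8) y := fun i => by
      simp only [pderiv, fderiv_const_sub, neg_apply]
    simp only [hT.par.par_gam g (nu_chi h) g.sm_scal (nu_sub h hy'), Bo84.gam, inverseField,
      e1.eq_of_nhds, sqrt_det_smul, I.minv_smul hu, fun i => pd_congr i e2, fun i => pd_congr i e3,
      e4, pd_cmul, Matrix.smul_apply, smul_eq_mul, Finset.mul_sum, ← Finset.sum_neg_distrib]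
    have := Cm.rho_pos h
    exact Finset.sum_congr rfl fun _ _ => Finset.sum_congr rfl fun _ _ => by field_simp
  · have z : ∀ i, pderiv i (up 4 8) y = 0 := fun i => by
      rcases not_and_or.1 hy with c | c
      · rw [pd_congr i ((ev_lt (show ‖y‖ < 4 by linarith [not_lt.1 c])).mono fun z hz =>
          up_zero (by norm_num) (by norm_num) hz.le), pd_const]
      · rw [pd_congr i ((ev_gt (show 8 < ‖y‖ by linarith [not_lt.1 c])).mono fun z hz =>
          up_one (by norm_num) (by norm_num) hz.le), pd_const]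
    simp [Bo84.gam, z]

/-- the action with a smooth cutoff -/
theorem sv_eq (g : Met 4 M) (hG : Fl G) : Sv g N (ρ / 64) (glu 16 24 (cm g N (ρ / 64)) G) =
    (∫ p, chi (nu N (ρ / 64)) p * g.scal p ∂g.vol) + (Nat.card N.Γ : ℝ)⁻¹ * (ρ / 64) ^ 2 *
      ((∫ y, ph y * lg (glu 16 24 (cm g N (ρ / 64)) G) y) + ∫ y, up 26 28 y * lg G y) := by
  have hT := nu_top h
  have hu : ((ρ / 64) ^ 2)⁻¹ ≠ 0 := by have := Cm.u_pos h; positivity
  have hP := fl_glu (a := 16) (b := 24) (by norm_num) (by norm_num) (Cm.cm_fl g h) hG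
  set P := glu 16 24 (cm g N (ρ / 64)) G with hPd
  have hf : Continuous fun p => chi (nu N (ρ / 64)) p * g.scal p :=
    (nu_chi h).continuous.mul g.sm_scal.continuous
  have m1 : MeasurableSet {y : E4 | 1 ≤ ‖y‖ ∧ ‖y‖ < 16} :=
    (Ad.meas_ge 1).inter (isOpen_lt continuous_norm continuous_const).measurableSet
  have h1 := int_rad h g (P := fun r => 1 ≤ r ∧ r < 16) m1
    (fun r hr => ⟨by linarith [hr.1], by linarith [hr.2]⟩) hf
  have h2 : ∫ y in {y : E4 | 1 ≤ ‖y‖ ∧ ‖y‖ < 16}, √(g.pm (nu N (ρ / 64)).Ψ y).det *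
      (chi (nu N (ρ / 64)) ((nu N (ρ / 64)).Ψ y) * g.scal ((nu N (ρ / 64)).Ψ y)) =
      (ρ / 64) ^ 2 * ∫ y in {y : E4 | 1 ≤ ‖y‖}, (1 - up 4 8 y) * lg P y := by
    rw [setIntegral_eq_of_subset_of_forall_sdiff_eq_zero (s := {y : E4 | 1 ≤ ‖y‖ ∧ ‖y‖ < 16})
      (Ad.meas_ge 1) (fun y hy => hy.1) fun y hy => by
        rw [up_one (by norm_num) (by norm_num) (by linarith [not_lt.1 (not_and.1 hy.2 hy.1)]),
          sub_self, zero_mul], ← integral_const_mul]
    refine setIntegral_congr_fun m1 fun y hy => ?_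
    have hy' : y ∈ shell (1 / 2) 32 := ⟨by linarith [hy.1], by linarith [hy.2]⟩
    have e1 := (glu_lo_ev (b := 24) (G2 := G) (by norm_num) (by norm_num) hy.2).trans (cm_ev h g hy')
    have := Cm.rho_pos h
    simp only [lg, hPd, scal_congr e1, e1.eq_of_nhds, sqrt_det_smul, scal_csmul hu,
      chi_Ψ hT (nu_sub h hy'), hT.par.par_scal g (nu_sub h hy')]
    field_simp
  have o1 : ∀ {p : M}, p ∈ N.Om (ρ / 64) ↔ (nu N (ρ / 64)).rad p < 1 := by
    intro p; rw [← nu_Om h le_rfl (by norm_num), mul_one]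
  have m2 : MeasurableSet (N.Om (ρ / 64)) := by simpa using om_meas h le_rfl (by norm_num)
  have h3 : ∫ p, chi (nu N (ρ / 64)) p * g.scal p ∂g.vol = (∫ p in N.Om (ρ / 64), g.scal p ∂g.vol) +
      ∫ p in {p | 1 ≤ (nu N (ρ / 64)).rad p ∧ (nu N (ρ / 64)).rad p < 16},
        chi (nu N (ρ / 64)) p * g.scal p ∂g.vol := by
    rw [← integral_add_compl m2 (V.integrable_cont g hf)]
    congr 1
    · exact setIntegral_congr_fun m2 fun p hp => by
        simp only [chi_one hT (by linarith [o1.1 hp] : _ ≤ (4 : ℝ)), one_mul]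
    · exact setIntegral_eq_of_subset_of_forall_sdiff_eq_zero m2.compl
        (fun p hp c => absurd (o1.1 c) (not_lt.2 hp.1)) fun p hp => by
          rw [chi_zero (by linarith [not_lt.1 (not_and.1 hp.2 (not_lt.1 (mt o1.2 hp.1)))]),
            zero_mul]
  have i1 := Fl.int_lg hP (up_cd 4 8).continuous
  have i2 := Fl.int_lg hP (φ := fun y => 1 - up 4 8 y)
    (continuous_const.sub (up_cd 4 8).continuous)
  have h4 : ∫ y in {y : E4 | 1 ≤ ‖y‖}, √(P y).det * scalarCurv P y =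
      (∫ y in {y : E4 | 1 ≤ ‖y‖}, (1 - up 4 8 y) * lg P y) + ∫ y, up 4 8 y * lg P y := by
    rw [← setIntegral_eq_integral_of_forall_compl_eq_zero (s := {y : E4 | 1 ≤ ‖y‖})
      (f := fun y => up 4 8 y * lg P y) fun y hy => by
        rw [up_zero (by norm_num) (by norm_num) (by linarith [not_le.1 (show ¬1 ≤ ‖y‖ from hy)]),
          zero_mul],
      ← integral_add i2.integrableOn i1.integrableOn]
    exact integral_congr_ae (Eventually.of_forall fun y => by simp only [lg]; ring)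
  have h5 : ∫ y, up 4 8 y * lg P y = (∫ y, ph y * lg P y) + ∫ y, up 26 28 y * lg G y := by
    rw [← integral_add (Fl.int_lg hP ph_cd.continuous) (Fl.int_lg hG (up_cd 26 28).continuous)]
    refine integral_congr_ae (Eventually.of_forall fun y => ?_)
    rcases le_or_gt ‖y‖ 26 with c | c
    · simp only [ph, up_zero (a := 26) (b := 28) (by norm_num) (by norm_num) c]; ring
    · have e1 := glu_hi_ev (a := 16) (G1 := cm g N (ρ / 64)) (G2 := G) (by norm_num) (by norm_num)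
        (show 24 < ‖y‖ by linarith)
      simp only [ph, lg, hPd, scal_congr e1, e1.eq_of_nhds]; ring
  rw [Sv, h4, h5, h3, h1, h2]
  ring

/-- the quadratic terms on `M` -/
theorem mass_est (g : Met 4 M) {K E W : ℝ} (hK : ∀ p, |g.scal p| ≤ K)
    (hE : ∀ x : E4, ρ / 64 ≤ ‖x‖ → ‖x‖ ≤ ρ → g.rc 0 (N.Ψ x) ≤ E ^ 2) (h0 : ∀ p, 0 ≤ g.rc 0 p)
    (hW : g.vol.real (N.Om ρ) ≤ W) :
    |(∫ p, chi (nu N (ρ / 64)) p * (2 * g.rc 0 p - g.scal p ^ 2) ∂g.vol) -
      2 * mass g (N.Om (ρ / 16))| ≤ (2 * E ^ 2 + K ^ 2) * W := by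
  have hT := nu_top h
  have := V.isFinite g
  have e4 : ρ / 16 = ρ / 64 * 4 := by ring
  have e64 : ρ = ρ / 64 * 64 := by ring
  have m4 := om_meas h (r := 4) (by norm_num) (by norm_num)
  rw [mass, e4, ← integral_indicator m4, ← integral_const_mul, ← integral_sub
    (V.integrable_cont g (f := fun p => chi (nu N (ρ / 64)) p * (2 * g.rc 0 p - g.scal p ^ 2))
      ((nu_chi h).continuous.mul ((continuous_const.mul
      (g.sm_rc 0).continuous).sub (g.sm_scal.continuous.pow 2))))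
    (((V.integrable_cont g (g.sm_rc 0).continuous).indicator m4).const_mul _),
    ← setIntegral_eq_integral_of_forall_compl_eq_zero (s := N.Om ρ) fun p hp => ?_]
  · refine le_trans ?_ (mul_le_mul_of_nonneg_left hW (by positivity))
    rw [← Real.norm_eq_abs]
    refine norm_setIntegral_le_of_norm_le_const (measure_lt_top _ _) fun p _ => ?_
    have k1 : g.scal p ^ 2 ≤ K ^ 2 := sq_le_sq' (abs_le.1 (hK p)).1 (abs_le.1 (hK p)).2
    rw [Real.norm_eq_abs]
    rcases lt_or_ge ((nu N (ρ / 64)).rad p) 4 with c | c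
    · rw [chi_one hT c.le, indicator_of_mem ((nu_Om h (by norm_num) (by norm_num)).2 c)]
      exact abs_le.2 ⟨by nlinarith, by nlinarith⟩
    rw [indicator_of_notMem (mt (nu_Om h (by norm_num) (by norm_num)).1 (not_lt.2 c)), mul_zero,
      sub_zero]
    rcases le_or_gt 8 ((nu N (ρ / 64)).rad p) with c' | c'
    · rw [chi_zero c', zero_mul, abs_zero]; positivity
    obtain ⟨x, -, rfl, e⟩ := hT.exists_of_rad (p := p) (by linarith [nu_a h])
      (by linarith [nu_b h])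
    have hρ := Cm.rho_pos h
    have k2 : g.rc 0 ((nu N (ρ / 64)).Ψ x) ≤ E ^ 2 := hE ((ρ / 64) • x)
      (by rw [Cm.norm_u h]; nlinarith) (by rw [Cm.norm_u h]; nlinarith)
    have k3 := h0 ((nu N (ρ / 64)).Ψ x)
    rw [abs_mul]
    exact (mul_le_of_le_one_left (abs_nonneg _) (chi_abs _)).trans
      (abs_le.2 ⟨by nlinarith, by nlinarith⟩)
  · rw [e64] at hp
    have c := not_lt.1 (mt (nu_Om h (by norm_num) le_rfl).2 hp)
    rw [chi_zero (by linarith), indicator_of_notMem (mt (nu_Om h (by norm_num)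
      (by norm_num)).1 (by linarith))]
    simp

end Ws

end Crest.Agent.N207.Ph

end
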